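import Vale.Agent.H91.MT.ACall_Unload

/-!
# TASK ACALL, part 8: the success branch and the cleaning phase
-/

namespace Vale.Agent.H91.MT.AC

variable {A : Machine} {K : ℕ}

/-- Append the bit in the flagged cell of the output tape to `o`. -/
noncomputable def lastEmit (T : CallTapes A K) : Prog (ΓB A) K :=
  Prog.wm T.o (fun h => obit (h (T.sim A.out))) Dir.R

/-- The success branch: unload the `2k` product bits and raise the flag. -/
noncomputable def succP (T : CallTapes A K) : Prog (ΓB A) K :=
  Prog.seq (rewSim (T.sim A.out)) (Prog.seq (advK T.x (T.sim A.out))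
    (Prog.seq (advK T.y (T.sim A.out)) (Prog.seq (Prog.mv (T.sim A.out) Dir.L)
      (Prog.seq (unloadLoop T) (Prog.seq (lastEmit T) (Prog.seq (rewind T.o)
        (Prog.wm T.fl (fun _ => Sum.inl Sym.one) Dir.S)))))))

theorem succP_run (T : CallTapes A K) (xs ys : List Bool) (k : ℕ) (hk : 1 ≤ k)
    (hxs : xs.length = k) (hys : ys.length = k) (c : ℕ → ΓB A) (q : ℕ) (bits : ℕ → Bool)
    (hfl : ∀ i, flagOf (c i) = decide (i = 0))
    (hc : ∀ i, i < 2 * k → c i = scell (A.bit (bits i)) (decide (i = 0)))
    (s : St (ΓB A) K) (hout : s (T.sim A.out) = ⟨q, c⟩)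
    (hx : s T.x = WT (xs.map bsym) 0) (hy : s T.y = WT (ys.map bsym) 0)
    (ho : s T.o = WT [] 0) (hf : s T.fl = WT [] 0) :
    ∃ s', RunLe (succP T) s s' (2 * q + 16 * k + 30) ∧ s' (T.sim A.out) = ⟨0, c⟩ ∧
      s' T.o = WT ((List.range (2 * k)).map (fun i => bsym (bits (2 * k - 1 - i)))) 0 ∧
      s' T.fl = WT [Sum.inl Sym.one] 0 ∧
      ∀ i, i ≠ T.sim A.out → i ≠ T.o → i ≠ T.fl → s' i = s i := by
  have hxo : T.x ≠ T.sim A.out := ((sim_ne_x T) A.out).symm
  have hyo : T.y ≠ T.sim A.out := ((sim_ne_y T) A.out).symm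
  have hoo : T.o ≠ T.sim A.out := ((sim_ne_o T) A.out).symm
  have hfo : T.fl ≠ T.sim A.out := ((sim_ne_fl T) A.out).symm
  have hlx : (xs.map (bsym : Bool → ΓB A)).length = k := by rw [List.length_map, hxs]
  have hly : (ys.map (bsym : Bool → ΓB A)).length = k := by rw [List.length_map, hys]
  -- rewind the output tape
  have h1 := rewSim_run (T.sim A.out) c hfl q s hout
  -- advance by `k`, twice
  have h2 := advK_run T.x (T.sim A.out) hxo (xs.map bsym) (blank_not_mem_bsym xs)
    (lend_not_mem_bsym xs) c 0 (Function.update s (T.sim A.out) ⟨0, c⟩)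
    (by rw [Function.update_of_ne hxo, hx]) (by rw [Function.update_self])
  rw [Function.update_idem, hlx] at h2
  have h3 := advK_run T.y (T.sim A.out) hyo (ys.map bsym) (blank_not_mem_bsym ys)
    (lend_not_mem_bsym ys) c (0 + k) (Function.update s (T.sim A.out) ⟨0 + k, c⟩)
    (by rw [Function.update_of_ne hyo, hy]) (by rw [Function.update_self])
  rw [Function.update_idem, hly] at h3
  -- one step back
  have h4 := Run.mv (T.sim A.out) Dir.L (Function.update s (T.sim A.out) ⟨0 + k + k, c⟩)
  rw [Function.update_self, Function.update_idem] at h4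
  have e4 : (⟨0 + k + k, c⟩ : Tape (ΓB A)).move Dir.L = ⟨2 * k - 1, c⟩ := by
    simp only [Tape.move]
    congr 1
    omega
  rw [e4] at h4
  -- unload
  have h5 := unloadLoop_run T c bits (2 * k) hc (2 * k - 1) (by omega)
    (Function.update s (T.sim A.out) ⟨2 * k - 1, c⟩) []
    (by rw [Function.update_self]) (by rw [Function.update_of_ne hoo, ho]; rfl)
  rw [Function.update_idem] at h5
  simp only [List.nil_append, List.length_nil, Nat.zero_add] at h5
  have hmain : ∀ L5 : List (ΓB A), L5.length = 2 * k - 1 →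
      L5 ++ [bsym (bits 0)] = (List.range (2 * k)).map (fun i => bsym (bits (2 * k - 1 - i))) →
      Run (unloadLoop T) (Function.update s (T.sim A.out) ⟨2 * k - 1, c⟩)
        (Function.update (Function.update s (T.sim A.out) ⟨0, c⟩) T.o (WT L5 (2 * k - 1)))
        (2 * (2 * k - 1) + 1) →
      ∃ s', RunLe (succP T) s s' (2 * q + 16 * k + 30) ∧ s' (T.sim A.out) = ⟨0, c⟩ ∧
        s' T.o = WT ((List.range (2 * k)).map (fun i => bsym (bits (2 * k - 1 - i)))) 0 ∧
        s' T.fl = WT [Sum.inl Sym.one] 0 ∧
        ∀ i, i ≠ T.sim A.out → i ≠ T.o → i ≠ T.fl → s' i = s i := by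
    intro L5 hL5 hL6 h5
    -- the last bit
    have h6 := Run.wm T.o (fun h => obit (h (T.sim A.out))) Dir.R
      (Function.update (Function.update s (T.sim A.out) ⟨0, c⟩) T.o (WT L5 (2 * k - 1)))
    have e6 : ((Function.update (Function.update s (T.sim A.out) ⟨0, c⟩) T.o
        (WT L5 (2 * k - 1)) T.o).write ((fun h : Fin K → ΓB A => obit (h (T.sim A.out)))
          (St.heads (Function.update (Function.update s (T.sim A.out) ⟨0, c⟩) T.o
            (WT L5 (2 * k - 1)))))).move Dir.R =
        WT (L5 ++ [bsym (bits 0)]) (2 * k) := by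
      show ((Function.update (Function.update s (T.sim A.out) ⟨0, c⟩) T.o
        (WT L5 (2 * k - 1)) T.o).write (obit ((Function.update (Function.update s
          (T.sim A.out) ⟨0, c⟩) T.o (WT L5 (2 * k - 1)) (T.sim A.out)).read))).move Dir.R = _
      rw [Function.update_self, Function.update_of_ne hoo.symm, Function.update_self]
      simp only [Tape.read]
      rw [hc 0 (by omega), obit_scell_bit, ← hL5, WT_write_end, WT_move_R, hL5]
      congr 1
      omega
    rw [e6, Function.update_idem, hL6] at h6
    -- rewind `o`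
    have hlend : (Sum.inl Sym.lend : ΓB A) ∉
        (List.range (2 * k)).map (fun i => (bsym (bits (2 * k - 1 - i)) : ΓB A)) := by
      intro h
      obtain ⟨i, _, hi⟩ := List.mem_map.mp h
      exact bsym_ne_lend _ hi
    have h7 := rewind_run T.o _ hlend (2 * k)
      (Function.update (Function.update s (T.sim A.out) ⟨0, c⟩) T.o
        (WT ((List.range (2 * k)).map (fun i => bsym (bits (2 * k - 1 - i)))) (2 * k)))
      (by rw [Function.update_self])
    rw [Function.update_idem] at h7
    -- raise the flag
    have h8 := Run.wm T.fl (fun _ => (Sum.inl Sym.one : ΓB A)) Dir.S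
      (Function.update (Function.update s (T.sim A.out) ⟨0, c⟩) T.o
        (WT ((List.range (2 * k)).map (fun i => bsym (bits (2 * k - 1 - i)))) 0))
    have e8 : ((Function.update (Function.update s (T.sim A.out) ⟨0, c⟩) T.o
        (WT ((List.range (2 * k)).map (fun i => bsym (bits (2 * k - 1 - i)))) 0) T.fl).write
          (Sum.inl Sym.one)).move Dir.S = WT [Sum.inl Sym.one] 0 := by
      rw [Function.update_of_ne (o_ne_fl T).symm, Function.update_of_ne hfo, hf]
      exact WT_write_end [] _
    rw [e8] at h8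
    refine ⟨Function.update (Function.update (Function.update s (T.sim A.out) ⟨0, c⟩) T.o
        (WT ((List.range (2 * k)).map (fun i => bsym (bits (2 * k - 1 - i)))) 0)) T.fl
        (WT [Sum.inl Sym.one] 0), ?_, ?_, ?_, ?_, ?_⟩
    · have h := RunLe.seq h1.le (RunLe.seq h2 (RunLe.seq h3 (RunLe.seq h4.le
        (RunLe.seq h5.le (RunLe.seq h6.le (RunLe.seq h7.le h8.le))))))
      exact h.mono (by omega)
    · rw [Function.update_of_ne hfo.symm, Function.update_of_ne hoo.symm, Function.update_self]
    · rw [Function.update_of_ne (o_ne_fl T), Function.update_self]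
    · rw [Function.update_self]
    · intro i hi hi' hi''
      rw [Function.update_of_ne hi'', Function.update_of_ne hi', Function.update_of_ne hi]
  refine hmain _ (by simp) ?_ h5
  have e : 2 * k = (2 * k - 1) + 1 := by omega
  conv_rhs => rw [e, List.range_succ, List.map_append]
  simp

/-! ## Cleaning up -/

/-- Erase the state tape and rewind the second ruler of the clock. -/
def cleanTail (T : CallTapes A K) : Prog (ΓB A) K :=
  Prog.seq (Prog.wm T.st (fun _ => Sum.inl Sym.blank) Dir.S) (rewind T.clk2)

theorem cleanTail_run (T : CallTapes A K) (s : St (ΓB A) K) (q : A.Q) (β p : ℕ)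
    (hst : s T.st = stTape q) (hclk : s T.clk2 = ruler β p) :
    RunLe (cleanTail T) s
      (Function.update (Function.update s T.st blankTape) T.clk2 (ruler β 0)) (2 * p + 5) := by
  have h1 := Run.wm T.st (fun _ => (Sum.inl Sym.blank : ΓB A)) Dir.S s
  have e1 : ((s T.st).write (Sum.inl Sym.blank)).move Dir.S = blankTape := by
    rw [hst, stTape_erase]
    rfl
  rw [e1] at h1
  have h2 := rewind_run T.clk2 _ (lend_not_mem_replicate_one β) p
    (Function.update s T.st blankTape)
    (by rw [Function.update_of_ne (st_ne_clk2 T).symm, hclk]; rfl)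
  exact ⟨_, by omega, Run.seq h1 h2⟩

/-- Erase the simulated tapes in `js`, then the state tape, and rewind the second ruler. -/
def cleanList (T : CallTapes A K) (js : List (Fin (A.k + 1))) : Prog (ΓB A) K :=
  js.foldr (fun j p => Prog.seq (cleanSim (T.sim j)) p) (cleanTail T)

theorem cleanList_run (T : CallTapes A K) (q : A.Q) (β p Mx : ℕ) (m : Fin (A.k + 1) → ℕ) :
    ∀ (js : List (Fin (A.k + 1))), js.Nodup → ∀ (s : St (ΓB A) K),
    (∀ j ∈ js, Vis (s (T.sim j)) (m j)) → (∀ j ∈ js, m j ≤ Mx) → s T.st = stTape q →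
    s T.clk2 = ruler β p →
    ∃ s', RunLe (cleanList T js) s s' (js.length * (4 * Mx + 4) + (2 * p + 5)) ∧
      (∀ j ∈ js, s' (T.sim j) = blankTape) ∧ s' T.st = blankTape ∧ s' T.clk2 = ruler β 0 ∧
      ∀ i, (∀ j ∈ js, i ≠ T.sim j) → i ≠ T.st → i ≠ T.clk2 → s' i = s i := by
  intro js
  induction js with
  | nil =>
    intro _ s _ _ hst hclk
    refine ⟨_, (cleanTail_run T s q β p hst hclk).mono (by omega), ?_, ?_, ?_, ?_⟩
    · intro j hj
      cases hj
    · rw [Function.update_of_ne (st_ne_clk2 T), Function.update_self]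
    · rw [Function.update_self]
    · intro i _ hi hi'
      rw [Function.update_of_ne hi', Function.update_of_ne hi]
  | cons j js ih =>
    intro hnd s hv hm hst hclk
    obtain ⟨hj, hnd'⟩ := List.nodup_cons.mp hnd
    have h1 := cleanSim_run (T.sim j) (s (T.sim j)) (m j) (hv j (List.mem_cons_self ..)) s rfl
    have hne : ∀ j' ∈ js, T.sim j' ≠ T.sim j := by
      intro j' hj' e
      exact hj ((sim_inj T) e ▸ hj')
    obtain ⟨s', hr, hsim', hst', hclk', hfr'⟩ := ih hnd'
      (Function.update s (T.sim j) blankTape)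
      (fun j' hj' => by
        rw [Function.update_of_ne (hne j' hj')]
        exact hv j' (List.mem_cons_of_mem _ hj'))
      (fun j' hj' => hm j' (List.mem_cons_of_mem _ hj'))
      (by rw [Function.update_of_ne ((sim_ne_st T) j).symm, hst])
      (by rw [Function.update_of_ne ((sim_ne_clk2 T) j).symm, hclk])
    refine ⟨s', ?_, ?_, hst', hclk', ?_⟩
    · have h := RunLe.seq h1 hr
      refine h.mono ?_
      have hmj := hm j (List.mem_cons_self ..)
      have e : (j :: js).length * (4 * Mx + 4) = js.length * (4 * Mx + 4) + (4 * Mx + 4) := by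
        rw [List.length_cons]
        ring
      rw [e]
      omega
    · intro j' hj'
      rcases List.mem_cons.mp hj' with rfl | hj''
      · rw [hfr' (T.sim j') (fun j'' hj'' => (hne j'' hj'').symm) ((sim_ne_st T) j')
          ((sim_ne_clk2 T) j'), Function.update_self]
      · exact hsim' j' hj''
    · intro i hi hi' hi''
      rw [hfr' i (fun j' hj' => hi j' (List.mem_cons_of_mem _ hj')) hi' hi'',
        Function.update_of_ne (hi j (List.mem_cons_self ..))]

/-- The failure branch: lower the flag. -/
def failP (T : CallTapes A K) : Prog (ΓB A) K :=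
  Prog.wm T.fl (fun _ => Sum.inl Sym.zero) Dir.S

end Vale.Agent.H91.MT.AC
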