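import Vale.Agent.H91.MT.ACall_Run

/-!
# TASK ACALL, part 6: the two-ruler clock (an outer loop over the second ruler)
-/

namespace Vale.Agent.H91.MT.AC

variable {A : Machine} {K : ℕ}

theorem stepN_pos {M : Machine} {n : ℕ} {c c' : Cfg M} (h : stepN M n c = some c')
    (hn : 1 ≤ n) : ∃ c1, step M c = some c1 := by
  obtain ⟨n', rfl⟩ : ∃ n', n = n' + 1 := ⟨n - 1, by omega⟩
  obtain ⟨c1, h1, _⟩ := stepN_succ_eq h
  exact ⟨c1, h1⟩

/-- The invariant only depends on the simulated tapes and the state tape. -/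
theorem SimInv.congr {T : CallTapes A K} {c : Cfg A} {s s' : St (ΓB A) K}
    {m : Fin (A.k + 1) → ℕ} (h : SimInv T c s m) (hsim : ∀ j, s' (T.sim j) = s (T.sim j))
    (hst : s' T.st = s T.st) : SimInv T c s' m :=
  ⟨fun j => by rw [hsim j]; exact h.rep j, by rw [hst]; exact h.st⟩

/-- Test of the outer loop: `A` has not halted and the second ruler has not run out. -/
def outerTest (T : CallTapes A K) (h : Fin K → ΓB A) : Bool :=
  (simDelta T h).isSome && isSym T.clk2 Sym.one h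

/-- Body of the outer loop: up to `c1` steps of `A`, rewind the first ruler, advance the
second. -/
noncomputable def outerBody (T : CallTapes A K) : Prog (ΓB A) K :=
  Prog.seq (runLoop T) (Prog.seq (rewind T.clk) (Prog.mv T.clk2 Dir.R))

/-- The clocked simulation: at most `c1 * c2` steps of `A`. -/
noncomputable def outerLoop (T : CallTapes A K) : Prog (ΓB A) K :=
  Prog.loop (outerTest T) (outerBody T)

theorem outerTest_true {T : CallTapes A K} {c cn : Cfg A} {s : St (ΓB A) K}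
    {m : Fin (A.k + 1) → ℕ} (h : SimInv T c s m) (hc : step A c = some cn) {c2 p2 : ℕ}
    (hclk2 : s T.clk2 = ruler c2 p2) (hp : p2 < c2) : outerTest T s.heads = true := by
  obtain ⟨q', w, hδ, _⟩ := step_eq_some hc
  unfold outerTest
  rw [h.delta, hδ, isSym_true T.clk2 Sym.one s (by rw [hclk2, ruler_read_lt hp])]
  rfl

theorem outerTest_false_halt {T : CallTapes A K} {c : Cfg A} {s : St (ΓB A) K}
    {m : Fin (A.k + 1) → ℕ} (h : SimInv T c s m) (hc : step A c = none) :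
    outerTest T s.heads = false := by
  unfold outerTest
  rw [h.delta, step_eq_none hc]
  rfl

theorem outerTest_false_clock (T : CallTapes A K) (s : St (ΓB A) K) {c2 : ℕ}
    (hclk2 : s T.clk2 = ruler c2 c2) : outerTest T s.heads = false := by
  unfold outerTest
  rw [isSym_false T.clk2 Sym.one s (by rw [hclk2, ruler_read_ge le_rfl]; simp)]
  simp

/-- One round of the outer loop: `n ≤ c1` steps of `A`, ended by the first ruler or by `A`
halting. -/
theorem outerBody_run {T : CallTapes A K} {c1 c2 : ℕ} (n : ℕ) (c c' : Cfg A)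
    (s : St (ΓB A) K) (m : Fin (A.k + 1) → ℕ) (p2 : ℕ) (h : SimInv T c s m)
    (hc : stepN A n c = some c') (hclk : s T.clk = ruler c1 0)
    (hclk2 : s T.clk2 = ruler c2 p2) (hn : n ≤ c1) (hstop : n = c1 ∨ step A c' = none) :
    ∃ s2 m2, Run (outerBody T) s s2 (4 * n + 6) ∧ SimInv T c' s2 m2 ∧
      s2 T.clk = ruler c1 0 ∧ s2 T.clk2 = ruler c2 (p2 + 1) ∧ (∀ j, m2 j ≤ m j + n) ∧
      ∀ i, (∀ j, i ≠ T.sim j) → i ≠ T.st → i ≠ T.clk → i ≠ T.clk2 → s2 i = s i := by
  obtain ⟨s1, m1, hinv1, hclk1, hm1, hfr1, hloop⟩ :=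
    SimInv.steps n c c' s m 0 h hc hclk (by omega)
  have hclk1' : s1 T.clk = ruler c1 n := by rw [hclk1, Nat.zero_add]
  have htest : simTest T s1.heads = false := by
    rcases hstop with hh | hh
    · rw [hh] at hclk1'
      exact simTest_false_clock T s1 hclk1'
    · exact hinv1.test_false_halt hh
  have hr1 : Run (runLoop T) s s1 (1 + 2 * n) :=
    hloop s1 1 (Run.loop_false (p := Prog.step (simAct T)) htest)
  have hr2 := rewind_run T.clk (List.replicate c1 (Sum.inl Sym.one))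
    (lend_not_mem_replicate_one c1) n s1 hclk1'
  have hr3 := Run.mv T.clk2 Dir.R (Function.update s1 T.clk (ruler c1 0))
  have e3 : ((Function.update s1 T.clk (ruler c1 0)) T.clk2).move Dir.R = ruler c2 (p2 + 1) := by
    rw [Function.update_of_ne (clk_ne_clk2 T).symm,
      hfr1 T.clk2 (fun j => (sim_ne_clk2 T j).symm) (st_ne_clk2 T).symm (clk_ne_clk2 T).symm,
      hclk2]
    rfl
  rw [e3] at hr3
  refine ⟨Function.update (Function.update s1 T.clk (ruler c1 0)) T.clk2 (ruler c2 (p2 + 1)),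
    m1, ?_, ?_, ?_, ?_, hm1, ?_⟩
  · exact (Run.seq hr1 (Run.seq hr2 hr3)).cast rfl rfl (by ring)
  · exact hinv1.congr
      (fun j => by
        rw [Function.update_of_ne (sim_ne_clk2 T j), Function.update_of_ne (sim_ne_clk T j)])
      (by rw [Function.update_of_ne (st_ne_clk2 T), Function.update_of_ne (st_ne_clk T)])
  · rw [Function.update_of_ne (clk_ne_clk2 T), Function.update_self]
  · rw [Function.update_self]
  · intro i hi hi' hi'' hi'''
    rw [Function.update_of_ne hi''', Function.update_of_ne hi'', hfr1 i hi hi' hi'']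

/-- `r` full rounds of the outer loop, as an initial part of any run of the loop. -/
theorem outer_full {T : CallTapes A K} {c1 c2 : ℕ} (hc1 : 1 ≤ c1) : ∀ (r : ℕ) (c c' : Cfg A)
    (s : St (ΓB A) K) (m : Fin (A.k + 1) → ℕ) (p2 : ℕ), SimInv T c s m →
    stepN A (r * c1) c = some c' → s T.clk = ruler c1 0 → s T.clk2 = ruler c2 p2 →
    p2 + r ≤ c2 →
    ∃ s2 m2, SimInv T c' s2 m2 ∧ s2 T.clk = ruler c1 0 ∧ s2 T.clk2 = ruler c2 (p2 + r) ∧
      (∀ j, m2 j ≤ m j + r * c1) ∧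
      (∀ i, (∀ j, i ≠ T.sim j) → i ≠ T.st → i ≠ T.clk → i ≠ T.clk2 → s2 i = s i) ∧
      ∀ s3 t, Run (outerLoop T) s2 s3 t → Run (outerLoop T) s s3 (t + r * (4 * c1 + 7)) := by
  intro r
  induction r with
  | zero =>
    intro c c' s m p2 h hc hclk hclk2 _
    rw [Nat.zero_mul] at hc
    have : c = c' := Option.some.inj hc
    subst this
    exact ⟨s, m, h, hclk, hclk2, fun j => by omega, fun i _ _ _ _ => rfl,
      fun s3 t hr => by simpa using hr⟩
  | succ r ih =>
    intro c c' s m p2 h hc hclk hclk2 hp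
    have e : (r + 1) * c1 = c1 + r * c1 := by ring
    rw [e] at hc
    obtain ⟨cm, hcm, hc'⟩ := stepN_prefix c1 (c1 + r * c1) c c' hc (by omega)
    rw [Nat.add_sub_cancel_left] at hc'
    obtain ⟨cn, hcn⟩ := stepN_pos hcm hc1
    have htest : outerTest T s.heads = true := outerTest_true h hcn hclk2 (by omega)
    obtain ⟨s1, m1, hr1, hinv1, hclk1, hclk21, hm1, hfr1⟩ :=
      outerBody_run c1 c cm s m p2 h hcm hclk hclk2 le_rfl (Or.inl rfl)
    obtain ⟨s2, m2, hinv2, hclk2', hclk22, hm2, hfr2, hloop⟩ :=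
      ih cm c' s1 m1 (p2 + 1) hinv1 hc' hclk1 hclk21 (by omega)
    refine ⟨s2, m2, hinv2, hclk2', ?_, fun j => ?_, fun i hi hi' hi'' hi''' => ?_,
      fun s3 t hr => ?_⟩
    · rw [hclk22]
      congr 1
      omega
    · have h1 := hm1 j
      have h2 := hm2 j
      rw [e]
      omega
    · rw [hfr2 i hi hi' hi'' hi''', hfr1 i hi hi' hi'' hi''']
    · exact (Run.loop_true htest hr1 (hloop s3 t hr)).cast rfl rfl (by ring)

/-- If `A` halts within `c1 * c2` steps, the clocked simulation reaches the halting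
configuration. -/
theorem outer_halt {T : CallTapes A K} {c1 c2 : ℕ} (hc1 : 1 ≤ c1) (τ : ℕ) (c c' : Cfg A)
    (s : St (ΓB A) K) (m : Fin (A.k + 1) → ℕ) (h : SimInv T c s m)
    (hc : stepN A τ c = some c') (hhalt : step A c' = none) (hclk : s T.clk = ruler c1 0)
    (hclk2 : s T.clk2 = ruler c2 0) (hτ : τ ≤ c1 * c2) :
    ∃ s2 m2 p2, RunLe (outerLoop T) s s2 (11 * τ + 8) ∧ SimInv T c' s2 m2 ∧
      s2 T.clk = ruler c1 0 ∧ s2 T.clk2 = ruler c2 p2 ∧ p2 ≤ τ ∧ (∀ j, m2 j ≤ m j + τ) ∧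
      ∀ i, (∀ j, i ≠ T.sim j) → i ≠ T.st → i ≠ T.clk → i ≠ T.clk2 → s2 i = s i := by
  rcases Nat.eq_zero_or_pos τ with h0 | hpos
  · subst h0
    have : c = c' := Option.some.inj hc
    subst this
    exact ⟨s, m, 0, ⟨1, by omega, Run.loop_false (outerTest_false_halt h hhalt)⟩, h, hclk,
      hclk2, le_rfl, fun j => le_rfl, fun i _ _ _ _ => rfl⟩
  · obtain ⟨q, ρ, hτq, hρ1, hρ2⟩ : ∃ q ρ, τ = q * c1 + ρ ∧ 1 ≤ ρ ∧ ρ ≤ c1 := by
      refine ⟨(τ - 1) / c1, (τ - 1) % c1 + 1, ?_, by omega, ?_⟩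
      · have := Nat.div_add_mod (τ - 1) c1
        rw [Nat.mul_comm] at this
        omega
      · have := Nat.mod_lt (τ - 1) hc1
        omega
    subst hτq
    have hqc : q ≤ q * c1 := Nat.le_mul_of_pos_right q hc1
    have hq : q < c2 := by
      have h1 : c1 * q < c1 * c2 := by
        rw [Nat.mul_comm c1 q]
        omega
      exact Nat.lt_of_mul_lt_mul_left h1
    obtain ⟨cm, hcm, hc'⟩ := stepN_prefix (q * c1) (q * c1 + ρ) c c' hc (by omega)
    rw [Nat.add_sub_cancel_left] at hc'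
    obtain ⟨s1, m1, hinv1, hclk1, hclk21, hm1, hfr1, hloop⟩ :=
      outer_full hc1 q c cm s m 0 h hcm hclk hclk2 (by omega)
    obtain ⟨cn, hcn⟩ := stepN_pos hc' hρ1
    have htest : outerTest T s1.heads = true := outerTest_true hinv1 hcn hclk21 (by omega)
    obtain ⟨s2, m2, hr2, hinv2, hclk2', hclk22, hm2, hfr2⟩ :=
      outerBody_run ρ cm c' s1 m1 (0 + q) hinv1 hc' hclk1 hclk21 hρ2 (Or.inr hhalt)
    have hexit : Run (outerLoop T) s2 s2 1 :=
      Run.loop_false (outerTest_false_halt hinv2 hhalt)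
    have hall := hloop s2 _ (Run.loop_true htest hr2 hexit)
    refine ⟨s2, m2, 0 + q + 1, ⟨_, ?_, hall⟩, hinv2, hclk2', hclk22, by omega, fun j => ?_,
      fun i hi hi' hi'' hi''' => ?_⟩
    · have e : q * (4 * c1 + 7) = 4 * (q * c1) + 7 * q := by ring
      rw [e]
      omega
    · have h1 := hm1 j
      have h2 := hm2 j
      omega
    · rw [hfr2 i hi hi' hi'' hi''', hfr1 i hi hi' hi'' hi''']

/-- If `A` runs for at least `c1 * c2` steps, the clocked simulation stops after exactly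
`c1 * c2` steps of `A`. -/
theorem outer_timeout {T : CallTapes A K} {c1 c2 : ℕ} (hc1 : 1 ≤ c1) (c c' : Cfg A)
    (s : St (ΓB A) K) (m : Fin (A.k + 1) → ℕ) (h : SimInv T c s m)
    (hc : stepN A (c2 * c1) c = some c') (hclk : s T.clk = ruler c1 0)
    (hclk2 : s T.clk2 = ruler c2 0) :
    ∃ s2 m2, RunLe (outerLoop T) s s2 (11 * (c1 * c2) + 1) ∧ SimInv T c' s2 m2 ∧
      s2 T.clk = ruler c1 0 ∧ s2 T.clk2 = ruler c2 c2 ∧ (∀ j, m2 j ≤ m j + c1 * c2) ∧
      ∀ i, (∀ j, i ≠ T.sim j) → i ≠ T.st → i ≠ T.clk → i ≠ T.clk2 → s2 i = s i := by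
  obtain ⟨s1, m1, hinv1, hclk1, hclk21, hm1, hfr1, hloop⟩ :=
    outer_full hc1 c2 c c' s m 0 h hc hclk hclk2 (by omega)
  rw [Nat.zero_add] at hclk21
  have hall := hloop s1 1 (Run.loop_false (outerTest_false_clock T s1 hclk21))
  refine ⟨s1, m1, ⟨_, ?_, hall⟩, hinv1, hclk1, hclk21, fun j => ?_, hfr1⟩
  · have h1 : c2 ≤ c1 * c2 := Nat.le_mul_of_pos_left c2 hc1
    have e : c2 * (4 * c1 + 7) = 4 * (c1 * c2) + 7 * c2 := by ring
    rw [e]
    omega
  · have h1 := hm1 j
    rw [Nat.mul_comm c1 c2]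
    exact h1

end Vale.Agent.H91.MT.AC
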