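import Vale.Agent.H91.MT.ACall_LoadAll
import Vale.Agent.H91.MT.ACall_Outer
import Vale.Agent.H91.MT.ACall_Finish

/-!
# TASK ACALL, part 9: the whole call (load, clocked run, unload or abort, clean up)
-/

namespace Vale.Agent.H91.MT.AC

variable {A : Machine} {K : ℕ}

/-- The most-significant-first value of the reversed list is the least-significant-first
value. -/
theorem val_reverse (l : List Bool) : val l.reverse = valLE l := by
  unfold val
  rw [List.foldl_reverse]
  induction l with
  | nil => rfl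
  | cons b l ih =>
    rw [List.foldr_cons, ih]
    simp only [valLE]
    omega

theorem bit_ne_blank (b : Bool) : A.bit b ≠ A.blank := by
  have h := A.nodup
  simp only [List.nodup_cons, List.mem_cons, not_or] at h
  cases b
  · intro e
    exact h.1.1 (by simpa [Machine.bit] using e.symm)
  · intro e
    exact h.1.2.1 (by simpa [Machine.bit] using e.symm)

/-- The clocked call: load, run under the clock, unload or abort, clean up. -/
noncomputable def callProg (T : CallTapes A K) : Prog (ΓB A) K :=
  Prog.seq (loadP T) (Prog.seq (outerLoop T)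
    (Prog.seq (Prog.ite (fun h => (simDelta T h).isNone) (succP T) (failP T))
      (cleanList T (List.finRange (A.k + 1)))))

/-- The call succeeds when `A` halts within the clock. -/
theorem call_success {T : CallTapes A K} {k c1 c2 : ℕ} (xs ys : List Bool) (hk : 1 ≤ k)
    (hc1 : 1 ≤ c1) (hxs : xs.length = k) (hys : ys.length = k) (τ : ℕ) (c' : Cfg A)
    (hrun : stepN A τ (init A (mulInput A xs.reverse ys.reverse)) = some c')
    (hhalt : step A c' = none)
    (hout : ∀ i, i < 2 * k → (c'.tape A.out).cells i =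
      A.bit ((val xs.reverse * val ys.reverse).testBit (2 * k - 1 - i)))
    (hτ : τ ≤ c1 * c2) (s : St (ΓB A) K) (hsim : ∀ j, s (T.sim j) = blankTape)
    (hst : s T.st = blankTape) (hclk : s T.clk = ruler c1 0) (hclk2 : s T.clk2 = ruler c2 0)
    (hx : s T.x = WT (xs.map bsym) 0) (hy : s T.y = WT (ys.map bsym) 0)
    (ho : s T.o = WT [] 0) (hf : s T.fl = WT [] 0) :
    RunLe (callProg T) s
      (Function.update (Function.update s T.o (WT ((prodBits k xs ys).map bsym) 0)) T.fl
        (WT [Sum.inl Sym.one] 0))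
      ((8 * (A.k + 1) + 60) * (τ + k + 1)) := by
  -- load
  obtain ⟨s1, m1, hr1, hinv1, hm1, hfr1⟩ := loadP_run T xs ys s hsim hst hx hy
  have hclk1 : s1 T.clk = ruler c1 0 := by
    rw [hfr1 T.clk (fun j => (sim_ne_clk T j).symm) (st_ne_clk T).symm, hclk]
  have hclk21 : s1 T.clk2 = ruler c2 0 := by
    rw [hfr1 T.clk2 (fun j => (sim_ne_clk2 T j).symm) (st_ne_clk2 T).symm, hclk2]
  -- run
  obtain ⟨s2, m2, p2, hr2, hinv2, hclk2', hclk22, hp2, hm2, hfr2⟩ :=
    outer_halt hc1 τ _ c' s1 m1 hinv1 hrun hhalt hclk1 hclk21 hτ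
  have hrep := hinv2.rep A.out
  have htest : (fun h : Fin K → ΓB A => (simDelta T h).isNone) s2.heads = true :=
    hinv2.isNone_halt hhalt
  have hcells : ∀ i, i < 2 * k → (s2 (T.sim A.out)).cells i =
      scell (A.bit ((val xs.reverse * val ys.reverse).testBit (2 * k - 1 - i)))
        (decide (i = 0)) := by
    intro i hi
    have h2k : i < m2 A.out := by
      by_contra hlt
      have h1 := hrep.blank i (by omega)
      rw [hout i hi] at h1
      exact bit_ne_blank _ h1
    rw [hrep.cells, if_pos h2k, hout i hi]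
  have hx2 : s2 T.x = WT (xs.map bsym) 0 := by
    rw [hfr2 T.x (fun j => (sim_ne_x T j).symm) (st_ne_x T).symm (clk_ne_x T).symm
      (clk2_ne_x T).symm, hfr1 T.x (fun j => (sim_ne_x T j).symm) (st_ne_x T).symm, hx]
  have hy2 : s2 T.y = WT (ys.map bsym) 0 := by
    rw [hfr2 T.y (fun j => (sim_ne_y T j).symm) (st_ne_y T).symm (clk_ne_y T).symm
      (clk2_ne_y T).symm, hfr1 T.y (fun j => (sim_ne_y T j).symm) (st_ne_y T).symm, hy]
  have ho2 : s2 T.o = WT [] 0 := by
    rw [hfr2 T.o (fun j => (sim_ne_o T j).symm) (st_ne_o T).symm (clk_ne_o T).symm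
      (clk2_ne_o T).symm, hfr1 T.o (fun j => (sim_ne_o T j).symm) (st_ne_o T).symm, ho]
  have hf2 : s2 T.fl = WT [] 0 := by
    rw [hfr2 T.fl (fun j => (sim_ne_fl T j).symm) (st_ne_fl T).symm (clk_ne_fl T).symm
      (clk2_ne_fl T).symm, hfr1 T.fl (fun j => (sim_ne_fl T j).symm) (st_ne_fl T).symm, hf]
  -- unload
  obtain ⟨s3, hr3, hout3, ho3, hf3, hfr3⟩ := succP_run T xs ys k hk hxs hys
    (s2 (T.sim A.out)).cells (s2 (T.sim A.out)).head
    (fun i => (val xs.reverse * val ys.reverse).testBit (2 * k - 1 - i)) hrep.vis.flag hcells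
    s2 rfl hx2 hy2 ho2 hf2
  -- clean up
  have hvis : ∀ j ∈ List.finRange (A.k + 1), Vis (s3 (T.sim j)) (m2 j) := by
    intro j _
    by_cases hj : j = A.out
    · subst hj
      rw [hout3]
      exact hrep.vis.rehead 0 (Nat.zero_le _)
    · rw [hfr3 (T.sim j) (fun e => hj (sim_inj T e)) (sim_ne_o T j) (sim_ne_fl T j)]
      exact (hinv2.rep j).vis
  have hst3 : s3 T.st = stTape c'.q := by
    rw [hfr3 T.st (sim_ne_st T A.out).symm (st_ne_o T) (st_ne_fl T)]
    exact hinv2.st
  have hclk23 : s3 T.clk2 = ruler c2 p2 := by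
    rw [hfr3 T.clk2 (sim_ne_clk2 T A.out).symm (clk2_ne_o T) (clk2_ne_fl T)]
    exact hclk22
  obtain ⟨s4, hr4, hsim4, hst4, hclk24, hfr4⟩ := cleanList_run T c'.q c2 p2 (2 * k + 1 + τ) m2
    (List.finRange (A.k + 1)) (List.nodup_finRange _) s3 hvis
    (fun j _ => by
      have h1 := hm1 j
      have h2 := hm2 j
      omega) hst3 hclk23
  have hall := RunLe.seq hr1 (RunLe.seq hr2 (RunLe.seq
    (RunLe.ite_true (c := fun h => (simDelta T h).isNone) (q := failP T) htest hr3) hr4))
  refine hall.cast rfl ?_ ?_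
  · funext i
    by_cases hfl : i = T.fl
    · subst hfl
      rw [Function.update_self, hfr4 T.fl (fun j _ => (sim_ne_fl T j).symm) (st_ne_fl T).symm
        (clk2_ne_fl T).symm, hf3]
    · rw [Function.update_of_ne hfl]
      by_cases hio : i = T.o
      · subst hio
        rw [Function.update_self, hfr4 T.o (fun j _ => (sim_ne_o T j).symm) (st_ne_o T).symm
          (clk2_ne_o T).symm, ho3]
        congr 1
        unfold prodBits
        rw [List.map_map]
        apply List.map_congr_left
        intro i hi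
        have hi' : i < 2 * k := List.mem_range.mp hi
        have e : 2 * k - 1 - (2 * k - 1 - i) = i := by omega
        simp only [Function.comp_apply, e, val_reverse]
      · rw [Function.update_of_ne hio]
        by_cases hsj : ∃ j, i = T.sim j
        · obtain ⟨j, rfl⟩ := hsj
          rw [hsim4 j (List.mem_finRange j), hsim j]
        · have hns : ∀ j, i ≠ T.sim j := fun j e => hsj ⟨j, e⟩
          by_cases hst' : i = T.st
          · subst hst'
            rw [hst4, hst]
          · by_cases hc2 : i = T.clk2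
            · subst hc2
              rw [hclk24, hclk2]
            · by_cases hc1' : i = T.clk
              · subst hc1'
                rw [hfr4 T.clk (fun j _ => (sim_ne_clk T j).symm) (st_ne_clk T).symm
                  (clk_ne_clk2 T), hfr3 T.clk (sim_ne_clk T A.out).symm (clk_ne_o T)
                  (clk_ne_fl T), hclk2', hclk]
              · rw [hfr4 i (fun j _ => hns j) hst' hc2, hfr3 i (hns A.out) hio hfl,
                  hfr2 i hns hst' hc1' hc2, hfr1 i hns hst']
  · rw [List.length_finRange]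
    have hq : (s2 (T.sim A.out)).head ≤ 2 * k + 1 + τ := by
      have h1 := hrep.head
      have h2 := hrep.le
      have h3 := hm1 A.out
      have h4 := hm2 A.out
      omega
    generalize (s2 (T.sim A.out)).head = q at hq ⊢
    generalize A.k + 1 = a
    have e1 : a * (4 * (2 * k + 1 + τ) + 4) = 8 * (a * k) + 4 * (a * τ) + 8 * a := by ring
    have e2 : (8 * a + 60) * (τ + k + 1) =
        8 * (a * τ) + 8 * (a * k) + 8 * a + 60 * τ + 60 * k + 60 := by ring
    rw [e1, e2]
    omega

/-- The call aborts (restoring everything except the flag) when the clock runs out first. -/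
theorem call_timeout {T : CallTapes A K} {k c1 c2 : ℕ} (xs ys : List Bool) (hc1 : 1 ≤ c1)
    (hxs : xs.length = k) (hys : ys.length = k) (τ : ℕ) (c' : Cfg A)
    (hrun : stepN A τ (init A (mulInput A xs.reverse ys.reverse)) = some c')
    (hτ : c1 * c2 < τ) (s : St (ΓB A) K) (hsim : ∀ j, s (T.sim j) = blankTape)
    (hst : s T.st = blankTape) (hclk : s T.clk = ruler c1 0) (hclk2 : s T.clk2 = ruler c2 0)
    (hx : s T.x = WT (xs.map bsym) 0) (hy : s T.y = WT (ys.map bsym) 0)
    (hf : s T.fl = WT [] 0) :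
    RunLe (callProg T) s (Function.update s T.fl (WT [Sum.inl Sym.zero] 0))
      ((8 * (A.k + 1) + 60) * (c1 * c2 + k + 1)) := by
  -- load
  obtain ⟨s1, m1, hr1, hinv1, hm1, hfr1⟩ := loadP_run T xs ys s hsim hst hx hy
  have hclk1 : s1 T.clk = ruler c1 0 := by
    rw [hfr1 T.clk (fun j => (sim_ne_clk T j).symm) (st_ne_clk T).symm, hclk]
  have hclk21 : s1 T.clk2 = ruler c2 0 := by
    rw [hfr1 T.clk2 (fun j => (sim_ne_clk2 T j).symm) (st_ne_clk2 T).symm, hclk2]
  -- run until the clock stops
  have hcomm : c2 * c1 = c1 * c2 := Nat.mul_comm c2 c1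
  obtain ⟨cm, hcm, hrest⟩ := stepN_prefix (c2 * c1) τ _ c' hrun (by omega)
  obtain ⟨cn, hcn⟩ := stepN_pos hrest (by omega)
  obtain ⟨s2, m2, hr2, hinv2, hclk2', hclk22, hm2, hfr2⟩ :=
    outer_timeout hc1 _ cm s1 m1 hinv1 hcm hclk1 hclk21
  have htest : (fun h : Fin K → ΓB A => (simDelta T h).isNone) s2.heads = false :=
    hinv2.isNone_run hcn
  -- lower the flag
  have hf2 : s2 T.fl = WT [] 0 := by
    rw [hfr2 T.fl (fun j => (sim_ne_fl T j).symm) (st_ne_fl T).symm (clk_ne_fl T).symm
      (clk2_ne_fl T).symm, hfr1 T.fl (fun j => (sim_ne_fl T j).symm) (st_ne_fl T).symm, hf]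
  have hr3 := Run.wm T.fl (fun _ => (Sum.inl Sym.zero : ΓB A)) Dir.S s2
  have e3 : ((s2 T.fl).write (Sum.inl Sym.zero)).move Dir.S = WT [Sum.inl Sym.zero] 0 := by
    rw [hf2]
    exact WT_write_end [] _
  rw [e3] at hr3
  -- clean up
  have hvis : ∀ j ∈ List.finRange (A.k + 1),
      Vis (Function.update s2 T.fl (WT [Sum.inl Sym.zero] 0) (T.sim j)) (m2 j) := by
    intro j _
    rw [Function.update_of_ne (sim_ne_fl T j)]
    exact (hinv2.rep j).vis
  obtain ⟨s4, hr4, hsim4, hst4, hclk24, hfr4⟩ := cleanList_run T cm.q c2 c2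
    (2 * k + 1 + c1 * c2) m2 (List.finRange (A.k + 1)) (List.nodup_finRange _)
    (Function.update s2 T.fl (WT [Sum.inl Sym.zero] 0)) hvis
    (fun j _ => by
      have h1 := hm1 j
      have h2 := hm2 j
      omega)
    (by rw [Function.update_of_ne (st_ne_fl T)]; exact hinv2.st)
    (by rw [Function.update_of_ne (clk2_ne_fl T)]; exact hclk22)
  have hall := RunLe.seq hr1 (RunLe.seq hr2 (RunLe.seq
    (RunLe.ite_false (c := fun h => (simDelta T h).isNone) (p := succP T) htest hr3.le) hr4))
  refine hall.cast rfl ?_ ?_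
  · funext i
    by_cases hfl : i = T.fl
    · subst hfl
      rw [Function.update_self, hfr4 T.fl (fun j _ => (sim_ne_fl T j).symm) (st_ne_fl T).symm
        (clk2_ne_fl T).symm, Function.update_self]
    · rw [Function.update_of_ne hfl]
      by_cases hsj : ∃ j, i = T.sim j
      · obtain ⟨j, rfl⟩ := hsj
        rw [hsim4 j (List.mem_finRange j), hsim j]
      · have hns : ∀ j, i ≠ T.sim j := fun j e => hsj ⟨j, e⟩
        by_cases hst' : i = T.st
        · subst hst'
          rw [hst4, hst]
        · by_cases hc2 : i = T.clk2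
          · subst hc2
            rw [hclk24, hclk2]
          · by_cases hc1' : i = T.clk
            · subst hc1'
              rw [hfr4 T.clk (fun j _ => (sim_ne_clk T j).symm) (st_ne_clk T).symm
                (clk_ne_clk2 T), Function.update_of_ne (clk_ne_fl T), hclk2', hclk]
            · rw [hfr4 i (fun j _ => hns j) hst' hc2, Function.update_of_ne hfl,
                hfr2 i hns hst' hc1' hc2, hfr1 i hns hst']
  · rw [List.length_finRange]
    have hc2N : c2 ≤ c1 * c2 := Nat.le_mul_of_pos_left c2 hc1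
    generalize c1 * c2 = N at hc2N ⊢
    generalize A.k + 1 = a
    have e1 : a * (4 * (2 * k + 1 + N) + 4) = 8 * (a * k) + 4 * (a * N) + 8 * a := by ring
    have e2 : (8 * a + 60) * (N + k + 1) =
        8 * (a * N) + 8 * (a * k) + 8 * a + 60 * N + 60 * k + 60 := by ring
    rw [e1, e2]
    omega

end Vale.Agent.H91.MT.AC
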