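import Vale.Agent.H91.MT.Prog

/-!
# From programs to machines

`Prog.toMachine p` is the Turing machine whose states are the control locations of `p`;
it performs exactly one machine step per unit of `Run` time.
-/

namespace Vale.Agent.H91.MT

variable {Γ : Type} {K : ℕ}

/-- Control locations of a program. -/
def Loc : Prog Γ K → Type
  | Prog.step _ => Unit
  | Prog.seq p q => Loc p ⊕ Loc q
  | Prog.ite _ p q => Unit ⊕ (Loc p ⊕ Loc q)
  | Prog.loop _ p => Unit ⊕ Loc p

/-- There are finitely many control locations. -/
noncomputable def Loc.fintype : (p : Prog Γ K) → Fintype (Loc p)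
  | Prog.step _ => inferInstanceAs (Fintype Unit)
  | Prog.seq p q => @instFintypeSum _ _ (Loc.fintype p) (Loc.fintype q)
  | Prog.ite _ p q =>
      @instFintypeSum _ _ (inferInstanceAs (Fintype Unit))
        (@instFintypeSum _ _ (Loc.fintype p) (Loc.fintype q))
  | Prog.loop _ p => @instFintypeSum _ _ (inferInstanceAs (Fintype Unit)) (Loc.fintype p)

/-- The entry location. -/
def entry : (p : Prog Γ K) → Loc p
  | Prog.step _ => ()
  | Prog.seq p _ => Sum.inl (entry p)
  | Prog.ite _ _ _ => Sum.inl ()
  | Prog.loop _ _ => Sum.inl ()

/-- The action that changes nothing. -/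
def idle (h : Fin K → Γ) : Fin K → Γ × Dir := fun i => (h i, Dir.S)

/-- One machine step at a location: the action on the tapes and the next location
(`none`: the program is finished). -/
def next : (p : Prog Γ K) → Loc p → (Fin K → Γ) → (Fin K → Γ × Dir) × Option (Loc p)
  | Prog.step f, _, h => (f h, none)
  | Prog.seq p q, Sum.inl l, h =>
      ((next p l h).1,
        match (next p l h).2 with
        | some l' => some (Sum.inl l')
        | none => some (Sum.inr (entry q)))
  | Prog.seq _ q, Sum.inr l, h => ((next q l h).1, ((next q l h).2).map Sum.inr)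
  | Prog.ite c p q, Sum.inl _, h =>
      (idle h, some (if c h then Sum.inr (Sum.inl (entry p)) else Sum.inr (Sum.inr (entry q))))
  | Prog.ite _ p _, Sum.inr (Sum.inl l), h =>
      ((next p l h).1, ((next p l h).2).map fun l' => Sum.inr (Sum.inl l'))
  | Prog.ite _ _ q, Sum.inr (Sum.inr l), h =>
      ((next q l h).1, ((next q l h).2).map fun l' => Sum.inr (Sum.inr l'))
  | Prog.loop c p, Sum.inl _, h => (idle h, if c h then some (Sum.inr (entry p)) else none)
  | Prog.loop _ p, Sum.inr l, h =>
      ((next p l h).1,
        match (next p l h).2 with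
        | some l' => some (Sum.inr l')
        | none => some (Sum.inl ()))

/-- The machine of a program on `k + 1` tapes: its states are the control locations plus a
halting state. -/
@[reducible] noncomputable def Prog.toMachine [Fintype Γ] {k : ℕ} (p : Prog Γ (k + 1))
    (blank zero one hash : Γ) (nodup : [blank, zero, one, hash].Nodup) (out : Fin (k + 1)) :
    Machine where
  k := k
  Γ := Γ
  Q := Option (Loc p)
  finQ := @instFintypeOption _ (Loc.fintype p)
  blank := blank
  zero := zero
  one := one
  hash := hash
  nodup := nodup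
  q0 := some (entry p)
  out := out
  δ := fun q h =>
    match q with
    | none => none
    | some l => some ((next p l h).2, (next p l h).1)

/-! ### Small-step executions -/

theorem Tape.write_read (t : Tape Γ) : t.write t.read = t := by
  cases t
  simp [Tape.write, Tape.read]

theorem St.act_idle (s : St Γ K) : s.act (idle s.heads) = s := by
  funext i
  simp [St.act, idle, St.heads, Tape.move, Tape.write_read]

/-- Small-step execution to completion: started at location `l` on the tapes `s`, the program
finishes after exactly `t` machine steps, leaving the tapes `s'`. -/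
inductive Exec : (p : Prog Γ K) → Loc p → St Γ K → ℕ → St Γ K → Prop
  | last {p : Prog Γ K} {l : Loc p} {s : St Γ K} :
      (next p l s.heads).2 = none → Exec p l s 1 (s.act (next p l s.heads).1)
  | cons {p : Prog Γ K} {l l' : Loc p} {s s' : St Γ K} {t : ℕ} :
      (next p l s.heads).2 = some l' → Exec p l' (s.act (next p l s.heads).1) t s' →
      Exec p l s (t + 1) s'

theorem Exec.seq_right {p q : Prog Γ K} {l : Loc q} {s s' : St Γ K} {t : ℕ}
    (h : Exec q l s t s') : Exec (Prog.seq p q) (Sum.inr l) s t s' := by
  induction h with
  | @last l s hn =>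
    have h1 : (next (Prog.seq p q) (Sum.inr l) s.heads).2 = none := by
      show ((next q l s.heads).2).map Sum.inr = none
      rw [hn]
      rfl
    exact Exec.last h1
  | @cons l l' s s' t hn _ ih =>
    have h1 : (next (Prog.seq p q) (Sum.inr l) s.heads).2 = some (Sum.inr l') := by
      show ((next q l s.heads).2).map Sum.inr = some (Sum.inr l')
      rw [hn]
      rfl
    exact Exec.cons h1 ih

theorem Exec.seq_left {p q : Prog Γ K} {l : Loc p} {s s' s'' : St Γ K} {t t' : ℕ}
    (h : Exec p l s t s') (h' : Exec (Prog.seq p q) (Sum.inr (entry q)) s' t' s'') :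
    Exec (Prog.seq p q) (Sum.inl l) s (t + t') s'' := by
  induction h with
  | @last l s hn =>
    have h1 : (next (Prog.seq p q) (Sum.inl l) s.heads).2 = some (Sum.inr (entry q)) := by
      show (match (next p l s.heads).2 with
        | some l' => some (Sum.inl l')
        | none => some (Sum.inr (entry q))) = some (Sum.inr (entry q))
      rw [hn]
    rw [add_comm]
    exact Exec.cons h1 h'
  | @cons l l' s s' t hn _ ih =>
    have h1 : (next (Prog.seq p q) (Sum.inl l) s.heads).2 = some (Sum.inl l') := by
      show (match (next p l s.heads).2 with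
        | some l' => some (Sum.inl l')
        | none => some (Sum.inr (entry q))) = some (Sum.inl l')
      rw [hn]
    rw [add_right_comm]
    exact Exec.cons h1 (ih h')

theorem Exec.ite_left {c : (Fin K → Γ) → Bool} {p q : Prog Γ K} {l : Loc p} {s s' : St Γ K}
    {t : ℕ} (h : Exec p l s t s') : Exec (Prog.ite c p q) (Sum.inr (Sum.inl l)) s t s' := by
  induction h with
  | @last l s hn =>
    have h1 : (next (Prog.ite c p q) (Sum.inr (Sum.inl l)) s.heads).2 = none := by
      show ((next p l s.heads).2).map (fun l' => Sum.inr (Sum.inl l')) = none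
      rw [hn]
      rfl
    exact Exec.last h1
  | @cons l l' s s' t hn _ ih =>
    have h1 : (next (Prog.ite c p q) (Sum.inr (Sum.inl l)) s.heads).2 =
        some (Sum.inr (Sum.inl l')) := by
      show ((next p l s.heads).2).map (fun l' => Sum.inr (Sum.inl l')) = _
      rw [hn]
      rfl
    exact Exec.cons h1 ih

theorem Exec.ite_right {c : (Fin K → Γ) → Bool} {p q : Prog Γ K} {l : Loc q} {s s' : St Γ K}
    {t : ℕ} (h : Exec q l s t s') : Exec (Prog.ite c p q) (Sum.inr (Sum.inr l)) s t s' := by
  induction h with
  | @last l s hn =>
    have h1 : (next (Prog.ite c p q) (Sum.inr (Sum.inr l)) s.heads).2 = none := by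
      show ((next q l s.heads).2).map (fun l' => Sum.inr (Sum.inr l')) = none
      rw [hn]
      rfl
    exact Exec.last h1
  | @cons l l' s s' t hn _ ih =>
    have h1 : (next (Prog.ite c p q) (Sum.inr (Sum.inr l)) s.heads).2 =
        some (Sum.inr (Sum.inr l')) := by
      show ((next q l s.heads).2).map (fun l' => Sum.inr (Sum.inr l')) = _
      rw [hn]
      rfl
    exact Exec.cons h1 ih

theorem Exec.loop_body {c : (Fin K → Γ) → Bool} {p : Prog Γ K} {l : Loc p}
    {s s' s'' : St Γ K} {t t' : ℕ} (h : Exec p l s t s')
    (h' : Exec (Prog.loop c p) (Sum.inl ()) s' t' s'') :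
    Exec (Prog.loop c p) (Sum.inr l) s (t + t') s'' := by
  induction h with
  | @last l s hn =>
    have h1 : (next (Prog.loop c p) (Sum.inr l) s.heads).2 = some (Sum.inl ()) := by
      show (match (next p l s.heads).2 with
        | some l' => some (Sum.inr l')
        | none => some (Sum.inl ())) = some (Sum.inl ())
      rw [hn]
    rw [add_comm]
    exact Exec.cons h1 h'
  | @cons l l' s s' t hn _ ih =>
    have h1 : (next (Prog.loop c p) (Sum.inr l) s.heads).2 = some (Sum.inr l') := by
      show (match (next p l s.heads).2 with
        | some l' => some (Sum.inr l')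
        | none => some (Sum.inl ())) = some (Sum.inr l')
      rw [hn]
    rw [add_right_comm]
    exact Exec.cons h1 (ih h')

/-- A run of a program is a small-step execution from its entry location. -/
theorem Run.exec {p : Prog Γ K} {s s' : St Γ K} {t : ℕ} (h : Run p s s' t) :
    Exec p (entry p) s t s' := by
  induction h with
  | step f s => exact Exec.last (p := Prog.step f) (l := ()) rfl
  | seq _ _ ih ih' => exact Exec.seq_left ih (Exec.seq_right ih')
  | @ite_true c p q s s' t hc _ ih =>
    have h1 : (next (Prog.ite c p q) (Sum.inl ()) s.heads).2 =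
        some (Sum.inr (Sum.inl (entry p))) := by
      show some (if c s.heads then Sum.inr (Sum.inl (entry p))
        else Sum.inr (Sum.inr (entry q))) = _
      rw [if_pos hc]
    show Exec (Prog.ite c p q) (Sum.inl ()) s (t + 1) s'
    refine Exec.cons h1 ?_
    have h2 : s.act (next (Prog.ite c p q) (Sum.inl ()) s.heads).1 = s := St.act_idle s
    rw [h2]
    exact Exec.ite_left ih
  | @ite_false c p q s s' t hc _ ih =>
    have h1 : (next (Prog.ite c p q) (Sum.inl ()) s.heads).2 =
        some (Sum.inr (Sum.inr (entry q))) := by
      show some (if c s.heads then Sum.inr (Sum.inl (entry p))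
        else Sum.inr (Sum.inr (entry q))) = _
      rw [if_neg (by rw [hc]; simp)]
    show Exec (Prog.ite c p q) (Sum.inl ()) s (t + 1) s'
    refine Exec.cons h1 ?_
    have h2 : s.act (next (Prog.ite c p q) (Sum.inl ()) s.heads).1 = s := St.act_idle s
    rw [h2]
    exact Exec.ite_right ih
  | @loop_true c p s s' s'' t t' hc _ _ ih ih' =>
    have h1 : (next (Prog.loop c p) (Sum.inl ()) s.heads).2 = some (Sum.inr (entry p)) := by
      show (if c s.heads then some (Sum.inr (entry p)) else none) = _
      rw [if_pos hc]
    show Exec (Prog.loop c p) (Sum.inl ()) s (t + t' + 1) s''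
    refine Exec.cons h1 ?_
    have h2 : s.act (next (Prog.loop c p) (Sum.inl ()) s.heads).1 = s := St.act_idle s
    rw [h2]
    exact Exec.loop_body ih ih'
  | @loop_false c p s hc =>
    have h1 : (next (Prog.loop c p) (Sum.inl ()) s.heads).2 = none := by
      show (if c s.heads then some (Sum.inr (entry p)) else none) = none
      rw [if_neg (by rw [hc]; simp)]
    have h2 : s.act (next (Prog.loop c p) (Sum.inl ()) s.heads).1 = s := St.act_idle s
    have h3 := Exec.last h1
    rw [h2] at h3
    exact h3

/-- A small-step execution is a computation of the machine ending in its halting state. -/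
theorem Exec.stepN [Fintype Γ] {k : ℕ} {p : Prog Γ (k + 1)}
    (blank zero one hash : Γ) (nodup : [blank, zero, one, hash].Nodup) (out : Fin (k + 1))
    {l : Loc p} {s s' : St Γ (k + 1)} {t : ℕ} (h : Exec p l s t s') :
    stepN (p.toMachine blank zero one hash nodup out) t ⟨some l, s⟩ = some ⟨none, s'⟩ := by
  induction h with
  | @last l s hn =>
    have h1 : step (p.toMachine blank zero one hash nodup out) ⟨some l, s⟩ =
        some ⟨(next p l s.heads).2, s.act (next p l s.heads).1⟩ := rfl
    show (step (p.toMachine blank zero one hash nodup out) ⟨some l, s⟩).bind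
      (MT.stepN (p.toMachine blank zero one hash nodup out) 0) = _
    rw [h1, hn]
    rfl
  | @cons l l' s s' t hn _ ih =>
    have h1 : step (p.toMachine blank zero one hash nodup out) ⟨some l, s⟩ =
        some ⟨(next p l s.heads).2, s.act (next p l s.heads).1⟩ := rfl
    show (step (p.toMachine blank zero one hash nodup out) ⟨some l, s⟩).bind
      (MT.stepN (p.toMachine blank zero one hash nodup out) t) = _
    rw [h1, hn]
    exact ih

/-- TASK COMPILE.  A run of the program is a halting computation of its machine, with the same
number of steps and the same final tapes. -/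
theorem Prog.toMachine_halts [Fintype Γ] {k : ℕ} (p : Prog Γ (k + 1))
    (blank zero one hash : Γ) (nodup : [blank, zero, one, hash].Nodup) (out : Fin (k + 1))
    (w : List Γ) (s' : St Γ (k + 1)) (t : ℕ)
    (h : Run p (fun i => if i = 0 then Tape.ofList blank w else Tape.ofList blank []) s' t) :
    ∃ c' : Cfg (p.toMachine blank zero one hash nodup out),
      HaltsIn (p.toMachine blank zero one hash nodup out)
        (init (p.toMachine blank zero one hash nodup out) w) t c' ∧ c'.tape = s' := by
  refine ⟨⟨none, s'⟩, ⟨?_, rfl⟩, rfl⟩
  exact Exec.stepN blank zero one hash nodup out h.exec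

theorem stepN_add (M : Machine) (a b : ℕ) (c : Cfg M) :
    stepN M (a + b) c = (stepN M a c).bind (stepN M b) := by
  induction a generalizing c with
  | zero =>
    rw [Nat.zero_add]
    rfl
  | succ a ih =>
    rw [Nat.add_right_comm]
    show (step M c).bind (stepN M (a + b)) = ((step M c).bind (stepN M a)).bind (stepN M b)
    cases hs : step M c with
    | none => rfl
    | some c₁ =>
      show stepN M (a + b) c₁ = (stepN M a c₁).bind (stepN M b)
      exact ih c₁

/-- TASK COMPILE (part 2).  Halting computations are unique. -/
theorem HaltsIn.det {M : Machine} {c : Cfg M} {t t' : ℕ} {c' c'' : Cfg M}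
    (h : HaltsIn M c t c') (h' : HaltsIn M c t' c'') : t = t' ∧ c' = c'' := by
  have key : ∀ {t t' : ℕ} {c' c'' : Cfg M}, HaltsIn M c t c' → HaltsIn M c t' c'' → t ≤ t' →
      t = t' ∧ c' = c'' := by
    intro t t' c' c'' h h' hle
    obtain ⟨d, rfl⟩ := Nat.exists_eq_add_of_le hle
    have h1 := h'.1
    rw [stepN_add, h.1] at h1
    cases d with
    | zero =>
      have h2 : some c' = some c'' := h1
      exact ⟨rfl, Option.some.inj h2⟩
    | succ d =>
      have h2 : (step M c').bind (stepN M d) = some c'' := h1
      rw [h.2] at h2
      cases h2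
  rcases le_total t t' with hle | hle
  · exact key h h' hle
  · obtain ⟨h1, h2⟩ := key h' h hle
    exact ⟨h1.symm, h2.symm⟩

/-- TASK COMPILE (part 3).  Every halting time on an input of length `n` is at most `mulTime`. -/
theorem le_mulTime (A : Machine) (hA : Multiplies A) {n : ℕ} (hn : 1 ≤ n) {x y : List Bool}
    (hx : x.length = n) (hy : y.length = n) {t : ℕ} {c' : Cfg A}
    (h : HaltsIn A (init A (mulInput A x y)) t c') : t ≤ mulTime A n := by
  classical
  unfold mulTime
  apply le_csSup
  · let f : List Bool × List Bool → ℕ := fun p =>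
      if hp : ∃ (t : ℕ) (c' : Cfg A), HaltsIn A (init A (mulInput A p.1 p.2)) t c' then
        Classical.choose hp else 0
    have hfin : ({l : List Bool | l.length = n} ×ˢ {l : List Bool | l.length = n}).Finite :=
      (List.finite_length_eq Bool n).prod (List.finite_length_eq Bool n)
    apply ((hfin.image f).subset _).bddAbove
    rintro t₁ ⟨x₁, y₁, c₁, hx₁, hy₁, h₁⟩
    refine ⟨(x₁, y₁), ⟨hx₁, hy₁⟩, ?_⟩
    have hp : ∃ (t : ℕ) (c' : Cfg A), HaltsIn A (init A (mulInput A x₁ y₁)) t c' := ⟨t₁, c₁, h₁⟩
    show (if hp : ∃ (t : ℕ) (c' : Cfg A), HaltsIn A (init A (mulInput A x₁ y₁)) t c' then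
        Classical.choose hp else 0) = t₁
    rw [dif_pos hp]
    obtain ⟨c₂, h₂⟩ := Classical.choose_spec hp
    exact (HaltsIn.det h₂ h₁).1
  · exact ⟨x, y, c', hx, hy, h⟩

/-- TASK COMPILE (part 4).  A uniform bound on the halting times bounds `transTime`. -/
theorem transTime_le (B : Machine) (n b : ℕ)
    (h : ∀ (M : Fin n → Fin n → Bool) (t : ℕ) (c' : Cfg B),
      HaltsIn B (init B ((matList n M).map B.bit)) t c' → t ≤ b) : transTime B n ≤ b := by
  unfold transTime
  apply csSup_le'
  rintro t ⟨M, c', hM⟩
  exact h M t c' hM

end Vale.Agent.H91.MT
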