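import Vale.Agent.H91.MT.Tapes

/-!
# Pure (list-level) description of the multiplication-based swap

Everything the machine does to the data is one of
* `applyCtl ctl xs` : a universal transducer run (copy / skip / emit constants) driven by a
  control list,
* `prodBits k xs ys` : the `2k`-bit product of two `k`-bit numbers (least significant bit first),
and the control lists and kernels are `gridList`s: nested periodic lists whose slots are shifted
by a quadratic-recurrence exponent.
-/

namespace Vale.Agent.H91.MT

/-- The tape symbol of a bit. -/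
def bsym {α : Type} (b : Bool) : Sym ⊕ α := if b then Sum.inl Sym.one else Sum.inl Sym.zero

/-- Value of a bit list, least significant bit first. -/
def valLE : List Bool → ℕ
  | [] => 0
  | b :: l => b.toNat + 2 * valLE l

/-- The `2k` low bits (least significant first) of the product of the numbers `xs` and `ys`. -/
def prodBits (k : ℕ) (xs ys : List Bool) : List Bool :=
  (List.range (2 * k)).map fun i => (valLE xs * valLE ys).testBit i

/-- Control symbols of the universal transducer. -/
inductive Ctl
  | C | S | Z | O | N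
  deriving DecidableEq

/-- The tape symbol of a control symbol. -/
def csym {α : Type} : Ctl → Sym ⊕ α
  | Ctl.C => Sum.inl Sym.cC
  | Ctl.S => Sum.inl Sym.cS
  | Ctl.Z => Sum.inl Sym.cZ
  | Ctl.O => Sum.inl Sym.cO
  | Ctl.N => Sum.inl Sym.cN

/-- Number of source cells a control list consumes. -/
def ctlNeed : List Ctl → ℕ
  | [] => 0
  | Ctl.C :: c => ctlNeed c + 1
  | Ctl.S :: c => ctlNeed c + 1
  | Ctl.N :: c => ctlNeed c + 1
  | Ctl.Z :: c => ctlNeed c
  | Ctl.O :: c => ctlNeed c

/-- Run a control list on a source list: `C` copies a source bit, `S` skips one, `Z` / `O` emit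
`0` / `1`, `N` copies a complemented source bit.  (Reading past the end of the source reads `0`.) -/
def applyCtl : List Ctl → List Bool → List Bool
  | [], _ => []
  | Ctl.C :: c, xs => xs.headD false :: applyCtl c xs.tail
  | Ctl.S :: c, xs => applyCtl c xs.tail
  | Ctl.Z :: c, xs => false :: applyCtl c xs
  | Ctl.O :: c, xs => true :: applyCtl c xs
  | Ctl.N :: c, xs => (!xs.headD false) :: applyCtl c xs.tail

/-- The shift exponent of slot `(u1, u2)` of a grid: a quadratic polynomial reduced mod `M`,
given by its finite differences (`i0, i1, c0` for the row base, `i2, c1` for the row step,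
`c2` for the second difference along the row). -/
def gridExp (M i0 i1 i2 c0 c1 c2 u1 u2 : ℕ) : ℕ :=
  (i0 + u1 * i1 + u1.choose 2 * c0 + u2 * (i2 + u1 * c1) + u2.choose 2 * c2) % M

/-- A grid list: `reps` arrays, each `arrPre ++ rows ++ arrPost`; each row is
`rowPre ++ slots ++ rowPost`; slot `(u1, u2)` is `z^e ++ body ++ z^(M-1-e) ++ tail` with
`e = gridExp M .. u1 u2`. -/
def gridList {β : Type} (reps rows cols M i0 i1 i2 c0 c1 c2 : ℕ) (z : β)
    (arrPre rowPre body tail rowPost arrPost : List β) : List β :=
  (List.range reps).flatMap fun _ =>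
    arrPre ++ ((List.range rows).flatMap fun u1 =>
      rowPre ++ ((List.range cols).flatMap fun u2 =>
        List.replicate (gridExp M i0 i1 i2 c0 c1 c2 u1 u2) z ++ body ++
          List.replicate (M - 1 - gridExp M i0 i1 i2 c0 c1 c2 u1 u2) z ++ tail) ++ rowPost)
      ++ arrPost

/-- Pad a list with `z` up to length `k`. -/
def padTo {β : Type} (k : ℕ) (z : β) (l : List β) : List β := l ++ List.replicate (k - l.length) z

/-- `n` copies of a list, concatenated. -/
def rep {β : Type} (n : ℕ) (l : List β) : List β := (List.replicate n l).flatten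

/-- Parameters of one multiplication-based swap: `R` sub-arrays of `r0 × c0` entries of `E` bits,
padded to `P × P` with `P = 2^a`; all multiplications have operand length `k`. -/
structure SwapParams where
  R : ℕ
  r0 : ℕ
  c0 : ℕ
  a : ℕ
  E : ℕ
  k : ℕ

namespace SwapParams

variable (p : SwapParams)

/-- Side of the padded square array. -/
def P : ℕ := 2 ^ p.a
/-- Guard bits. -/
def g (_p : SwapParams) : ℕ := 8
/-- The ring is `Z/(2^m + 1)`. -/
def m : ℕ := 4 * p.E
/-- Exponents live mod `M = 2m`. -/
def M : ℕ := 2 * p.m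
/-- Half unit: `2^(2h)` is a principal `P`-th root of unity. -/
def h : ℕ := p.m / p.P
/-- Slot width. -/
def W : ℕ := 16 * p.m
/-- Width of the value taken from a slot. -/
def V : ℕ := 14 * p.m
/-- Sub-array stride, in slots. -/
def SA : ℕ := 8 * p.P * p.P
/-- `-2h` mod `M`. -/
def kap : ℕ := p.M - 2 * p.h
/-- `-h` mod `M`. -/
def eta : ℕ := p.M - p.h

/-- Control list packing the data (pre-shift of transform 1). -/
def ctl1 : List Ctl :=
  gridList p.R p.r0 p.c0 p.M 0 0 0 0 ((2 * p.h) % p.M) 0 Ctl.Z [] []
    (List.replicate (p.g - 1) Ctl.Z ++ [Ctl.O] ++ List.replicate p.E Ctl.C)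
    (List.replicate (p.W - (p.M - 1) - p.g - p.E) Ctl.Z)
    (List.replicate ((2 * p.P - p.c0) * p.W) Ctl.Z)
    (List.replicate ((p.SA - 2 * p.P * p.r0) * p.W) Ctl.Z)

/-- Kernel of transform 1. -/
def ker1 : List Bool :=
  gridList 1 (2 * p.P - 1) (2 * p.P - 1) p.M p.kap p.kap p.kap 0 p.kap 0 false [] []
    [true] (List.replicate (p.W - p.M) false) (List.replicate p.W false) []

/-- Tail of a value-taking slot. -/
def slot2 : List Ctl :=
  List.replicate (p.W - p.V) Ctl.S ++ List.replicate (p.W - (p.M - 1) - p.V) Ctl.Z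

/-- Control list between the two transforms (post-shift 1 merged with pre-shift 2). -/
def ctl2 : List Ctl :=
  gridList p.R p.P p.P p.M 0 p.eta p.eta ((2 * p.eta) % p.M) ((2 * p.h) % p.M)
    ((2 * p.eta) % p.M) Ctl.Z
    (List.replicate ((p.P - 1) * 2 * p.P * p.W) Ctl.S)
    (List.replicate ((p.P - 1) * p.W) Ctl.S)
    (List.replicate p.V Ctl.C) p.slot2
    (List.replicate p.W Ctl.S ++ List.replicate (p.P * p.W) Ctl.Z)
    (List.replicate ((p.SA - (2 * p.P - 1) * 2 * p.P) * p.W) Ctl.S ++
      List.replicate ((p.SA - 2 * p.P * p.P) * p.W) Ctl.Z)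

/-- Kernel of transform 2. -/
def ker2 : List Bool :=
  gridList 1 (2 * p.P - 1) (2 * p.P - 1) p.M ((2 * p.h) % p.M) ((3 * p.h) % p.M)
    ((3 * p.h) % p.M) ((2 * p.h) % p.M) 0 ((2 * p.h) % p.M) false [] []
    [true] (List.replicate (p.W - p.M) false) (List.replicate p.W false) []

/-- Control list after transform 2 (post-shift 2, including the factor `P^(-2)`). -/
def ctl3 : List Ctl :=
  gridList p.R p.c0 p.r0 p.M ((p.M - 2 * p.a) % p.M) p.eta p.eta ((2 * p.eta) % p.M) 0
    ((2 * p.eta) % p.M) Ctl.Z
    (List.replicate ((p.P - 1) * 2 * p.P * p.W) Ctl.S)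
    (List.replicate ((p.P - 1) * p.W) Ctl.S)
    (List.replicate p.V Ctl.C) p.slot2
    (List.replicate ((2 * p.P - (p.P - 1) - p.r0) * p.W) Ctl.S)
    (List.replicate ((p.SA - (p.P - 1 + p.c0) * 2 * p.P) * p.W) Ctl.S)

/-- Spread the sixteen `m`-bit chunks of every value into `2m`-bit sub-slots, complementing the
odd chunks. -/
def ctl3b : List Ctl :=
  rep (8 * (p.R * p.c0 * p.r0))
    (List.replicate p.m Ctl.C ++ List.replicate p.m Ctl.Z ++ List.replicate p.m Ctl.N ++
      List.replicate p.m Ctl.Z)

/-- The comb adding up sixteen sub-slots. -/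
def ker3 : List Bool := rep 16 (true :: List.replicate (2 * p.m - 1) false)

/-- Read the entry out of the folded value. -/
def ctl4 : List Ctl :=
  rep (p.R * p.c0 * p.r0)
    (List.replicate (30 * p.m + p.g) Ctl.S ++ List.replicate p.E Ctl.C ++
      List.replicate (2 * p.m - p.g - p.E) Ctl.S)

/-- The whole pipeline: three multiplications of `k`-bit numbers and five transducer runs. -/
def pipe (D : List Bool) : List Bool :=
  let X1 := padTo p.k false (applyCtl p.ctl1 D)
  let Y1 := prodBits p.k X1 (padTo p.k false p.ker1)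
  let X2 := padTo p.k false (applyCtl p.ctl2 Y1)
  let Y2 := prodBits p.k X2 (padTo p.k false p.ker2)
  let T3 := applyCtl p.ctl3 Y2
  let X3 := padTo p.k false (applyCtl p.ctl3b T3)
  let Y3 := prodBits p.k X3 (padTo p.k false p.ker3)
  applyCtl p.ctl4 Y3

/-- The data: `R` sub-arrays, each `r0 × c0` entries (row-major) of `E` bits. -/
def dataIn (f : ℕ → ℕ → ℕ → ℕ → Bool) : List Bool :=
  (List.range p.R).flatMap fun I => (List.range p.r0).flatMap fun i =>
    (List.range p.c0).flatMap fun j => (List.range p.E).map fun b => f I i j b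

/-- The same entries with every sub-array transposed (`c0 × r0`, row-major). -/
def dataOut (f : ℕ → ℕ → ℕ → ℕ → Bool) : List Bool :=
  (List.range p.R).flatMap fun I => (List.range p.c0).flatMap fun j =>
    (List.range p.r0).flatMap fun i => (List.range p.E).map fun b => f I i j b

/-- Side conditions under which the pipeline is correct. -/
structure Ok : Prop where
  ha : 1 ≤ p.a
  hr : p.r0 ≤ p.P
  hc : p.c0 ≤ p.P
  hE : 16 ≤ p.E
  hPE : p.P ∣ p.E
  hk : p.R * p.SA * p.W ≤ p.k

end SwapParams

end Vale.Agent.H91.MT
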