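import Vale.Agent.H91.MT.RegA
import Vale.Agent.H91.MT.Pure
import Vale.Agent.H91.MT.Compile
import Vale.Agent.H91.MT.ACall_Main

/-!
# TASK ACALL: calling the multiplier `A` inside the constructed machine, under a clock

The constructed machine uses the alphabet `ΓB A = Sym ⊕ ((A.Γ × Bool) ⊕ A.Q)` (defined, with
the tape names `CallTapes`, in `ACall_Base`).  Implementation (files `ACall_*`, namespace `AC`):
* a cell of a tape simulating a tape of `A` holds `Sum.inr (Sum.inl (g, f))` (`g` the symbol of
  `A`, `f = true` exactly on cell 0) once it has been visited or loaded, and the blank of the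
  constructed machine (seen by `A` as `A.blank`) otherwise; head positions coincide;
* the state of `A` is kept in cell 0 of the tape `st` as `Sum.inr (Sum.inr q)`;
* load: write `x` reversed (the streams are least significant bit first, `A` wants the most
  significant bit first), the separator, `y` reversed on the first simulated tape; rewind;
* run: the clock is a pair of rulers `clk` (length `c1`) and `clk2` (length `c2`) and allows
  `c1 * c2` steps of `A`: outer loop over the cells of `clk2` (while `A` has not halted), inner
  loop over the cells of `clk` (while `A` has not halted): one program step per step of `A`,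
  moving the `clk` head right each time; after the inner loop rewind `clk` and move the `clk2`
  head right; at the end rewind `clk2`;
* unload: read cells `2k-1, ..., 0` of the output tape of `A` into the stream `o`;
* clean up: erase all simulated tapes and the state tape completely (visited cells form an
  initial segment; cell 0 is flagged), rewind everything.
The scratch tapes `w1`, `w2` are not used.
-/

namespace Vale.Agent.H91.MT

/-- The clocked call of the multiplier. -/
noncomputable def mulCall (A : Machine) {K : ℕ} (T : CallTapes A K) : Prog (ΓB A) K :=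
  AC.callProg T

/-- TASK ACALL.  Started with the simulated tapes and the state tape completely blank (heads on
cell 0), the operands (`k` bits each, least significant bit first) on `x`, `y`, clock rulers of
lengths `c1 ≥ 1` and `c2` (allowing `c1 * c2` steps of `A`), and `o`, `fl`, `w1`, `w2` empty work
tapes, the call ends either with the `2k` product bits on `o` and flag `one`, or (only if the
clock is too short) with flag `zero` and nothing else changed; it takes time
`O(min (mulTime A k) (c1 * c2) + c1 + k)`. -/
theorem mulCall_spec (A : Machine) (hA : Multiplies A) :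
    ∃ C : ℕ, ∀ (K : ℕ) (T : CallTapes A K) (k c1 c2 : ℕ) (xs ys : List Bool),
      1 ≤ k → 1 ≤ c1 → xs.length = k → ys.length = k → ∀ s : St (ΓB A) K,
      (∀ j, s (T.sim j) = Tape.ofList (Sum.inl Sym.blank) []) →
      s T.st = Tape.ofList (Sum.inl Sym.blank) [] →
      s T.clk = ruler c1 0 → s T.clk2 = ruler c2 0 →
      s T.x = WT (xs.map bsym) 0 → s T.y = WT (ys.map bsym) 0 →
      s T.o = WT [] 0 → s T.fl = WT [] 0 → s T.w1 = WT [] 0 → s T.w2 = WT [] 0 →
      ∃ s', RunLe (mulCall A T) s s' (C * (min (mulTime A k) (c1 * c2) + c1 + k + 1)) ∧
        (s' = Function.update (Function.update s T.o (WT ((prodBits k xs ys).map bsym) 0))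
                T.fl (WT [Sum.inl Sym.one] 0) ∨
         (c1 * c2 < mulTime A k ∧
           s' = Function.update s T.fl (WT [Sum.inl Sym.zero] 0))) := by
  refine ⟨8 * (A.k + 1) + 60, ?_⟩
  intro K T k c1 c2 xs ys hk hc1 hxs hys s hsim hst hclk hclk2 hx hy ho hf _ _
  have hxr : xs.reverse.length = k := by rw [List.length_reverse, hxs]
  have hyr : ys.reverse.length = k := by rw [List.length_reverse, hys]
  obtain ⟨τ, c', ⟨hrun, hhalt⟩, hout⟩ := hA k hk xs.reverse ys.reverse hxr hyr
  have hτm : τ ≤ mulTime A k := le_mulTime A hA hk hxr hyr ⟨hrun, hhalt⟩
  rcases Nat.lt_or_ge (c1 * c2) τ with hlt | hge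
  · refine ⟨_, ?_, Or.inr ⟨lt_of_lt_of_le hlt hτm, rfl⟩⟩
    have h := AC.call_timeout (T := T) xs ys hc1 hxs hys τ c' hrun hlt s hsim hst hclk hclk2
      hx hy hf
    refine h.mono (Nat.mul_le_mul_left _ ?_)
    have hmin : min (mulTime A k) (c1 * c2) = c1 * c2 := Nat.min_eq_right (by omega)
    rw [hmin]
    omega
  · refine ⟨_, ?_, Or.inl rfl⟩
    have h := AC.call_success (T := T) xs ys hk hc1 hxs hys τ c' hrun hhalt hout hge s hsim
      hst hclk hclk2 hx hy ho hf
    refine h.mono (Nat.mul_le_mul_left _ ?_)
    have hmin : τ ≤ min (mulTime A k) (c1 * c2) := le_min hτm hge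
    omega

end Vale.Agent.H91.MT
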