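import Vale.Agent.H91.MT.Tapes
import Vale.Agent.H91.MT.Pure
import Vale.Agent.H91.MT.Compile

/-!
# TASK ACALL, part 1: alphabet, tape names, distinctness of the tapes of a call
-/

namespace Vale.Agent.H91.MT

/-- Alphabet of the constructed machine. -/
abbrev ΓB (A : Machine) : Type := Sym ⊕ ((A.Γ × Bool) ⊕ A.Q)

/-- Tapes used by a call: `sim j` simulates tape `j` of `A`; `st` holds the state of `A`;
`clk`, `clk2` are the two rulers of the clock; `x`, `y` operand streams; `o` result stream;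
`fl` flag; `w1`, `w2` scratch work tapes. -/
structure CallTapes (A : Machine) (K : ℕ) where
  sim : Fin (A.k + 1) → Fin K
  st : Fin K
  clk : Fin K
  clk2 : Fin K
  x : Fin K
  y : Fin K
  o : Fin K
  fl : Fin K
  w1 : Fin K
  w2 : Fin K
  inj : Function.Injective (Sum.elim sim (fun i : Fin 9 => ![st, clk, clk2, x, y, o, fl, w1, w2] i))

namespace AC

variable {A : Machine} {K : ℕ} (T : CallTapes A K)

theorem sim_inj : Function.Injective T.sim := by
  intro a b h
  have := T.inj (a₁ := Sum.inl a) (a₂ := Sum.inl b) h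
  exact Sum.inl.inj this

theorem sim_ne_st (j : Fin (A.k + 1)) : T.sim j ≠ T.st := by
  intro h
  have := T.inj (a₁ := Sum.inl j) (a₂ := Sum.inr 0) h
  cases this

theorem sim_ne_clk (j : Fin (A.k + 1)) : T.sim j ≠ T.clk := by
  intro h
  have := T.inj (a₁ := Sum.inl j) (a₂ := Sum.inr 1) h
  cases this

theorem sim_ne_clk2 (j : Fin (A.k + 1)) : T.sim j ≠ T.clk2 := by
  intro h
  have := T.inj (a₁ := Sum.inl j) (a₂ := Sum.inr 2) h
  cases this

theorem sim_ne_x (j : Fin (A.k + 1)) : T.sim j ≠ T.x := by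
  intro h
  have := T.inj (a₁ := Sum.inl j) (a₂ := Sum.inr 3) h
  cases this

theorem sim_ne_y (j : Fin (A.k + 1)) : T.sim j ≠ T.y := by
  intro h
  have := T.inj (a₁ := Sum.inl j) (a₂ := Sum.inr 4) h
  cases this

theorem sim_ne_o (j : Fin (A.k + 1)) : T.sim j ≠ T.o := by
  intro h
  have := T.inj (a₁ := Sum.inl j) (a₂ := Sum.inr 5) h
  cases this

theorem sim_ne_fl (j : Fin (A.k + 1)) : T.sim j ≠ T.fl := by
  intro h
  have := T.inj (a₁ := Sum.inl j) (a₂ := Sum.inr 6) h
  cases this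

theorem named_ne {a b : Fin 9} (h : a ≠ b) :
    ![T.st, T.clk, T.clk2, T.x, T.y, T.o, T.fl, T.w1, T.w2] a ≠
      ![T.st, T.clk, T.clk2, T.x, T.y, T.o, T.fl, T.w1, T.w2] b := by
  intro e
  have := T.inj (a₁ := Sum.inr a) (a₂ := Sum.inr b) e
  exact h (Sum.inr.inj this)

theorem st_ne_clk : T.st ≠ T.clk := named_ne T (a := 0) (b := 1) (by decide)
theorem st_ne_clk2 : T.st ≠ T.clk2 := named_ne T (a := 0) (b := 2) (by decide)
theorem st_ne_x : T.st ≠ T.x := named_ne T (a := 0) (b := 3) (by decide)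
theorem st_ne_y : T.st ≠ T.y := named_ne T (a := 0) (b := 4) (by decide)
theorem st_ne_o : T.st ≠ T.o := named_ne T (a := 0) (b := 5) (by decide)
theorem st_ne_fl : T.st ≠ T.fl := named_ne T (a := 0) (b := 6) (by decide)
theorem clk_ne_clk2 : T.clk ≠ T.clk2 := named_ne T (a := 1) (b := 2) (by decide)
theorem clk_ne_x : T.clk ≠ T.x := named_ne T (a := 1) (b := 3) (by decide)
theorem clk_ne_y : T.clk ≠ T.y := named_ne T (a := 1) (b := 4) (by decide)
theorem clk_ne_o : T.clk ≠ T.o := named_ne T (a := 1) (b := 5) (by decide)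
theorem clk_ne_fl : T.clk ≠ T.fl := named_ne T (a := 1) (b := 6) (by decide)
theorem clk2_ne_x : T.clk2 ≠ T.x := named_ne T (a := 2) (b := 3) (by decide)
theorem clk2_ne_y : T.clk2 ≠ T.y := named_ne T (a := 2) (b := 4) (by decide)
theorem clk2_ne_o : T.clk2 ≠ T.o := named_ne T (a := 2) (b := 5) (by decide)
theorem clk2_ne_fl : T.clk2 ≠ T.fl := named_ne T (a := 2) (b := 6) (by decide)
theorem x_ne_y : T.x ≠ T.y := named_ne T (a := 3) (b := 4) (by decide)
theorem x_ne_o : T.x ≠ T.o := named_ne T (a := 3) (b := 5) (by decide)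
theorem x_ne_fl : T.x ≠ T.fl := named_ne T (a := 3) (b := 6) (by decide)
theorem y_ne_o : T.y ≠ T.o := named_ne T (a := 4) (b := 5) (by decide)
theorem y_ne_fl : T.y ≠ T.fl := named_ne T (a := 4) (b := 6) (by decide)
theorem o_ne_fl : T.o ≠ T.fl := named_ne T (a := 5) (b := 6) (by decide)

end AC

end Vale.Agent.H91.MT
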