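import Vale.Agent.H91.MT.ACall_Prog

/-!
# TASK ACALL, part 4: initialising the simulated tapes and loading the operands
-/

namespace Vale.Agent.H91.MT.AC

variable {A : Machine} {K : ℕ}

/-- The symbol of `A` for a bit cell of a work tape. -/
def bitOf : ΓB A → A.Γ
  | Sum.inl Sym.one => A.one
  | _ => A.zero

theorem bitOf_bsym (b : Bool) : bitOf (bsym b : ΓB A) = A.bit b := by
  cases b <;> rfl

theorem bsym_ne_lend {α : Type} (b : Bool) : (bsym b : Sym ⊕ α) ≠ Sum.inl Sym.lend := by
  cases b <;> simp [bsym]

theorem bsym_ne_blank {α : Type} (b : Bool) : (bsym b : Sym ⊕ α) ≠ Sum.inl Sym.blank := by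
  cases b <;> simp [bsym]

theorem lend_not_mem_bsym {α : Type} (l : List Bool) :
    (Sum.inl Sym.lend : Sym ⊕ α) ∉ l.map bsym := by
  intro h
  obtain ⟨b, _, hb⟩ := List.mem_map.mp h
  exact bsym_ne_lend b hb

theorem blank_not_mem_bsym {α : Type} (l : List Bool) :
    (Sum.inl Sym.blank : Sym ⊕ α) ∉ l.map bsym := by
  intro h
  obtain ⟨b, _, hb⟩ := List.mem_map.mp h
  exact bsym_ne_blank b hb

/-- Work tape with head on data cell `n - 1` (on the left-end marker when `n = 0`). -/
def wtL {α : Type} (L : List (Sym ⊕ α)) : ℕ → Tape (Sym ⊕ α)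
  | 0 => WT0 L
  | n + 1 => WT L n

theorem WT_move_L_wtL {α : Type} (L : List (Sym ⊕ α)) (n : ℕ) :
    (WT L n).move Dir.L = wtL L n := by
  cases n <;> rfl

/-- One step of loading: write the bit under the head of `src` on the first simulated tape
(keeping the flag), moving `src` left and the simulated tape right. -/
def loadStep (T : CallTapes A K) (src : Fin K) : Prog (ΓB A) K :=
  Prog.wm2 src (T.sim 0) (fun h => scell (bitOf (h src)) (flagOf (h (T.sim 0)))) Dir.L Dir.R

theorem loadLoop_run (T : CallTapes A K) (src : Fin K) (hsrc : src ≠ T.sim 0) (l : List Bool) :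
    ∀ n, n ≤ l.length → ∀ (s : St (ΓB A) K) (w : List A.Γ), s src = wtL (l.map bsym) n →
      Loaded w (s (T.sim 0)) →
      ∃ u', Loaded (w ++ ((l.take n).reverse.map A.bit)) u' ∧
        Run (Prog.loop (notSym src Sym.lend) (loadStep T src)) s
          (Function.update (Function.update s src (WT0 (l.map bsym))) (T.sim 0) u')
          (2 * n + 1) := by
  intro n
  induction n with
  | zero =>
    intro _ s w hs hw
    refine ⟨s (T.sim 0), by simpa using hw, ?_⟩
    have h0 : notSym src Sym.lend s.heads = false := by
      apply notSym_false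
      rw [hs]
      rfl
    refine (Run.loop_false (p := loadStep T src) h0).cast rfl ?_ rfl
    have e : WT0 (l.map bsym) = s src := hs.symm
    rw [e, Function.update_eq_self, Function.update_eq_self]
  | succ n ih =>
    intro hn s w hs hw
    have hlt : n < l.length := by omega
    have hs' : s src = WT (l.map bsym) n := hs
    have hread : (s src).read = bsym l[n] := by
      rw [hs', WT_read, List.getD_eq_getElem _ _ (by simpa using hlt), List.getElem_map]
    have h1 : notSym src Sym.lend s.heads = true := by
      apply notSym_true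
      rw [hread]
      exact bsym_ne_lend _
    have h2 := Run.wm2 src (T.sim 0) hsrc
      (fun h => scell (bitOf (h src)) (flagOf (h (T.sim 0)))) Dir.L Dir.R s
    have e1 : (s src).move Dir.L = wtL (l.map bsym) n := by
      rw [hs', WT_move_L_wtL]
    have e2 : (scell (bitOf (s.heads src)) (flagOf (s.heads (T.sim 0))) : ΓB A) =
        scell (A.bit l[n]) (flagOf (s (T.sim 0)).read) := by
      show scell (bitOf (s src).read) (flagOf (s (T.sim 0)).read) = _
      rw [hread, bitOf_bsym]
    rw [e1, e2] at h2
    have hw1 := hw.push (A.bit l[n])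
    obtain ⟨u', hu', hrun⟩ := ih (by omega)
      (Function.update (Function.update s src (wtL (l.map bsym) n)) (T.sim 0)
        (((s (T.sim 0)).write (scell (A.bit l[n]) (flagOf (s (T.sim 0)).read))).move Dir.R))
      (w ++ [A.bit l[n]])
      (by rw [Function.update_of_ne hsrc, Function.update_self])
      (by rw [Function.update_self]; exact hw1)
    refine ⟨u', ?_, ?_⟩
    · have : (l.take (n + 1)).reverse.map A.bit = A.bit l[n] :: (l.take n).reverse.map A.bit := by
        rw [List.take_succ_eq_append_getElem hlt, List.reverse_append, List.reverse_singleton,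
          List.singleton_append, List.map_cons]
      rw [this]
      simpa using hu'
    · refine (Run.loop_true h1 h2 hrun).cast rfl ?_ (by ring)
      funext i
      by_cases hi : i = T.sim 0
      · subst hi; simp
      · by_cases hi' : i = src
        · subst hi'; simp [hi]
        · simp [hi, hi']

/-- Load the bits of the stream `src` in reverse order on the first simulated tape. -/
def loadRev (T : CallTapes A K) (src : Fin K) : Prog (ΓB A) K :=
  Prog.seq (walkEnd src) (Prog.seq (Prog.mv src Dir.L)
    (Prog.seq (Prog.loop (notSym src Sym.lend) (loadStep T src)) (Prog.mv src Dir.R)))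

theorem loadRev_run (T : CallTapes A K) (src : Fin K) (hsrc : src ≠ T.sim 0) (l : List Bool)
    (s : St (ΓB A) K) (w : List A.Γ) (hs : s src = WT (l.map bsym) 0)
    (hw : Loaded w (s (T.sim 0))) :
    ∃ u', Loaded (w ++ (l.reverse.map A.bit)) u' ∧
      RunLe (loadRev T src) s (Function.update s (T.sim 0) u') (4 * l.length + 4) := by
  have hLlen : (l.map (bsym : Bool → ΓB A)).length = l.length := List.length_map _
  have h1 := walkEnd_run src (l.map (bsym : Bool → ΓB A)) (blank_not_mem_bsym l) l.length 0
    (by rw [hLlen]; omega) s hs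
  rw [hLlen] at h1
  have h2 := Run.mv src Dir.L (Function.update s src (WT (l.map bsym) l.length))
  simp only [Function.update_self, Function.update_idem, WT_move_L_wtL] at h2
  obtain ⟨u', hu', h3⟩ := loadLoop_run T src hsrc l l.length le_rfl
    (Function.update s src (wtL (l.map bsym) l.length)) w (by simp)
    (by rw [Function.update_of_ne (Ne.symm hsrc)]; exact hw)
  simp only [Function.update_idem] at h3
  have h4 := Run.mv src Dir.R
    (Function.update (Function.update s src (WT0 (l.map bsym))) (T.sim 0) u')
  refine ⟨u', by simpa using hu', ?_⟩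
  have h := Run.seq h1 (Run.seq h2 (Run.seq h3 h4))
  refine ⟨_, ?_, h.cast rfl ?_ rfl⟩
  · omega
  · funext i
    by_cases hi : i = T.sim 0
    · subst hi
      simp [Function.update_of_ne (Ne.symm hsrc)]
    · by_cases hi' : i = src
      · subst hi'
        simp [hi, hs]
      · simp [hi, hi']

/-- Append the separator to the first simulated tape. -/
def hashP (T : CallTapes A K) : Prog (ΓB A) K :=
  Prog.wm (T.sim 0) (fun h => scell A.hash (flagOf (h (T.sim 0)))) Dir.R

theorem hashP_run (T : CallTapes A K) (s : St (ΓB A) K) (w : List A.Γ)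
    (hw : Loaded w (s (T.sim 0))) :
    ∃ u', Loaded (w ++ [A.hash]) u' ∧ Run (hashP T) s (Function.update s (T.sim 0) u') 1 :=
  ⟨_, hw.push A.hash, Run.wm (T.sim 0) _ Dir.R s⟩

/-- Initialise: flag cell 0 of every simulated tape and write the start state of `A`. -/
noncomputable def initP (T : CallTapes A K) : Prog (ΓB A) K :=
  Prog.step fun h => Function.update
    (Function.extend T.sim (fun _ => ((scell A.blank true : ΓB A), Dir.S)) (idle h))
    T.st (Sum.inr (Sum.inr A.q0), Dir.S)

theorem blankTape_write_state (q : A.Q) :
    ((blankTape : Tape (ΓB A)).write (Sum.inr (Sum.inr q))).move Dir.S = stTape q := by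
  rw [blankTape_eq]
  rfl

theorem initP_run (T : CallTapes A K) (s : St (ΓB A) K) (hsim : ∀ j, s (T.sim j) = blankTape)
    (hst : s T.st = blankTape) :
    ∃ s', Run (initP T) s s' 1 ∧ (∀ j, s' (T.sim j) = initTape) ∧ s' T.st = stTape A.q0 ∧
      ∀ i, (∀ j, i ≠ T.sim j) → i ≠ T.st → s' i = s i := by
  refine ⟨_, Run.step _ s, ?_, ?_, ?_⟩
  · intro j
    simp only [St.act]
    rw [Function.update_of_ne ((sim_ne_st T) j), (sim_inj T).extend_apply, hsim j]
    exact blankTape_write_init
  · simp only [St.act, Function.update_self]
    rw [hst]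
    exact blankTape_write_state A.q0
  · intro i hi hi'
    apply act_idle
    rw [Function.update_of_ne hi', Function.extend_apply']
    · rfl
    · rintro ⟨j, hj⟩
      exact hi j hj.symm

end Vale.Agent.H91.MT.AC
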