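import Vale.Agent.H91.MT.ACall_Run

/-!
# TASK ACALL, part 6: the complete loading phase establishes the simulation invariant
-/

namespace Vale.Agent.H91.MT.AC

variable {A : Machine} {K : ℕ}

/-- Initialise, load `x` reversed, the separator, `y` reversed, and rewind. -/
noncomputable def loadP (T : CallTapes A K) : Prog (ΓB A) K :=
  Prog.seq (initP T) (Prog.seq (loadRev T T.x) (Prog.seq (hashP T)
    (Prog.seq (loadRev T T.y) (rewSim (T.sim 0)))))

theorem loadP_run (T : CallTapes A K) (xs ys : List Bool) (s : St (ΓB A) K)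
    (hsim : ∀ j, s (T.sim j) = blankTape) (hst : s T.st = blankTape)
    (hx : s T.x = WT (xs.map bsym) 0) (hy : s T.y = WT (ys.map bsym) 0) :
    ∃ s' m, RunLe (loadP T) s s' (6 * xs.length + 6 * ys.length + 14) ∧
      SimInv T (init A (mulInput A xs.reverse ys.reverse)) s' m ∧
      (∀ j, m j ≤ xs.length + ys.length + 1) ∧
      ∀ i, (∀ j, i ≠ T.sim j) → i ≠ T.st → s' i = s i := by
  obtain ⟨s1, hr1, hsim1, hst1, hfr1⟩ := initP_run T s hsim hst
  have hx1 : s1 T.x = WT (xs.map bsym) 0 := by
    rw [hfr1 T.x (fun j => ((sim_ne_x T) j).symm) (st_ne_x T).symm, hx]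
  have hy1 : s1 T.y = WT (ys.map bsym) 0 := by
    rw [hfr1 T.y (fun j => ((sim_ne_y T) j).symm) (st_ne_y T).symm, hy]
  have hw0 : Loaded ([] : List A.Γ) (s1 (T.sim 0)) := by
    rw [hsim1 0]
    exact loaded_init
  obtain ⟨u2, hu2, hr2⟩ := loadRev_run T T.x ((sim_ne_x T) 0).symm xs s1 [] hx1 hw0
  obtain ⟨u3, hu3, hr3⟩ := hashP_run T (Function.update s1 (T.sim 0) u2) _
    (by rw [Function.update_self]; exact hu2)
  rw [Function.update_idem] at hr3
  obtain ⟨u4, hu4, hr4⟩ := loadRev_run T T.y ((sim_ne_y T) 0).symm ys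
    (Function.update s1 (T.sim 0) u3) _
    (by rw [Function.update_of_ne ((sim_ne_y T) 0).symm]; exact hy1)
    (by rw [Function.update_self]; exact hu3)
  rw [Function.update_idem] at hr4
  have hr5 := rewSim_run (T.sim 0) u4.cells hu4.flag u4.head
    (Function.update s1 (T.sim 0) u4) (by rw [Function.update_self])
  rw [Function.update_idem] at hr5
  have hword : ([] ++ xs.reverse.map A.bit ++ [A.hash] ++ ys.reverse.map A.bit) =
      mulInput A xs.reverse ys.reverse := by
    simp [mulInput]
  rw [hword] at hu4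
  have hlen : (mulInput A xs.reverse ys.reverse).length = xs.length + ys.length + 1 := by
    simp [mulInput]
    omega
  have hhead : u4.head = xs.length + ys.length + 1 := by rw [hu4.head, hlen]
  refine ⟨Function.update s1 (T.sim 0) ⟨0, u4.cells⟩,
    fun j => if j = 0 then (mulInput A xs.reverse ys.reverse).length else 1, ?_,
    ⟨fun j => ?_, ?_⟩, fun j => ?_, fun i hi hi' => ?_⟩
  · have h := RunLe.seq hr1.le (RunLe.seq hr2 (RunLe.seq hr3.le (RunLe.seq hr4 hr5.le)))
    refine h.mono ?_
    rw [hhead]
    omega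
  · by_cases hj : j = 0
    · subst hj
      rw [Function.update_self]
      simp only [if_true, init]
      exact hu4.rep (by rw [hlen]; omega)
    · rw [Function.update_of_ne (fun e => hj ((sim_inj T) e)), hsim1 j]
      simp only [hj, if_false, init]
      exact rep_initTape
  · rw [Function.update_of_ne ((sim_ne_st T) 0).symm, hst1]
    rfl
  · by_cases hj : j = 0
    · simp only [hj, if_true]
      rw [hlen]
    · simp only [hj, if_false]
      omega
  · rw [Function.update_of_ne (hi 0), hfr1 i hi hi']

end Vale.Agent.H91.MT.AC
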