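import Vale.Agent.H91.MT.ACall_Rep

/-!
# TASK ACALL, part 3: small generic programs (walks, rewinding and erasing simulated tapes)
-/

namespace Vale.Agent.H91.MT.AC

variable {A : Machine} {K : ℕ}

/-- Write `g heads` on tape `b` and move its head in direction `db`, and move the head of tape
`a` in direction `da`. -/
def Prog.wm2 {Γ : Type} (a b : Fin K) (g : (Fin K → Γ) → Γ) (da db : Dir) : Prog Γ K :=
  Prog.step fun h i => if i = b then (g h, db) else if i = a then (h i, da) else (h i, Dir.S)

theorem Run.wm2 {Γ : Type} (a b : Fin K) (hab : a ≠ b) (g : (Fin K → Γ) → Γ) (da db : Dir)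
    (s : St Γ K) :
    Run (Prog.wm2 a b g da db) s
      (Function.update (Function.update s a ((s a).move da)) b
        (((s b).write (g s.heads)).move db)) 1 := by
  have h := Run.step
    (fun h i => if i = b then (g h, db) else if i = a then (h i, da) else (h i, Dir.S)) s
  have e : s.act ((fun h i => if i = b then (g h, db) else if i = a then (h i, da)
      else (h i, Dir.S)) s.heads) =
      Function.update (Function.update s a ((s a).move da)) b
        (((s b).write (g s.heads)).move db) := by
    funext i
    by_cases hi : i = b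
    · subst hi; simp [St.act]
    · by_cases hi' : i = a
      · subst hi'; simp [St.act, St.heads, hi, Tape.write_read]
      · simp [St.act, St.heads, hi, hi', Tape.write_read, Tape.move]
  rw [e] at h
  exact h

/-- A step whose action is idle on tape `i` leaves that tape alone. -/
theorem act_idle {Γ : Type} (s : St Γ K) (a : Fin K → Γ × Dir) (i : Fin K)
    (h : a i = (s.heads i, Dir.S)) : s.act a i = s i := by
  simp [St.act, h, St.heads, Tape.write_read, Tape.move]

/-! ## Walking a work tape to its end -/

/-- Move the head of the work tape `a` right to the first blank. -/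
def walkEnd {α : Type} (a : Fin K) : Prog (Sym ⊕ α) K :=
  Prog.loop (notSym a Sym.blank) (Prog.mv a Dir.R)

theorem walkEnd_run {α : Type} (a : Fin K) (l : List (Sym ⊕ α)) (hl : Sum.inl Sym.blank ∉ l) :
    ∀ (d p : ℕ), p + d = l.length → ∀ (s : St (Sym ⊕ α) K), s a = WT l p →
    Run (walkEnd a) s (Function.update s a (WT l l.length)) (2 * d + 1) := by
  intro d
  induction d with
  | zero =>
    intro p hp s hs
    have hp' : p = l.length := by omega
    subst hp'
    have h0 : notSym a Sym.blank s.heads = false := by
      apply notSym_false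
      rw [hs, WT_read, List.getD_eq_default _ _ le_rfl]
    refine (Run.loop_false (p := Prog.mv a Dir.R) h0).cast rfl ?_ rfl
    rw [← hs, Function.update_eq_self]
  | succ d ih =>
    intro p hp s hs
    have hlt : p < l.length := by omega
    have h1 : notSym a Sym.blank s.heads = true := by
      apply notSym_true
      rw [hs, WT_read, List.getD_eq_getElem _ _ hlt]
      intro h
      exact hl (h ▸ List.getElem_mem hlt)
    have h2 := Run.mv a Dir.R s
    rw [hs, WT_move_R] at h2
    have h3 := ih (p + 1) (by omega) (Function.update s a (WT l (p + 1))) (by simp)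
    rw [Function.update_idem] at h3
    exact (Run.loop_true h1 h2 h3).cast rfl rfl (by ring)

/-! ## Rewinding a simulated tape -/

/-- Move the head of the simulated tape `a` left to the flagged cell. -/
def rewSim (a : Fin K) : Prog (ΓB A) K :=
  Prog.loop (fun h => !flagOf (h a)) (Prog.mv a Dir.L)

theorem rewSim_run (a : Fin K) (c : ℕ → ΓB A) (hfl : ∀ i, flagOf (c i) = decide (i = 0)) :
    ∀ (p : ℕ) (s : St (ΓB A) K), s a = ⟨p, c⟩ →
    Run (rewSim a) s (Function.update s a ⟨0, c⟩) (2 * p + 1) := by
  intro p
  induction p with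
  | zero =>
    intro s hs
    have h0 : (fun h : Fin K → ΓB A => !flagOf (h a)) s.heads = false := by
      simp [St.heads, hs, Tape.read, hfl]
    refine (Run.loop_false (p := Prog.mv a Dir.L) h0).cast rfl ?_ rfl
    rw [← hs, Function.update_eq_self]
  | succ p ih =>
    intro s hs
    have h1 : (fun h : Fin K → ΓB A => !flagOf (h a)) s.heads = true := by
      simp [St.heads, hs, Tape.read, hfl]
    have h2 := Run.mv a Dir.L s
    rw [hs] at h2
    have e : (⟨p + 1, c⟩ : Tape (ΓB A)).move Dir.L = ⟨p, c⟩ := by simp [Tape.move]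
    rw [e] at h2
    have h3 := ih (Function.update s a ⟨p, c⟩) (by simp)
    rw [Function.update_idem] at h3
    exact (Run.loop_true h1 h2 h3).cast rfl rfl (by ring)

/-! ## Erasing a simulated tape -/

/-- Move the head of the simulated tape `a` right to the first unvisited cell. -/
def walkVis (a : Fin K) : Prog (ΓB A) K :=
  Prog.loop (notSym a Sym.blank) (Prog.mv a Dir.R)

theorem walkVis_run (a : Fin K) (c : ℕ → ΓB A) (m : ℕ)
    (hc : ∀ i, i < m → c i ≠ Sum.inl Sym.blank) (hb : c m = Sum.inl Sym.blank) :
    ∀ (d p : ℕ), p + d = m → ∀ (s : St (ΓB A) K), s a = ⟨p, c⟩ →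
    Run (walkVis a) s (Function.update s a ⟨m, c⟩) (2 * d + 1) := by
  intro d
  induction d with
  | zero =>
    intro p hp s hs
    have hp' : p = m := by omega
    subst hp'
    have h0 : notSym a Sym.blank s.heads = false := by
      apply notSym_false
      rw [hs]
      exact hb
    refine (Run.loop_false (p := Prog.mv a Dir.R) h0).cast rfl ?_ rfl
    rw [← hs, Function.update_eq_self]
  | succ d ih =>
    intro p hp s hs
    have h1 : notSym a Sym.blank s.heads = true := by
      apply notSym_true
      rw [hs]
      exact hc p (by omega)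
    have h2 := Run.mv a Dir.R s
    rw [hs] at h2
    have e : (⟨p, c⟩ : Tape (ΓB A)).move Dir.R = ⟨p + 1, c⟩ := by simp [Tape.move]
    rw [e] at h2
    have h3 := ih (p + 1) (by omega) (Function.update s a ⟨p + 1, c⟩) (by simp)
    rw [Function.update_idem] at h3
    exact (Run.loop_true h1 h2 h3).cast rfl rfl (by ring)

/-- The cells `0 .. p` of `c`, blank beyond. -/
def keepTo (c : ℕ → ΓB A) (p : ℕ) : ℕ → ΓB A :=
  fun i => if i ≤ p then c i else Sum.inl Sym.blank

/-- Erase leftwards up to (not including) the flagged cell. -/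
def eraseLeft (a : Fin K) : Prog (ΓB A) K :=
  Prog.loop (fun h => !flagOf (h a)) (Prog.wm a (fun _ => Sum.inl Sym.blank) Dir.L)

theorem eraseLeft_run (a : Fin K) (c : ℕ → ΓB A) (hfl : ∀ i, flagOf (c i) = decide (i = 0)) :
    ∀ (p : ℕ) (s : St (ΓB A) K), s a = ⟨p, keepTo c p⟩ →
    Run (eraseLeft a) s (Function.update s a ⟨0, keepTo c 0⟩) (2 * p + 1) := by
  intro p
  induction p with
  | zero =>
    intro s hs
    have h0 : (fun h : Fin K → ΓB A => !flagOf (h a)) s.heads = false := by
      simp [St.heads, hs, Tape.read, keepTo, hfl]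
    refine (Run.loop_false (p := Prog.wm a (fun _ => Sum.inl Sym.blank) Dir.L) h0).cast rfl ?_ rfl
    rw [← hs, Function.update_eq_self]
  | succ p ih =>
    intro s hs
    have h1 : (fun h : Fin K → ΓB A => !flagOf (h a)) s.heads = true := by
      simp [St.heads, hs, Tape.read, keepTo, hfl]
    have h2 := Run.wm a (fun _ => (Sum.inl Sym.blank : ΓB A)) Dir.L s
    rw [hs] at h2
    have e : ((⟨p + 1, keepTo c (p + 1)⟩ : Tape (ΓB A)).write (Sum.inl Sym.blank)).move Dir.L =
        ⟨p, keepTo c p⟩ := by
      simp only [Tape.move, Tape.write, Nat.add_sub_cancel]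
      congr 1
      funext i
      by_cases hi : i = p + 1
      · subst hi; simp [keepTo]
      · rw [Function.update_of_ne hi]
        simp only [keepTo]
        by_cases h' : i ≤ p
        · have : i ≤ p + 1 := by omega
          simp [h', this]
        · have : ¬ i ≤ p + 1 := by omega
          simp [h', this]
    rw [e] at h2
    have h3 := ih (Function.update s a ⟨p, keepTo c p⟩) (by simp)
    rw [Function.update_idem] at h3
    exact (Run.loop_true h1 h2 h3).cast rfl rfl (by ring)

/-- Erase the simulated tape `a` completely and leave its head on cell 0. -/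
def cleanSim (a : Fin K) : Prog (ΓB A) K :=
  Prog.seq (walkVis a) (Prog.seq (Prog.mv a Dir.L)
    (Prog.seq (eraseLeft a) (Prog.wm a (fun _ => Sum.inl Sym.blank) Dir.S)))

theorem cleanSim_run (a : Fin K) (u : Tape (ΓB A)) (m : ℕ) (hv : Vis u m) (s : St (ΓB A) K)
    (hs : s a = u) : RunLe (cleanSim a) s (Function.update s a blankTape) (4 * m + 4) := by
  obtain ⟨p, c⟩ := u
  have hpos := hv.pos
  have hle : p ≤ m := hv.le
  have hfl : ∀ i, flagOf (c i) = decide (i = 0) := hv.flag
  have hc : ∀ i, i < m → c i ≠ Sum.inl Sym.blank := by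
    intro i hi
    obtain ⟨g, hg⟩ := hv.cells i hi
    have hg' : c i = scell g (decide (i = 0)) := hg
    rw [hg']
    exact scell_ne_blank _ _
  have hb : ∀ i, m ≤ i → c i = Sum.inl Sym.blank := hv.blank
  have h1 := walkVis_run a c m hc (hb m le_rfl) (m - p) p (by omega) s hs
  have h2 := Run.mv a Dir.L (Function.update s a ⟨m, c⟩)
  simp only [Function.update_self, Function.update_idem] at h2
  have e2 : (⟨m, c⟩ : Tape (ΓB A)).move Dir.L = ⟨m - 1, keepTo c (m - 1)⟩ := by
    simp only [Tape.move]
    congr 1
    funext i
    simp only [keepTo]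
    by_cases hi : i ≤ m - 1
    · simp [hi]
    · simp only [hi, if_false]
      exact hb i (by omega)
  rw [e2] at h2
  have h3 := eraseLeft_run a c hfl (m - 1) (Function.update s a ⟨m - 1, keepTo c (m - 1)⟩)
    (by simp)
  rw [Function.update_idem] at h3
  have h4 := Run.wm a (fun _ => (Sum.inl Sym.blank : ΓB A)) Dir.S
    (Function.update s a ⟨0, keepTo c 0⟩)
  simp only [Function.update_self, Function.update_idem] at h4
  have e4 : ((⟨0, keepTo c 0⟩ : Tape (ΓB A)).write (Sum.inl Sym.blank)).move Dir.S =
      blankTape := by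
    rw [blankTape_eq]
    simp only [Tape.move, Tape.write]
    congr 1
    funext i
    by_cases hi : i = 0
    · subst hi; simp
    · rw [Function.update_of_ne hi]
      simp [keepTo, hi]
  rw [e4] at h4
  have h := Run.seq h1 (Run.seq h2 (Run.seq h3 h4))
  exact ⟨_, by omega, h⟩

end Vale.Agent.H91.MT.AC
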