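import Vale.Agent.H91.MT.ACall_Base

/-!
# TASK ACALL, part 2: representation of the tapes of `A` on tapes of the constructed machine
-/

namespace Vale.Agent.H91.MT.AC

variable {A : Machine}

/-- A cell of a simulated tape: the symbol of `A` and the flag marking cell 0. -/
def scell (g : A.Γ) (f : Bool) : ΓB A := Sum.inr (Sum.inl (g, f))

/-- The symbol of `A` seen in a cell (unvisited cells show the blank of `A`). -/
def symOf : ΓB A → A.Γ
  | Sum.inr (Sum.inl (g, _)) => g
  | _ => A.blank

/-- The flag of a cell. -/
def flagOf : ΓB A → Bool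
  | Sum.inr (Sum.inl (_, f)) => f
  | _ => false

/-- The state of `A` stored in a cell. -/
def stOf : ΓB A → Option A.Q
  | Sum.inr (Sum.inr q) => some q
  | _ => none

@[simp] theorem symOf_scell (g : A.Γ) (f : Bool) : symOf (scell g f) = g := rfl
@[simp] theorem flagOf_scell (g : A.Γ) (f : Bool) : flagOf (scell g f) = f := rfl
@[simp] theorem symOf_blank : symOf (Sum.inl Sym.blank : ΓB A) = A.blank := rfl
@[simp] theorem flagOf_inl (x : Sym) : flagOf (Sum.inl x : ΓB A) = false := rfl
@[simp] theorem stOf_state (q : A.Q) : stOf (Sum.inr (Sum.inr q) : ΓB A) = some q := rfl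

theorem scell_ne_blank (g : A.Γ) (f : Bool) : (scell g f : ΓB A) ≠ Sum.inl Sym.blank := by
  intro h
  cases h

/-- The completely blank tape. -/
def blankTape : Tape (ΓB A) := Tape.ofList (Sum.inl Sym.blank) []

theorem blankTape_eq : (blankTape : Tape (ΓB A)) = ⟨0, fun _ => Sum.inl Sym.blank⟩ := by
  unfold blankTape Tape.ofList
  congr 1

/-- The tape holding the state `q` of `A` in cell 0. -/
def stTape (q : A.Q) : Tape (ΓB A) :=
  ⟨0, Function.update (fun _ => Sum.inl Sym.blank) 0 (Sum.inr (Sum.inr q))⟩

@[simp] theorem stTape_read (q : A.Q) : (stTape q).read = Sum.inr (Sum.inr q) := by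
  simp [stTape, Tape.read]

theorem stTape_write (q q' : A.Q) : (stTape q).write (Sum.inr (Sum.inr q')) = stTape q' := by
  simp [stTape, Tape.write]

theorem stTape_erase (q : A.Q) : (stTape q).write (Sum.inl Sym.blank) = blankTape := by
  rw [blankTape_eq]
  simp only [stTape, Tape.write, Function.update_idem]
  congr 1
  funext i
  by_cases hi : i = 0 <;> simp [hi]

/-- `u` represents the tape `t` of `A`, with visited region `[0, m)`. -/
structure Rep (t : Tape A.Γ) (u : Tape (ΓB A)) (m : ℕ) : Prop where
  head : u.head = t.head
  le : t.head ≤ m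
  pos : 1 ≤ m
  cells : ∀ i, u.cells i =
    if i < m then scell (t.cells i) (decide (i = 0)) else Sum.inl Sym.blank
  blank : ∀ i, m ≤ i → t.cells i = A.blank

theorem Rep.read {t : Tape A.Γ} {u : Tape (ΓB A)} {m : ℕ} (h : Rep t u m) :
    symOf u.read = t.read := by
  unfold Tape.read
  rw [h.cells, h.head]
  by_cases hm : t.head < m
  · simp [hm]
  · simp only [hm, if_false, symOf_blank]
    exact (h.blank _ (by omega)).symm

theorem Rep.flag {t : Tape A.Γ} {u : Tape (ΓB A)} {m : ℕ} (h : Rep t u m) :
    flagOf u.read = decide (u.head = 0) := by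
  unfold Tape.read
  rw [h.cells]
  by_cases hm : u.head < m
  · simp [hm]
  · have := h.pos
    simp only [hm, if_false, flagOf_inl]
    symm
    rw [decide_eq_false_iff_not]
    omega

/-- One step of `A` on a represented tape. -/
theorem Rep.step {t : Tape A.Γ} {u : Tape (ΓB A)} {m : ℕ} (h : Rep t u m) (g : A.Γ) (d : Dir) :
    Rep ((t.write g).move d) ((u.write (scell g (flagOf u.read))).move d)
      (max m (t.head + 1)) := by
  have hfl := h.flag
  have hhead := h.head
  have hle := h.le
  have hpos := h.pos
  have key : ∀ i, (u.write (scell g (flagOf u.read))).cells i =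
      if i < max m (t.head + 1) then scell ((t.write g).cells i) (decide (i = 0))
      else Sum.inl Sym.blank := by
    intro i
    simp only [Tape.write]
    by_cases hi : i = u.head
    · subst hi
      rw [Function.update_self, hfl, hhead, Function.update_self]
      have : t.head < max m (t.head + 1) := by omega
      simp [this]
    · rw [Function.update_of_ne hi, h.cells]
      have hi' : i ≠ t.head := by rw [← hhead]; exact hi
      rw [Function.update_of_ne hi']
      by_cases him : i < m
      · have : i < max m (t.head + 1) := by omega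
        simp [him, this]
      · have : ¬ i < max m (t.head + 1) := by omega
        simp [him, this]
  have hb : ∀ i, max m (t.head + 1) ≤ i → (t.write g).cells i = A.blank := by
    intro i hi
    simp only [Tape.write]
    have hi' : i ≠ t.head := by omega
    rw [Function.update_of_ne hi']
    exact h.blank i (by omega)
  cases d with
  | L =>
    exact ⟨by simp [Tape.move, Tape.write, hhead], by simp [Tape.move, Tape.write]; omega,
      by omega, key, hb⟩
  | R =>
    exact ⟨by simp [Tape.move, Tape.write, hhead], by simp [Tape.move, Tape.write],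
      by omega, key, hb⟩
  | S =>
    exact ⟨by simp [Tape.move, Tape.write, hhead], by simp [Tape.move, Tape.write],
      by omega, key, hb⟩

/-- A visited region `[0, m)` with cell 0 flagged, blank beyond; no reference to a tape of `A`. -/
structure Vis (u : Tape (ΓB A)) (m : ℕ) : Prop where
  pos : 1 ≤ m
  le : u.head ≤ m
  cells : ∀ i, i < m → ∃ g : A.Γ, u.cells i = scell g (decide (i = 0))
  blank : ∀ i, m ≤ i → u.cells i = Sum.inl Sym.blank

theorem Rep.vis {t : Tape A.Γ} {u : Tape (ΓB A)} {m : ℕ} (h : Rep t u m) : Vis u m :=
  ⟨h.pos, by rw [h.head]; exact h.le, fun i hi => ⟨t.cells i, by rw [h.cells]; simp [hi]⟩,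
    fun i hi => by rw [h.cells]; simp [Nat.not_lt.mpr hi]⟩

theorem Vis.flag {u : Tape (ΓB A)} {m : ℕ} (h : Vis u m) (i : ℕ) :
    flagOf (u.cells i) = decide (i = 0) := by
  by_cases hi : i < m
  · obtain ⟨g, hg⟩ := h.cells i hi
    rw [hg, flagOf_scell]
  · have := h.pos
    rw [h.blank i (by omega), flagOf_inl]
    symm
    rw [decide_eq_false_iff_not]
    omega

theorem Vis.rehead {u : Tape (ΓB A)} {m : ℕ} (h : Vis u m) (p : ℕ) (hp : p ≤ m) :
    Vis (⟨p, u.cells⟩ : Tape (ΓB A)) m :=
  ⟨h.pos, hp, h.cells, h.blank⟩

/-- During loading: the word `w` has been written on cells `0 .. |w| - 1`, the head is on cell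
`|w|`, and cell 0 is flagged (holding the blank of `A` while `w` is empty). -/
structure Loaded (w : List A.Γ) (u : Tape (ΓB A)) : Prop where
  head : u.head = w.length
  cells : ∀ i, u.cells i =
    if i < w.length then scell (w.getD i A.blank) (decide (i = 0))
    else if i = 0 then scell A.blank true else Sum.inl Sym.blank

/-- The tape after initialisation: flagged blank of `A` in cell 0. -/
def initTape : Tape (ΓB A) :=
  ⟨0, Function.update (fun _ => Sum.inl Sym.blank) 0 (scell A.blank true)⟩

theorem blankTape_write_init :
    ((blankTape : Tape (ΓB A)).write (scell A.blank true)).move Dir.S = initTape := by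
  rw [blankTape_eq]
  rfl

theorem loaded_init : Loaded ([] : List A.Γ) initTape := by
  refine ⟨rfl, fun i => ?_⟩
  by_cases hi : i = 0
  · subst hi; simp [initTape]
  · simp [initTape, hi]

theorem Loaded.flag {w : List A.Γ} {u : Tape (ΓB A)} (h : Loaded w u) (i : ℕ) :
    flagOf (u.cells i) = decide (i = 0) := by
  rw [h.cells]
  by_cases hi : i < w.length
  · simp [hi]
  · by_cases h0 : i = 0
    · subst h0
      simp [hi]
    · simp [hi, h0]

theorem Loaded.push {w : List A.Γ} {u : Tape (ΓB A)} (h : Loaded w u) (g : A.Γ) :
    Loaded (w ++ [g]) ((u.write (scell g (flagOf u.read))).move Dir.R) := by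
  have hfl : flagOf u.read = decide (w.length = 0) := by
    unfold Tape.read
    rw [h.flag, h.head]
  refine ⟨by simp [Tape.move, Tape.write, h.head], fun i => ?_⟩
  simp only [Tape.move, Tape.write, List.length_append, List.length_singleton]
  by_cases hi : i = u.head
  · subst hi
    rw [Function.update_self, hfl, h.head]
    simp
  · rw [Function.update_of_ne hi, h.cells]
    rw [h.head] at hi
    by_cases hlt : i < w.length
    · have : i < w.length + 1 := by omega
      simp only [hlt, this, if_true]
      rw [List.getD_append _ _ _ _ hlt]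
    · have : ¬ i < w.length + 1 := by omega
      simp [hlt, this]

/-- After loading a nonempty word and rewinding, the tape represents `Tape.ofList w`. -/
theorem Loaded.rep {w : List A.Γ} {u : Tape (ΓB A)} (h : Loaded w u) (hw : 1 ≤ w.length) :
    Rep (Tape.ofList A.blank w) (⟨0, u.cells⟩ : Tape (ΓB A)) w.length := by
  refine ⟨rfl, Nat.zero_le _, hw, fun i => ?_, fun i hi => ?_⟩
  · show u.cells i = _
    rw [h.cells]
    by_cases hi : i < w.length
    · simp [hi, Tape.ofList]
    · have : i ≠ 0 := by omega
      simp [hi, this]
  · simp only [Tape.ofList]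
    rw [List.getD_eq_default _ _ hi]

/-- A freshly initialised tape represents the empty tape of `A`. -/
theorem rep_initTape : Rep (Tape.ofList A.blank []) (initTape : Tape (ΓB A)) 1 := by
  refine ⟨rfl, Nat.zero_le _, le_rfl, fun i => ?_, fun i _ => ?_⟩
  · by_cases hi : i = 0
    · subst hi; simp [initTape, Tape.ofList]
    · have : ¬ i < 1 := by omega
      simp [initTape, hi, this]
  · simp [Tape.ofList]

end Vale.Agent.H91.MT.AC
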