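import Vale.Agent.H91.MT.ACall_Load

/-!
# TASK ACALL, part 5: the step-by-step simulation of `A` under a clock
-/

namespace Vale.Agent.H91.MT.AC

variable {A : Machine} {K : ℕ}

/-! ## Facts about `step` and `stepN` -/

theorem step_eq_some {M : Machine} {c c1 : Cfg M} (h : step M c = some c1) :
    ∃ q' w, M.δ c.q (fun i => (c.tape i).read) = some (q', w) ∧
      c1 = ⟨q', fun i => ((c.tape i).write (w i).1).move (w i).2⟩ := by
  unfold step at h
  split at h
  · cases h
  · rename_i q' w hδ
    exact ⟨q', w, hδ, (Option.some.inj h).symm⟩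

theorem step_eq_none {M : Machine} {c : Cfg M} (h : step M c = none) :
    M.δ c.q (fun i => (c.tape i).read) = none := by
  unfold step at h
  split at h
  · assumption
  · cases h

theorem stepN_succ_eq {M : Machine} {n : ℕ} {c c' : Cfg M} (h : stepN M (n + 1) c = some c') :
    ∃ c1, step M c = some c1 ∧ stepN M n c1 = some c' := by
  have h' : (step M c).bind (stepN M n) = some c' := h
  cases hs : step M c with
  | none => rw [hs] at h'; cases h'
  | some c1 => rw [hs] at h'; exact ⟨c1, rfl, h'⟩

theorem stepN_prefix {M : Machine} : ∀ (n t : ℕ) (c c' : Cfg M), stepN M t c = some c' → n ≤ t →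
    ∃ c2, stepN M n c = some c2 ∧ stepN M (t - n) c2 = some c' := by
  intro n
  induction n with
  | zero =>
    intro t c c' h _
    exact ⟨c, rfl, h⟩
  | succ n ih =>
    intro t c c' h hn
    obtain ⟨t', rfl⟩ : ∃ t', t = t' + 1 := ⟨t - 1, by omega⟩
    obtain ⟨c1, h1, h2⟩ := stepN_succ_eq h
    obtain ⟨c2, h3, h4⟩ := ih t' c1 c' h2 (by omega)
    refine ⟨c2, ?_, ?_⟩
    · show (step M c).bind (stepN M n) = some c2
      rw [h1]
      exact h3
    · have e : t' + 1 - (n + 1) = t' - n := by omega
      rw [e]
      exact h4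

/-! ## The simulation step -/

/-- The symbols of `A` under the heads of the simulated tapes. -/
def simHeads (T : CallTapes A K) (h : Fin K → ΓB A) : Fin (A.k + 1) → A.Γ :=
  fun j => symOf (h (T.sim j))

/-- The transition of `A` for the stored state and the simulated heads. -/
def simDelta (T : CallTapes A K) (h : Fin K → ΓB A) :
    Option (A.Q × (Fin (A.k + 1) → A.Γ × Dir)) :=
  (stOf (h T.st)).bind fun q => A.δ q (simHeads T h)

/-- The action simulating one step of `A` (and advancing the clock). -/
noncomputable def simAct (T : CallTapes A K) (h : Fin K → ΓB A) : Fin K → ΓB A × Dir :=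
  match simDelta T h with
  | none => idle h
  | some (q', w) =>
    Function.update (Function.update
      (Function.extend T.sim (fun j => (scell (w j).1 (flagOf (h (T.sim j))), (w j).2)) (idle h))
      T.st (Sum.inr (Sum.inr q'), Dir.S)) T.clk (h T.clk, Dir.R)

/-- The test of the simulation loop: `A` has not halted and the clock has not run out. -/
def simTest (T : CallTapes A K) (h : Fin K → ΓB A) : Bool :=
  (simDelta T h).isSome && isSym T.clk Sym.one h

/-- The simulation loop. -/
noncomputable def runLoop (T : CallTapes A K) : Prog (ΓB A) K :=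
  Prog.loop (simTest T) (Prog.step (simAct T))

/-- The simulation invariant: the simulated tapes represent the tapes of the configuration `c`
of `A`, and the state tape holds its state. -/
structure SimInv (T : CallTapes A K) (c : Cfg A) (s : St (ΓB A) K) (m : Fin (A.k + 1) → ℕ) :
    Prop where
  rep : ∀ j, Rep (c.tape j) (s (T.sim j)) (m j)
  st : s T.st = stTape c.q

theorem SimInv.delta {T : CallTapes A K} {c : Cfg A} {s : St (ΓB A) K} {m : Fin (A.k + 1) → ℕ}
    (h : SimInv T c s m) : simDelta T s.heads = A.δ c.q (fun i => (c.tape i).read) := by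
  have h1 : stOf (s.heads T.st) = some c.q := by
    show stOf (s T.st).read = some c.q
    rw [h.st, stTape_read, stOf_state]
  have h2 : simHeads T s.heads = fun i => (c.tape i).read := by
    funext j
    exact (h.rep j).read
  unfold simDelta
  rw [h1, h2]
  rfl

theorem SimInv.test_true {T : CallTapes A K} {c c1 : Cfg A} {s : St (ΓB A) K}
    {m : Fin (A.k + 1) → ℕ} (h : SimInv T c s m) (hc : step A c = some c1) {β p : ℕ}
    (hclk : s T.clk = ruler β p) (hp : p < β) : simTest T s.heads = true := by
  obtain ⟨q', w, hδ, _⟩ := step_eq_some hc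
  unfold simTest
  rw [h.delta, hδ, isSym_true T.clk Sym.one s (by rw [hclk, ruler_read_lt hp])]
  rfl

theorem SimInv.test_false_halt {T : CallTapes A K} {c : Cfg A} {s : St (ΓB A) K}
    {m : Fin (A.k + 1) → ℕ} (h : SimInv T c s m) (hc : step A c = none) :
    simTest T s.heads = false := by
  unfold simTest
  rw [h.delta, step_eq_none hc]
  rfl

theorem simTest_false_clock (T : CallTapes A K) (s : St (ΓB A) K) {β : ℕ}
    (hclk : s T.clk = ruler β β) : simTest T s.heads = false := by
  unfold simTest
  rw [isSym_false T.clk Sym.one s (by rw [hclk, ruler_read_ge le_rfl]; simp)]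
  simp

theorem SimInv.isNone_halt {T : CallTapes A K} {c : Cfg A} {s : St (ΓB A) K}
    {m : Fin (A.k + 1) → ℕ} (h : SimInv T c s m) (hc : step A c = none) :
    (simDelta T s.heads).isNone = true := by
  rw [h.delta, step_eq_none hc]
  rfl

theorem SimInv.isNone_run {T : CallTapes A K} {c c1 : Cfg A} {s : St (ΓB A) K}
    {m : Fin (A.k + 1) → ℕ} (h : SimInv T c s m) (hc : step A c = some c1) :
    (simDelta T s.heads).isNone = false := by
  obtain ⟨q', w, hδ, _⟩ := step_eq_some hc
  rw [h.delta, hδ]
  rfl

/-- One simulated step. -/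
theorem SimInv.step {T : CallTapes A K} {c c1 : Cfg A} {s : St (ΓB A) K}
    {m : Fin (A.k + 1) → ℕ} (h : SimInv T c s m) (hc : step A c = some c1) {β p : ℕ}
    (hclk : s T.clk = ruler β p) :
    ∃ s1 m1, Run (Prog.step (simAct T)) s s1 1 ∧ SimInv T c1 s1 m1 ∧
      s1 T.clk = ruler β (p + 1) ∧ (∀ j, m1 j ≤ m j + 1) ∧
      ∀ i, (∀ j, i ≠ T.sim j) → i ≠ T.st → i ≠ T.clk → s1 i = s i := by
  obtain ⟨q', w, hδ, rfl⟩ := step_eq_some hc
  have hact : simAct T s.heads = Function.update (Function.update
      (Function.extend T.sim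
        (fun j => (scell (w j).1 (flagOf (s.heads (T.sim j))), (w j).2)) (idle s.heads))
      T.st (Sum.inr (Sum.inr q'), Dir.S)) T.clk (s.heads T.clk, Dir.R) := by
    unfold simAct
    rw [h.delta, hδ]
  refine ⟨s.act (simAct T s.heads), fun j => max (m j) ((c.tape j).head + 1), Run.step _ s,
    ⟨fun j => ?_, ?_⟩, ?_, fun j => ?_, fun i hi hi' hi'' => ?_⟩
  · have e : s.act (simAct T s.heads) (T.sim j) =
        ((s (T.sim j)).write (scell (w j).1 (flagOf (s (T.sim j)).read))).move (w j).2 := by
      simp only [St.act]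
      rw [hact, Function.update_of_ne ((sim_ne_clk T) j), Function.update_of_ne ((sim_ne_st T) j),
        (sim_inj T).extend_apply]
      rfl
    rw [e]
    exact (h.rep j).step (w j).1 (w j).2
  · simp only [St.act]
    rw [hact, Function.update_of_ne (st_ne_clk T), Function.update_self, h.st, stTape_write]
    rfl
  · simp only [St.act]
    rw [hact, Function.update_self]
    show ((s T.clk).write (s T.clk).read).move Dir.R = _
    rw [Tape.write_read, hclk]
    rfl
  · have := (h.rep j).le
    show max (m j) ((c.tape j).head + 1) ≤ m j + 1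
    omega
  · apply act_idle
    rw [hact, Function.update_of_ne hi'', Function.update_of_ne hi', Function.extend_apply']
    · rfl
    · rintro ⟨j, hj⟩
      exact hi j hj.symm

/-- `n` simulated steps, as an initial part of any run of the loop. -/
theorem SimInv.steps {T : CallTapes A K} {β : ℕ} : ∀ (n : ℕ) (c c2 : Cfg A) (s : St (ΓB A) K)
    (m : Fin (A.k + 1) → ℕ) (p : ℕ), SimInv T c s m → stepN A n c = some c2 →
    s T.clk = ruler β p → p + n ≤ β →
    ∃ s2 m2, SimInv T c2 s2 m2 ∧ s2 T.clk = ruler β (p + n) ∧ (∀ j, m2 j ≤ m j + n) ∧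
      (∀ i, (∀ j, i ≠ T.sim j) → i ≠ T.st → i ≠ T.clk → s2 i = s i) ∧
      ∀ s3 t, Run (runLoop T) s2 s3 t → Run (runLoop T) s s3 (t + 2 * n) := by
  intro n
  induction n with
  | zero =>
    intro c c2 s m p h hc hclk _
    have : c = c2 := Option.some.inj hc
    subst this
    exact ⟨s, m, h, hclk, fun j => le_rfl, fun i _ _ _ => rfl, fun s3 t hr => hr⟩
  | succ n ih =>
    intro c c2 s m p h hc hclk hp
    obtain ⟨c1, hc1, hc2⟩ := stepN_succ_eq hc
    obtain ⟨s1, m1, hr1, h1, hclk1, hm1, hfr1⟩ := h.step hc1 hclk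
    obtain ⟨s2, m2, h2, hclk2, hm2, hfr2, hloop⟩ := ih c1 c2 s1 m1 (p + 1) h1 hc2 hclk1 (by omega)
    refine ⟨s2, m2, h2, ?_, fun j => ?_, fun i hi hi' hi'' => ?_, fun s3 t hr => ?_⟩
    · rw [hclk2]
      congr 1
      omega
    · have := hm1 j
      have := hm2 j
      omega
    · rw [hfr2 i hi hi' hi'', hfr1 i hi hi' hi'']
    · have htest := h.test_true hc1 hclk (by omega)
      exact (Run.loop_true htest hr1 (hloop s3 t hr)).cast rfl rfl (by ring)

end Vale.Agent.H91.MT.AC
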