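import Vale.Agent.H91.MT.ACall_Run

/-!
# TASK ACALL, part 7: unloading the product and cleaning up
-/

namespace Vale.Agent.H91.MT.AC

variable {A : Machine} {K : ℕ}

/-! ## Advancing the output head by the length of a stream -/

/-- Walk the stream `src` to its end, moving the head of tape `b` along. -/
def advLoop (src b : Fin K) : Prog (ΓB A) K :=
  Prog.loop (notSym src Sym.blank) (Prog.cp src b (fun h => h b))

theorem advLoop_run (src b : Fin K) (hsb : src ≠ b) (l : List (ΓB A))
    (hl : Sum.inl Sym.blank ∉ l) (c : ℕ → ΓB A) :
    ∀ (d p q : ℕ), p + d = l.length → ∀ (s : St (ΓB A) K), s src = WT l p → s b = ⟨q, c⟩ →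
    Run (advLoop src b) s
      (Function.update (Function.update s src (WT l l.length)) b ⟨q + d, c⟩) (2 * d + 1) := by
  intro d
  induction d with
  | zero =>
    intro p q hp s hs hb
    have hp' : p = l.length := by omega
    subst hp'
    have h0 : notSym src Sym.blank s.heads = false := by
      apply notSym_false
      rw [hs, WT_read, List.getD_eq_default _ _ le_rfl]
    refine (Run.loop_false (p := Prog.cp src b (fun h => h b)) h0).cast rfl ?_ rfl
    rw [← hs, Function.update_eq_self, Nat.add_zero, ← hb, Function.update_eq_self]
  | succ d ih =>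
    intro p q hp s hs hb
    have hlt : p < l.length := by omega
    have h1 : notSym src Sym.blank s.heads = true := by
      apply notSym_true
      rw [hs, WT_read, List.getD_eq_getElem _ _ hlt]
      intro h
      exact hl (h ▸ List.getElem_mem hlt)
    have h2 := Run.cp src b hsb (fun h => h b) s
    have e : ((s b).write ((fun h : Fin K → ΓB A => h b) s.heads)).move Dir.R = ⟨q + 1, c⟩ := by
      show ((s b).write (s b).read).move Dir.R = _
      rw [Tape.write_read, hb]
      rfl
    rw [e, hs, WT_move_R] at h2
    have h3 := ih (p + 1) (q + 1) (by omega)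
      (Function.update (Function.update s src (WT l (p + 1))) b ⟨q + 1, c⟩)
      (by rw [Function.update_of_ne hsb, Function.update_self]) (by rw [Function.update_self])
    refine (Run.loop_true h1 h2 h3).cast rfl ?_ (by ring)
    funext i
    by_cases hi : i = b
    · subst hi
      simp only [Function.update_self]
      congr 1
      omega
    · by_cases hi' : i = src
      · subst hi'; simp [hi]
      · simp [hi, hi']

/-- Advance the head of tape `b` by the length of the stream `src`; `src` is rewound. -/
def advK (src b : Fin K) : Prog (ΓB A) K :=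
  Prog.seq (advLoop src b) (rewind src)

theorem advK_run (src b : Fin K) (hsb : src ≠ b) (l : List (ΓB A))
    (hl : Sum.inl Sym.blank ∉ l) (hl' : Sum.inl Sym.lend ∉ l) (c : ℕ → ΓB A) (q : ℕ)
    (s : St (ΓB A) K) (hs : s src = WT l 0) (hb : s b = ⟨q, c⟩) :
    RunLe (advK src b) s (Function.update s b ⟨q + l.length, c⟩) (4 * l.length + 5) := by
  have h1 := advLoop_run src b hsb l hl c l.length 0 q (by omega) s hs hb
  have h2 := rewind_run src l hl' l.length
    (Function.update (Function.update s src (WT l l.length)) b ⟨q + l.length, c⟩)
    (by rw [Function.update_of_ne hsb, Function.update_self])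
  have h := Run.seq h1 h2
  refine ⟨_, by omega, h.cast rfl ?_ rfl⟩
  funext i
  by_cases hi : i = src
  · subst hi
    simp [hsb, hs]
  · by_cases hi' : i = b
    · subst hi'; simp [hi]
    · simp [hi, hi']

/-! ## Unloading -/

open Classical in
/-- The work symbol for an output cell of `A`. -/
noncomputable def obit (v : ΓB A) : ΓB A :=
  if symOf v = A.one then Sum.inl Sym.one else Sum.inl Sym.zero

theorem obit_scell_bit (b f : Bool) : obit (scell (A.bit b) f : ΓB A) = bsym b := by
  have hne : A.zero ≠ A.one := by
    have := A.nodup
    simp only [List.nodup_cons, List.mem_cons, not_or] at this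
    exact this.2.1.1
  cases b
  · simp [obit, Machine.bit, bsym, hne]
  · simp [obit, Machine.bit, bsym]

/-- One unloading step: append the bit under the output head to `o`, move the output head
left. -/
noncomputable def unloadStep (T : CallTapes A K) : Prog (ΓB A) K :=
  Prog.wm2 (T.sim A.out) T.o (fun h => obit (h (T.sim A.out))) Dir.L Dir.R

/-- Unload cells down to (not including) the flagged cell. -/
noncomputable def unloadLoop (T : CallTapes A K) : Prog (ΓB A) K :=
  Prog.loop (fun h => !flagOf (h (T.sim A.out))) (unloadStep T)

theorem unloadLoop_run (T : CallTapes A K) (c : ℕ → ΓB A) (bits : ℕ → Bool) (N : ℕ)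
    (hc : ∀ i, i < N → c i = scell (A.bit (bits i)) (decide (i = 0))) :
    ∀ (p : ℕ), p < N → ∀ (s : St (ΓB A) K) (L : List (ΓB A)), s (T.sim A.out) = ⟨p, c⟩ →
    s T.o = WT L L.length →
    Run (unloadLoop T) s
      (Function.update (Function.update s (T.sim A.out) ⟨0, c⟩) T.o
        (WT (L ++ (List.range p).map (fun i => bsym (bits (p - i)))) (L.length + p)))
      (2 * p + 1) := by
  intro p
  induction p with
  | zero =>
    intro hN s L hs ho
    have h0 : (fun h : Fin K → ΓB A => !flagOf (h (T.sim A.out))) s.heads = false := by
      simp [St.heads, hs, Tape.read, hc 0 hN]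
    refine (Run.loop_false (p := unloadStep T) h0).cast rfl ?_ rfl
    rw [← hs, Function.update_eq_self]
    simp only [List.range_zero, List.map_nil, List.append_nil, Nat.add_zero]
    rw [← ho, Function.update_eq_self]
  | succ p ih =>
    intro hN s L hs ho
    have h1 : (fun h : Fin K → ΓB A => !flagOf (h (T.sim A.out))) s.heads = true := by
      simp [St.heads, hs, Tape.read, hc (p + 1) hN]
    have h2 := Run.wm2 (T.sim A.out) T.o ((sim_ne_o T) A.out)
      (fun h => obit (h (T.sim A.out))) Dir.L Dir.R s
    have e1 : (s (T.sim A.out)).move Dir.L = ⟨p, c⟩ := by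
      rw [hs]
      simp [Tape.move]
    have e2 : ((s T.o).write ((fun h : Fin K → ΓB A => obit (h (T.sim A.out))) s.heads)).move
        Dir.R = WT (L ++ [bsym (bits (p + 1))]) (L ++ [bsym (bits (p + 1))]).length := by
      show ((s T.o).write (obit (s (T.sim A.out)).read)).move Dir.R = _
      rw [hs, ho]
      simp only [Tape.read]
      rw [hc (p + 1) hN, obit_scell_bit, WT_write_end, WT_move_R]
      simp
    rw [e1, e2] at h2
    have h3 := ih (by omega)
      (Function.update (Function.update s (T.sim A.out) ⟨p, c⟩) T.o
        (WT (L ++ [bsym (bits (p + 1))]) (L ++ [bsym (bits (p + 1))]).length))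
      (L ++ [bsym (bits (p + 1))])
      (by rw [Function.update_of_ne ((sim_ne_o T) A.out), Function.update_self])
      (by rw [Function.update_self])
    refine (Run.loop_true h1 h2 h3).cast rfl ?_ (by ring)
    have hl : L ++ [bsym (bits (p + 1))] ++ (List.range p).map (fun i => bsym (bits (p - i))) =
        L ++ (List.range (p + 1)).map (fun i => (bsym (bits (p + 1 - i)) : ΓB A)) := by
      rw [List.range_succ_eq_map, List.map_cons, List.map_map, List.append_assoc]
      simp
    funext i
    by_cases hi : i = T.o
    · subst hi
      simp only [Function.update_self]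
      rw [hl]
      congr 1
      simp
      omega
    · by_cases hi' : i = T.sim A.out
      · subst hi'; simp [hi]
      · simp [hi, hi']

end Vale.Agent.H91.MT.AC
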