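import Mathlib

/-!
# Generic list lemmas for TASK ADDR (mixed-radix indexing of nested `flatMap`s over ranges)
-/

namespace Vale.Agent.H91.MT

/-- Mixed-radix decomposition of an index below a product. -/
theorem exists_decomp (A B n : ℕ) (h : n < A * B) : ∃ q, q < A ∧ ∃ r, r < B ∧ n = q * B + r := by
  have hB : 0 < B := by
    rcases Nat.eq_zero_or_pos B with hB | hB
    · subst hB; simp at h
    · exact hB
  refine ⟨n / B, ?_, n % B, Nat.mod_lt _ hB, (Nat.div_add_mod' n B).symm⟩
  exact Nat.div_lt_of_lt_mul (by rwa [Nat.mul_comm] at h)

/-- Two lists of the same known length agreeing (via `getD`) at all indices are equal. -/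
theorem ext_of_forall_getD {α : Type} (d : α) {L1 L2 : List α} (N : ℕ) (h1 : L1.length = N)
    (h2 : L2.length = N) (h : ∀ n, n < N → L1.getD n d = L2.getD n d) : L1 = L2 := by
  apply List.ext_getElem (h1.trans h2.symm)
  intro i hi1 hi2
  have := h i (h1 ▸ hi1)
  rwa [List.getD_eq_getElem _ _ hi1, List.getD_eq_getElem _ _ hi2] at this

theorem flatMap_range_length {α : Type} (f : ℕ → List α) (n m : ℕ)
    (hf : ∀ a, a < n → (f a).length = m) : ((List.range n).flatMap f).length = n * m := by
  induction n with
  | zero => simp
  | succ n ih =>
    rw [List.range_succ, List.flatMap_append, List.length_append,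
      ih (fun a ha => hf a (Nat.lt_succ_of_lt ha))]
    simp only [List.flatMap_cons, List.flatMap_nil, List.append_nil]
    rw [hf n (Nat.lt_succ_self n)]
    ring

theorem flatMap_range_getD {α : Type} (d : α) (f : ℕ → List α) (n m : ℕ)
    (hf : ∀ a, a < n → (f a).length = m) (a t : ℕ) (ha : a < n) (ht : t < m) :
    ((List.range n).flatMap f).getD (a * m + t) d = (f a).getD t d := by
  induction n with
  | zero => exact absurd ha (Nat.not_lt_zero a)
  | succ n ih =>
    have hlen := flatMap_range_length f n m (fun a ha => hf a (Nat.lt_succ_of_lt ha))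
    rw [List.range_succ, List.flatMap_append]
    rcases Nat.lt_succ_iff_lt_or_eq.mp ha with ha' | rfl
    · rw [List.getD_append _ _ _ _ (by
        rw [hlen]
        calc a * m + t < a * m + m := Nat.add_lt_add_left ht _
          _ = (a + 1) * m := by ring
          _ ≤ n * m := Nat.mul_le_mul_right m ha')]
      exact ih (fun a ha => hf a (Nat.lt_succ_of_lt ha)) ha'
    · rw [List.getD_append_right _ _ _ _ (by rw [hlen]; exact Nat.le_add_right _ _), hlen]
      simp only [List.flatMap_cons, List.flatMap_nil, List.append_nil]
      rw [Nat.add_sub_cancel_left]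

/-- Length of a four-fold nested list over ranges. -/
theorem nest4_length {α : Type} (g : ℕ → ℕ → ℕ → ℕ → α) (A B C D : ℕ) :
    ((List.range A).flatMap fun I => (List.range B).flatMap fun j =>
      (List.range C).flatMap fun i => (List.range D).map fun b => g I j i b).length
      = A * B * C * D := by
  rw [flatMap_range_length _ A (B * C * D)]
  · ring
  · intro I _
    rw [flatMap_range_length _ B (C * D)]
    · ring
    · intro j _
      rw [flatMap_range_length _ C D]
      intro i _
      simp

/-- Entry of a four-fold nested list over ranges at a mixed-radix index. -/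
theorem nest4_getD {α : Type} (d : α) (g : ℕ → ℕ → ℕ → ℕ → α) (A B C D : ℕ)
    (I j i b : ℕ) (hI : I < A) (hj : j < B) (hi : i < C) (hb : b < D) :
    ((List.range A).flatMap fun I => (List.range B).flatMap fun j =>
      (List.range C).flatMap fun i => (List.range D).map fun b => g I j i b).getD
      (((I * B + j) * C + i) * D + b) d = g I j i b := by
  have h3 : ∀ I j, ∀ i, i < C → ((List.range D).map fun b => g I j i b).length = D := by
    intro I j i _; simp
  have h2 : ∀ I, ∀ j, j < B →
      ((List.range C).flatMap fun i => (List.range D).map fun b => g I j i b).length = C * D := by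
    intro I j _; exact flatMap_range_length _ C D (h3 I j)
  have h1 : ∀ I, I < A → ((List.range B).flatMap fun j =>
      (List.range C).flatMap fun i => (List.range D).map fun b => g I j i b).length
        = B * (C * D) := by
    intro I _; exact flatMap_range_length _ B (C * D) (h2 I)
  have e1 : ((I * B + j) * C + i) * D + b = I * (B * (C * D)) + (j * (C * D) + (i * D + b)) := by
    ring
  have hiDb : i * D + b < C * D := by
    calc i * D + b < i * D + D := Nat.add_lt_add_left hb _
      _ = (i + 1) * D := by ring
      _ ≤ C * D := Nat.mul_le_mul_right D hi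
  have hjCD : j * (C * D) + (i * D + b) < B * (C * D) := by
    calc j * (C * D) + (i * D + b) < j * (C * D) + C * D := Nat.add_lt_add_left hiDb _
      _ = (j + 1) * (C * D) := by ring
      _ ≤ B * (C * D) := Nat.mul_le_mul_right _ hj
  rw [e1, flatMap_range_getD d _ A (B * (C * D)) h1 I _ hI hjCD,
    flatMap_range_getD d _ B (C * D) (h2 I) j _ hj hiDb,
    flatMap_range_getD d _ C D (h3 I j) i b hi hb]
  rw [List.getD_eq_getElem _ _ (by simpa using hb)]
  simp

/-- Bound for a two-digit mixed-radix number. -/
theorem mul_add_lt_mul {A B q r : ℕ} (hq : q < A) (hr : r < B) : q * B + r < A * B := by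
  calc q * B + r < q * B + B := Nat.add_lt_add_left hr _
    _ = (q + 1) * B := by ring
    _ ≤ A * B := Nat.mul_le_mul_right B hq

end Vale.Agent.H91.MT
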