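import Vale.Agent.H91.MT.Pure
import Vale.Agent.H91.MT.Addr_Lists

/-!
# TASK ADDR: pure index arithmetic of the recursion (no machines here)

`swapArr R r0 c0 E l` transposes each of the `R` consecutive `r0 × c0` arrays of `E`-cell
entries of `l`.  `unshuf e h l` is one perfect-unshuffle pass.
-/

namespace Vale.Agent.H91.MT

/-- Transpose every `r0 × c0` sub-array (row-major, entries of `E` cells) of a list made of `R`
such sub-arrays. -/
def swapArr (R r0 c0 E : ℕ) (l : List Bool) : List Bool :=
  (List.range R).flatMap fun I => (List.range c0).flatMap fun j =>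
    (List.range r0).flatMap fun i => (List.range E).map fun b =>
      l.getD (((I * r0 + i) * c0 + j) * E + b) false

/-- Source index of position `pos` under one unshuffle pass with items of `e` cells and periods
of `2h` items: inside each period the even-numbered items come first, then the odd ones. -/
def unshufIdx (e h pos : ℕ) : ℕ :=
  pos / (2 * h * e) * (2 * h * e) +
    (if pos % (2 * h * e) / e < h then 2 * (pos % (2 * h * e) / e)
      else 2 * (pos % (2 * h * e) / e - h) + 1) * e + pos % (2 * h * e) % e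

/-- One unshuffle pass. -/
def unshuf (e h : ℕ) (l : List Bool) : List Bool :=
  (List.range l.length).map fun pos => l.getD (unshufIdx e h pos) false

/-! ### Helper lemmas -/

/-- Length of `swapArr` in the natural order of its factors. -/
theorem swapArr_length_aux (R r0 c0 E : ℕ) (l : List Bool) :
    (swapArr R r0 c0 E l).length = R * c0 * r0 * E :=
  nest4_length _ R c0 r0 E

/-- The entry of `swapArr` at output position `(I, j, i, b)` is the entry of the source at
position `(I, i, j, b)`. -/
theorem swapArr_getD (R r0 c0 E : ℕ) (l : List Bool) (I j i b : ℕ) (hI : I < R) (hj : j < c0)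
    (hi : i < r0) (hb : b < E) :
    (swapArr R r0 c0 E l).getD (((I * c0 + j) * r0 + i) * E + b) false
      = l.getD (((I * r0 + i) * c0 + j) * E + b) false :=
  nest4_getD false _ R c0 r0 E I j i b hI hj hi hb

/-- The entry of `unshuf` at an in-range position. -/
theorem unshuf_getD (e h : ℕ) (l : List Bool) (pos : ℕ) (hpos : pos < l.length) :
    (unshuf e h l).getD pos false = l.getD (unshufIdx e h pos) false := by
  unfold unshuf
  rw [List.getD_eq_getElem _ _ (by simpa using hpos)]
  simp

/-- `unshufIdx` at a position written as (period `I`, item `t`, cell `b`). -/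
theorem unshufIdx_mk (e h I t b : ℕ) (ht : t < 2 * h) (hb : b < e) :
    unshufIdx e h ((I * (2 * h) + t) * e + b)
      = (I * (2 * h) + (if t < h then 2 * t else 2 * (t - h) + 1)) * e + b := by
  have he : 0 < e := Nat.lt_of_le_of_lt (Nat.zero_le b) hb
  have hlt : t * e + b < 2 * h * e := mul_add_lt_mul ht hb
  have e1 : (I * (2 * h) + t) * e + b = (t * e + b) + I * (2 * h * e) := by ring
  have hdiv : ((I * (2 * h) + t) * e + b) / (2 * h * e) = I := by
    rw [e1, Nat.add_mul_div_right _ _ (Nat.lt_of_le_of_lt (Nat.zero_le _) hlt),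
      Nat.div_eq_of_lt hlt, Nat.zero_add]
  have hmod : ((I * (2 * h) + t) * e + b) % (2 * h * e) = t * e + b := by
    rw [e1, Nat.add_mul_mod_self_right, Nat.mod_eq_of_lt hlt]
  have hdiv2 : (t * e + b) / e = t := by
    rw [Nat.add_comm, Nat.add_mul_div_right _ _ he, Nat.div_eq_of_lt hb, Nat.zero_add]
  have hmod2 : (t * e + b) % e = b := by
    rw [Nat.add_comm, Nat.add_mul_mod_self_right, Nat.mod_eq_of_lt hb]
  unfold unshufIdx
  rw [hdiv, hmod, hdiv2, hmod2]
  ring

/-- `swapArr` with one column is the identity. -/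
theorem swapArr_one_col (R r0 E : ℕ) (l : List Bool) (hl : l.length = R * r0 * E) :
    swapArr R r0 1 E l = l := by
  apply ext_of_forall_getD false (R * r0 * E) _ hl
  · intro n hn
    obtain ⟨q, hq, b, hb, rfl⟩ := exists_decomp (R * r0) E n hn
    obtain ⟨I, hI, i, hi, rfl⟩ := exists_decomp R r0 q hq
    have e1 : (I * r0 + i) * E + b = ((I * 1 + 0) * r0 + i) * E + b := by ring
    have e2 : ((I * r0 + i) * 1 + 0) * E + b = (I * r0 + i) * E + b := by ring
    conv_lhs => rw [e1]
    rw [swapArr_getD R r0 1 E l I 0 i b hI Nat.one_pos hi hb, e2]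
  · rw [swapArr_length_aux]; ring

/-- One unshuffle pass turns the transposition into `2 r1 × c0` arrays into the transposition
into `r1 × 2 c0` arrays. -/
theorem unshuf_swapArr (R r1 c0 E : ℕ) (l : List Bool) :
    unshuf E (c0 * r1) (swapArr R (2 * r1) c0 E l) = swapArr R r1 (2 * c0) E l := by
  have hlenL : (swapArr R (2 * r1) c0 E l).length = R * (2 * c0) * r1 * E := by
    rw [swapArr_length_aux]; ring
  apply ext_of_forall_getD false (R * (2 * c0) * r1 * E)
  · rw [unshuf, List.length_map, List.length_range, hlenL]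
  · rw [swapArr_length_aux]
  · intro n hn
    rw [unshuf_getD _ _ _ _ (by rw [hlenL]; exact hn)]
    obtain ⟨q1, hq1, b, hb, rfl⟩ := exists_decomp (R * (2 * c0) * r1) E n hn
    obtain ⟨q2, hq2, i, hi, rfl⟩ := exists_decomp (R * (2 * c0)) r1 q1 hq1
    obtain ⟨I, hI, j, hj, rfl⟩ := exists_decomp R (2 * c0) q2 hq2
    rw [swapArr_getD R r1 (2 * c0) E l I j i b hI hj hi hb]
    have ht : j * r1 + i < 2 * (c0 * r1) := by
      have := mul_add_lt_mul hj hi
      calc j * r1 + i < 2 * c0 * r1 := this
        _ = 2 * (c0 * r1) := by ring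
    have e1 : ((I * (2 * c0) + j) * r1 + i) * E + b
        = (I * (2 * (c0 * r1)) + (j * r1 + i)) * E + b := by ring
    rw [e1, unshufIdx_mk E (c0 * r1) I (j * r1 + i) b ht hb]
    rcases Nat.lt_or_ge j c0 with hjc | hjc
    · have hlt : j * r1 + i < c0 * r1 := mul_add_lt_mul hjc hi
      rw [if_pos hlt]
      have e2 : (I * (2 * (c0 * r1)) + 2 * (j * r1 + i)) * E + b
          = ((I * c0 + j) * (2 * r1) + 2 * i) * E + b := by ring
      rw [e2, swapArr_getD R (2 * r1) c0 E l I j (2 * i) b hI hjc (by omega) hb]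
      congr 1
      ring
    · obtain ⟨ρ, rfl⟩ := Nat.exists_eq_add_of_le hjc
      have hρ : ρ < c0 := by omega
      have hge : ¬ ((c0 + ρ) * r1 + i < c0 * r1) := by
        have : c0 * r1 ≤ (c0 + ρ) * r1 := Nat.mul_le_mul_right r1 (Nat.le_add_right c0 ρ)
        omega
      rw [if_neg hge]
      have e3 : (c0 + ρ) * r1 + i - c0 * r1 = ρ * r1 + i := by
        have : (c0 + ρ) * r1 = c0 * r1 + ρ * r1 := by ring
        omega
      rw [e3]
      have e2 : (I * (2 * (c0 * r1)) + (2 * (ρ * r1 + i) + 1)) * E + b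
          = ((I * c0 + ρ) * (2 * r1) + (2 * i + 1)) * E + b := by ring
      rw [e2, swapArr_getD R (2 * r1) c0 E l I ρ (2 * i + 1) b hI hρ (by omega) hb]
      congr 1
      ring

/-- `s` unshuffle passes. -/
theorem unshuf_iterate (R N E : ℕ) (hN : 1 ≤ N) (l : List Bool) (hl : l.length = R * 2 ^ N * E)
    (s : ℕ) (hs : s ≤ N) :
    (unshuf E (2 ^ (N - 1)))^[s] l = swapArr R (2 ^ (N - s)) (2 ^ s) E l := by
  induction s with
  | zero =>
    simp only [Function.iterate_zero, id_eq, Nat.sub_zero, pow_zero]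
    exact (swapArr_one_col R (2 ^ N) E l hl).symm
  | succ s ih =>
    rw [Function.iterate_succ_apply', ih (Nat.le_of_succ_le hs)]
    have h1 : 2 ^ (N - s) = 2 * 2 ^ (N - (s + 1)) := by
      rw [← pow_succ']
      congr 1
      omega
    have h2 : 2 ^ (N - 1) = 2 ^ s * 2 ^ (N - (s + 1)) := by
      rw [← pow_add]
      congr 1
      omega
    rw [h1, h2, unshuf_swapArr, pow_succ']

/-- The general form of one recursion level, for arbitrary block sizes `P` and `W`. -/
theorem swapArr_level_gen (B P W : ℕ) (l : List Bool) :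
    swapArr B (P * W) (P * W) 1 l =
      swapArr (B * P) P W W
        (swapArr (B * P * P) W W 1
          (swapArr B P P (W * W)
            (swapArr (B * P) W P W l))) := by
  apply ext_of_forall_getD false (B * P * W * P * W)
  · rw [swapArr_length_aux]; ring
  · rw [swapArr_length_aux]
  · intro n hn
    obtain ⟨q1, hq1, x4, h4, rfl⟩ := exists_decomp (B * P * W * P) W n hn
    obtain ⟨q2, hq2, x3, h3, rfl⟩ := exists_decomp (B * P * W) P q1 hq1
    obtain ⟨q3, hq3, x2, h2, rfl⟩ := exists_decomp (B * P) W q2 hq2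
    obtain ⟨blk, hblk, x1, h1, rfl⟩ := exists_decomp B P q3 hq3
    have hj : x1 * W + x2 < P * W := mul_add_lt_mul h1 h2
    have hi : x3 * W + x4 < P * W := mul_add_lt_mul h3 h4
    have hI1 : blk * P + x1 < B * P := mul_add_lt_mul hblk h1
    have hI3 : blk * P + x3 < B * P := mul_add_lt_mul hblk h3
    have hI2 : (blk * P + x1) * P + x3 < B * P * P := mul_add_lt_mul hI1 h3
    have hb : x4 * W + x2 < W * W := mul_add_lt_mul h4 h2
    -- left-hand side
    have eL : (((blk * P + x1) * W + x2) * P + x3) * W + x4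
        = ((blk * (P * W) + (x1 * W + x2)) * (P * W) + (x3 * W + x4)) * 1 + 0 := by ring
    conv_lhs => rw [eL]
    rw [swapArr_getD B (P * W) (P * W) 1 l blk _ _ 0 hblk hj hi Nat.one_pos]
    -- right-hand side, outermost swap
    rw [swapArr_getD (B * P) P W W _ (blk * P + x1) x2 x3 x4 hI1 h2 h3 h4]
    have e2 : (((blk * P + x1) * P + x3) * W + x2) * W + x4
        = ((((blk * P + x1) * P + x3) * W + x2) * W + x4) * 1 + 0 := by ring
    rw [e2, swapArr_getD (B * P * P) W W 1 _ ((blk * P + x1) * P + x3) x2 x4 0 hI2 h2 h4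
      Nat.one_pos]
    have e3 : ((((blk * P + x1) * P + x3) * W + x4) * W + x2) * 1 + 0
        = ((blk * P + x1) * P + x3) * (W * W) + (x4 * W + x2) := by ring
    rw [e3, swapArr_getD B P P (W * W) _ blk x1 x3 (x4 * W + x2) hblk h1 h3 hb]
    have e4 : ((blk * P + x3) * P + x1) * (W * W) + (x4 * W + x2)
        = (((blk * P + x3) * P + x1) * W + x4) * W + x2 := by ring
    rw [e4, swapArr_getD (B * P) W P W l (blk * P + x3) x1 x4 x2 hI3 h1 h4 h2]
    congr 1
    ring

/-- Entries of `matList` at a two-digit index. -/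
theorem matList_eq_range (n : ℕ) (M : Fin n → Fin n → Bool) :
    matList n M = (List.range 1).flatMap fun _ => (List.range n).flatMap fun r =>
      (List.range n).flatMap fun c => (List.range 1).map fun _ =>
        if h : r < n ∧ c < n then M ⟨r, h.1⟩ ⟨c, h.2⟩ else false := by
  unfold matList
  simp only [List.range_one, List.flatMap_cons, List.flatMap_nil, List.append_nil, List.map_cons,
    List.map_nil]
  conv_rhs => rw [← List.map_coe_finRange_eq_range (n := n)]
  rw [List.flatMap_map]
  apply List.flatMap_congr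
  intro r _
  rw [List.flatMap_map, List.map_eq_flatMap]
  apply List.flatMap_congr
  intro c _
  simp

/-! ### The task statements -/

/-- TASK ADDR (1). -/
theorem swapArr_dataIn (p : SwapParams) (f : ℕ → ℕ → ℕ → ℕ → Bool) :
    swapArr p.R p.r0 p.c0 p.E (p.dataIn f) = p.dataOut f := by
  apply ext_of_forall_getD false (p.R * p.c0 * p.r0 * p.E)
  · exact swapArr_length_aux _ _ _ _ _
  · exact nest4_length _ p.R p.c0 p.r0 p.E
  · intro n hn
    obtain ⟨q1, hq1, b, hb, rfl⟩ := exists_decomp (p.R * p.c0 * p.r0) p.E n hn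
    obtain ⟨q2, hq2, i, hi, rfl⟩ := exists_decomp (p.R * p.c0) p.r0 q1 hq1
    obtain ⟨I, hI, j, hj, rfl⟩ := exists_decomp p.R p.c0 q2 hq2
    rw [swapArr_getD p.R p.r0 p.c0 p.E _ I j i b hI hj hi hb]
    unfold SwapParams.dataIn SwapParams.dataOut
    rw [nest4_getD false _ p.R p.r0 p.c0 p.E I i j b hI hi hj hb,
      nest4_getD false (fun I j i b => f I i j b) p.R p.c0 p.r0 p.E I j i b hI hj hi hb]

/-- TASK ADDR (2): transposing the `2^ν × 2^ν` matrix. -/
theorem swapArr_matList (n : ℕ) (M : Fin n → Fin n → Bool) :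
    swapArr 1 n n 1 (matList n M) = matList n (fun r c => M c r) := by
  apply ext_of_forall_getD false (1 * n * n * 1)
  · exact swapArr_length_aux _ _ _ _ _
  · rw [matList_eq_range]; exact nest4_length _ 1 n n 1
  · intro m hm
    obtain ⟨q1, hq1, b, hb, rfl⟩ := exists_decomp (1 * n * n) 1 m hm
    obtain ⟨q2, hq2, i, hi, rfl⟩ := exists_decomp (1 * n) n q1 hq1
    obtain ⟨I, hI, j, hj, rfl⟩ := exists_decomp 1 n q2 hq2
    rw [swapArr_getD 1 n n 1 _ I j i b hI hj hi hb, matList_eq_range n M,
      matList_eq_range n (fun r c => M c r),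
      nest4_getD false _ 1 n n 1 I i j b hI hi hj hb,
      nest4_getD false _ 1 n n 1 I j i b hI hj hi hb]
    simp [hi, hj]

/-- TASK ADDR (3): one level of the recursion.  With `u = p + w`, transposing all
`2^u × 2^u` bit blocks equals: swap `i ↔ J`, swap `I ↔ J`, transpose the `2^w × 2^w` blocks,
swap `I ↔ j` (address `(I, i, J, j)` with widths `(p, w, p, w)`). -/
theorem swapArr_level (B p w : ℕ) (l : List Bool) (hl : l.length = B * 4 ^ (p + w)) :
    swapArr B (2 ^ (p + w)) (2 ^ (p + w)) 1 l =
      swapArr (B * 2 ^ p) (2 ^ p) (2 ^ w) (2 ^ w)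
        (swapArr (B * 4 ^ p) (2 ^ w) (2 ^ w) 1
          (swapArr B (2 ^ p) (2 ^ p) (4 ^ w)
            (swapArr (B * 2 ^ p) (2 ^ w) (2 ^ p) (2 ^ w) l))) := by
  have _hl := hl
  have h4p : B * 4 ^ p = B * 2 ^ p * 2 ^ p := by
    rw [Nat.mul_assoc, ← Nat.mul_pow]
  have h4w : (4 : ℕ) ^ w = 2 ^ w * 2 ^ w := by
    rw [← Nat.mul_pow]
  rw [pow_add, h4p, h4w]
  exact swapArr_level_gen B (2 ^ p) (2 ^ w) l

/-- TASK ADDR (4): `y` unshuffle passes with items of `E` cells and periods of `2^(x+y)` items
transpose every `2^x × 2^y` array of `E`-cell entries. -/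
theorem swapArr_unshuf (R x y E : ℕ) (hxy : 1 ≤ x + y) (l : List Bool)
    (hl : l.length = R * 2 ^ x * 2 ^ y * E) :
    swapArr R (2 ^ x) (2 ^ y) E l = (unshuf E (2 ^ (x + y - 1)))^[y] l := by
  have hl' : l.length = R * 2 ^ (x + y) * E := by
    rw [hl, pow_add]; ring
  rw [unshuf_iterate R (x + y) E hxy l hl' y (Nat.le_add_left y x), Nat.add_sub_cancel]

theorem swapArr_length (R r0 c0 E : ℕ) (l : List Bool) :
    (swapArr R r0 c0 E l).length = R * r0 * c0 * E := by
  rw [swapArr_length_aux]; ring

theorem unshuf_length (e h : ℕ) (l : List Bool) : (unshuf e h l).length = l.length := by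
  simp [unshuf]

end Vale.Agent.H91.MT
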