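import Vale.Agent.H91.MT.RegB
import Vale.Agent.H91.MT.Pure

/-!
# TASK REGC: constants, padding, map lemma

Numeric constants in the time bounds may be changed (keep the shape).
-/

namespace Vale.Agent.H91.MT

variable {α : Type} {K : ℕ}

/-- Append `n` copies of the work symbol `x` to the stream on tape `r` (a fixed number of
writes; costs `n + 1` steps). -/
def regC_writeRep (r : Fin K) (x : Sym) : ℕ → Prog (Sym ⊕ α) K
  | 0 => Prog.mv r Dir.S
  | n + 1 => Prog.seq (Prog.wm r (fun _ => Sum.inl x) Dir.R) (regC_writeRep r x n)

theorem regC_writeRep_run (r : Fin K) (x : Sym) (n : ℕ) (l : List (Sym ⊕ α)) (s : St (Sym ⊕ α) K)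
    (hr : s r = WT l l.length) :
    Run (regC_writeRep r x n) s
      (Function.update s r (WT (l ++ List.replicate n (Sum.inl x)) (l.length + n))) (n + 1) := by
  induction n generalizing l s with
  | zero =>
    have h := Run.mv r Dir.S s
    rw [hr, WT_move_S] at h
    simpa [regC_writeRep] using h
  | succ n ih =>
    have h1 := Run.wm r (fun _ => (Sum.inl x : Sym ⊕ α)) Dir.R s
    rw [hr, WT_write_end, WT_move_R] at h1
    have h2 := ih (l ++ [Sum.inl x]) (Function.update s r (WT (l ++ [Sum.inl x]) (l.length + 1)))
      (by simp)
    have h3 := Run.seq h1 h2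
    refine h3.cast rfl ?_ (by omega)
    rw [Function.update_idem, List.append_assoc, List.length_append, List.length_singleton,
      List.replicate_succ]
    simp only [List.singleton_append]
    congr 2
    omega

/-- `r := c` for a fixed number `c` (the old value of `r` is discarded). -/
def regConst (r : Fin K) (c : ℕ) : Prog (Sym ⊕ α) K :=
  Prog.seq (clearTape r) (Prog.seq (regC_writeRep r Sym.one c) (rewind r))

theorem regC_blank_not_mem_replicate_one (n : ℕ) :
    (Sum.inl Sym.blank : Sym ⊕ α) ∉ List.replicate n (Sum.inl Sym.one) := by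
  intro h
  have := List.eq_of_mem_replicate h
  cases this

theorem regConst_run (r : Fin K) (c v : ℕ) (s : St (Sym ⊕ α) K) (hr : s r = ruler v 0) :
    RunLe (regConst r c) s (Function.update s r (ruler c 0)) (10 * (v + c) + 20) := by
  have h1 := clearTape_run r (List.replicate v (Sum.inl Sym.one))
    (regC_blank_not_mem_replicate_one v) (lend_not_mem_replicate_one v) 0 (Nat.zero_le _) s hr
  have h2 := (regC_writeRep_run r Sym.one c ([] : List (Sym ⊕ α)) (Function.update s r (WT [] 0))
    (by simp)).le
  simp only [Function.update_idem, List.nil_append, List.length_nil, Nat.zero_add] at h2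
  have h3 := (rewind_run r (List.replicate c (Sum.inl Sym.one)) (lend_not_mem_replicate_one c) c
    (Function.update s r (WT (List.replicate c (Sum.inl Sym.one)) c)) (by simp)).le
  simp only [Function.update_idem] at h3
  refine (RunLe.seq h1 (RunLe.seq h2 h3)).cast rfl rfl ?_
  simp only [List.length_replicate]
  omega

/-- One padding step: if the head of `t` reads a blank, write `z`; move right. -/
def regC_padStep (t : Fin K) (z : Sym) : Prog (Sym ⊕ α) K :=
  Prog.wm t (fun h => if isSym t Sym.blank h then Sum.inl z else h t) Dir.R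

/-- Pad the stream on tape `t` with the work symbol `z` up to the length of the ruler `rk`
(nothing is added if it is already that long); `t` is rewound. -/
def padStream (t rk : Fin K) (z : Sym) : Prog (Sym ⊕ α) K :=
  Prog.seq (rewind t) (Prog.seq (forRuler rk (regC_padStep t z)) (forRuler rk (Prog.mv t Dir.L)))

theorem regC_padTo_length_le {β : Type} (k : ℕ) (z : β) (l : List β) (h : l.length ≤ k) :
    (padTo k z l).length = k := by
  simp [padTo]
  omega

theorem regC_padTo_succ_of_le {β : Type} (k : ℕ) (z : β) (l : List β) (h : l.length ≤ k) :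
    padTo (k + 1) z l = padTo k z l ++ [z] := by
  unfold padTo
  have e : k + 1 - l.length = (k - l.length) + 1 := by omega
  rw [e, List.replicate_succ', List.append_assoc]

theorem regC_padTo_of_le {β : Type} (k : ℕ) (z : β) (l : List β) (h : k ≤ l.length) :
    padTo k z l = l := by
  unfold padTo
  have e : k - l.length = 0 := by omega
  rw [e]
  simp

theorem regC_padStep_run (t : Fin K) (z : Sym) (l : List (Sym ⊕ α))
    (hb : Sum.inl Sym.blank ∉ l) (i : ℕ) (s : St (Sym ⊕ α) K)
    (ht : s t = WT (padTo i (Sum.inl z) l) i) :
    Run (regC_padStep t z) s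
      (Function.update s t (WT (padTo (i + 1) (Sum.inl z) l) (i + 1))) 1 := by
  have h1 := Run.wm t (fun h => if isSym t Sym.blank h then (Sum.inl z : Sym ⊕ α) else h t)
    Dir.R s
  refine h1.cast rfl ?_ rfl
  congr 1
  rcases Nat.lt_or_ge i l.length with hi | hi
  · have e1 : padTo i (Sum.inl z) l = l := regC_padTo_of_le _ _ _ hi.le
    have e2 : padTo (i + 1) (Sum.inl z) l = l := regC_padTo_of_le _ _ _ hi
    have hne : (s t).read ≠ Sum.inl Sym.blank := by
      rw [ht, e1, WT_read, List.getD_eq_getElem _ _ hi]
      intro h
      exact hb (h ▸ List.getElem_mem hi)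
    have hc := isSym_false t Sym.blank s hne
    have e3 : s.heads t = (s t).read := rfl
    simp only [hc, Bool.false_eq_true, if_false]
    rw [e3, Tape.write_read, ht, e1, e2, WT_move_R]
  · have hlen : (padTo i (Sum.inl z) l).length = i := regC_padTo_length_le _ _ _ hi
    have hrd : (s t).read = Sum.inl Sym.blank := by
      rw [ht, WT_read, List.getD_eq_default _ _ (by omega)]
    have hc := isSym_true t Sym.blank s hrd
    simp only [hc, if_true]
    rw [ht]
    have h4 := WT_write_end (padTo i (Sum.inl z) l) (Sum.inl z : Sym ⊕ α)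
    rw [hlen] at h4
    rw [h4, WT_move_R, regC_padTo_succ_of_le _ _ _ hi]

theorem padStream_run (t rk : Fin K) (htr : t ≠ rk) (z : Sym) (l : List (Sym ⊕ α))
    (hb : Sum.inl Sym.blank ∉ l) (hl : Sum.inl Sym.lend ∉ l) (p k : ℕ) (hp : p ≤ l.length)
    (s : St (Sym ⊕ α) K) (ht : s t = WT l p) (hrk : s rk = ruler k 0) :
    RunLe (padStream t rk z) s (Function.update s t (WT (padTo k (Sum.inl z) l) 0))
      (10 * (l.length + k) + 30) := by
  have h1 := (rewind_run t l hl p s ht).le
  have h2 := forRuler_run rk (regC_padStep t z) k
    (fun i => Function.update (Function.update s t (WT (padTo i (Sum.inl z) l) i)) rk (ruler k i))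
    (fun _ => 1) (by intro i _; simp) (by
      intro i _
      have h := regC_padStep_run t z l hb i
        (Function.update (Function.update s t (WT (padTo i (Sum.inl z) l) i)) rk (ruler k i))
        (by simp [Function.update_of_ne htr])
      exact h.le.cast rfl (by grind) le_rfl)
  have h3 := forRuler_run rk (Prog.mv t Dir.L) k
    (fun i => Function.update (Function.update s t (WT (padTo k (Sum.inl z) l) (k - i))) rk
      (ruler k i))
    (fun _ => 1) (by intro i _; simp) (by
      intro i hi
      have h := Run.mv t Dir.L
        (Function.update (Function.update s t (WT (padTo k (Sum.inl z) l) (k - i))) rk (ruler k i))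
      have e : k - i = (k - (i + 1)) + 1 := by omega
      simp only [Function.update_of_ne htr, Function.update_self] at h
      rw [e, WT_move_L_succ, ← e] at h
      exact h.le.cast rfl (by grind) le_rfl)
  have e0 : padTo 0 (Sum.inl z : Sym ⊕ α) l = l := regC_padTo_of_le _ _ _ (Nat.zero_le _)
  refine (RunLe.seq h1 (RunLe.seq (h2.cast ?_ rfl le_rfl) (h3.cast ?_ ?_ le_rfl))).mono ?_
  · funext j
    simp only [Function.update_apply, e0]
    split_ifs <;> simp_all
  · funext j
    simp only [Function.update_apply, Nat.sub_zero]
    split_ifs <;> simp_all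
  · funext j
    simp only [Function.update_apply, Nat.sub_self]
    split_ifs <;> simp_all
  · simp [Finset.sum_const]
    omega

/-- Append to the stream `t` the run `x ^ (value of register r)` for each pair `(x, r)` of a
list (building a template). -/
def emitRuns (t : Fin K) : List (Sym × Fin K) → Prog (Sym ⊕ α) K
  | [] => Prog.mv t Dir.S
  | (x, r) :: rest => Prog.seq (emitRep t r x) (emitRuns t rest)

theorem gridList_map {β γ : Type} (f : β → γ) (reps rows cols M i0 i1 i2 c0 c1 c2 : ℕ) (z : β)
    (arrPre rowPre body tail rowPost arrPost : List β) :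
    (gridList reps rows cols M i0 i1 i2 c0 c1 c2 z arrPre rowPre body tail rowPost arrPost).map f
      = gridList reps rows cols M i0 i1 i2 c0 c1 c2 (f z) (arrPre.map f) (rowPre.map f)
          (body.map f) (tail.map f) (rowPost.map f) (arrPost.map f) := by
  simp only [gridList, List.map_flatMap, List.map_append, List.map_replicate]

/-- A repeated pattern is a grid with trivial modulus. -/
theorem rep_eq_gridList {β : Type} (n : ℕ) (z : β) (l : List β) :
    rep n l = gridList n 1 1 1 0 0 0 0 0 0 z [] [] l [] [] [] := by
  have e : ∀ u1 u2 : ℕ, gridExp 1 0 0 0 0 0 0 u1 u2 = 0 := by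
    intro u1 u2
    simp [gridExp]
  simp only [gridList, rep, e, List.range_one, List.flatMap_cons, List.flatMap_nil,
    List.replicate_zero, List.nil_append, List.append_nil, Nat.sub_self]
  induction n with
  | zero => simp
  | succ n ih =>
    rw [List.replicate_succ', List.flatten_append, List.range_succ, List.flatMap_append, ih]
    simp

/-- The base registers of a swap hold the parameters of `p` (tapes `T 24 .. T 30` of the
generator layout `T : Fin 40 → Fin K`; `q = E / P`). -/
def BaseRegs (T : Fin 40 → Fin K) (p : SwapParams) (q : ℕ) (s : St (Sym ⊕ α) K) : Prop :=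
  s (T 24) = ruler p.R 0 ∧ s (T 25) = ruler p.r0 0 ∧ s (T 26) = ruler p.c0 0 ∧
  s (T 27) = ruler p.a 0 ∧ s (T 28) = ruler p.P 0 ∧ s (T 29) = ruler p.E 0 ∧
  s (T 30) = ruler q 0

end Vale.Agent.H91.MT
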