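import Vale.Agent.H91.MT.RegA
import Vale.Agent.H91.MT.Pure

/-!
# Helper lemmas for TASK SLOW

Uniform-bound loop rules, head moves driven by a register, erasing a register, and the
indexing lemma for row-major matrices.
-/

namespace Vale.Agent.H91.MT

variable {α : Type} {K : ℕ}

/-- Loop rule with a uniform bound on the body. -/
theorem slow_loop_run (c : (Fin K → Sym ⊕ α) → Bool) (p : Prog (Sym ⊕ α) K) (N : ℕ)
    (S : ℕ → St (Sym ⊕ α) K) (B : ℕ)
    (hc : ∀ i, i < N → c (S i).heads = true) (hN : c (S N).heads = false)
    (hbody : ∀ i, i < N → RunLe p (S i) (S (i + 1)) B) :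
    RunLe (Prog.loop c p) (S 0) (S N) (N * (B + 1) + 1) := by
  have key : ∀ j, j ≤ N → RunLe (Prog.loop c p) (S (N - j)) (S N) (j * (B + 1) + 1) := by
    intro j
    induction j with
    | zero =>
      intro _
      simpa using RunLe.loop_false hN
    | succ j ih =>
      intro hj
      have hlt : N - (j + 1) < N := by omega
      have h2 := hbody _ hlt
      have e : N - (j + 1) + 1 = N - j := by omega
      rw [e] at h2
      refine (RunLe.loop_true (hc _ hlt) h2 (ih (by omega))).mono ?_
      rw [Nat.succ_mul]
      omega
  simpa using key N le_rfl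

/-- `forRuler` rule with a uniform bound on the body. -/
theorem slow_for_run (r : Fin K) (body : Prog (Sym ⊕ α) K) (n : ℕ) (S : ℕ → St (Sym ⊕ α) K)
    (B : ℕ) (hr : ∀ i, i ≤ n → S i r = ruler n i)
    (hbody : ∀ i, i < n → RunLe body (S i) (Function.update (S (i + 1)) r (ruler n i)) B) :
    RunLe (forRuler r body) (S 0) (Function.update (S n) r (ruler n 0)) (n * (B + 4) + 5) := by
  refine (forRuler_run r body n S (fun _ => B) hr hbody).mono ?_
  have e : n * (B + 4) = n * (B + 2) + 2 * n := by ring
  simp only [Finset.sum_const, Finset.card_range, smul_eq_mul]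
  omega

/-- Move head `a` right once for every cell of the register `r`. -/
def slowFwd (a r : Fin K) : Prog (Sym ⊕ α) K := forRuler r (Prog.mv a Dir.R)

theorem slowFwd_run (a r : Fin K) (har : a ≠ r) (l : List (Sym ⊕ α)) (p v : ℕ)
    (s : St (Sym ⊕ α) K) (ha : s a = WT l p) (hr : s r = ruler v 0) :
    RunLe (slowFwd a r) s (Function.update s a (WT l (p + v))) (5 * v + 5) := by
  have h := slow_for_run r (Prog.mv a Dir.R) v
    (fun i => Function.update (Function.update s a (WT l (p + i))) r (ruler v i)) 1
    (by intro i _; simp) (by
      intro i _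
      have h1 := Run.mv a Dir.R
        (Function.update (Function.update s a (WT l (p + i))) r (ruler v i))
      simp only [Function.update_of_ne har, Function.update_self, WT_move_R] at h1
      exact h1.le.cast rfl (by grind) le_rfl)
  refine h.cast ?_ ?_ ?_
  · funext j
    simp only [Function.update_apply]
    split_ifs <;> simp_all
  · grind
  · omega

/-- Move head `a` left once for every cell of the register `r`. -/
def slowBack (a r : Fin K) : Prog (Sym ⊕ α) K := forRuler r (Prog.mv a Dir.L)

theorem slowBack_run (a r : Fin K) (har : a ≠ r) (l : List (Sym ⊕ α)) (p v : ℕ)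
    (s : St (Sym ⊕ α) K) (ha : s a = WT l (p + v)) (hr : s r = ruler v 0) :
    RunLe (slowBack a r) s (Function.update s a (WT l p)) (5 * v + 5) := by
  have h := slow_for_run r (Prog.mv a Dir.L) v
    (fun i => Function.update (Function.update s a (WT l (p + (v - i)))) r (ruler v i)) 1
    (by intro i _; simp) (by
      intro i hi
      have h1 := Run.mv a Dir.L
        (Function.update (Function.update s a (WT l (p + (v - i)))) r (ruler v i))
      have e : p + (v - i) = p + (v - (i + 1)) + 1 := by omega
      simp only [Function.update_of_ne har, Function.update_self] at h1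
      rw [e, WT_move_L_succ] at h1
      exact h1.le.cast (by rw [e]) (by grind) le_rfl)
  refine h.cast ?_ ?_ ?_
  · funext j
    simp only [Function.update_apply]
    split_ifs <;> simp_all
  · simp only [Nat.sub_self, Nat.add_zero]
    grind
  · omega

/-- Move head `a` left `w * v` cells (`w` on register `r1`, `v` on register `r2`). -/
def slowBack2 (a r1 r2 : Fin K) : Prog (Sym ⊕ α) K := forRuler r1 (slowBack a r2)

theorem slowBack2_run (a r1 r2 : Fin K) (h1 : a ≠ r1) (h2 : a ≠ r2) (h12 : r1 ≠ r2)
    (l : List (Sym ⊕ α)) (p v w : ℕ) (s : St (Sym ⊕ α) K) (ha : s a = WT l (p + w * v))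
    (hr1 : s r1 = ruler w 0) (hr2 : s r2 = ruler v 0) :
    RunLe (slowBack2 a r1 r2) s (Function.update s a (WT l p)) (w * (5 * v + 9) + 5) := by
  have h := slow_for_run r1 (slowBack a r2) w
    (fun i => Function.update (Function.update s a (WT l (p + (w - i) * v))) r1 (ruler w i))
    (5 * v + 5) (by intro i _; simp) (by
      intro i hi
      have e : (w - i) * v = (w - (i + 1)) * v + v := by
        have e' : w - i = (w - (i + 1)) + 1 := by omega
        rw [e', Nat.succ_mul]
      have h3 := slowBack_run a r2 h2 l (p + (w - (i + 1)) * v) v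
        (Function.update (Function.update s a (WT l (p + (w - i) * v))) r1 (ruler w i))
        (by simp only [Function.update_of_ne h1, Function.update_self]; rw [e, Nat.add_assoc])
        (by simp only [Function.update_of_ne h12.symm, Function.update_of_ne h2.symm]; exact hr2)
      exact h3.cast rfl (by grind) le_rfl)
  refine h.cast ?_ ?_ ?_
  · funext j
    simp only [Function.update_apply]
    split_ifs <;> simp_all
  · simp only [Nat.sub_self, Nat.zero_mul, Nat.add_zero]
    grind
  · exact le_of_eq (by ring)

/-- Erase the register `r`. -/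
def slowClear (r : Fin K) : Prog (Sym ⊕ α) K :=
  Prog.seq (Prog.loop (isSym r Sym.one) (Prog.wm r (fun _ => Sum.inl Sym.blank) Dir.R)) (rewind r)

theorem slow_er_set (v i : ℕ) (hi : i < v) :
    (List.replicate i (Sum.inl Sym.blank : Sym ⊕ α) ++
        List.replicate (v - i) (Sum.inl Sym.one)).set i (Sum.inl Sym.blank) =
      List.replicate (i + 1) (Sum.inl Sym.blank) ++ List.replicate (v - (i + 1)) (Sum.inl Sym.one) := by
  have e : v - i = (v - (i + 1)) + 1 := by omega
  rw [e, List.set_append_right _ _ (by simp), List.replicate_succ, List.replicate_succ']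
  simp

theorem slow_wcells_blank (v : ℕ) :
    wcells (List.replicate v (Sum.inl Sym.blank : Sym ⊕ α)) = wcells [] := by
  funext j
  rcases j with _ | j
  · rfl
  · simp only [wcells, List.getD_eq_getElem?_getD, List.getElem?_replicate]
    split_ifs <;> rfl

theorem slowClear_run (r : Fin K) (v : ℕ) (s : St (Sym ⊕ α) K) (hr : s r = ruler v 0) :
    RunLe (slowClear r) s (Function.update s r (ruler 0 0)) (4 * v + 5) := by
  have h := slow_loop_run (isSym r Sym.one) (Prog.wm r (fun _ => Sum.inl Sym.blank) Dir.R) v
    (fun i => Function.update s r (WT (List.replicate i (Sum.inl Sym.blank) ++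
      List.replicate (v - i) (Sum.inl Sym.one)) i)) 1
    (by
      intro i hi
      apply isSym_true
      simp only [Function.update_self, WT_read]
      rw [List.getD_eq_getElem?_getD, List.getElem?_append_right (by simp)]
      simp [hi])
    (by
      apply isSym_false
      simp [List.getD_eq_getElem?_getD])
    (by
      intro i hi
      have h1 := Run.wm r (fun _ => (Sum.inl Sym.blank : Sym ⊕ α)) Dir.R
        (Function.update s r (WT (List.replicate i (Sum.inl Sym.blank) ++
          List.replicate (v - i) (Sum.inl Sym.one)) i))
      simp only [Function.update_self, Function.update_idem] at h1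
      rw [WT_write_lt _ _ _ (by simp; omega), slow_er_set v i hi, WT_move_R] at h1
      exact h1.le)
  have h2 := (rewind_run r (List.replicate v (Sum.inl Sym.blank) ++
      List.replicate (v - v) (Sum.inl Sym.one)) (by simp) v
    (Function.update s r (WT (List.replicate v (Sum.inl Sym.blank) ++
      List.replicate (v - v) (Sum.inl Sym.one)) v)) (by simp)).le
  refine (RunLe.seq h h2).cast ?_ ?_ ?_
  · simp only [List.replicate_zero, List.nil_append, Nat.sub_zero]
    rw [show WT (List.replicate v (Sum.inl Sym.one)) 0 = s r from hr.symm,
      Function.update_eq_self]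
  · simp only [Nat.sub_self, List.replicate_zero, List.append_nil, Function.update_idem]
    congr 1
    simp only [ruler, WT, slow_wcells_blank, List.replicate_zero]
  · omega

/-- Fill the empty register `r` with a copy of the register `rn`. -/
def slowFill (r rn : Fin K) : Prog (Sym ⊕ α) K := Prog.seq (emitRep r rn Sym.one) (rewind r)

theorem slowFill_run (r rn : Fin K) (h : r ≠ rn) (n : ℕ) (s : St (Sym ⊕ α) K)
    (hr : s r = ruler 0 0) (hn : s rn = ruler n 0) :
    RunLe (slowFill r rn) s (Function.update s r (ruler n 0)) (7 * n + 9) := by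
  have h1 := emitRep_run r rn h Sym.one [] n s hr hn
  simp only [List.nil_append, List.length_nil, Nat.zero_add] at h1
  have h2 := (rewind_run r (List.replicate n (Sum.inl Sym.one)) (lend_not_mem_replicate_one n) n
    (Function.update s r (WT (List.replicate n (Sum.inl Sym.one)) n)) (by simp)).le
  refine (RunLe.seq h1 h2).cast rfl ?_ ?_
  · simp [ruler]
  · omega

/-! ## Row-major indexing -/

theorem slow_flatten_get {β : Type} (n : ℕ) (L : List (List β)) (hL : ∀ x ∈ L, x.length = n)
    (r c : ℕ) (hc : c < n) : L.flatten[c + r * n]? = (L[r]?).bind (fun x => x[c]?) := by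
  induction L generalizing r with
  | nil => simp
  | cons a L ih =>
    have ha : a.length = n := hL a (by simp)
    rcases r with _ | r
    · simp [List.getElem?_append_left, ha, hc]
    · have e : c + (r + 1) * n = a.length + (c + r * n) := by rw [ha, Nat.succ_mul]; omega
      rw [List.flatten_cons, e, List.getElem?_append_right (by omega)]
      simp [ih (fun x hx => hL x (by simp [hx])) r]

theorem slow_matList_get (n : ℕ) (M : Fin n → Fin n → Bool) (r c : Fin n) :
    (matList n M)[c.val + r.val * n]? = some (M r c) := by
  unfold matList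
  rw [List.flatMap_def, slow_flatten_get n _ (by simp) r.val c.val c.isLt]
  simp

/-- The cells `l[p], l[p+v], ..., l[p+(w-1)v]`. -/
def slowCol (l : List (Sym ⊕ α)) (p v w : ℕ) : List (Sym ⊕ α) :=
  (List.range w).map fun r => l.getD (p + r * v) (Sum.inl Sym.blank)

/-- The first `c` columns of the `n`-periodic reading of `l`. -/
def slowOut (l : List (Sym ⊕ α)) (n c : ℕ) : List (Sym ⊕ α) :=
  (List.range c).flatMap fun c' => slowCol l c' n n

theorem slowOut_length (l : List (Sym ⊕ α)) (n c : ℕ) : (slowOut l n c).length = c * n := by
  simp [slowOut, slowCol, List.length_flatMap]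

theorem slowOut_succ (l : List (Sym ⊕ α)) (n c : ℕ) :
    slowOut l n (c + 1) = slowOut l n c ++ slowCol l c n n := by
  simp [slowOut, List.range_succ, List.flatMap_append]

theorem slowOut_matList (n : ℕ) (M : Fin n → Fin n → Bool) :
    slowOut ((matList n M).map (bsym : Bool → Sym ⊕ α)) n n =
      (matList n (fun r c => M c r)).map bsym := by
  have e : ∀ c r : Fin n, ((matList n M).map (bsym : Bool → Sym ⊕ α)).getD (c.val + r.val * n)
      (Sum.inl Sym.blank) = bsym (M r c) := by
    intro c r
    simp [List.getD_eq_getElem?_getD, slow_matList_get]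
  unfold slowOut slowCol
  rw [← List.map_coe_finRange_eq_range]
  simp only [List.flatMap_map, List.map_map, Function.comp_def, e]
  simp [matList, List.map_flatMap, Function.comp_def]

end Vale.Agent.H91.MT
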