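import Vale.Agent.H91.MT.RegB
import Vale.Agent.H91.MT.RegC
import Vale.Agent.H91.MT.Slow_Aux

/-!
# TASK CEILPOW: the least power of two above a register

`ceilPow r p t1 t2`: register `r` holds `n ≥ 1`; on exit register `p` (empty before) holds
`2 ^ Nat.clog 2 n`, the least power of two that is `≥ n`; `r`, `t1`, `t2` are restored
(`t1`, `t2` empty scratch registers).  Implementation: `p := 1`; `t1 := n`; `t1 := t1 - p`;
while `t1` is nonzero: `p := 2 * p`; `t1 := n`; `t1 := t1 - p`  (exactly `Nat.clog 2 n` rounds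
of cost `O(n)` each).
-/

namespace Vale.Agent.H91.MT

variable {α : Type} {K : ℕ}

/-- `p :=` the least power of two `≥ r`. -/
noncomputable def ceilPow (r p t1 t2 : Fin K) : Prog (Sym ⊕ α) K :=
  Prog.seq (regConst p 1) (Prog.seq (regCopy t1 r) (Prog.seq (regSub t1 p)
    (Prog.loop (isSym t1 Sym.one)
      (Prog.seq (regDouble p t2) (Prog.seq (regCopy t1 r) (regSub t1 p))))))

/-- the state at the start of round `j` of the loop of `ceilPow` -/
noncomputable def ceilPowSt (T : Fin 4 → Fin K) (n : ℕ) (s : St (Sym ⊕ α) K) (j : ℕ) :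
    St (Sym ⊕ α) K :=
  Function.update (Function.update s (T 1) (ruler (2 ^ j) 0)) (T 2) (ruler (n - 2 ^ j) 0)

/-- one round of the loop of `ceilPow` -/
theorem ceilPow_body (T : Fin 4 → Fin K) (hT : Function.Injective T) (n : ℕ)
    (s : St (Sym ⊕ α) K)
    (hr : s (T 0) = ruler n 0) (ht2 : s (T 3) = ruler 0 0) (j : ℕ) (hj : 2 ^ j < n) :
    RunLe (Prog.seq (regDouble (T 1) (T 3)) (Prog.seq (regCopy (T 2) (T 0)) (regSub (T 2) (T 1))))
      (ceilPowSt T n s j) (ceilPowSt T n s (j + 1)) (90 * n + 130) := by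
  have h01 : T 0 ≠ T 1 := hT.ne (by decide)
  have h02 : T 0 ≠ T 2 := hT.ne (by decide)
  have h12 : T 1 ≠ T 2 := hT.ne (by decide)
  have h13 : T 1 ≠ T 3 := hT.ne (by decide)
  have h23 : T 2 ≠ T 3 := hT.ne (by decide)
  have h1 := regDouble_run (T 1) (T 3) h13 (2 ^ j) (ceilPowSt T n s j)
    (by
      unfold ceilPowSt
      rw [Function.update_of_ne h12, Function.update_self])
    (by
      unfold ceilPowSt
      rw [Function.update_of_ne (Ne.symm h23), Function.update_of_ne (Ne.symm h13), ht2])
  have h2 := regCopy_run (T 2) (T 0) (Ne.symm h02) (n - 2 ^ j) n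
    (Function.update (ceilPowSt T n s j) (T 1) (ruler (2 * 2 ^ j) 0))
    (by
      unfold ceilPowSt
      rw [Function.update_of_ne (Ne.symm h12), Function.update_self])
    (by
      unfold ceilPowSt
      rw [Function.update_of_ne h01, Function.update_of_ne h02, Function.update_of_ne h01, hr])
  have h3 := regSub_run (T 2) (T 1) (Ne.symm h12) n (2 * 2 ^ j)
    (Function.update (Function.update (ceilPowSt T n s j) (T 1) (ruler (2 * 2 ^ j) 0)) (T 2)
      (ruler n 0))
    (by rw [Function.update_self])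
    (by rw [Function.update_of_ne h12, Function.update_self])
  refine (h1.seq (h2.seq h3)).cast rfl ?_ ?_
  · have e : 2 ^ (j + 1) = 2 * 2 ^ j := by ring
    unfold ceilPowSt
    rw [e]
    funext i
    simp only [Function.update_apply]
    split_ifs <;> simp_all
  · omega

/-- TASK CEILPOW. -/
theorem ceilPow_run (T : Fin 4 → Fin K) (hT : Function.Injective T) (n : ℕ) (hn : 1 ≤ n)
    (s : St (Sym ⊕ α) K)
    (hr : s (T 0) = ruler n 0) (hp : s (T 1) = ruler 0 0) (ht1 : s (T 2) = ruler 0 0)
    (ht2 : s (T 3) = ruler 0 0) :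
    RunLe (ceilPow (T 0) (T 1) (T 2) (T 3)) s
      (Function.update s (T 1) (ruler (2 ^ Nat.clog 2 n) 0)) (1000 * (n * n + 1)) := by
  have h01 : T 0 ≠ T 1 := hT.ne (by decide)
  have h02 : T 0 ≠ T 2 := hT.ne (by decide)
  have h12 : T 1 ≠ T 2 := hT.ne (by decide)
  obtain ⟨J, hJ⟩ : ∃ J, J = Nat.clog 2 n := ⟨_, rfl⟩
  have hlt : ∀ j, j < J → 2 ^ j < n := by
    intro j hj
    rw [hJ] at hj
    exact Nat.pow_lt_of_lt_clog hj
  have hge : n ≤ 2 ^ J := by
    rw [hJ]
    exact Nat.le_pow_clog (by norm_num) n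
  have hJn : J ≤ n := by
    rcases Nat.eq_zero_or_pos J with h0 | h0
    · omega
    · have h1 := hlt (J - 1) (by omega)
      have h2 : J - 1 < 2 ^ (J - 1) := Nat.lt_two_pow_self
      omega
  -- the three preparation steps
  have a1 := regConst_run (T 1) 1 0 s hp
  have a2 := regCopy_run (T 2) (T 0) (Ne.symm h02) 0 n (Function.update s (T 1) (ruler 1 0))
    (by rw [Function.update_of_ne (Ne.symm h12), ht1])
    (by rw [Function.update_of_ne h01, hr])
  have a3 := regSub_run (T 2) (T 1) (Ne.symm h12) n 1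
    (Function.update (Function.update s (T 1) (ruler 1 0)) (T 2) (ruler n 0))
    (by rw [Function.update_self])
    (by rw [Function.update_of_ne h12, Function.update_self])
  rw [Function.update_idem] at a3
  have a3' : RunLe (regSub (T 2) (T 1))
      (Function.update (Function.update s (T 1) (ruler 1 0)) (T 2) (ruler n 0))
      (ceilPowSt T n s 0) (10 * (n + 1) + 40) := by
    refine a3.cast rfl ?_ le_rfl
    unfold ceilPowSt
    rw [pow_zero]
  -- the loop
  have hloop := slow_loop_run (isSym (T 2) Sym.one)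
    (Prog.seq (regDouble (T 1) (T 3)) (Prog.seq (regCopy (T 2) (T 0)) (regSub (T 2) (T 1))))
    J (ceilPowSt T n s) (90 * n + 130)
    (by
      intro i hi
      apply isSym_true
      unfold ceilPowSt
      rw [Function.update_self]
      exact ruler_read_lt (by have := hlt i hi; omega))
    (by
      apply isSym_false
      unfold ceilPowSt
      rw [Function.update_self, ruler_read_ge (by omega)]
      intro h
      cases h)
    (fun i hi => ceilPow_body T hT n s hr ht2 i (hlt i hi))
  have hfin : ceilPowSt T n s J = Function.update s (T 1) (ruler (2 ^ J) 0) := by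
    unfold ceilPowSt
    have e : n - 2 ^ J = 0 := by omega
    rw [e]
    funext i
    simp only [Function.update_apply]
    split_ifs with h1 h2
    · exact absurd (h2.symm.trans h1) h12
    · rw [h1, ht1]
    · rfl
    · rfl
  rw [hfin, hJ] at hloop
  unfold ceilPow
  refine (a1.seq (a2.seq (a3'.seq hloop))).mono ?_
  have hJn' : Nat.clog 2 n ≤ n := hJ ▸ hJn
  have h1 : Nat.clog 2 n * (90 * n + 130 + 1) ≤ n * (90 * n + 130 + 1) :=
    Nat.mul_le_mul_right _ hJn'
  have h2 : n ≤ n * n := Nat.le_mul_self n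
  nlinarith

end Vale.Agent.H91.MT
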