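import Mathlib

/-!
# TASK COST: the final real-analysis step (no machines here)
-/

namespace Vale.Agent.H91.MT

/-- Geometric tail: the sum over `j < n` with `j1 ≤ j` of `(1/2)^j` is at most `2 * (1/2)^j1`. -/
theorem cost_geom_tail (j1 n : ℕ) :
    (∑ j ∈ Finset.range n, if j < j1 then (0 : ℝ) else (1 / 2 : ℝ) ^ j) ≤
      2 * (1 / 2 : ℝ) ^ j1 - 2 * (1 / 2 : ℝ) ^ (max n j1) := by
  induction n with
  | zero => simp
  | succ n ih =>
    rw [Finset.sum_range_succ]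
    by_cases h : n < j1
    · have h1 : max (n + 1) j1 = j1 := max_eq_right (by omega)
      have h2 : max n j1 = j1 := max_eq_right (by omega)
      rw [h1]
      rw [h2] at ih
      rw [if_pos h]
      linarith
    · have h1 : max (n + 1) j1 = n + 1 := max_eq_left (by omega)
      have h2 : max n j1 = n := max_eq_left (by omega)
      rw [h1]
      rw [h2] at ih
      rw [if_neg h, pow_succ]
      linarith

/-- The head of the sum: at most `j1` terms are bounded by `θ`. -/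
theorem cost_head (j1 n : ℕ) (t : ℝ) :
    (∑ j ∈ Finset.range n, if j < j1 then t else 0) = ((min n j1 : ℕ) : ℝ) * t := by
  induction n with
  | zero => simp
  | succ n ih =>
    rw [Finset.sum_range_succ, ih]
    by_cases h : n < j1
    · have h1 : min (n + 1) j1 = n + 1 := min_eq_left (by omega)
      have h2 : min n j1 = n := min_eq_left (by omega)
      rw [h1, h2, if_pos h]
      push_cast
      ring
    · have h1 : min (n + 1) j1 = j1 := min_eq_right (by omega)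
      have h2 : min n j1 = j1 := min_eq_right (by omega)
      rw [h1, h2, if_neg h]
      ring

/-- Splitting the sum of minima at `j1`. -/
theorem cost_sum_bound (t P ν L j1 : ℕ) :
    ((∑ j ∈ Finset.range (L + 1), min t (P * (ν / 2 ^ j + 1)) : ℕ) : ℝ) ≤
      (j1 : ℝ) * t + (P : ℝ) * (2 * (ν : ℝ) * (1 / 2 : ℝ) ^ j1 + ((L : ℝ) + 1)) := by
  have hP : (0 : ℝ) ≤ P := Nat.cast_nonneg _
  have ht : (0 : ℝ) ≤ t := Nat.cast_nonneg _
  have hν : (0 : ℝ) ≤ ν := Nat.cast_nonneg _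
  have hterm : ∀ j ∈ Finset.range (L + 1), ((min t (P * (ν / 2 ^ j + 1)) : ℕ) : ℝ) ≤
      (if j < j1 then (t : ℝ) else 0) +
        (P : ℝ) * ((ν : ℝ) * (if j < j1 then (0 : ℝ) else (1 / 2 : ℝ) ^ j) + 1) := by
    intro j _
    by_cases h : j < j1
    · rw [if_pos h, if_pos h]
      have h1 : ((min t (P * (ν / 2 ^ j + 1)) : ℕ) : ℝ) ≤ t := by
        exact_mod_cast min_le_left _ _
      nlinarith
    · rw [if_neg h, if_neg h]
      have h1 : ((min t (P * (ν / 2 ^ j + 1)) : ℕ) : ℝ) ≤ ((P * (ν / 2 ^ j + 1) : ℕ) : ℝ) := by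
        exact_mod_cast min_le_right _ _
      have h2 : ((ν / 2 ^ j : ℕ) : ℝ) ≤ (ν : ℝ) * (1 / 2 : ℝ) ^ j := by
        have h3 : ((ν / 2 ^ j : ℕ) : ℝ) ≤ (ν : ℝ) / ((2 ^ j : ℕ) : ℝ) := Nat.cast_div_le
        have h4 : (ν : ℝ) / ((2 ^ j : ℕ) : ℝ) = (ν : ℝ) * (1 / 2 : ℝ) ^ j := by
          push_cast
          rw [one_div, inv_pow, div_eq_mul_inv]
        linarith
      have h1' : ((P * (ν / 2 ^ j + 1) : ℕ) : ℝ) = (P : ℝ) * ((ν / 2 ^ j : ℕ) : ℝ) + P := by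
        push_cast
        ring
      have h5 : (P : ℝ) * ((ν / 2 ^ j : ℕ) : ℝ) ≤ (P : ℝ) * ((ν : ℝ) * (1 / 2 : ℝ) ^ j) :=
        mul_le_mul_of_nonneg_left h2 hP
      linarith
  have hsum : ((∑ j ∈ Finset.range (L + 1), min t (P * (ν / 2 ^ j + 1)) : ℕ) : ℝ) ≤
      ∑ j ∈ Finset.range (L + 1), ((if j < j1 then (t : ℝ) else 0) +
        (P : ℝ) * ((ν : ℝ) * (if j < j1 then (0 : ℝ) else (1 / 2 : ℝ) ^ j) + 1)) := by
    rw [Nat.cast_sum]
    exact Finset.sum_le_sum hterm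
  have hsplit : (∑ j ∈ Finset.range (L + 1), ((if j < j1 then (t : ℝ) else 0) +
        (P : ℝ) * ((ν : ℝ) * (if j < j1 then (0 : ℝ) else (1 / 2 : ℝ) ^ j) + 1))) =
      (∑ j ∈ Finset.range (L + 1), if j < j1 then (t : ℝ) else 0) +
        (P : ℝ) * ((ν : ℝ) * (∑ j ∈ Finset.range (L + 1),
          if j < j1 then (0 : ℝ) else (1 / 2 : ℝ) ^ j) + ((L : ℝ) + 1)) := by
    rw [Finset.sum_add_distrib, ← Finset.mul_sum, Finset.sum_add_distrib, ← Finset.mul_sum]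
    simp
  have hhead := cost_head j1 (L + 1) (t : ℝ)
  have htail := cost_geom_tail j1 (L + 1)
  have hmin : ((min (L + 1) j1 : ℕ) : ℝ) ≤ (j1 : ℝ) := by
    exact_mod_cast min_le_right _ _
  have hpow : (0 : ℝ) ≤ (1 / 2 : ℝ) ^ (max (L + 1) j1) := by positivity
  have htail' : (∑ j ∈ Finset.range (L + 1), if j < j1 then (0 : ℝ) else (1 / 2 : ℝ) ^ j) ≤
      2 * (1 / 2 : ℝ) ^ j1 := by linarith
  have h6 : (ν : ℝ) * (∑ j ∈ Finset.range (L + 1), if j < j1 then (0 : ℝ) else (1 / 2 : ℝ) ^ j) ≤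
      (ν : ℝ) * (2 * (1 / 2 : ℝ) ^ j1) := mul_le_mul_of_nonneg_left htail' hν
  have h7 : (P : ℝ) * ((ν : ℝ) * (∑ j ∈ Finset.range (L + 1),
          if j < j1 then (0 : ℝ) else (1 / 2 : ℝ) ^ j) + ((L : ℝ) + 1)) ≤
      (P : ℝ) * (2 * (ν : ℝ) * (1 / 2 : ℝ) ^ j1 + ((L : ℝ) + 1)) := by
    apply mul_le_mul_of_nonneg_left _ hP
    linarith
  have h8 : ((min (L + 1) j1 : ℕ) : ℝ) * (t : ℝ) ≤ (j1 : ℝ) * t :=
    mul_le_mul_of_nonneg_right hmin ht
  rw [hsplit, hhead] at hsum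
  linarith

/-- TASK COST (1).  If `T ν` is bounded by the recursion bound in terms of `θ ν` and is at
least `cB * n^2 * log n` for `n = 2^ν`, then `θ ν ≥ c * 4^ν * ν` eventually. -/
theorem cost_final (T θ : ℕ → ℕ) (C ν0 : ℕ)
    (hT : ∀ ν, ν0 ≤ ν → T ν ≤ C * 4 ^ ν * (Nat.log 2 ν + 2) +
      C * ∑ j ∈ Finset.range (Nat.log 2 ν + 1), min (θ ν) (4 ^ ν * (ν / 2 ^ j + 1)))
    (cB : ℝ) (hcB : 0 < cB) (ν1 : ℕ)
    (hB : ∀ ν, ν1 ≤ ν → cB * ((2 : ℝ) ^ ν) ^ 2 * Real.log ((2 : ℝ) ^ ν) ≤ (T ν : ℝ)) :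
    ∃ c : ℝ, 0 < c ∧ ∃ ν2 : ℕ, ∀ ν, ν2 ≤ ν → c * (4 : ℝ) ^ ν * ν ≤ (θ ν : ℝ) := by
  have hlog2 : 0 < Real.log 2 := Real.log_pos (by norm_num)
  have hBsimp : ∀ ν : ℕ, cB * ((2 : ℝ) ^ ν) ^ 2 * Real.log ((2 : ℝ) ^ ν) =
      cB * Real.log 2 * ((4 : ℝ) ^ ν * ν) := by
    intro ν
    have h4 : ((2 : ℝ) ^ ν) ^ 2 = (4 : ℝ) ^ ν := by
      rw [← pow_mul, mul_comm, pow_mul]
      norm_num
    rw [h4, Real.log_pow]
    ring
  rcases Nat.eq_zero_or_pos C with hC0 | hCpos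
  · refine ⟨1, one_pos, max ν0 ν1 + 1, fun ν hν => ?_⟩
    exfalso
    have h0 : ν0 ≤ ν := by
      have := le_max_left ν0 ν1
      omega
    have h1 : ν1 ≤ ν := by
      have := le_max_right ν0 ν1
      omega
    have hT0 : T ν = 0 := by
      have h2 := hT ν h0
      rw [hC0] at h2
      simpa using h2
    have h3 := hB ν h1
    rw [hT0, hBsimp] at h3
    have hν1 : (1 : ℝ) ≤ ν := by
      have : 1 ≤ ν := by omega
      exact_mod_cast this
    have h4 : 0 < cB * Real.log 2 * ((4 : ℝ) ^ ν * ν) := by positivity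
    simp only [Nat.cast_zero] at h3
    linarith
  · have hCr : (0 : ℝ) < C := by exact_mod_cast hCpos
    have hapos : 0 < cB * Real.log 2 := mul_pos hcB hlog2
    obtain ⟨j0, hj0⟩ : ∃ j0 : ℕ, (1 / 2 : ℝ) ^ j0 < cB * Real.log 2 / (8 * C) :=
      exists_pow_lt_of_lt_one (by positivity) (by norm_num)
    have hεpos : 0 < cB * Real.log 2 * Real.log 2 / (16 * C) := by positivity
    have hev := Real.isLittleO_log_id_atTop.def hεpos
    have hev2 := tendsto_natCast_atTop_atTop.eventually hev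
    obtain ⟨N1, hN1⟩ := Filter.eventually_atTop.mp hev2
    refine ⟨cB * Real.log 2 / (2 * C * ((j0 : ℝ) + 1)), by positivity,
      max (max ν0 ν1) (max N1 (max 1 ⌈24 * (C : ℝ) / (cB * Real.log 2)⌉₊)), fun ν hν => ?_⟩
    have h0 : ν0 ≤ ν := le_trans (le_trans (le_max_left _ _) (le_max_left _ _)) hν
    have h1 : ν1 ≤ ν := le_trans (le_trans (le_max_right _ _) (le_max_left _ _)) hν
    have h2 : N1 ≤ ν := le_trans (le_trans (le_max_left _ _) (le_max_right _ _)) hν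
    have h3 : 1 ≤ ν :=
      le_trans (le_trans (le_trans (le_max_left _ _) (le_max_right _ _)) (le_max_right _ _)) hν
    have h4 : ⌈24 * (C : ℝ) / (cB * Real.log 2)⌉₊ ≤ ν :=
      le_trans (le_trans (le_trans (le_max_right _ _) (le_max_right _ _)) (le_max_right _ _)) hν
    have hνr : (1 : ℝ) ≤ ν := by exact_mod_cast h3
    have hνpos : (0 : ℝ) < ν := by linarith
    have hP : (0 : ℝ) < (4 : ℝ) ^ ν := by positivity
    -- upper bound on T
    have hTr : (T ν : ℝ) ≤ (C : ℝ) * (4 : ℝ) ^ ν * ((Nat.log 2 ν : ℝ) + 2) +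
        (C : ℝ) * ((∑ j ∈ Finset.range (Nat.log 2 ν + 1),
          min (θ ν) (4 ^ ν * (ν / 2 ^ j + 1)) : ℕ) : ℝ) := by
      have := hT ν h0
      exact_mod_cast this
    have hS := cost_sum_bound (θ ν) (4 ^ ν) ν (Nat.log 2 ν) (j0 + 1)
    push_cast at hS
    have hLB := hB ν h1
    rw [hBsimp] at hLB
    -- the logarithm bound
    have hL1 : (Nat.log 2 ν : ℝ) ≤ Real.log ν / Real.log 2 := Real.natLog_le_logb ν 2
    have hL2 : Real.log ν ≤ cB * Real.log 2 * Real.log 2 / (16 * C) * ν := by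
      have := hN1 ν h2
      rw [Real.norm_of_nonneg (Real.log_nonneg hνr)] at this
      simpa [abs_of_pos hνpos] using this
    have hL3 : (C : ℝ) * (2 * (Nat.log 2 ν : ℝ)) ≤ cB * Real.log 2 / 8 * ν := by
      have h5 : (Nat.log 2 ν : ℝ) ≤ cB * Real.log 2 / (16 * C) * ν := by
        calc (Nat.log 2 ν : ℝ) ≤ Real.log ν / Real.log 2 := hL1
          _ ≤ (cB * Real.log 2 * Real.log 2 / (16 * C) * ν) / Real.log 2 :=
            div_le_div_of_nonneg_right hL2 hlog2.le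
          _ = cB * Real.log 2 / (16 * C) * ν := by
            field_simp
      calc (C : ℝ) * (2 * (Nat.log 2 ν : ℝ)) ≤ (C : ℝ) * (2 * (cB * Real.log 2 / (16 * C) * ν)) := by
            apply mul_le_mul_of_nonneg_left _ hCr.le
            linarith
        _ = cB * Real.log 2 / 8 * ν := by
            field_simp
            ring
    have hL4 : 3 * (C : ℝ) ≤ cB * Real.log 2 / 8 * ν := by
      have h5 : 24 * (C : ℝ) / (cB * Real.log 2) ≤ ν := by
        calc 24 * (C : ℝ) / (cB * Real.log 2) ≤ (⌈24 * (C : ℝ) / (cB * Real.log 2)⌉₊ : ℝ) :=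
              Nat.le_ceil _
          _ ≤ ν := by exact_mod_cast h4
      rw [div_le_iff₀ hapos] at h5
      linarith
    -- the geometric factor
    have hq : (C : ℝ) * (2 * (1 / 2 : ℝ) ^ (j0 + 1)) ≤ cB * Real.log 2 / 8 := by
      have h5 : 2 * (1 / 2 : ℝ) ^ (j0 + 1) = (1 / 2 : ℝ) ^ j0 := by
        rw [pow_succ]
        ring
      have h6 : (C : ℝ) * (cB * Real.log 2 / (8 * C)) = cB * Real.log 2 / 8 := by
        field_simp
      have h7 : (C : ℝ) * (1 / 2 : ℝ) ^ j0 ≤ (C : ℝ) * (cB * Real.log 2 / (8 * C)) :=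
        mul_le_mul_of_nonneg_left hj0.le hCr.le
      rw [h5]
      linarith
    -- assemble
    have hkey : cB * Real.log 2 / 2 * ((4 : ℝ) ^ ν * ν) ≤ (C : ℝ) * ((j0 : ℝ) + 1) * (θ ν : ℝ) := by
      have e1 : (C : ℝ) * ((∑ j ∈ Finset.range (Nat.log 2 ν + 1),
          min (θ ν) (4 ^ ν * (ν / 2 ^ j + 1)) : ℕ) : ℝ) ≤
          (C : ℝ) * (((j0 : ℝ) + 1) * (θ ν : ℝ) + (4 : ℝ) ^ ν *
            (2 * (ν : ℝ) * (1 / 2 : ℝ) ^ (j0 + 1) + ((Nat.log 2 ν : ℝ) + 1))) := by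
        apply mul_le_mul_of_nonneg_left _ hCr.le
        push_cast
        exact hS
      have e2 : (4 : ℝ) ^ ν * ((C : ℝ) * (2 * (Nat.log 2 ν : ℝ))) ≤
          (4 : ℝ) ^ ν * (cB * Real.log 2 / 8 * ν) := mul_le_mul_of_nonneg_left hL3 hP.le
      have e3 : (4 : ℝ) ^ ν * (3 * (C : ℝ)) ≤ (4 : ℝ) ^ ν * (cB * Real.log 2 / 8 * ν) :=
        mul_le_mul_of_nonneg_left hL4 hP.le
      have e4 : (4 : ℝ) ^ ν * ν * ((C : ℝ) * (2 * (1 / 2 : ℝ) ^ (j0 + 1))) ≤
          (4 : ℝ) ^ ν * ν * (cB * Real.log 2 / 8) :=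
        mul_le_mul_of_nonneg_left hq (by positivity)
      nlinarith
    have hden : (0 : ℝ) < 2 * C * ((j0 : ℝ) + 1) := by positivity
    have hfin : cB * Real.log 2 / (2 * C * ((j0 : ℝ) + 1)) * (4 : ℝ) ^ ν * ν =
        (cB * Real.log 2 / 2 * ((4 : ℝ) ^ ν * ν)) / ((C : ℝ) * ((j0 : ℝ) + 1)) := by
      field_simp
    rw [hfin, div_le_iff₀ (by positivity)]
    linarith

/-- TASK COST (2).  A lower bound along the lengths `K0 * 4^ν` gives `k log k` for the running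
maximum at every length. -/
theorem envelope_final (f : ℕ → ℕ) (K0 : ℕ) (hK0 : 1 ≤ K0) (c : ℝ) (hc : 0 < c) (ν2 : ℕ)
    (h : ∀ ν, ν2 ≤ ν → c * (4 : ℝ) ^ ν * ν ≤ (f (K0 * 4 ^ ν) : ℝ)) :
    ∃ c' : ℝ, 0 < c' ∧ ∃ N : ℕ, ∀ k : ℕ, N ≤ k →
      c' * k * Real.log k ≤ (((Finset.range (k + 1)).sup f : ℕ) : ℝ) := by
  have hK0r : (1 : ℝ) ≤ K0 := by exact_mod_cast hK0
  have hK0pos : (0 : ℝ) < K0 := by linarith
  refine ⟨c / (16 * K0), by positivity, K0 * 4 ^ (max ν2 (max 1 K0)), fun k hk => ?_⟩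
  have hkK : 4 ^ (max ν2 (max 1 K0)) ≤ k / K0 := by
    rw [Nat.le_div_iff_mul_le (by omega)]
    rw [mul_comm]
    exact hk
  have hν3le : max ν2 (max 1 K0) ≤ Nat.log 4 (k / K0) :=
    Nat.le_log_of_pow_le (by norm_num) hkK
  have hdivpos : k / K0 ≠ 0 := by
    have : 0 < 4 ^ (max ν2 (max 1 K0)) := by positivity
    omega
  have hlow : K0 * 4 ^ (Nat.log 4 (k / K0)) ≤ k := by
    have h1 : 4 ^ (Nat.log 4 (k / K0)) ≤ k / K0 := Nat.pow_log_le_self 4 hdivpos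
    calc K0 * 4 ^ (Nat.log 4 (k / K0)) ≤ K0 * (k / K0) := Nat.mul_le_mul_left _ h1
      _ ≤ k := Nat.mul_div_le k K0
  have hup : k < K0 * 4 ^ (Nat.log 4 (k / K0) + 1) := by
    have h1 : k / K0 < 4 ^ (Nat.log 4 (k / K0) + 1) :=
      Nat.lt_pow_succ_log_self (by norm_num) _
    have h2 := (Nat.div_lt_iff_lt_mul (by omega : 0 < K0)).mp h1
    rw [mul_comm]
    exact h2
  generalize Nat.log 4 (k / K0) = ν at hν3le hlow hup
  have hν2 : ν2 ≤ ν := le_trans (le_max_left _ _) hν3le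
  have hν1 : 1 ≤ ν := le_trans (le_trans (le_max_left _ _) (le_max_right _ _)) hν3le
  have hνK : K0 ≤ ν := le_trans (le_trans (le_max_right _ _) (le_max_right _ _)) hν3le
  have hν1r : (1 : ℝ) ≤ ν := by exact_mod_cast hν1
  have hνKr : (K0 : ℝ) ≤ ν := by exact_mod_cast hνK
  have hsup : f (K0 * 4 ^ ν) ≤ (Finset.range (k + 1)).sup f :=
    Finset.le_sup (f := f) (Finset.mem_range.mpr (by omega))
  have hsupr : (f (K0 * 4 ^ ν) : ℝ) ≤ (((Finset.range (k + 1)).sup f : ℕ) : ℝ) := by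
    exact_mod_cast hsup
  have hf := h ν hν2
  have hk1 : 1 ≤ k := by
    have : 0 < K0 * 4 ^ ν := by positivity
    omega
  have hk1r : (1 : ℝ) ≤ k := by exact_mod_cast hk1
  have hkA : (k : ℝ) ≤ (K0 : ℝ) * (4 : ℝ) ^ (ν + 1) := by
    have := hup.le
    exact_mod_cast this
  have hP : (0 : ℝ) < (4 : ℝ) ^ ν := by positivity
  have hApos : (0 : ℝ) < (K0 : ℝ) * (4 : ℝ) ^ (ν + 1) := by positivity
  have hlogk : 0 ≤ Real.log k := Real.log_nonneg hk1r
  have hlogA : Real.log k ≤ Real.log ((K0 : ℝ) * (4 : ℝ) ^ (ν + 1)) :=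
    Real.log_le_log (by linarith) hkA
  have hlogA2 : Real.log ((K0 : ℝ) * (4 : ℝ) ^ (ν + 1)) =
      Real.log K0 + ((ν : ℝ) + 1) * Real.log 4 := by
    rw [Real.log_mul hK0pos.ne' (by positivity), Real.log_pow]
    push_cast
    ring
  have hlogK : Real.log K0 ≤ (K0 : ℝ) - 1 := Real.log_le_sub_one_of_pos hK0pos
  have hlog4 : Real.log 4 ≤ 1.4 := by
    have h1 : Real.log 4 = 2 * Real.log 2 := by
      have : (4 : ℝ) = 2 ^ 2 := by norm_num
      rw [this, Real.log_pow]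
      norm_num
    have h2 := Real.log_two_lt_d9
    rw [h1]
    linarith
  have hlog4pos : 0 ≤ Real.log 4 := Real.log_nonneg (by norm_num)
  have hlogA3 : Real.log ((K0 : ℝ) * (4 : ℝ) ^ (ν + 1)) ≤ 4 * ν := by
    rw [hlogA2]
    nlinarith
  have hmain : (k : ℝ) * Real.log k ≤ 16 * K0 * ((4 : ℝ) ^ ν * ν) := by
    calc (k : ℝ) * Real.log k ≤ ((K0 : ℝ) * (4 : ℝ) ^ (ν + 1)) * Real.log k :=
          mul_le_mul_of_nonneg_right hkA hlogk
      _ ≤ ((K0 : ℝ) * (4 : ℝ) ^ (ν + 1)) * (4 * ν) :=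
          mul_le_mul_of_nonneg_left (le_trans hlogA hlogA3) hApos.le
      _ = 16 * K0 * ((4 : ℝ) ^ ν * ν) := by
          rw [pow_succ]
          ring
  have hfin : c / (16 * K0) * k * Real.log k ≤ c * (4 : ℝ) ^ ν * ν := by
    have h1 : c / (16 * K0) * k * Real.log k = c / (16 * K0) * ((k : ℝ) * Real.log k) := by ring
    have h2 : c / (16 * K0) * (16 * K0 * ((4 : ℝ) ^ ν * ν)) = c * (4 : ℝ) ^ ν * ν := by
      field_simp
    rw [h1, ← h2]
    exact mul_le_mul_of_nonneg_left hmain (by positivity)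
  linarith

end Vale.Agent.H91.MT
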