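import Mathlib

/-!
# Multitape Turing machines: the model used for P338

Textbook deterministic multitape Turing machines with one-sided tapes, together with the two
computational problems `Multiplies` (integer multiplication, as in the problem file) and
`Transposes` (transposition of a square binary matrix given in row-major order), and their
worst-case running times.
-/

namespace Vale.Agent.H91.MT

/-- Head moves: left, right, stay. -/
inductive Dir
  | L | R | S
  deriving DecidableEq

/-- A one-sided tape: cells `0, 1, 2, ...` and a head position. -/
structure Tape (Γ : Type) where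
  head : ℕ
  cells : ℕ → Γ

namespace Tape

variable {Γ : Type}

/-- The symbol under the head. -/
def read (t : Tape Γ) : Γ := t.cells t.head

/-- Overwrite the symbol under the head. -/
def write (t : Tape Γ) (x : Γ) : Tape Γ := ⟨t.head, Function.update t.cells t.head x⟩

/-- Move the head; moving left on cell `0` leaves the head on cell `0`. -/
def move (t : Tape Γ) : Dir → Tape Γ
  | Dir.L => ⟨t.head - 1, t.cells⟩
  | Dir.R => ⟨t.head + 1, t.cells⟩
  | Dir.S => t

/-- The tape holding the word `w` on cells `0 .. w.length - 1`, blank elsewhere, head on cell `0`. -/
def ofList (b : Γ) (w : List Γ) : Tape Γ := ⟨0, fun i => w.getD i b⟩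

end Tape

/-- A deterministic multitape Turing machine with `k + 1` one-sided tapes, a finite tape
alphabet `Γ` and a finite state set `Q`.  Tape `0` is the input tape, `out` is the designated
output tape.  `δ q a = none` means that the machine halts in state `q` reading `a`; otherwise
`δ q a = some (q', w)` where `w i` is the symbol written and the move made on tape `i`. -/
structure Machine where
  k : ℕ
  Γ : Type
  Q : Type
  [finΓ : Fintype Γ]
  [finQ : Fintype Q]
  blank : Γ
  zero : Γ
  one : Γ
  hash : Γ
  nodup : [blank, zero, one, hash].Nodup
  q0 : Q
  out : Fin (k + 1)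
  δ : Q → (Fin (k + 1) → Γ) → Option (Q × (Fin (k + 1) → Γ × Dir))

/-- A configuration: the state and the `k + 1` tapes. -/
structure Cfg (M : Machine) where
  q : M.Q
  tape : Fin (M.k + 1) → Tape M.Γ

/-- One step of the machine; `none` if the machine has halted. -/
def step (M : Machine) (c : Cfg M) : Option (Cfg M) :=
  match M.δ c.q (fun i => (c.tape i).read) with
  | none => none
  | some (q', w) => some ⟨q', fun i => ((c.tape i).write (w i).1).move (w i).2⟩

/-- The configuration after `t` steps, if the machine has not halted before. -/
def stepN (M : Machine) : ℕ → Cfg M → Option (Cfg M)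
  | 0, c => some c
  | t + 1, c => (step M c).bind (stepN M t)

/-- Started in `c`, the machine halts after exactly `t` steps, in configuration `c'`. -/
def HaltsIn (M : Machine) (c : Cfg M) (t : ℕ) (c' : Cfg M) : Prop :=
  stepN M t c = some c' ∧ step M c' = none

/-- The initial configuration on input word `w`: start state, `w` on tape `0`, the other tapes
blank, all heads on the leftmost cell. -/
def init (M : Machine) (w : List M.Γ) : Cfg M :=
  ⟨M.q0, fun i => if i = 0 then Tape.ofList M.blank w else Tape.ofList M.blank []⟩

/-- The tape symbol for a bit. -/
def Machine.bit (M : Machine) (b : Bool) : M.Γ := if b then M.one else M.zero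

/-- Value of a binary string, leftmost bit most significant. -/
def val (x : List Bool) : ℕ := x.foldl (fun a b => 2 * a + b.toNat) 0

/-- The input word `x # y`. -/
def mulInput (M : Machine) (x y : List Bool) : List M.Γ :=
  x.map M.bit ++ [M.hash] ++ y.map M.bit

/-- `A` multiplies: for every `n ≥ 1` and all `x, y ∈ {0,1}^n`, started on `x # y` it halts with
the `2n`-bit binary representation of `val x * val y` (most significant bit first) on cells
`0 .. 2n - 1` of its output tape. -/
def Multiplies (A : Machine) : Prop :=
  ∀ n : ℕ, 1 ≤ n → ∀ x y : List Bool, x.length = n → y.length = n →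
    ∃ (t : ℕ) (c' : Cfg A), HaltsIn A (init A (mulInput A x y)) t c' ∧
      ∀ i : ℕ, i < 2 * n →
        (c'.tape A.out).cells i = A.bit ((val x * val y).testBit (2 * n - 1 - i))

/-- Worst-case running time of `A` on inputs `x # y` with `x, y ∈ {0,1}^n`. -/
noncomputable def mulTime (A : Machine) (n : ℕ) : ℕ :=
  sSup {t : ℕ | ∃ (x y : List Bool) (c' : Cfg A), x.length = n ∧ y.length = n ∧
    HaltsIn A (init A (mulInput A x y)) t c'}

/-- The entries of an `n × n` binary matrix in row-major order. -/
def matList (n : ℕ) (M : Fin n → Fin n → Bool) : List Bool :=
  (List.finRange n).flatMap fun r => (List.finRange n).map fun c => M r c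

/-- `B` transposes: for every `n ≥ 1` and every `n × n` binary matrix `M`, started on the `n^2`
entries of `M` in row-major order it halts with its output tape holding exactly the entries of
the transposed matrix in row-major order (followed by blanks only). -/
def Transposes (B : Machine) : Prop :=
  ∀ n : ℕ, 1 ≤ n → ∀ M : Fin n → Fin n → Bool,
    ∃ (t : ℕ) (c' : Cfg B), HaltsIn B (init B ((matList n M).map B.bit)) t c' ∧
      (c'.tape B.out).cells =
        (Tape.ofList B.blank ((matList n (fun r c => M c r)).map B.bit)).cells

/-- Worst-case running time of `B` on `n × n` binary matrices. -/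
noncomputable def transTime (B : Machine) (n : ℕ) : ℕ :=
  sSup {t : ℕ | ∃ (M : Fin n → Fin n → Bool) (c' : Cfg B),
    HaltsIn B (init B ((matList n M).map B.bit)) t c'}

end Vale.Agent.H91.MT
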