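import Vale.Agent.H91.MT.Top
import Vale.Agent.H91.MT.Cost
import Vale.Agent.H91.MT.Compile

/-!
# The reduction: from a multiplier to a transposer, and the conditional lower bound
-/

namespace Vale.Agent.H91.MT

theorem nodupB (A : Machine) :
    [(Sum.inl Sym.blank : ΓB A), Sum.inl Sym.zero, Sum.inl Sym.one, Sum.inl Sym.sep].Nodup := by
  simp

/-- The alphabet of the constructed machine is finite. -/
@[reducible] noncomputable def fintypeΓB (A : Machine) : Fintype (ΓB A) :=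
  @instFintypeSum _ _ inferInstance
    (@instFintypeSum _ _ (@instFintypeProd _ _ A.finΓ inferInstance) A.finQ)

/-- The transposing machine built from the multiplier `A`. -/
@[reducible] noncomputable def machB (A : Machine) : Machine :=
  @Prog.toMachine (ΓB A) (fintypeΓB A) (A.k + 82) (progB A) (Sum.inl Sym.blank)
    (Sum.inl Sym.zero) (Sum.inl Sym.one) (Sum.inl Sym.sep) (nodupB A) (topOut A)

theorem machB_bits (A : Machine) (w : List Bool) :
    (w.map (machB A).bit : List (ΓB A)) = w.map bsym := by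
  apply List.map_congr_left
  intro b _
  cases b <;> rfl

theorem machB_halts (A : Machine) (w : List Bool) (s' : St (ΓB A) (A.k + 82 + 1)) (t : ℕ)
    (h : Run (progB A) (topInit A w) s' t) :
    ∃ c' : Cfg (machB A), HaltsIn (machB A) (init (machB A) (w.map (machB A).bit)) t c' ∧
      c'.tape = s' := by
  have h' := @Prog.toMachine_halts (ΓB A) (fintypeΓB A) (A.k + 82) (progB A) (Sum.inl Sym.blank)
    (Sum.inl Sym.zero) (Sum.inl Sym.one) (Sum.inl Sym.sep) (nodupB A) (topOut A) (w.map bsym) s' t h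
  rw [machB_bits]
  exact h'

theorem machB_transposes (A : Machine) (hA : Multiplies A) : Transposes (machB A) := by
  intro n hn M
  obtain ⟨s', t, hrun, hcells⟩ := progB_correct A hA n hn M
  obtain ⟨c', hhalt, htape⟩ := machB_halts A (matList n M) s' t hrun
  refine ⟨t, c', hhalt, ?_⟩
  rw [machB_bits]
  have : c'.tape (machB A).out = s' (topOut A) := by rw [htape]
  rw [this]
  exact hcells

theorem machB_time (A : Machine) (hA : Multiplies A) :
    ∃ C : ℕ, ∀ ν : ℕ, 7 ≤ ν →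
      transTime (machB A) (2 ^ ν) ≤ C * 4 ^ ν * (Nat.log 2 ν + 2) +
        C * ∑ j ∈ Finset.range (Nat.log 2 ν + 1),
          min (mulTime A (1024 * 4 ^ ν)) (4 ^ ν * (ν / 2 ^ j + 1)) := by
  obtain ⟨C, hC⟩ := progB_time A hA
  refine ⟨C, fun ν hν => ?_⟩
  apply transTime_le
  intro M t c' hhalt
  obtain ⟨s0, t0, hrun, -⟩ := progB_correct A hA (2 ^ ν) (Nat.one_le_two_pow) M
  obtain ⟨c0, hhalt0, -⟩ := machB_halts A (matList (2 ^ ν) M) s0 t0 hrun
  have ht : t = t0 := (HaltsIn.det hhalt hhalt0).1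
  rw [ht]
  exact hC ν hν M s0 t0 hrun

/-- The conditional lower bound along the lengths `1024 * 4^ν`. -/
theorem main_pointwise
    (H : ∀ B : Machine, Transposes B → ∃ c : ℝ, 0 < c ∧ ∃ N : ℕ, ∀ n : ℕ, N ≤ n →
      c * (n : ℝ) ^ 2 * Real.log n ≤ (transTime B n : ℝ))
    (A : Machine) (hA : Multiplies A) :
    ∃ c : ℝ, 0 < c ∧ ∃ N : ℕ, ∀ ν : ℕ, N ≤ ν →
      c * (4 : ℝ) ^ ν * ν ≤ (mulTime A (1024 * 4 ^ ν) : ℝ) := by
  obtain ⟨C, hC⟩ := machB_time A hA
  obtain ⟨cB, hcB, NB, hB⟩ := H (machB A) (machB_transposes A hA)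
  refine cost_final (fun ν => transTime (machB A) (2 ^ ν)) (fun ν => mulTime A (1024 * 4 ^ ν))
    C 7 (fun ν hν => hC ν hν) cB hcB NB ?_
  intro ν hν
  have h1 : NB ≤ 2 ^ ν := le_trans hν (Nat.lt_two_pow_self).le
  have h2 := hB (2 ^ ν) h1
  have e : ((2 ^ ν : ℕ) : ℝ) = (2 : ℝ) ^ ν := by push_cast; rfl
  rw [e] at h2
  exact h2

/-- The conditional lower bound for the running maximum at every length. -/
theorem main_envelope
    (H : ∀ B : Machine, Transposes B → ∃ c : ℝ, 0 < c ∧ ∃ N : ℕ, ∀ n : ℕ, N ≤ n →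
      c * (n : ℝ) ^ 2 * Real.log n ≤ (transTime B n : ℝ))
    (A : Machine) (hA : Multiplies A) :
    ∃ c : ℝ, 0 < c ∧ ∃ N : ℕ, ∀ k : ℕ, N ≤ k →
      c * (k : ℝ) * Real.log k ≤ (((Finset.range (k + 1)).sup (mulTime A) : ℕ) : ℝ) := by
  obtain ⟨c, hc, N, h⟩ := main_pointwise H A hA
  exact envelope_final (mulTime A) 1024 (by norm_num) c hc N h

end Vale.Agent.H91.MT

namespace Vale.Agent.H91.MT

/-- The reduction itself: from every multiplier a transposer whose time on `2^ν × 2^ν` matrices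
is bounded through the time of the multiplier at the single length `1024 * 4^ν`. -/
theorem reduction (A : Machine) (hA : Multiplies A) :
    ∃ B : Machine, Transposes B ∧ ∃ C : ℕ, ∀ ν : ℕ, 7 ≤ ν →
      transTime B (2 ^ ν) ≤ C * 4 ^ ν * (Nat.log 2 ν + 2) +
        C * ∑ j ∈ Finset.range (Nat.log 2 ν + 1),
          min (mulTime A (1024 * 4 ^ ν)) (4 ^ ν * (ν / 2 ^ j + 1)) :=
  ⟨machB A, machB_transposes A hA, machB_time A hA⟩

/-- The conditional lower bound `k log k` at the lengths `k = 1024 * 4^ν`. -/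
theorem main_lengths
    (H : ∀ B : Machine, Transposes B → ∃ c : ℝ, 0 < c ∧ ∃ N : ℕ, ∀ n : ℕ, N ≤ n →
      c * (n : ℝ) ^ 2 * Real.log n ≤ (transTime B n : ℝ))
    (A : Machine) (hA : Multiplies A) :
    ∃ c : ℝ, 0 < c ∧ ∃ N : ℕ, ∀ ν : ℕ, N ≤ ν →
      c * ((1024 * 4 ^ ν : ℕ) : ℝ) * Real.log ((1024 * 4 ^ ν : ℕ) : ℝ) ≤
        (mulTime A (1024 * 4 ^ ν) : ℝ) := by
  obtain ⟨c, hc, N, h⟩ := main_pointwise H A hA
  refine ⟨c / (1024 * 12), by positivity, max N 1, fun ν hν => ?_⟩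
  have hN : N ≤ ν := le_trans (le_max_left _ _) hν
  have h1 : 1 ≤ ν := le_trans (le_max_right _ _) hν
  have h1r : (1 : ℝ) ≤ (ν : ℝ) := by exact_mod_cast h1
  have hcast : ((1024 * 4 ^ ν : ℕ) : ℝ) = 1024 * (4 : ℝ) ^ ν := by push_cast; ring
  rw [hcast]
  have hlog2 : Real.log 2 ≤ 1 := by
    have := Real.log_two_lt_d9
    linarith
  have hlog2pos : 0 ≤ Real.log 2 := Real.log_nonneg (by norm_num)
  have hlog : Real.log (1024 * (4 : ℝ) ^ ν) ≤ 12 * ν := by
    have e1 : (1024 : ℝ) * (4 : ℝ) ^ ν = (2 : ℝ) ^ (10 + 2 * ν) := by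
      rw [pow_add, pow_mul]
      norm_num
    rw [e1, Real.log_pow]
    push_cast
    nlinarith
  have h4 : (0 : ℝ) < (4 : ℝ) ^ ν := by positivity
  have hlog0 : 0 ≤ Real.log (1024 * (4 : ℝ) ^ ν) := by
    apply Real.log_nonneg
    have : (1 : ℝ) ≤ (4 : ℝ) ^ ν := one_le_pow₀ (by norm_num)
    linarith
  calc c / (1024 * 12) * (1024 * (4 : ℝ) ^ ν) * Real.log (1024 * (4 : ℝ) ^ ν)
      ≤ c / (1024 * 12) * (1024 * (4 : ℝ) ^ ν) * (12 * ν) := by
        apply mul_le_mul_of_nonneg_left hlog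
        positivity
    _ = c * (4 : ℝ) ^ ν * ν := by field_simp
    _ ≤ (mulTime A (1024 * 4 ^ ν) : ℝ) := h ν hN

/-- For a multiplier with monotone running time the conditional bound is the literal one. -/
theorem main_monotone
    (H : ∀ B : Machine, Transposes B → ∃ c : ℝ, 0 < c ∧ ∃ N : ℕ, ∀ n : ℕ, N ≤ n →
      c * (n : ℝ) ^ 2 * Real.log n ≤ (transTime B n : ℝ))
    (A : Machine) (hA : Multiplies A) (hmono : Monotone (mulTime A)) :
    ∃ c : ℝ, 0 < c ∧ ∃ N : ℕ, ∀ k : ℕ, N ≤ k →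
      c * (k : ℝ) * Real.log k ≤ (mulTime A k : ℝ) := by
  obtain ⟨c, hc, N, h⟩ := main_envelope H A hA
  refine ⟨c, hc, N, fun k hk => ?_⟩
  have hsup : (Finset.range (k + 1)).sup (mulTime A) = mulTime A k := by
    apply le_antisymm
    · apply Finset.sup_le
      intro j hj
      exact hmono (by simpa [Finset.mem_range, Nat.lt_succ_iff] using hj)
    · exact Finset.le_sup (f := mulTime A) (Finset.mem_range.mpr (Nat.lt_succ_self k))
  have := h k hk
  rw [hsup] at this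
  exact this

end Vale.Agent.H91.MT
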