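import Vale.Agent.H91.MT.TopAll
import Vale.Agent.H91.MT.Final

/-!
# The reduction for all matrix sizes
-/

namespace Vale.Agent.H91.MT

/-- The transposing machine for all sizes built from the multiplier `A`. -/
@[reducible] noncomputable def machAll (A : Machine) : Machine :=
  @Prog.toMachine (ΓB A) (fintypeΓB A) (A.k + 82) (progAll A) (Sum.inl Sym.blank)
    (Sum.inl Sym.zero) (Sum.inl Sym.one) (Sum.inl Sym.sep) (nodupB A) (topOut A)

theorem machAll_bits (A : Machine) (w : List Bool) :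
    (w.map (machAll A).bit : List (ΓB A)) = w.map bsym := by
  apply List.map_congr_left
  intro b _
  cases b <;> rfl

theorem machAll_halts (A : Machine) (w : List Bool) (s' : St (ΓB A) (A.k + 82 + 1)) (t : ℕ)
    (h : Run (progAll A) (topInit A w) s' t) :
    ∃ c' : Cfg (machAll A), HaltsIn (machAll A) (init (machAll A) (w.map (machAll A).bit)) t c' ∧
      c'.tape = s' := by
  have h' := @Prog.toMachine_halts (ΓB A) (fintypeΓB A) (A.k + 82) (progAll A)
    (Sum.inl Sym.blank) (Sum.inl Sym.zero) (Sum.inl Sym.one) (Sum.inl Sym.sep) (nodupB A)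
    (topOut A) (w.map bsym) s' t h
  rw [machAll_bits]
  exact h'

theorem machAll_transposes (A : Machine) (hA : Multiplies A) : Transposes (machAll A) := by
  intro n hn M
  obtain ⟨C, h⟩ := progAll_core A hA
  obtain ⟨s', b, ⟨t, _, hrun⟩, hcells, _⟩ := h n hn M
  obtain ⟨c', hhalt, htape⟩ := machAll_halts A (matList n M) s' t hrun
  refine ⟨t, c', hhalt, ?_⟩
  rw [machAll_bits]
  have : c'.tape (machAll A).out = s' (topOut A) := by rw [htape]
  rw [this]
  exact hcells

theorem machAll_time (A : Machine) (hA : Multiplies A) :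
    ∃ C : ℕ, ∀ n ν : ℕ, 7 ≤ ν → 2 ^ (ν - 1) < n → n ≤ 2 ^ ν →
      transTime (machAll A) n ≤ C * 4 ^ ν * (Nat.log 2 ν + 2) +
        C * ∑ j ∈ Finset.range (Nat.log 2 ν + 1),
          min (mulTime A (1024 * 4 ^ ν)) (4 ^ ν * (ν / 2 ^ j + 1)) := by
  obtain ⟨C, hC⟩ := progAll_core A hA
  refine ⟨C, fun n ν hν h1 h2 => ?_⟩
  have hn : 1 ≤ n := by
    have : 0 < 2 ^ (ν - 1) := Nat.pos_of_ne_zero (by positivity)
    omega
  apply transTime_le
  intro M t c' hhalt
  obtain ⟨s0, b, ⟨t0, ht0, hrun⟩, -, hb⟩ := hC n hn M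
  obtain ⟨c0, hhalt0, -⟩ := machAll_halts A (matList n M) s0 t0 hrun
  have ht : t = t0 := (HaltsIn.det hhalt hhalt0).1
  rw [ht]
  exact ht0.trans (hb ν hν h1 h2)

/-- The reduction for all matrix sizes: from every multiplier a transposer whose time on
`n × n` matrices, `2^(ν-1) < n ≤ 2^ν`, `ν ≥ 7`, is bounded through the time of the multiplier
at the single length `1024 * 4^ν`. -/
theorem reduction_all (A : Machine) (hA : Multiplies A) :
    ∃ B : Machine, Transposes B ∧ ∃ C : ℕ, ∀ n ν : ℕ, 7 ≤ ν → 2 ^ (ν - 1) < n → n ≤ 2 ^ ν →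
      transTime B n ≤ C * 4 ^ ν * (Nat.log 2 ν + 2) +
        C * ∑ j ∈ Finset.range (Nat.log 2 ν + 1),
          min (mulTime A (1024 * 4 ^ ν)) (4 ^ ν * (ν / 2 ^ j + 1)) :=
  ⟨machAll A, machAll_transposes A hA, machAll_time A hA⟩

end Vale.Agent.H91.MT
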