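import Vale.Agent.H91.MT.NonVac_Mul
import Vale.Agent.H91.MT.Final

/-!
# Non-vacuity witnesses for P338

The hypotheses `Multiplies A` and `Transposes B` of the main theorems are satisfiable:
there is a machine that multiplies (the schoolbook multiplier of `NonVac_Mul`), and hence,
through the reduction itself, a machine that transposes.
-/

namespace Vale.Agent.H91.MT

/-- Some machine multiplies. -/
theorem exists_multiplier : ∃ A : Machine, Multiplies A :=
  ⟨NV.machM, NV.machM_multiplies⟩

/-- Some machine transposes. -/
theorem exists_transposer : ∃ B : Machine, Transposes B := by
  obtain ⟨A, hA⟩ := exists_multiplier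
  exact ⟨machB A, machB_transposes A hA⟩

end Vale.Agent.H91.MT
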