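import Vale.Agent.H91.MT.FinalAll
import Vale.Agent.H91.MT.NonVac

/-!
# The lower bounds for a multiplier from a lower bound for the one transposer built from it

The conditional lower bounds of `Final.lean` use the hypothesis on transposing machines only for
the machine built from the given multiplier. Here they are stated in that form, for the machine
`machAll A` of `FinalAll.lean` (which transposes matrices of all sizes).
-/

namespace Vale.Agent.H91.MT

/-- A lower bound `c n^2 log n` for the single machine `machAll A` gives the bound along the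
lengths `1024 * 4^ν` for the multiplier `A`. -/
theorem one_pointwise (A : Machine) (hA : Multiplies A)
    (hB : ∃ c : ℝ, 0 < c ∧ ∃ N : ℕ, ∀ n : ℕ, N ≤ n →
      c * (n : ℝ) ^ 2 * Real.log n ≤ (transTime (machAll A) n : ℝ)) :
    ∃ c : ℝ, 0 < c ∧ ∃ N : ℕ, ∀ ν : ℕ, N ≤ ν →
      c * (4 : ℝ) ^ ν * ν ≤ (mulTime A (1024 * 4 ^ ν) : ℝ) := by
  obtain ⟨C, hC⟩ := machAll_time A hA
  obtain ⟨cB, hcB, NB, hB⟩ := hB
  refine cost_final (fun ν => transTime (machAll A) (2 ^ ν)) (fun ν => mulTime A (1024 * 4 ^ ν))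
    C 7 (fun ν hν => hC (2 ^ ν) ν hν (Nat.pow_lt_pow_right (by norm_num) (by omega)) le_rfl)
    cB hcB NB ?_
  intro ν hν
  have h1 : NB ≤ 2 ^ ν := le_trans hν (Nat.lt_two_pow_self).le
  have h2 := hB (2 ^ ν) h1
  have e : ((2 ^ ν : ℕ) : ℝ) = (2 : ℝ) ^ ν := by push_cast; rfl
  rw [e] at h2
  exact h2

/-- From the bound along the lengths `1024 * 4^ν`: the running maximum at every length. -/
theorem one_envelope (A : Machine)
    (hp : ∃ c : ℝ, 0 < c ∧ ∃ N : ℕ, ∀ ν : ℕ, N ≤ ν →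
      c * (4 : ℝ) ^ ν * ν ≤ (mulTime A (1024 * 4 ^ ν) : ℝ)) :
    ∃ c : ℝ, 0 < c ∧ ∃ N : ℕ, ∀ k : ℕ, N ≤ k →
      c * (k : ℝ) * Real.log k ≤ (((Finset.range (k + 1)).sup (mulTime A) : ℕ) : ℝ) := by
  obtain ⟨c, hc, N, h⟩ := hp
  exact envelope_final (mulTime A) 1024 (by norm_num) c hc N h

/-- From the bound along the lengths `1024 * 4^ν`: the bound `k log k` at these lengths. -/
theorem one_lengths (A : Machine)
    (hp : ∃ c : ℝ, 0 < c ∧ ∃ N : ℕ, ∀ ν : ℕ, N ≤ ν →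
      c * (4 : ℝ) ^ ν * ν ≤ (mulTime A (1024 * 4 ^ ν) : ℝ)) :
    ∃ c : ℝ, 0 < c ∧ ∃ N : ℕ, ∀ ν : ℕ, N ≤ ν →
      c * ((1024 * 4 ^ ν : ℕ) : ℝ) * Real.log ((1024 * 4 ^ ν : ℕ) : ℝ) ≤
        (mulTime A (1024 * 4 ^ ν) : ℝ) := by
  obtain ⟨c, hc, N, h⟩ := hp
  refine ⟨c / (1024 * 12), by positivity, max N 1, fun ν hν => ?_⟩
  have hN : N ≤ ν := le_trans (le_max_left _ _) hν
  have h1 : 1 ≤ ν := le_trans (le_max_right _ _) hν
  have h1r : (1 : ℝ) ≤ (ν : ℝ) := by exact_mod_cast h1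
  have hcast : ((1024 * 4 ^ ν : ℕ) : ℝ) = 1024 * (4 : ℝ) ^ ν := by push_cast; ring
  rw [hcast]
  have hlog2 : Real.log 2 ≤ 1 := by
    have := Real.log_two_lt_d9
    linarith
  have hlog2pos : 0 ≤ Real.log 2 := Real.log_nonneg (by norm_num)
  have hlog : Real.log (1024 * (4 : ℝ) ^ ν) ≤ 12 * ν := by
    have e1 : (1024 : ℝ) * (4 : ℝ) ^ ν = (2 : ℝ) ^ (10 + 2 * ν) := by
      rw [pow_add, pow_mul]
      norm_num
    rw [e1, Real.log_pow]
    push_cast
    nlinarith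
  have h4 : (0 : ℝ) < (4 : ℝ) ^ ν := by positivity
  have hlog0 : 0 ≤ Real.log (1024 * (4 : ℝ) ^ ν) := by
    apply Real.log_nonneg
    have : (1 : ℝ) ≤ (4 : ℝ) ^ ν := one_le_pow₀ (by norm_num)
    linarith
  calc c / (1024 * 12) * (1024 * (4 : ℝ) ^ ν) * Real.log (1024 * (4 : ℝ) ^ ν)
      ≤ c / (1024 * 12) * (1024 * (4 : ℝ) ^ ν) * (12 * ν) := by
        apply mul_le_mul_of_nonneg_left hlog
        positivity
    _ = c * (4 : ℝ) ^ ν * ν := by field_simp
    _ ≤ (mulTime A (1024 * 4 ^ ν) : ℝ) := h ν hN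

/-- From the bound along the lengths `1024 * 4^ν`: for a multiplier with monotone running time,
the bound at every length. -/
theorem one_monotone (A : Machine)
    (hp : ∃ c : ℝ, 0 < c ∧ ∃ N : ℕ, ∀ ν : ℕ, N ≤ ν →
      c * (4 : ℝ) ^ ν * ν ≤ (mulTime A (1024 * 4 ^ ν) : ℝ))
    (hmono : Monotone (mulTime A)) :
    ∃ c : ℝ, 0 < c ∧ ∃ N : ℕ, ∀ k : ℕ, N ≤ k →
      c * (k : ℝ) * Real.log k ≤ (mulTime A k : ℝ) := by
  obtain ⟨c, hc, N, h⟩ := one_envelope A hp
  refine ⟨c, hc, N, fun k hk => ?_⟩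
  have hsup : (Finset.range (k + 1)).sup (mulTime A) = mulTime A k := by
    apply le_antisymm
    · apply Finset.sup_le
      intro j hj
      exact hmono (by simpa [Finset.mem_range, Nat.lt_succ_iff] using hj)
    · exact Finset.le_sup (f := mulTime A) (Finset.mem_range.mpr (Nat.lt_succ_self k))
  have := h k hk
  rw [hsup] at this
  exact this

end Vale.Agent.H91.MT
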