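import Vale.Agent.H91.MT.GenCtl1_Lay

/-!
# TASK GENCTL1: generating the control list `ctl1` on a tape

Tapes (an injective map `T : Fin 40 → Fin K`):
`T 0 .. T 23`: the tapes of `genGrid` (see GenGrid.lean: `T 0` output stream, `T 1 .. T 16`
parameter registers and templates, `T 17 .. T 23` scratch); all empty (`WT [] 0`) before; after
the run all are empty again except `T 0`, which holds the generated list, rewound;
`T 24 .. T 30`: base registers `R, r0, c0, a, P, E, q` with `E = q * P` (read only);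
`T 31`: spare base register (do not touch);
`T 32 .. T 39`: scratch registers, empty before and after.

The program computes the parameter registers and templates of the grid with the register
programs of RegA / RegB / RegC, calls `genGrid`, clears the parameter tapes and rewinds `T 0`.
With `m = 4E`, `M = 8E`, `h = 4q`, `W = 64E`, `V = 56E`, `SA = 8 P^2`, `g = 8`.
The verification uses the layout calculus of `GenCtl1_Lay.lean`.
-/

namespace Vale.Agent.H91.MT

open GC1

variable {α : Type} {K : ℕ}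

/-- Generator of `SwapParams.ctl1`. -/
def genCtl1 (T : Fin 40 → Fin K) : Prog (Sym ⊕ α) K :=
  (regCopy (T 1) (T 24))
    |>.seq (regCopy (T 2) (T 25))
    |>.seq (regCopy (T 3) (T 26))
    |>.seq (regConst (T 32) 8)
    |>.seq (regMulAdd (T 4) (T 32) (T 29))
    |>.seq (regMulAdd (T 9) (T 32) (T 30))
    |>.seq (regConst (T 33) 7)
    |>.seq (regConst (T 34) 1)
    |>.seq (emitRep (T 13) (T 33) Sym.cZ)
    |>.seq (emitRep (T 13) (T 34) Sym.cO)
    |>.seq (emitRep (T 13) (T 29) Sym.cC)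
    |>.seq (rewind (T 13))
    |>.seq (regConst (T 35) 55)
    |>.seq (regMulAdd (T 36) (T 35) (T 29))
    |>.seq (regSub (T 36) (T 33))
    |>.seq (emitRep (T 14) (T 36) Sym.cZ)
    |>.seq (rewind (T 14))
    |>.seq (regConst (T 35) 64)
    |>.seq (regMulAdd (T 38) (T 35) (T 29))
    |>.seq (regCopy (T 37) (T 28))
    |>.seq (regAdd (T 37) (T 28))
    |>.seq (regSub (T 37) (T 26))
    |>.seq (regMulAdd (T 39) (T 37) (T 38))
    |>.seq (emitRep (T 15) (T 39) Sym.cZ)
    |>.seq (rewind (T 15))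
    |>.seq (regCopy (T 36) (T 28))
    |>.seq (clearTape (T 37))
    |>.seq (regMulAdd (T 37) (T 36) (T 28))
    |>.seq (clearTape (T 39))
    |>.seq (regMulAdd (T 39) (T 32) (T 37))
    |>.seq (regAdd (T 36) (T 28))
    |>.seq (clearTape (T 37))
    |>.seq (regMulAdd (T 37) (T 36) (T 25))
    |>.seq (regSub (T 39) (T 37))
    |>.seq (clearTape (T 36))
    |>.seq (regMulAdd (T 36) (T 39) (T 38))
    |>.seq (emitRep (T 16) (T 36) Sym.cZ)
    |>.seq (rewind (T 16))
    |>.seq (genGrid (fun i : Fin 24 => T (Fin.castLE (by decide) i)) Sym.cZ)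
    |>.seq (clearTape (T 1))
    |>.seq (clearTape (T 2))
    |>.seq (clearTape (T 3))
    |>.seq (clearTape (T 4))
    |>.seq (clearTape (T 9))
    |>.seq (clearTape (T 13))
    |>.seq (clearTape (T 14))
    |>.seq (clearTape (T 15))
    |>.seq (clearTape (T 16))
    |>.seq (clearTape (T 32))
    |>.seq (clearTape (T 33))
    |>.seq (clearTape (T 34))
    |>.seq (clearTape (T 35))
    |>.seq (clearTape (T 36))
    |>.seq (clearTape (T 37))
    |>.seq (clearTape (T 38))
    |>.seq (clearTape (T 39))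
    |>.seq (rewind (T 0))

/-- The initial valuation of the generator layout. -/
def GC1.init (T : Fin 40 → Fin K) (p : SwapParams) (q : ℕ) (s : St (Sym ⊕ α) K) :
    Fin 40 → Tape (Sym ⊕ α) :=
  fun i => match i.val with
    | 24 => ruler p.R 0
    | 25 => ruler p.r0 0
    | 26 => ruler p.c0 0
    | 27 => ruler p.a 0
    | 28 => ruler p.P 0
    | 29 => ruler p.E 0
    | 30 => ruler q 0
    | 31 => s (T 31)
    | _ => WT [] 0

theorem GC1.init_eq (T : Fin 40 → Fin K) (p : SwapParams) (q : ℕ) (s : St (Sym ⊕ α) K)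
    (hbase : BaseRegs T p q s)
    (hempty : ∀ i : Fin 40, (i.val < 24 ∨ 32 ≤ i.val) → s (T i) = WT [] 0) :
    GC1.init T p q s = fun i => s (T i) := by
  obtain ⟨h24, h25, h26, h27, h28, h29, h30⟩ := hbase
  funext i
  fin_cases i <;>
    first
    | rfl
    | exact (hempty _ (by decide)).symm
    | exact h24.symm
    | exact h25.symm
    | exact h26.symm
    | exact h27.symm
    | exact h28.symm
    | exact h29.symm
    | exact h30.symm

/-- The list generated for `ctl1`, over work symbols. -/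
def GC1.grid1 (p : SwapParams) (q : ℕ) : List Sym :=
  gridList p.R p.r0 p.c0 (8 * p.E) 0 0 0 0 (8 * q) 0 Sym.cZ [] []
    (List.replicate 7 Sym.cZ ++ List.replicate 1 Sym.cO ++ List.replicate p.E Sym.cC)
    (List.replicate (55 * p.E - 7) Sym.cZ)
    (List.replicate ((p.P + p.P - p.c0) * (64 * p.E)) Sym.cZ)
    (List.replicate ((8 * (p.P * p.P) - (p.P + p.P) * p.r0) * (64 * p.E)) Sym.cZ)

theorem GC1.grid1_map (p : SwapParams) (hp : p.Ok) (q : ℕ) (hq : p.E = q * p.P) :
    (GC1.grid1 p q).map (Sum.inl : Sym → Sym ⊕ α) = p.ctl1.map csym := by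
  have hP : 2 ≤ p.P := by
    have := hp.ha
    unfold SwapParams.P
    calc 2 = 2 ^ 1 := by norm_num
      _ ≤ 2 ^ p.a := Nat.pow_le_pow_right (by norm_num) this
  have hE := hp.hE
  have hq1 : 1 ≤ q := by
    rcases Nat.eq_zero_or_pos q with h | h
    · rw [h, Nat.zero_mul] at hq; omega
    · exact h
  have hM : p.M = 8 * p.E := by unfold SwapParams.M SwapParams.m; omega
  have hh : p.h = 4 * q := by
    unfold SwapParams.h SwapParams.m
    rw [hq, ← Nat.mul_assoc]
    exact Nat.mul_div_cancel _ (by omega)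
  have h2h : (2 * p.h) % p.M = 8 * q := by
    rw [hM, hh, hq]
    have : 2 * (4 * q) < 8 * (q * p.P) := by nlinarith
    rw [Nat.mod_eq_of_lt this]
    omega
  have htail : p.W - (p.M - 1) - p.g - p.E = 55 * p.E - 7 := by
    unfold SwapParams.W SwapParams.M SwapParams.m SwapParams.g; omega
  have hW : p.W = 64 * p.E := by unfold SwapParams.W SwapParams.m; omega
  have hrow : (2 * p.P - p.c0) * p.W = (p.P + p.P - p.c0) * (64 * p.E) := by
    rw [hW, Nat.two_mul]
  have harr : (p.SA - 2 * p.P * p.r0) * p.W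
      = (8 * (p.P * p.P) - (p.P + p.P) * p.r0) * (64 * p.E) := by
    rw [hW]
    unfold SwapParams.SA
    rw [Nat.mul_assoc 8, Nat.two_mul]
  unfold GC1.grid1 SwapParams.ctl1
  rw [gridList_map, gridList_map, h2h, htail, hrow, harr, hM]
  simp [SwapParams.g, csym]

theorem GC1.grid1_length (p : SwapParams) (hp : p.Ok) (q : ℕ) :
    (GC1.grid1 p q).length = p.R * p.SA * p.W := by
  have hE := hp.hE
  have hr := hp.hr
  have hc := hp.hc
  have hW : p.W = 64 * p.E := by unfold SwapParams.W SwapParams.m; omega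
  obtain ⟨d, hd⟩ : ∃ d, p.P + p.P = p.c0 + d := ⟨p.P + p.P - p.c0, by omega⟩
  have hle : (p.P + p.P) * p.r0 ≤ 8 * (p.P * p.P) := by
    have : (p.P + p.P) * p.r0 ≤ (p.P + p.P) * p.P := Nat.mul_le_mul_left _ hr
    nlinarith
  obtain ⟨e, he⟩ : ∃ e, 8 * (p.P * p.P) = (p.P + p.P) * p.r0 + e :=
    ⟨8 * (p.P * p.P) - (p.P + p.P) * p.r0, by omega⟩
  have h1 : p.P + p.P - p.c0 = d := by omega
  have h2 : 8 * (p.P * p.P) - (p.P + p.P) * p.r0 = e := by omega
  have h3 : 8 * p.E - 1 + (7 + 1 + p.E) + (55 * p.E - 7) = 64 * p.E := by omega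
  unfold GC1.grid1
  rw [gridList_length _ _ _ _ _ _ _ _ _ _ (by omega)]
  simp only [List.length_nil, List.length_append, List.length_replicate, h1, h2, h3,
    Nat.zero_add]
  rw [hW]
  unfold SwapParams.SA
  have h4 : p.c0 * (64 * p.E) + d * (64 * p.E) = (p.P + p.P) * (64 * p.E) := by
    rw [← Nat.add_mul, ← hd]
  have h5 : p.r0 * ((p.P + p.P) * (64 * p.E)) + e * (64 * p.E)
      = 8 * (p.P * p.P) * (64 * p.E) := by
    rw [he]; ring
  rw [h4, h5]
  ring

theorem GC1.clean1 (a b c d e f : ℕ) :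
    ∀ x ∈ ([] : List Sym) ++ [] ++ (List.replicate a Sym.cZ ++ List.replicate b Sym.cO ++
        List.replicate c Sym.cC) ++ List.replicate d Sym.cZ ++ List.replicate e Sym.cZ ++
        List.replicate f Sym.cZ, x ≠ Sym.blank ∧ x ≠ Sym.lend := by
  intro x hx
  simp only [List.nil_append, List.mem_append, List.mem_replicate] at hx
  rcases hx with ((((h | h) | h) | h) | h) | h <;> obtain ⟨_, rfl⟩ := h <;>
    exact ⟨by decide, by decide⟩

theorem genCtl1_run (T : Fin 40 → Fin K) (hT : Function.Injective T) (p : SwapParams)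
    (hp : p.Ok) (q : ℕ) (hq : p.E = q * p.P) (hr0 : 1 ≤ p.r0) (hc0 : 1 ≤ p.c0) (hR : 1 ≤ p.R)
    (s : St (Sym ⊕ α) K) (hbase : BaseRegs T p q s)
    (hempty : ∀ i : Fin 40, (i.val < 24 ∨ 32 ≤ i.val) → s (T i) = WT [] 0) :
    RunLe (genCtl1 T) s (Function.update s (T 0) (WT (p.ctl1.map csym) 0))
      (100000 * (p.R * p.SA * p.W + 1)) := by
  have hP : 2 ≤ p.P := by
    have := hp.ha
    unfold SwapParams.P
    calc 2 = 2 ^ 1 := by norm_num
      _ ≤ 2 ^ p.a := Nat.pow_le_pow_right (by norm_num) this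
  have hE := hp.hE
  have hq1 : 1 ≤ q := by
    rcases Nat.eq_zero_or_pos q with h | h
    · rw [h, Nat.zero_mul] at hq; omega
    · exact h
  have hqP : 8 * q < 8 * p.E := by rw [hq]; nlinarith
  have hLmap := GC1.grid1_map (α := α) p hp q hq
  have hLlen := GC1.grid1_length p hp q
  have hnl : (Sum.inl Sym.lend : Sym ⊕ α) ∉ (GC1.grid1 p q).map Sum.inl := by
    rw [hLmap]
    intro h
    obtain ⟨c, _, hc⟩ := List.mem_map.1 h
    cases c <;> cases hc
  have h1 := regCopy_lay T hT s (GC1.init T p q s) 1 24 (by decide) 0 _ rfl rfl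
  have h2 := h1.seq (regCopy_lay T hT s _ 2 25 (by decide) 0 _ rfl rfl)
  have h3 := h2.seq (regCopy_lay T hT s _ 3 26 (by decide) 0 _ rfl rfl)
  have h4 := h3.seq (regConst_lay T hT s _ 32 8 0 rfl)
  have h5 := h4.seq (regMul_lay T hT s _ 4 32 29 (by decide) (by decide) (by decide)
    _ _ rfl rfl rfl)
  have h6 := h5.seq (regMul_lay T hT s _ 9 32 30 (by decide) (by decide) (by decide)
    _ _ rfl rfl rfl)
  have h7 := h6.seq (regConst_lay T hT s _ 33 7 0 rfl)
  have h8 := h7.seq (regConst_lay T hT s _ 34 1 0 rfl)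
  have h9 := h8.seq (emitSym_lay T hT s _ 13 33 (by decide) Sym.cZ [] 0 _ rfl rfl rfl)
  have h10 := h9.seq (emitSym_lay T hT s _ 13 34 (by decide) Sym.cO _ _ _ rfl rfl rfl)
  have h11 := h10.seq (emitSym_lay T hT s _ 13 29 (by decide) Sym.cC _ _ _ rfl rfl rfl)
  have h12 := h11.seq (rewindSym_lay T hT s _ 13 _ (by simp) _ rfl)
  have h13 := h12.seq (regConst_lay T hT s _ 35 55 0 rfl)
  have h14 := h13.seq (regMul_lay T hT s _ 36 35 29 (by decide) (by decide) (by decide)
    _ _ rfl rfl rfl)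
  have h15 := h14.seq (regSub_lay T hT s _ 36 33 (by decide) _ _ rfl rfl)
  have h16 := h15.seq (emitSym_lay T hT s _ 14 36 (by decide) Sym.cZ [] 0 _ rfl rfl rfl)
  have h17 := h16.seq (rewindSym_lay T hT s _ 14 _ (by simp) _ rfl)
  have h18 := h17.seq (regConst_lay T hT s _ 35 64 _ rfl)
  have h19 := h18.seq (regMul_lay T hT s _ 38 35 29 (by decide) (by decide) (by decide)
    _ _ rfl rfl rfl)
  have h20 := h19.seq (regCopy_lay T hT s _ 37 28 (by decide) 0 _ rfl rfl)
  have h21 := h20.seq (regAdd_lay T hT s _ 37 28 (by decide) _ _ rfl rfl)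
  have h22 := h21.seq (regSub_lay T hT s _ 37 26 (by decide) _ _ rfl rfl)
  have h23 := h22.seq (regMul_lay T hT s _ 39 37 38 (by decide) (by decide) (by decide)
    _ _ rfl rfl rfl)
  have h24 := h23.seq (emitSym_lay T hT s _ 15 39 (by decide) Sym.cZ [] 0 _ rfl rfl rfl)
  have h25 := h24.seq (rewindSym_lay T hT s _ 15 _ (by simp) _ rfl)
  have h26 := h25.seq (regCopy_lay T hT s _ 36 28 (by decide) _ _ rfl rfl)
  have h27 := h26.seq (clearReg_lay T hT s _ 37 _ rfl)
  have h28 := h27.seq (regMul_lay T hT s _ 37 36 28 (by decide) (by decide) (by decide)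
    _ _ rfl rfl rfl)
  have h29 := h28.seq (clearReg_lay T hT s _ 39 _ rfl)
  have h30 := h29.seq (regMul_lay T hT s _ 39 32 37 (by decide) (by decide) (by decide)
    _ _ rfl rfl rfl)
  have h31 := h30.seq (regAdd_lay T hT s _ 36 28 (by decide) _ _ rfl rfl)
  have h32 := h31.seq (clearReg_lay T hT s _ 37 _ rfl)
  have h33 := h32.seq (regMul_lay T hT s _ 37 36 25 (by decide) (by decide) (by decide)
    _ _ rfl rfl rfl)
  have h34 := h33.seq (regSub_lay T hT s _ 39 37 (by decide) _ _ rfl rfl)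
  have h35 := h34.seq (clearReg_lay T hT s _ 36 _ rfl)
  have h36 := h35.seq (regMul_lay T hT s _ 36 39 38 (by decide) (by decide) (by decide)
    _ _ rfl rfl rfl)
  have h37 := h36.seq (emitSym_lay T hT s _ 16 36 (by decide) Sym.cZ [] 0 _ rfl rfl rfl)
  have h38 := h37.seq (rewindSym_lay T hT s _ 16 _ (by simp) _ rfl)
  have h39 := h38.seq (genGrid_lay T hT s _ (by decide : 24 ≤ 40) Sym.cZ (by decide) (by decide)
    p.R p.r0 p.c0 (8 * p.E) 0 0 0 0 (8 * q) 0 (by omega) (by omega) (by omega) (by omega)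
    (by omega) hqP (by omega) [] [] _ _ _ _
    (by
      exact GC1.clean1 7 1 p.E (55 * p.E - 7) ((p.P + p.P - p.c0) * (64 * p.E))
        ((8 * (p.P * p.P) - (p.P + p.P) * p.r0) * (64 * p.E)))
    rfl rfl rfl rfl rfl rfl rfl rfl rfl rfl rfl rfl rfl rfl rfl rfl rfl
    rfl rfl rfl rfl rfl rfl rfl)
  have h40 := h39.seq (clearReg_lay T hT s _ 1 _ rfl)
  have h41 := h40.seq (clearReg_lay T hT s _ 2 _ rfl)
  have h42 := h41.seq (clearReg_lay T hT s _ 3 _ rfl)
  have h43 := h42.seq (clearReg_lay T hT s _ 4 _ rfl)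
  have h44 := h43.seq (clearReg_lay T hT s _ 9 _ rfl)
  have h45 := h44.seq (clearSym_lay T hT s _ 13 _ (by simp) (by simp) rfl)
  have h46 := h45.seq (clearSym_lay T hT s _ 14 _ (by simp) (by simp) rfl)
  have h47 := h46.seq (clearSym_lay T hT s _ 15 _ (by simp) (by simp) rfl)
  have h48 := h47.seq (clearSym_lay T hT s _ 16 _ (by simp) (by simp) rfl)
  have h49 := h48.seq (clearReg_lay T hT s _ 32 _ rfl)
  have h50 := h49.seq (clearReg_lay T hT s _ 33 _ rfl)
  have h51 := h50.seq (clearReg_lay T hT s _ 34 _ rfl)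
  have h52 := h51.seq (clearReg_lay T hT s _ 35 _ rfl)
  have h53 := h52.seq (clearReg_lay T hT s _ 36 _ rfl)
  have h54 := h53.seq (clearReg_lay T hT s _ 37 _ rfl)
  have h55 := h54.seq (clearReg_lay T hT s _ 38 _ rfl)
  have h56 := h55.seq (clearReg_lay T hT s _ 39 _ rfl)
  have h57 := h56.seq (rewind_lay T hT s _ 0 ((GC1.grid1 p q).map Sum.inl) hnl _ rfl)
  refine RunLe.cast h57 ?_ ?_ ?_
  · rw [GC1.init_eq T p q s hbase hempty]
    exact lay_self T hT s
  · refine (congrArg (lay T s) (show _ = Function.update (GC1.init T p q s) 0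
      (WT ((GC1.grid1 p q).map Sum.inl) 0) from ?_)).trans ?_
    · funext i
      revert i
      exact forall_fin40 _ rfl rfl rfl rfl rfl rfl rfl rfl rfl rfl rfl rfl rfl rfl rfl rfl rfl
        rfl rfl rfl rfl rfl rfl rfl rfl rfl rfl rfl rfl rfl rfl rfl rfl rfl rfl rfl rfl rfl rfl rfl
    · rw [← lay_update T hT, GC1.init_eq T p q s hbase hempty, lay_self T hT s, hLmap]
  · clear h1 h2 h3 h4 h5 h6 h7 h8 h9 h10 h11 h12 h13 h14 h15 h16 h17 h18 h19 h20 h21 h22 h23 h24
      h25 h26 h27 h28 h29 h30 h31 h32 h33 h34 h35 h36 h37 h38 h39 h40 h41 h42 h43 h44 h45 h46 h47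
      h48 h49 h50 h51 h52 h53 h54 h55 h56 h57 hnl hLmap
    have hr := hp.hr
    have hc := hp.hc
    unfold GC1.grid1 at hLlen
    rw [hLlen]
    simp only [List.length_append, List.length_replicate, List.length_nil]
    have eN : p.R * p.SA * p.W = 512 * (p.R * (p.P * p.P * p.E)) := by
      unfold SwapParams.SA SwapParams.W SwapParams.m
      ring
    rw [eN]
    have hqE : q ≤ p.E := by
      rw [hq]
      exact Nat.le_mul_of_pos_right q (by omega)
    obtain ⟨A4, hA4⟩ : ∃ A4, A4 = (8 * (p.P * p.P) - (p.P + p.P) * p.r0) * (64 * p.E) :=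
      ⟨_, rfl⟩
    obtain ⟨A2, hA2⟩ : ∃ A2, A2 = (p.P + p.P - p.c0) * (64 * p.E) := ⟨_, rfl⟩
    obtain ⟨A3, hA3⟩ : ∃ A3, A3 = (p.P + p.P) * p.r0 := ⟨_, rfl⟩
    obtain ⟨A6, hA6⟩ : ∃ A6, A6 = p.R * (p.r0 * (p.c0 + 1) + 1) * (8 * p.E + 1) := ⟨_, rfl⟩
    obtain ⟨Z, hZ⟩ : ∃ Z, Z = p.R * (p.P * p.P * p.E) := ⟨_, rfl⟩
    obtain ⟨X, hX⟩ : ∃ X, X = p.P * p.P := ⟨_, rfl⟩
    obtain ⟨XE, hXE⟩ : ∃ XE, XE = p.P * p.P * p.E := ⟨_, rfl⟩
    obtain ⟨PE, hPE⟩ : ∃ PE, PE = p.P * p.E := ⟨_, rfl⟩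
    have kX : 2 * p.P ≤ X := by rw [hX]; exact Nat.mul_le_mul_right _ hP
    have kX4 : 4 ≤ X := by rw [hX]; exact Nat.mul_le_mul hP hP
    have fA3 : A3 ≤ 2 * X := by
      rw [hA3, hX]
      calc (p.P + p.P) * p.r0 ≤ (p.P + p.P) * p.P := Nat.mul_le_mul_left _ hr
        _ = 2 * (p.P * p.P) := by ring
    have fA2 : A2 ≤ 128 * PE := by
      rw [hA2, hPE]
      calc (p.P + p.P - p.c0) * (64 * p.E) ≤ (p.P + p.P) * (64 * p.E) :=
            Nat.mul_le_mul_right _ (Nat.sub_le _ _)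
        _ = 128 * (p.P * p.E) := by ring
    have fA4 : A4 ≤ 512 * XE := by
      rw [hA4, hXE]
      calc (8 * (p.P * p.P) - (p.P + p.P) * p.r0) * (64 * p.E)
            ≤ (8 * (p.P * p.P)) * (64 * p.E) := Nat.mul_le_mul_right _ (Nat.sub_le _ _)
        _ = 512 * (p.P * p.P * p.E) := by ring
    have fPE : 2 * PE ≤ XE := by
      rw [hPE, hXE]
      calc 2 * (p.P * p.E) = (2 * p.P) * p.E := by ring
        _ ≤ (p.P * p.P) * p.E := Nat.mul_le_mul_right _ (Nat.mul_le_mul_right _ hP)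
    have fXE16 : 16 * X ≤ XE := by
      rw [hX, hXE]
      calc 16 * (p.P * p.P) = (p.P * p.P) * 16 := by ring
        _ ≤ (p.P * p.P) * p.E := Nat.mul_le_mul_left _ hE
    have fXE4 : 4 * p.E ≤ XE := by
      rw [hXE, ← hX]
      exact Nat.mul_le_mul_right _ kX4
    have fZ : XE ≤ Z := by
      rw [hZ, ← hXE]
      exact Nat.le_mul_of_pos_left _ (by omega)
    have fZR : 64 * p.R ≤ Z := by
      rw [hZ, ← hXE]
      have : 64 ≤ XE := by omega
      calc 64 * p.R = p.R * 64 := by ring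
        _ ≤ p.R * XE := Nat.mul_le_mul_left _ this
    have fA6 : A6 ≤ 18 * Z := by
      rw [hA6, hZ]
      have h1 : p.r0 * (p.c0 + 1) + 1 ≤ 2 * (p.P * p.P) := by
        have : p.r0 * (p.c0 + 1) ≤ p.P * (p.P + 1) := Nat.mul_le_mul hr (by omega)
        have e : p.P * (p.P + 1) = p.P * p.P + p.P := by ring
        rw [← hX]
        omega
      have h2 : 8 * p.E + 1 ≤ 9 * p.E := by omega
      calc p.R * (p.r0 * (p.c0 + 1) + 1) * (8 * p.E + 1)
            ≤ p.R * (2 * (p.P * p.P)) * (9 * p.E) :=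
            Nat.mul_le_mul (Nat.mul_le_mul_left _ h1) h2
        _ = 18 * (p.R * (p.P * p.P * p.E)) := by ring
    rw [← hA4, ← hA2, ← hA3, ← hA6, ← hZ, ← hX]
    omega

end Vale.Agent.H91.MT
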