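import Vale.Agent.H91.MT.GenGrid
import Vale.Agent.H91.MT.RegC

/-!
# Layouts: tape states described through an injective tape map

For an injective map `T : Fin n → Fin K` and a valuation `c : Fin n → Tape`, `lay T s c` is the
state that has the tape `c i` on `T i` and agrees with `s` on all other tapes.  Every register
program changes one tape, that is, one value of the valuation; the specifications of the
register programs are restated in this form, so that long straight-line programs can be verified
by chaining `RunLe.seq` while the valuation is a nested `Function.update` with literal indices.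
-/

namespace Vale.Agent.H91.MT.GC1

variable {α : Type} {K : ℕ} {n : ℕ}

/-- The state with the tape `c i` on `T i` for every `i`, and the tapes of `s` elsewhere. -/
noncomputable def lay (T : Fin n → Fin K) (s : St (Sym ⊕ α) K)
    (c : Fin n → Tape (Sym ⊕ α)) : St (Sym ⊕ α) K :=
  Function.extend T c s

theorem lay_apply (T : Fin n → Fin K) (hT : Function.Injective T) (s : St (Sym ⊕ α) K)
    (c : Fin n → Tape (Sym ⊕ α)) (i : Fin n) : lay T s c (T i) = c i :=
  hT.extend_apply c s i

theorem lay_update (T : Fin n → Fin K) (hT : Function.Injective T) (s : St (Sym ⊕ α) K)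
    (c : Fin n → Tape (Sym ⊕ α)) (i : Fin n) (t : Tape (Sym ⊕ α)) :
    Function.update (lay T s c) (T i) t = lay T s (Function.update c i t) := by
  funext j
  by_cases hj : j = T i
  · subst hj
    rw [Function.update_self, lay_apply T hT, Function.update_self]
  · rw [Function.update_of_ne hj]
    by_cases h : ∃ i', T i' = j
    · obtain ⟨i', rfl⟩ := h
      have hne : i' ≠ i := fun e => hj (by rw [e])
      rw [lay_apply T hT, lay_apply T hT, Function.update_of_ne hne]
    · unfold lay
      rw [Function.extend_apply' _ _ _ h, Function.extend_apply' _ _ _ h]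

theorem lay_self (T : Fin n → Fin K) (hT : Function.Injective T) (s : St (Sym ⊕ α) K) :
    lay T s (fun i => s (T i)) = s := by
  funext j
  by_cases h : ∃ i', T i' = j
  · obtain ⟨i', rfl⟩ := h
    rw [lay_apply T hT]
  · unfold lay
    rw [Function.extend_apply' _ _ _ h]

/-- Restricting a tape map to its first `m` tapes does not change the layout. -/
theorem lay_castLE {m : ℕ} (hmn : m ≤ n) (T : Fin n → Fin K) (hT : Function.Injective T)
    (s : St (Sym ⊕ α) K) (c : Fin n → Tape (Sym ⊕ α)) :
    lay (fun i : Fin m => T (Fin.castLE hmn i)) (lay T s c) (fun i => c (Fin.castLE hmn i))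
      = lay T s c := by
  have hT' : Function.Injective (fun i : Fin m => T (Fin.castLE hmn i)) :=
    hT.comp (Fin.castLE_injective hmn)
  have h := lay_self (fun i : Fin m => T (Fin.castLE hmn i)) hT' (lay T s c)
  simp only [lay_apply T hT] at h
  exact h

/-! ## The register programs in layout form -/

section steps

variable (T : Fin n → Fin K) (hT : Function.Injective T) (s : St (Sym ⊕ α) K)
  (c : Fin n → Tape (Sym ⊕ α))

include hT

theorem regCopy_lay (i j : Fin n) (hij : i ≠ j) (v w : ℕ)
    (hi : c i = ruler v 0) (hj : c j = ruler w 0) :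
    RunLe (regCopy (T i) (T j)) (lay T s c) (lay T s (Function.update c i (ruler w 0)))
      (10 * (v + w) + 30) := by
  have h := regCopy_run (T i) (T j) (hT.ne hij) v w (lay T s c)
    (by rw [lay_apply T hT, hi]) (by rw [lay_apply T hT, hj])
  rwa [lay_update T hT] at h

theorem regAdd_lay (i j : Fin n) (hij : i ≠ j) (v w : ℕ)
    (hi : c i = ruler v 0) (hj : c j = ruler w 0) :
    RunLe (regAdd (T i) (T j)) (lay T s c) (lay T s (Function.update c i (ruler (v + w) 0)))
      (10 * (v + w) + 30) := by
  have h := regAdd_run (T i) (T j) (hT.ne hij) v w (lay T s c)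
    (by rw [lay_apply T hT, hi]) (by rw [lay_apply T hT, hj])
  rwa [lay_update T hT] at h

theorem regInc_lay (i : Fin n) (v : ℕ) (hi : c i = ruler v 0) :
    RunLe (regInc (T i)) (lay T s c) (lay T s (Function.update c i (ruler (v + 1) 0)))
      (6 * v + 20) := by
  have h := regInc_run (T i) v (lay T s c) (by rw [lay_apply T hT, hi])
  rwa [lay_update T hT] at h

theorem regSub_lay (i j : Fin n) (hij : i ≠ j) (v w : ℕ)
    (hi : c i = ruler v 0) (hj : c j = ruler w 0) :
    RunLe (regSub (T i) (T j)) (lay T s c) (lay T s (Function.update c i (ruler (v - w) 0)))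
      (10 * (v + w) + 40) := by
  have h := regSub_run (T i) (T j) (hT.ne hij) v w (lay T s c)
    (by rw [lay_apply T hT, hi]) (by rw [lay_apply T hT, hj])
  rwa [lay_update T hT] at h

theorem regMulAdd_lay (i j l : Fin n) (hij : i ≠ j) (hil : i ≠ l) (hjl : j ≠ l) (v x y : ℕ)
    (hi : c i = ruler v 0) (hj : c j = ruler x 0) (hl : c l = ruler y 0) :
    RunLe (regMulAdd (T i) (T j) (T l)) (lay T s c)
      (lay T s (Function.update c i (ruler (v + x * y) 0)))
      (10 * (v + x * y + x + y) + 40) := by
  have h := regMulAdd_run (T i) (T j) (T l) (hT.ne hij) (hT.ne hil) (hT.ne hjl) v x y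
    (lay T s c) (by rw [lay_apply T hT, hi]) (by rw [lay_apply T hT, hj])
    (by rw [lay_apply T hT, hl])
  rwa [lay_update T hT] at h

theorem regAddMod_lay (i j l : Fin n) (hij : i ≠ j) (hil : i ≠ l) (hjl : j ≠ l) (v x M : ℕ)
    (hv : v < M) (hx : x ≤ M)
    (hi : c i = ruler v 0) (hj : c j = ruler x 0) (hl : c l = ruler M 0) :
    RunLe (regAddMod (T i) (T j) (T l)) (lay T s c)
      (lay T s (Function.update c i (ruler ((v + x) % M) 0))) (20 * M + 60) := by
  have h := regAddMod_run (T i) (T j) (T l) (hT.ne hij) (hT.ne hil) (hT.ne hjl) v x M hv hx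
    (lay T s c) (by rw [lay_apply T hT, hi]) (by rw [lay_apply T hT, hj])
    (by rw [lay_apply T hT, hl])
  rwa [lay_update T hT] at h

theorem regDouble_lay (i t : Fin n) (hit : i ≠ t) (v : ℕ)
    (hi : c i = ruler v 0) (ht : c t = ruler 0 0) :
    RunLe (regDouble (T i) (T t)) (lay T s c)
      (lay T s (Function.update c i (ruler (2 * v) 0))) (40 * v + 60) := by
  have h := regDouble_run (T i) (T t) (hT.ne hit) v (lay T s c)
    (by rw [lay_apply T hT, hi]) (by rw [lay_apply T hT, ht])
  rwa [lay_update T hT] at h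

theorem regHalf_lay (i t : Fin n) (hit : i ≠ t) (v : ℕ)
    (hi : c i = ruler v 0) (ht : c t = ruler 0 0) :
    RunLe (regHalf (T i) (T t)) (lay T s c)
      (lay T s (Function.update c i (ruler (v / 2) 0))) (40 * v + 60) := by
  have h := regHalf_run (T i) (T t) (hT.ne hit) v (lay T s c)
    (by rw [lay_apply T hT, hi]) (by rw [lay_apply T hT, ht])
  rwa [lay_update T hT] at h

theorem regPow2_lay (i j t : Fin n) (hij : i ≠ j) (hit : i ≠ t) (hjt : j ≠ t) (v x : ℕ)
    (hi : c i = ruler v 0) (hj : c j = ruler x 0) (ht : c t = ruler 0 0) :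
    RunLe (regPow2 (T i) (T j) (T t)) (lay T s c)
      (lay T s (Function.update c i (ruler (2 ^ x) 0))) (10 * v + 200 * 2 ^ x + 100) := by
  have h := regPow2_run (T i) (T j) (T t) (hT.ne hij) (hT.ne hit) (hT.ne hjt) v x (lay T s c)
    (by rw [lay_apply T hT, hi]) (by rw [lay_apply T hT, hj]) (by rw [lay_apply T hT, ht])
  rwa [lay_update T hT] at h

theorem regConst_lay (i : Fin n) (k v : ℕ) (hi : c i = ruler v 0) :
    RunLe (regConst (T i) k) (lay T s c) (lay T s (Function.update c i (ruler k 0)))
      (10 * (v + k) + 20) := by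
  have h := regConst_run (T i) k v (lay T s c) (by rw [lay_apply T hT, hi])
  rwa [lay_update T hT] at h

theorem emitRep_lay (i j : Fin n) (hij : i ≠ j) (x : Sym) (l : List (Sym ⊕ α)) (v : ℕ)
    (hi : c i = WT l l.length) (hj : c j = ruler v 0) :
    RunLe (emitRep (T i) (T j) x) (lay T s c)
      (lay T s (Function.update c i (WT (l ++ List.replicate v (Sum.inl x)) (l.length + v))))
      (5 * v + 5) := by
  have h := emitRep_run (T i) (T j) (hT.ne hij) x l v (lay T s c)
    (by rw [lay_apply T hT, hi]) (by rw [lay_apply T hT, hj])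
  rwa [lay_update T hT] at h

theorem rewind_lay (i : Fin n) (l : List (Sym ⊕ α)) (hl : Sum.inl Sym.lend ∉ l) (pos : ℕ)
    (hi : c i = WT l pos) :
    RunLe (rewind (T i)) (lay T s c) (lay T s (Function.update c i (WT l 0)))
      (2 * pos + 4) := by
  have h := (rewind_run (T i) l hl pos (lay T s c) (by rw [lay_apply T hT, hi])).le
  rwa [lay_update T hT] at h

theorem clearTape_lay (i : Fin n) (l : List (Sym ⊕ α)) (hb : Sum.inl Sym.blank ∉ l)
    (hl : Sum.inl Sym.lend ∉ l) (pos : ℕ) (hpos : pos ≤ l.length) (hi : c i = WT l pos) :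
    RunLe (clearTape (T i)) (lay T s c) (lay T s (Function.update c i (WT [] 0)))
      (4 * l.length + 8) := by
  have h := clearTape_run (T i) l hb hl pos hpos (lay T s c) (by rw [lay_apply T hT, hi])
  rwa [lay_update T hT] at h

/-- Clearing a register. -/
theorem clearReg_lay (i : Fin n) (v : ℕ) (hi : c i = ruler v 0) :
    RunLe (clearTape (T i)) (lay T s c) (lay T s (Function.update c i (WT [] 0)))
      (4 * v + 8) := by
  have h := clearTape_lay T hT s c i (List.replicate v (Sum.inl Sym.one))
    (by
      intro h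
      have := List.eq_of_mem_replicate h
      cases this)
    (lend_not_mem_replicate_one v) 0 (Nat.zero_le _) hi
  simpa using h

theorem copyApp_lay (i j : Fin n) (hij : i ≠ j) (l l' : List (Sym ⊕ α))
    (hb : Sum.inl Sym.blank ∉ l) (hl : Sum.inl Sym.lend ∉ l)
    (hi : c i = WT l 0) (hj : c j = WT l' l'.length) :
    RunLe (copyApp (T i) (T j)) (lay T s c)
      (lay T s (Function.update c j (WT (l' ++ l) (l'.length + l.length))))
      (5 * l.length + 8) := by
  have h := copyApp_run (T i) (T j) (hT.ne hij) l l' hb hl (lay T s c)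
    (by rw [lay_apply T hT, hi]) (by rw [lay_apply T hT, hj])
  rwa [lay_update T hT] at h

theorem padStream_lay (i j : Fin n) (hij : i ≠ j) (z : Sym) (l : List (Sym ⊕ α))
    (hb : Sum.inl Sym.blank ∉ l) (hl : Sum.inl Sym.lend ∉ l) (pos k : ℕ)
    (hpos : pos ≤ l.length) (hi : c i = WT l pos) (hj : c j = ruler k 0) :
    RunLe (padStream (T i) (T j) z) (lay T s c)
      (lay T s (Function.update c i (WT (padTo k (Sum.inl z) l) 0)))
      (10 * (l.length + k) + 30) := by
  have h := padStream_run (T i) (T j) (hT.ne hij) z l hb hl pos k hpos (lay T s c)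
    (by rw [lay_apply T hT, hi]) (by rw [lay_apply T hT, hj])
  rwa [lay_update T hT] at h

/-- `r := x * y` for an empty register `r`. -/
theorem regMul_lay (i j l : Fin n) (hij : i ≠ j) (hil : i ≠ l) (hjl : j ≠ l) (x y : ℕ)
    (hi : c i = ruler 0 0) (hj : c j = ruler x 0) (hl : c l = ruler y 0) :
    RunLe (regMulAdd (T i) (T j) (T l)) (lay T s c)
      (lay T s (Function.update c i (ruler (x * y) 0)))
      (10 * (x * y + x + y) + 40) := by
  have h := regMulAdd_lay T hT s c i j l hij hil hjl 0 x y hi hj hl
  simpa using h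

/-- Appending a run of a work symbol to a template under construction. -/
theorem emitSym_lay (i j : Fin n) (hij : i ≠ j) (x : Sym) (l0 : List Sym) (pos v : ℕ)
    (hi : c i = WT (l0.map Sum.inl) pos) (hpos : pos = l0.length) (hj : c j = ruler v 0) :
    RunLe (emitRep (T i) (T j) x) (lay T s c)
      (lay T s (Function.update c i
        (WT ((l0 ++ List.replicate v x).map Sum.inl) (pos + v))))
      (5 * v + 5) := by
  subst hpos
  have h := emitRep_lay T hT s c i j hij x (l0.map Sum.inl) v
    (by rw [hi, List.length_map]) hj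
  simpa using h

/-- Rewinding a template. -/
theorem rewindSym_lay (i : Fin n) (l0 : List Sym) (hl : Sym.lend ∉ l0) (pos : ℕ)
    (hi : c i = WT (l0.map Sum.inl) pos) :
    RunLe (rewind (T i)) (lay T s c) (lay T s (Function.update c i (WT (l0.map Sum.inl) 0)))
      (2 * pos + 4) := by
  refine rewind_lay T hT s c i (l0.map Sum.inl) ?_ pos hi
  intro h
  obtain ⟨a, ha, e⟩ := List.mem_map.1 h
  cases e
  exact hl ha

/-- Clearing a template. -/
theorem clearSym_lay (i : Fin n) (l0 : List Sym) (hb : Sym.blank ∉ l0) (hl : Sym.lend ∉ l0)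
    (hi : c i = WT (l0.map Sum.inl) 0) :
    RunLe (clearTape (T i)) (lay T s c) (lay T s (Function.update c i (WT [] 0)))
      (4 * l0.length + 8) := by
  have h := clearTape_lay T hT s c i (l0.map Sum.inl)
    (by
      intro h
      obtain ⟨a, ha, e⟩ := List.mem_map.1 h
      cases e
      exact hb ha)
    (by
      intro h
      obtain ⟨a, ha, e⟩ := List.mem_map.1 h
      cases e
      exact hl ha) 0 (Nat.zero_le _) hi
  simpa using h

/-- `genGrid` in layout form, for a layout with at least 24 tapes. -/
theorem genGrid_lay (hn : 24 ≤ n) (z : Sym)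
    (hz : z ≠ Sym.blank) (hz' : z ≠ Sym.lend)
    (reps rows cols M i0 i1 i2 c0 c1 c2 : ℕ) (hM : 1 ≤ M)
    (h0 : i0 < M) (h1 : i1 < M) (h2 : i2 < M) (h3 : c0 < M) (h4 : c1 < M) (h5 : c2 < M)
    (arrPre rowPre body tail rowPost arrPost : List Sym)
    (hclean : ∀ x ∈ arrPre ++ rowPre ++ body ++ tail ++ rowPost ++ arrPost,
      x ≠ Sym.blank ∧ x ≠ Sym.lend)
    (h_out : c (Fin.castLE hn 0) = WT [] 0)
    (h_reps : c (Fin.castLE hn 1) = ruler reps 0) (h_rows : c (Fin.castLE hn 2) = ruler rows 0)
    (h_cols : c (Fin.castLE hn 3) = ruler cols 0) (h_M : c (Fin.castLE hn 4) = ruler M 0)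
    (h_i0 : c (Fin.castLE hn 5) = ruler i0 0) (h_i1 : c (Fin.castLE hn 6) = ruler i1 0)
    (h_i2 : c (Fin.castLE hn 7) = ruler i2 0) (h_c0 : c (Fin.castLE hn 8) = ruler c0 0)
    (h_c1 : c (Fin.castLE hn 9) = ruler c1 0) (h_c2 : c (Fin.castLE hn 10) = ruler c2 0)
    (h_arrPre : c (Fin.castLE hn 11) = WT (arrPre.map Sum.inl) 0)
    (h_rowPre : c (Fin.castLE hn 12) = WT (rowPre.map Sum.inl) 0)
    (h_body : c (Fin.castLE hn 13) = WT (body.map Sum.inl) 0)
    (h_tail : c (Fin.castLE hn 14) = WT (tail.map Sum.inl) 0)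
    (h_rowPost : c (Fin.castLE hn 15) = WT (rowPost.map Sum.inl) 0)
    (h_arrPost : c (Fin.castLE hn 16) = WT (arrPost.map Sum.inl) 0)
    (h17 : c (Fin.castLE hn 17) = ruler 0 0) (h18 : c (Fin.castLE hn 18) = ruler 0 0)
    (h19 : c (Fin.castLE hn 19) = ruler 0 0) (h20 : c (Fin.castLE hn 20) = ruler 0 0)
    (h21 : c (Fin.castLE hn 21) = ruler 0 0) (h22 : c (Fin.castLE hn 22) = ruler 0 0)
    (h23 : c (Fin.castLE hn 23) = ruler 0 0) :
    RunLe (genGrid (fun i : Fin 24 => T (Fin.castLE hn i)) z) (lay T s c)
      (lay T s (Function.update c (Fin.castLE hn 0)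
        (WT ((gridList reps rows cols M i0 i1 i2 c0 c1 c2 z
            arrPre rowPre body tail rowPost arrPost).map Sum.inl)
          (gridList reps rows cols M i0 i1 i2 c0 c1 c2 z
            arrPre rowPre body tail rowPost arrPost).length)))
      (200 * ((gridList reps rows cols M i0 i1 i2 c0 c1 c2 z
            arrPre rowPre body tail rowPost arrPost).length
          + reps * (rows * (cols + 1) + 1) * (M + 1) + 1)) := by
  have hT' : Function.Injective (fun i : Fin 24 => T (Fin.castLE hn i)) :=
    hT.comp (Fin.castLE_injective hn)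
  have key : ∀ i : Fin 24, lay T s c ((fun i : Fin 24 => T (Fin.castLE hn i)) i)
      = c (Fin.castLE hn i) := fun i => lay_apply T hT s c _
  have h := genGrid_run (fun i : Fin 24 => T (Fin.castLE hn i)) hT' z hz hz'
    reps rows cols M i0 i1 i2 c0 c1 c2 hM h0 h1 h2 h3 h4 h5
    arrPre rowPre body tail rowPost arrPost hclean [] (lay T s c)
    (by rw [key, h_out]; rfl) (by rw [key, h_reps]) (by rw [key, h_rows]) (by rw [key, h_cols])
    (by rw [key, h_M]) (by rw [key, h_i0]) (by rw [key, h_i1]) (by rw [key, h_i2])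
    (by rw [key, h_c0]) (by rw [key, h_c1]) (by rw [key, h_c2]) (by rw [key, h_arrPre])
    (by rw [key, h_rowPre]) (by rw [key, h_body]) (by rw [key, h_tail]) (by rw [key, h_rowPost])
    (by rw [key, h_arrPost])
    (by
      intro i hi
      rw [key]
      fin_cases i <;> first | assumption | exact absurd hi (by decide))
  simp only [List.nil_append, List.length_nil, Nat.zero_add] at h
  have e := lay_update T hT s c (Fin.castLE hn 0)
    (WT ((gridList reps rows cols M i0 i1 i2 c0 c1 c2 z
            arrPre rowPre body tail rowPost arrPost).map Sum.inl)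
          (gridList reps rows cols M i0 i1 i2 c0 c1 c2 z
            arrPre rowPre body tail rowPost arrPost).length)
  rw [← e]
  exact h

end steps

/-- Checking a statement on the forty tapes of a generator layout one by one. -/
theorem forall_fin40 (P : Fin 40 → Prop)
    (h0 : P 0) (h1 : P 1) (h2 : P 2) (h3 : P 3) (h4 : P 4) (h5 : P 5) (h6 : P 6) (h7 : P 7)
    (h8 : P 8) (h9 : P 9) (h10 : P 10) (h11 : P 11) (h12 : P 12) (h13 : P 13) (h14 : P 14)
    (h15 : P 15) (h16 : P 16) (h17 : P 17) (h18 : P 18) (h19 : P 19) (h20 : P 20) (h21 : P 21)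
    (h22 : P 22) (h23 : P 23) (h24 : P 24) (h25 : P 25) (h26 : P 26) (h27 : P 27) (h28 : P 28)
    (h29 : P 29) (h30 : P 30) (h31 : P 31) (h32 : P 32) (h33 : P 33) (h34 : P 34) (h35 : P 35)
    (h36 : P 36) (h37 : P 37) (h38 : P 38) (h39 : P 39) : ∀ i, P i := by
  intro i
  fin_cases i <;> assumption

/-- Length of a grid list (all slots have the same length). -/
theorem gridList_length {β : Type} (reps rows cols M i0 i1 i2 c0 c1 c2 : ℕ) (hM : 1 ≤ M) (z : β)
    (arrPre rowPre body tail rowPost arrPost : List β) :
    (gridList reps rows cols M i0 i1 i2 c0 c1 c2 z arrPre rowPre body tail rowPost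
        arrPost).length
      = reps * (arrPre.length + rows * (rowPre.length
          + cols * (M - 1 + body.length + tail.length) + rowPost.length) + arrPost.length) := by
  have slot : ∀ u1 u2, (List.replicate (gridExp M i0 i1 i2 c0 c1 c2 u1 u2) z ++ body ++
      List.replicate (M - 1 - gridExp M i0 i1 i2 c0 c1 c2 u1 u2) z ++ tail).length
      = M - 1 + body.length + tail.length := by
    intro u1 u2
    have h : gridExp M i0 i1 i2 c0 c1 c2 u1 u2 < M := Nat.mod_lt _ (by omega)
    simp only [List.length_append, List.length_replicate]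
    omega
  unfold gridList
  simp only [List.length_flatMap, List.length_append, slot, List.map_const',
    List.sum_replicate, List.length_range, smul_eq_mul]

end Vale.Agent.H91.MT.GC1
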