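import Vale.Agent.H91.MT.GenCtl2_Facts

/-!
# TASK GENCTL2: generating the control list `ctl2` on a tape

Tapes (an injective map `T : Fin 40 → Fin K`):
`T 0 .. T 23`: the tapes of `genGrid` (see GenGrid.lean: `T 0` output stream, `T 1 .. T 16`
parameter registers and templates, `T 17 .. T 23` scratch); all empty (`WT [] 0`) before; after
the run all are empty again except `T 0`, which holds the generated list, rewound;
`T 24 .. T 30`: base registers `R, r0, c0, a, P, E, q` with `E = q * P` (read only);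
`T 31`: spare base register (do not touch);
`T 32 .. T 39`: scratch registers, empty before and after.

The program computes the parameter registers and templates of the grid with the register
programs of RegA / RegB / RegC, calls `genGrid`, clears the parameter tapes and rewinds `T 0`.
The proof is a chain of `TStep`s (see GenCtl2_Lib.lean), one per register program.
-/

namespace Vale.Agent.H91.MT

variable {α : Type} {K : ℕ}

/-- Generator of `SwapParams.ctl2`. -/
def genCtl2 (T : Fin 40 → Fin K) : Prog (Sym ⊕ α) K :=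
  (Prog.seq (Prog.seq (Prog.seq (Prog.seq (Prog.seq (Prog.seq (Prog.seq (Prog.seq
  (Prog.seq (Prog.seq (Prog.seq (Prog.seq (Prog.seq (Prog.seq (Prog.seq (Prog.seq
  (Prog.seq (Prog.seq (Prog.seq (Prog.seq (Prog.seq (Prog.seq (Prog.seq (Prog.seq
  (Prog.seq (Prog.seq (Prog.seq (Prog.seq (Prog.seq (Prog.seq (Prog.seq (Prog.seq
  (Prog.seq (Prog.seq (Prog.seq (Prog.seq (Prog.seq (Prog.seq (Prog.seq (Prog.seq
  (Prog.seq (Prog.seq (Prog.seq (Prog.seq (Prog.seq (Prog.seq (Prog.seq (Prog.seq
  (Prog.seq (Prog.seq (Prog.seq (Prog.seq (Prog.seq (Prog.seq (Prog.seq (Prog.seq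
  (Prog.seq (Prog.seq (Prog.seq (Prog.seq (Prog.seq (Prog.seq (Prog.seq (Prog.seq
  (Prog.seq (Prog.seq
    (regConst (T 39) 8)
    (regMulAdd (T 4) (T 39) (T 29)))
    (regConst (T 39) 64))
    (regMulAdd (T 32) (T 39) (T 29)))
    (regConst (T 39) 4))
    (regMulAdd (T 33) (T 39) (T 30)))
    (regConst (T 39) 1))
    (regCopy (T 1) (T 24)))
    (regCopy (T 2) (T 28)))
    (regCopy (T 3) (T 28)))
    (regCopy (T 6) (T 4)))
    (regSub (T 6) (T 33)))
    (regCopy (T 7) (T 6)))
    (regCopy (T 8) (T 6)))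
    (regAddMod (T 8) (T 6) (T 4)))
    (regCopy (T 10) (T 8)))
    (regCopy (T 9) (T 33)))
    (regAddMod (T 9) (T 33) (T 4)))
    (regCopy (T 34) (T 28)))
    (regSub (T 34) (T 39)))
    (regMulAdd (T 37) (T 28) (T 32)))
    (regAdd (T 38) (T 37)))
    (regAdd (T 38) (T 37)))
    (regMulAdd (T 35) (T 34) (T 32)))
    (Prog.seq (emitRep (T 12) (T 35) Sym.cS) (rewind (T 12))))
    (regConst (T 35) 0))
    (regMulAdd (T 35) (T 34) (T 38)))
    (Prog.seq (emitRep (T 11) (T 35) Sym.cS) (rewind (T 11))))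
    (regConst (T 35) 0))
    (regCopy (T 35) (T 32)))
    (regSub (T 35) (T 4)))
    (Prog.seq (emitRep (T 13) (T 35) Sym.cC) (rewind (T 13))))
    (regConst (T 35) 0))
    (Prog.seq (emitRep (T 14) (T 4) Sym.cS) (Prog.seq (emitRep (T 14) (T 39) Sym.cZ) (rewind (T 14)))))
    (Prog.seq (emitRep (T 15) (T 32) Sym.cS) (Prog.seq (emitRep (T 15) (T 37) Sym.cZ) (rewind (T 15)))))
    (regCopy (T 35) (T 38)))
    (regMulAdd (T 35) (T 28) (T 38)))
    (regMulAdd (T 35) (T 28) (T 38)))
    (regMulAdd (T 36) (T 28) (T 38)))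
    (regMulAdd (T 36) (T 28) (T 38)))
    (regMulAdd (T 36) (T 28) (T 38)))
    (Prog.seq (emitRep (T 16) (T 35) Sym.cS) (Prog.seq (emitRep (T 16) (T 36) Sym.cZ) (rewind (T 16)))))
    (regConst (T 32) 0))
    (regConst (T 33) 0))
    (regConst (T 34) 0))
    (regConst (T 35) 0))
    (regConst (T 36) 0))
    (regConst (T 37) 0))
    (regConst (T 38) 0))
    (regConst (T 39) 0))
    (genGrid (sub24 T) Sym.cZ))
    (regConst (T 1) 0))
    (regConst (T 2) 0))
    (regConst (T 3) 0))
    (regConst (T 4) 0))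
    (regConst (T 6) 0))
    (regConst (T 7) 0))
    (regConst (T 8) 0))
    (regConst (T 9) 0))
    (regConst (T 10) 0))
    (clearTape (T 11)))
    (clearTape (T 12)))
    (clearTape (T 13)))
    (clearTape (T 14)))
    (clearTape (T 15)))
    (clearTape (T 16)))
    (rewind (T 0)))

theorem genCtl2_run (T : Fin 40 → Fin K) (hT : Function.Injective T) (p : SwapParams)
    (hp : p.Ok) (q : ℕ) (hq : p.E = q * p.P) (hr0 : 1 ≤ p.r0) (hc0 : 1 ≤ p.c0) (hR : 1 ≤ p.R)
    (s : St (Sym ⊕ α) K) (hbase : BaseRegs T p q s)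
    (hempty : ∀ i : Fin 40, (i.val < 24 ∨ 32 ≤ i.val) → s (T i) = WT [] 0) :
    RunLe (genCtl2 T) s (Function.update s (T 0) (WT (p.ctl2.map csym) 0))
      (100000 * (p.R * p.SA * p.W + 1)) := by
  have _h1 := hr0
  have _h2 := hc0
  have hs := base_g0 p q s hbase hempty
  have hE := hp.hE
  have hP2 := p.two_le_P hp
  have hq1 := p.one_le_q hp q hq
  have hqE := p.q_le_E hp q hq
  have hM := p.M_eq0
  have hW := p.W_eq0
  have hV56 := p.V_eq
  have hh := p.h_eq hp q hq
  have heta : p.eta = p.M - p.h := rfl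
  have he2 : (2 * p.eta) % p.M = (p.eta + p.eta) % p.M := by rw [two_mul]
  have hh2 : (2 * p.h) % p.M = (p.h + p.h) % p.M := by rw [two_mul]
  have hM1 : 1 ≤ p.M := by omega
  have hetaM : p.eta < p.M := by omega
  have hhM : p.h < p.M := by omega
  have hE2 : (2 * p.eta) % p.M < p.M := Nat.mod_lt _ (by omega)
  have hH2 : (2 * p.h) % p.M < p.M := Nat.mod_lt _ (by omega)
  have hPW : p.P * p.W = 0 + p.P * p.W := (Nat.zero_add _).symm
  have hN2 : (p.P - 1) * p.W = 0 + (p.P - 1) * p.W := (Nat.zero_add _).symm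
  have hN1 : (p.P - 1) * 2 * p.P * p.W = 0 + (p.P - 1) * (0 + p.P * p.W + p.P * p.W) := by ring
  have hV : p.V = p.W - p.M := by omega
  have hA1 : 0 + p.P * p.W + p.P * p.W + 2 * (p.P * (p.P * p.W))
      = (0 + p.P * p.W + p.P * p.W) + p.P * (0 + p.P * p.W + p.P * p.W) := by ring
  have hN8 := p.N8_eq hp
  have hB1 : 2 * (p.P * (p.P * p.W)) = 0 + p.P * (0 + p.P * p.W + p.P * p.W) := by ring
  have hB2 : 4 * (p.P * (p.P * p.W))
      = 2 * (p.P * (p.P * p.W)) + p.P * (0 + p.P * p.W + p.P * p.W) := by ring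
  have hN9 := p.N9_eq
  have hout := p.ctl2_out (α := α) hp
  have hclean := p.ctl2_clean
  have hlend := p.ctl2_lend (α := α)
  have fL := p.ctl2_len (α := α) hp
  have fW1 : 1 ≤ p.W := by omega
  have fPW : p.W ≤ p.P * p.W := Nat.le_mul_of_pos_left _ (by omega)
  have fP : p.P ≤ p.P * p.W := Nat.le_mul_of_pos_right _ fW1
  have fPPW : p.P * p.W ≤ p.P * (p.P * p.W) := Nat.mul_le_mul_left _ fPW
  have fBB := p.BB_ge hR
  have fR := p.R_le_BB hp
  have fN2 : (p.P - 1) * p.W ≤ p.P * p.W := Nat.mul_le_mul_right _ (Nat.sub_le _ _)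
  have fN1 := p.N1_le
  have fN8 := p.N8_le
  have fN9 := p.N9_le
  have fX := p.X_le hp
  -- the chain of register programs
  have st := ts_regConst hT 39 8 (g := g0 p q (s (T 31))) (by rfl)
  replace st := st.seq (ts_regMulAdd hT 4 39 29 (by decide) (by decide) (by decide) (p.M) hM (by
    rfl) (by rfl) (by rfl))
  replace st := st.seq (ts_regConst hT 39 64 (by rfl))
  replace st := st.seq (ts_regMulAdd hT 32 39 29 (by decide) (by decide) (by decide) (p.W) hW (by
    rfl) (by rfl) (by rfl))
  replace st := st.seq (ts_regConst hT 39 4 (by rfl))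
  replace st := st.seq (ts_regMulAdd hT 33 39 30 (by decide) (by decide) (by decide) (p.h) hh (by
    rfl) (by rfl) (by rfl))
  replace st := st.seq (ts_regConst hT 39 1 (by rfl))
  replace st := st.seq (ts_regCopy hT 1 24 (by decide) (by rfl) (by rfl))
  replace st := st.seq (ts_regCopy hT 2 28 (by decide) (by rfl) (by rfl))
  replace st := st.seq (ts_regCopy hT 3 28 (by decide) (by rfl) (by rfl))
  replace st := st.seq (ts_regCopy hT 6 4 (by decide) (by rfl) (by rfl))
  replace st := st.seq (ts_regSub hT 6 33 (by decide) (p.eta) heta (by rfl) (by rfl))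
  replace st := st.seq (ts_regCopy hT 7 6 (by decide) (by rfl) (by rfl))
  replace st := st.seq (ts_regCopy hT 8 6 (by decide) (by rfl) (by rfl))
  replace st := st.seq (ts_regAddMod hT 8 6 4 (by decide) (by decide) (by decide) ((2 * p.eta) %
    p.M) he2 hetaM hetaM.le (by rfl) (by rfl) (by rfl))
  replace st := st.seq (ts_regCopy hT 10 8 (by decide) (by rfl) (by rfl))
  replace st := st.seq (ts_regCopy hT 9 33 (by decide) (by rfl) (by rfl))
  replace st := st.seq (ts_regAddMod hT 9 33 4 (by decide) (by decide) (by decide) ((2 * p.h) %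
    p.M) hh2 hhM hhM.le (by rfl) (by rfl) (by rfl))
  replace st := st.seq (ts_regCopy hT 34 28 (by decide) (by rfl) (by rfl))
  replace st := st.seq (ts_regSub hT 34 39 (by decide) (p.P - 1) rfl (by rfl) (by rfl))
  replace st := st.seq (ts_regMulAdd hT 37 28 32 (by decide) (by decide) (by decide) (p.P * p.W)
    hPW (by rfl) (by rfl) (by rfl))
  replace st := st.seq (ts_regAdd hT 38 37 (by decide) (by rfl) (by rfl))
  replace st := st.seq (ts_regAdd hT 38 37 (by decide) (by rfl) (by rfl))
  replace st := st.seq (ts_regMulAdd hT 35 34 32 (by decide) (by decide) (by decide) ((p.P - 1) *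
    p.W) hN2 (by rfl) (by rfl) (by rfl))
  replace st := st.seq (ts_tpl1 hT 12 35 (by decide) Sym.cS (by decide) (by rfl) (by rfl))
  replace st := st.seq (ts_regConst hT 35 0 (by rfl))
  replace st := st.seq (ts_regMulAdd hT 35 34 38 (by decide) (by decide) (by decide) ((p.P - 1) * 2
    * p.P * p.W) hN1 (by rfl) (by rfl) (by rfl))
  replace st := st.seq (ts_tpl1 hT 11 35 (by decide) Sym.cS (by decide) (by rfl) (by rfl))
  replace st := st.seq (ts_regConst hT 35 0 (by rfl))
  replace st := st.seq (ts_regCopy hT 35 32 (by decide) (by rfl) (by rfl))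
  replace st := st.seq (ts_regSub hT 35 4 (by decide) (p.V) hV (by rfl) (by rfl))
  replace st := st.seq (ts_tpl1 hT 13 35 (by decide) Sym.cC (by decide) (by rfl) (by rfl))
  replace st := st.seq (ts_regConst hT 35 0 (by rfl))
  replace st := st.seq (ts_tpl2 hT 14 4 39 (by decide) (by decide) Sym.cS Sym.cZ (by decide) (by
    decide) (by rfl) (by rfl) (by rfl))
  replace st := st.seq (ts_tpl2 hT 15 32 37 (by decide) (by decide) Sym.cS Sym.cZ (by decide) (by
    decide) (by rfl) (by rfl) (by rfl))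
  replace st := st.seq (ts_regCopy hT 35 38 (by decide) (by rfl) (by rfl))
  replace st := st.seq (ts_regMulAdd hT 35 28 38 (by decide) (by decide) (by decide) (0 + p.P * p.W
    + p.P * p.W + 2 * (p.P * (p.P * p.W))) hA1 (by rfl) (by rfl) (by rfl))
  replace st := st.seq (ts_regMulAdd hT 35 28 38 (by decide) (by decide) (by decide) ((p.SA - (2 *
    p.P - 1) * 2 * p.P) * p.W) hN8 (by rfl) (by rfl) (by rfl))
  replace st := st.seq (ts_regMulAdd hT 36 28 38 (by decide) (by decide) (by decide) (2 * (p.P *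
    (p.P * p.W))) hB1 (by rfl) (by rfl) (by rfl))
  replace st := st.seq (ts_regMulAdd hT 36 28 38 (by decide) (by decide) (by decide) (4 * (p.P *
    (p.P * p.W))) hB2 (by rfl) (by rfl) (by rfl))
  replace st := st.seq (ts_regMulAdd hT 36 28 38 (by decide) (by decide) (by decide) ((p.SA - 2 *
    p.P * p.P) * p.W) hN9 (by rfl) (by rfl) (by rfl))
  replace st := st.seq (ts_tpl2 hT 16 35 36 (by decide) (by decide) Sym.cS Sym.cZ (by decide) (by
    decide) (by rfl) (by rfl) (by rfl))
  replace st := st.seq (ts_regConst hT 32 0 (by rfl))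
  replace st := st.seq (ts_regConst hT 33 0 (by rfl))
  replace st := st.seq (ts_regConst hT 34 0 (by rfl))
  replace st := st.seq (ts_regConst hT 35 0 (by rfl))
  replace st := st.seq (ts_regConst hT 36 0 (by rfl))
  replace st := st.seq (ts_regConst hT 37 0 (by rfl))
  replace st := st.seq (ts_regConst hT 38 0 (by rfl))
  replace st := st.seq (ts_regConst hT 39 0 (by rfl))
  replace st := st.seq (ts_genGrid40 hT Sym.cZ (by decide) (by decide) p.R p.P p.P p.M 0 p.eta
    p.eta ((2 * p.eta) % p.M) ((2 * p.h) % p.M) ((2 * p.eta) % p.M)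
    hM1 hM1 hetaM hetaM hE2 hH2 hE2
    (List.replicate ((p.P - 1) * 2 * p.P * p.W) Sym.cS) (List.replicate ((p.P - 1) * p.W) Sym.cS)
    (List.replicate p.V Sym.cC) (List.replicate p.M Sym.cS ++ List.replicate 1 Sym.cZ)
    (List.replicate p.W Sym.cS ++ List.replicate (p.P * p.W) Sym.cZ)
    (List.replicate ((p.SA - (2 * p.P - 1) * 2 * p.P) * p.W) Sym.cS ++ List.replicate ((p.SA - 2 *
    p.P * p.P) * p.W) Sym.cZ)
    hclean (p.ctl2.map csym) hout
    (by rfl) (by rfl) (by rfl) (by rfl) (by rfl) (by rfl) (by rfl) (by rfl) (by rfl) (by rfl) (by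
    rfl) (by rfl) (by rfl) (by rfl) (by rfl) (by rfl) (by rfl) (by rfl) (by rfl) (by rfl) (by rfl)
    (by rfl) (by rfl) (by rfl))
  replace st := st.seq (ts_regConst hT 1 0 (by rfl))
  replace st := st.seq (ts_regConst hT 2 0 (by rfl))
  replace st := st.seq (ts_regConst hT 3 0 (by rfl))
  replace st := st.seq (ts_regConst hT 4 0 (by rfl))
  replace st := st.seq (ts_regConst hT 6 0 (by rfl))
  replace st := st.seq (ts_regConst hT 7 0 (by rfl))
  replace st := st.seq (ts_regConst hT 8 0 (by rfl))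
  replace st := st.seq (ts_regConst hT 9 0 (by rfl))
  replace st := st.seq (ts_regConst hT 10 0 (by rfl))
  replace st := st.seq (ts_clear1 hT 11 Sym.cS (by decide) (by decide) (by rfl))
  replace st := st.seq (ts_clear1 hT 12 Sym.cS (by decide) (by decide) (by rfl))
  replace st := st.seq (ts_clear1 hT 13 Sym.cC (by decide) (by decide) (by rfl))
  replace st := st.seq (ts_clear2 hT 14 Sym.cS Sym.cZ (by decide) (by decide) (by decide) (by
    decide) (by rfl))
  replace st := st.seq (ts_clear2 hT 15 Sym.cS Sym.cZ (by decide) (by decide) (by decide) (by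
    decide) (by rfl))
  replace st := st.seq (ts_clear2 hT 16 Sym.cS Sym.cZ (by decide) (by decide) (by decide) (by
    decide) (by rfl))
  replace st := st.seq (ts_rewind hT 0 (by rfl) hlend)
  refine (TStep.cast st ?_ ?_).run hT s hs 0 _ rfl
  · funext i
    fin_cases i <;> rfl
  · omega

end Vale.Agent.H91.MT
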