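import Vale.Agent.H91.MT.Pure

/-!
# TASK PLEN: lengths of the pure lists (no machines)

`ctlNeed c` is the number of source cells consumed by a control list, and the output length of
`applyCtl c xs` does not depend on `xs`.  With `m = 4E`, `M = 8E`, `W = 64E`, `V = 56E`,
`SA = 8 P^2`, `g = 8` every slot of `ctl1`, `ctl2`, `ctl3`, `ker1`, `ker2` has output width `W`.
-/

namespace Vale.Agent.H91.MT

/-- Output length of a control list. -/
def ctlOutLen : List Ctl → ℕ
  | [] => 0
  | Ctl.C :: c => ctlOutLen c + 1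
  | Ctl.S :: c => ctlOutLen c
  | Ctl.N :: c => ctlOutLen c + 1
  | Ctl.Z :: c => ctlOutLen c + 1
  | Ctl.O :: c => ctlOutLen c + 1

theorem applyCtl_length (c : List Ctl) (xs : List Bool) : (applyCtl c xs).length = ctlOutLen c := by
  induction c generalizing xs with
  | nil => rfl
  | cons a c ih => cases a <;> simp [applyCtl, ctlOutLen, ih]

theorem ctl_length_le (c : List Ctl) (xs : List Bool) :
    c.length ≤ ctlNeed c + (applyCtl c xs).length := by
  rw [applyCtl_length]
  induction c with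
  | nil => simp
  | cons a c ih => cases a <;> simp [ctlNeed, ctlOutLen] <;> omega

theorem prodBits_length (k : ℕ) (xs ys : List Bool) : (prodBits k xs ys).length = 2 * k := by
  simp [prodBits]

theorem padTo_length {β : Type} (k : ℕ) (z : β) (l : List β) (h : l.length ≤ k) :
    (padTo k z l).length = k := by
  simp [padTo]; omega

/-- An additive weight on lists. -/
structure AddW {β : Type} (w : List β → ℕ) : Prop where
  nil : w [] = 0
  app : ∀ a b, w (a ++ b) = w a + w b

theorem addW_length {β : Type} : AddW (List.length : List β → ℕ) :=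
  ⟨rfl, fun _ _ => List.length_append⟩

theorem addW_ctlNeed : AddW ctlNeed := by
  refine ⟨rfl, ?_⟩
  intro a b
  induction a with
  | nil => simp [ctlNeed]
  | cons x a ih => cases x <;> simp [ctlNeed, ih] <;> omega

theorem addW_ctlOutLen : AddW ctlOutLen := by
  refine ⟨rfl, ?_⟩
  intro a b
  induction a with
  | nil => simp [ctlOutLen]
  | cons x a ih => cases x <;> simp [ctlOutLen, ih] <;> omega

theorem ctlNeed_replicate (n : ℕ) (x : Ctl) :
    ctlNeed (List.replicate n x) = n * (if x = Ctl.Z ∨ x = Ctl.O then 0 else 1) := by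
  induction n with
  | zero => simp [ctlNeed]
  | succ n ih =>
    rw [List.replicate_succ]
    cases x <;> simp [ctlNeed] at ih ⊢ <;> omega

theorem ctlOutLen_replicate (n : ℕ) (x : Ctl) :
    ctlOutLen (List.replicate n x) = n * (if x = Ctl.S then 0 else 1) := by
  induction n with
  | zero => simp [ctlOutLen]
  | succ n ih =>
    rw [List.replicate_succ]
    cases x <;> simp [ctlOutLen] at ih ⊢ <;> omega

namespace AddW

variable {β : Type} {w : List β → ℕ}

theorem flatMap_range (hw : AddW w) (n : ℕ) (f : ℕ → List β) (c : ℕ)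
    (hf : ∀ i, i < n → w (f i) = c) : w ((List.range n).flatMap f) = n * c := by
  induction n with
  | zero => simp [hw.nil]
  | succ n ih =>
    rw [List.range_succ, List.flatMap_append, hw.app, List.flatMap_singleton,
      ih (fun i hi => hf i (Nat.lt_succ_of_lt hi)), hf n (Nat.lt_succ_self n), Nat.succ_mul]

theorem rep (hw : AddW w) (n : ℕ) (l : List β) : w (Vale.Agent.H91.MT.rep n l) = n * w l := by
  unfold Vale.Agent.H91.MT.rep
  induction n with
  | zero => simp [hw.nil]
  | succ n ih => rw [List.replicate_succ, List.flatten_cons, hw.app, ih, Nat.succ_mul, Nat.add_comm]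

theorem gridList (hw : AddW w) (wz : ℕ) (z : β) (hz : ∀ n, w (List.replicate n z) = n * wz)
    (reps rows cols M i0 i1 i2 c0 c1 c2 : ℕ) (hM : 0 < M)
    (arrPre rowPre body tail rowPost arrPost : List β) :
    w (Vale.Agent.H91.MT.gridList reps rows cols M i0 i1 i2 c0 c1 c2 z arrPre rowPre body tail
        rowPost arrPost) =
      reps * (w arrPre + rows * (w rowPre + cols * ((M - 1) * wz + w body + w tail) + w rowPost)
        + w arrPost) := by
  unfold Vale.Agent.H91.MT.gridList
  refine hw.flatMap_range _ _ _ (fun _ _ => ?_)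
  rw [hw.app, hw.app]
  congr 2
  refine hw.flatMap_range _ _ _ (fun u1 _ => ?_)
  rw [hw.app, hw.app]
  congr 2
  refine hw.flatMap_range _ _ _ (fun u2 _ => ?_)
  rw [hw.app, hw.app, hw.app, hz, hz]
  have he : gridExp M i0 i1 i2 c0 c1 c2 u1 u2 < M := Nat.mod_lt _ hM
  have : gridExp M i0 i1 i2 c0 c1 c2 u1 u2 * wz + (M - 1 - gridExp M i0 i1 i2 c0 c1 c2 u1 u2) * wz
      = (M - 1) * wz := by
    rw [← Nat.add_mul]
    congr 1
    omega
  omega

end AddW

theorem sub_mul_add (a b w : ℕ) (h : a ≤ b) : a * w + (b - a) * w = b * w := by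
  rw [← Nat.add_mul, Nat.add_sub_of_le h]

theorem flatMap_range_mul {β : Type} (A B : ℕ) (F : ℕ → List β) :
    (List.range (A * B)).flatMap F =
      (List.range A).flatMap (fun i => (List.range B).flatMap (fun j => F (i * B + j))) := by
  induction A with
  | zero => simp
  | succ A ih =>
    rw [Nat.succ_mul, List.range_add, List.flatMap_append, ih, List.range_succ,
      List.flatMap_append, List.flatMap_singleton, List.flatMap_map]

theorem eq_flatMap_getD (X : List Bool) :
    X = (List.range X.length).flatMap (fun n => [X.getD n false]) := by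
  have h : X = (List.range X.length).map (fun n => X.getD n false) := by
    apply List.ext_getElem
    · simp
    · intro i h1 h2
      rw [List.getElem_map, List.getElem_range, List.getD_eq_getElem X false h1]
  rw [← List.map_eq_flatMap]
  exact h

namespace SwapParams

variable (p : SwapParams)

theorem dataIn_getD (X : List Bool) (hX : X.length = p.R * p.r0 * p.c0 * p.E) :
    p.dataIn (fun I i j b => X.getD (((I * p.r0 + i) * p.c0 + j) * p.E + b) false) = X := by
  unfold dataIn
  conv_rhs => rw [eq_flatMap_getD X, hX, flatMap_range_mul, flatMap_range_mul, flatMap_range_mul]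
  simp only [List.map_eq_flatMap]

theorem dataIn_length (f : ℕ → ℕ → ℕ → ℕ → Bool) :
    (p.dataIn f).length = p.R * p.r0 * p.c0 * p.E := by
  unfold dataIn
  rw [addW_length.flatMap_range p.R _ (p.r0 * p.c0 * p.E)]
  · ring
  intro I _
  rw [addW_length.flatMap_range p.r0 _ (p.c0 * p.E)]
  · ring
  intro i _
  rw [addW_length.flatMap_range p.c0 _ p.E]
  intro j _
  simp

theorem M_pos (hp : p.Ok) : 0 < p.M := by
  have := hp.hE
  simp only [M, m]
  omega

theorem P_ge (hp : p.Ok) : 2 ≤ p.P := by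
  have h := hp.ha
  unfold P
  calc 2 = 2 ^ 1 := rfl
    _ ≤ 2 ^ p.a := Nat.pow_le_pow_right (by norm_num) h

theorem ctlNeed_Z (n : ℕ) : ctlNeed (List.replicate n Ctl.Z) = n * 0 := by
  rw [ctlNeed_replicate]; simp

theorem ctlOutLen_Z (n : ℕ) : ctlOutLen (List.replicate n Ctl.Z) = n * 1 := by
  rw [ctlOutLen_replicate]; simp

theorem ctlNeed_ctl1 (hp : p.Ok) : ctlNeed p.ctl1 = p.R * p.r0 * p.c0 * p.E := by
  unfold ctl1
  rw [addW_ctlNeed.gridList 0 Ctl.Z ctlNeed_Z _ _ _ _ _ _ _ _ _ _ (p.M_pos hp)]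
  simp only [addW_ctlNeed.app, addW_ctlNeed.nil, ctlNeed_replicate]
  simp [ctlNeed]
  ring

theorem len_ctl1 (hp : p.Ok) (xs : List Bool) :
    (applyCtl p.ctl1 xs).length = p.R * p.SA * p.W := by
  rw [applyCtl_length]
  unfold ctl1
  rw [addW_ctlOutLen.gridList 1 Ctl.Z ctlOutLen_Z _ _ _ _ _ _ _ _ _ _ (p.M_pos hp)]
  simp only [addW_ctlOutLen.app, addW_ctlOutLen.nil, ctlOutLen_replicate]
  simp [ctlOutLen]
  have hslot : p.M - 1 + (p.g - 1 + 1 + p.E) + (p.W - (p.M - 1) - p.g - p.E) = p.W := by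
    have := hp.hE
    simp only [M, m, W, g]
    omega
  have hc : p.c0 ≤ 2 * p.P := by have := hp.hc; omega
  have hr : 2 * p.P * p.r0 ≤ p.SA := by
    unfold SA
    calc 2 * p.P * p.r0 ≤ 2 * p.P * p.P := Nat.mul_le_mul_left _ hp.hr
      _ ≤ 8 * p.P * p.P := Nat.mul_le_mul_right _ (Nat.mul_le_mul_right _ (by norm_num))
  rw [hslot, sub_mul_add _ _ _ hc]
  have h3 : p.r0 * (2 * p.P * p.W) = 2 * p.P * p.r0 * p.W := by ring
  rw [h3, sub_mul_add _ _ _ hr]
  ring

theorem length_replicate_false (n : ℕ) : (List.replicate n false).length = n * 1 := by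
  simp

theorem len_ker1 (hp : p.Ok) : p.ker1.length = (2 * p.P - 1) * (2 * p.P) * p.W := by
  unfold ker1
  rw [addW_length.gridList 1 false length_replicate_false _ _ _ _ _ _ _ _ _ _ (p.M_pos hp)]
  simp
  have hslot : p.M - 1 + 1 + (p.W - p.M) = p.W := by
    have := hp.hE
    simp only [M, m, W]
    omega
  have h2 : (2 * p.P - 1) * p.W + p.W = 2 * p.P * p.W := by
    have hP := p.P_ge hp
    obtain ⟨q, hq⟩ : ∃ q, 2 * p.P = q + 1 := ⟨2 * p.P - 1, by omega⟩
    rw [hq, Nat.add_sub_cancel]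
    ring
  rw [hslot, h2]
  ring

theorem ctlNeed_slot2 : ctlNeed p.slot2 = p.W - p.V := by
  unfold slot2
  simp [addW_ctlNeed.app, ctlNeed_replicate]

theorem ctlOutLen_slot2 : ctlOutLen p.slot2 = p.W - (p.M - 1) - p.V := by
  unfold slot2
  simp [addW_ctlOutLen.app, ctlOutLen_replicate]

theorem ctlNeed_ctl2 (hp : p.Ok) : ctlNeed p.ctl2 = p.R * p.SA * p.W := by
  unfold ctl2
  rw [addW_ctlNeed.gridList 0 Ctl.Z ctlNeed_Z _ _ _ _ _ _ _ _ _ _ (p.M_pos hp)]
  simp only [addW_ctlNeed.app, addW_ctlNeed.nil, ctlNeed_replicate, ctlNeed_slot2]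
  simp
  have hP := p.P_ge hp
  obtain ⟨q, hq⟩ : ∃ q, p.P = q + 1 := ⟨p.P - 1, by omega⟩
  have hq2 : 2 * (q + 1) - 1 = 2 * q + 1 := by omega
  have hV : p.V + (p.W - p.V) = p.W := by
    simp only [V, W]
    omega
  have hle : (2 * p.P - 1) * 2 * p.P ≤ p.SA := by
    unfold SA
    rw [hq, hq2]
    nlinarith
  have hrow : (p.P - 1) * p.W + p.P * p.W + p.W = 2 * p.P * p.W := by
    rw [hq, Nat.add_sub_cancel]
    ring
  have harr : (p.P - 1) * 2 * p.P * p.W + p.P * (2 * p.P * p.W)
      = (2 * p.P - 1) * 2 * p.P * p.W := by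
    rw [hq, hq2, Nat.add_sub_cancel]
    ring
  rw [hV, hrow, harr, sub_mul_add _ _ _ hle]
  ring

theorem len_ctl2 (hp : p.Ok) (xs : List Bool) :
    (applyCtl p.ctl2 xs).length = p.R * p.SA * p.W := by
  rw [applyCtl_length]
  unfold ctl2
  rw [addW_ctlOutLen.gridList 1 Ctl.Z ctlOutLen_Z _ _ _ _ _ _ _ _ _ _ (p.M_pos hp)]
  simp only [addW_ctlOutLen.app, addW_ctlOutLen.nil, ctlOutLen_replicate, ctlOutLen_slot2]
  simp
  have hslot : p.M - 1 + p.V + (p.W - (p.M - 1) - p.V) = p.W := by
    have := hp.hE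
    simp only [M, m, V, W]
    omega
  have hle : 2 * p.P * p.P ≤ p.SA := by
    unfold SA
    exact Nat.mul_le_mul_right _ (Nat.mul_le_mul_right _ (by norm_num))
  have harr : p.P * (p.P * p.W + p.P * p.W) = 2 * p.P * p.P * p.W := by ring
  rw [hslot, harr, sub_mul_add _ _ _ hle]
  ring

theorem len_ker2 (hp : p.Ok) : p.ker2.length = (2 * p.P - 1) * (2 * p.P) * p.W := by
  unfold ker2
  rw [addW_length.gridList 1 false length_replicate_false _ _ _ _ _ _ _ _ _ _ (p.M_pos hp)]
  simp
  have hslot : p.M - 1 + 1 + (p.W - p.M) = p.W := by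
    have := hp.hE
    simp only [M, m, W]
    omega
  have h2 : (2 * p.P - 1) * p.W + p.W = 2 * p.P * p.W := by
    have hP := p.P_ge hp
    obtain ⟨q, hq⟩ : ∃ q, 2 * p.P = q + 1 := ⟨2 * p.P - 1, by omega⟩
    rw [hq, Nat.add_sub_cancel]
    ring
  rw [hslot, h2]
  ring

theorem ctlNeed_ctl3 (hp : p.Ok) : ctlNeed p.ctl3 = p.R * p.SA * p.W := by
  unfold ctl3
  rw [addW_ctlNeed.gridList 0 Ctl.Z ctlNeed_Z _ _ _ _ _ _ _ _ _ _ (p.M_pos hp)]
  simp only [addW_ctlNeed.app, addW_ctlNeed.nil, ctlNeed_replicate, ctlNeed_slot2]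
  simp
  have hP := p.P_ge hp
  have hr0 := hp.hr
  have hc0 := hp.hc
  have hV : p.V + (p.W - p.V) = p.W := by
    simp only [V, W]
    omega
  have hrow : (p.P - 1) * p.W + p.r0 * p.W + (2 * p.P - (p.P - 1) - p.r0) * p.W
      = 2 * p.P * p.W := by
    rw [← Nat.add_mul, Nat.sub_sub, sub_mul_add _ _ _ (by omega)]
  have hle : (p.P - 1 + p.c0) * 2 * p.P ≤ p.SA := by
    unfold SA
    have h1 : p.P - 1 + p.c0 ≤ 2 * p.P := by omega
    calc (p.P - 1 + p.c0) * 2 * p.P ≤ 2 * p.P * 2 * p.P :=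
          Nat.mul_le_mul_right _ (Nat.mul_le_mul_right _ h1)
      _ ≤ 8 * p.P * p.P := by nlinarith
  have harr : (p.P - 1) * 2 * p.P * p.W + p.c0 * (2 * p.P * p.W)
      = (p.P - 1 + p.c0) * 2 * p.P * p.W := by ring
  rw [hV, hrow, harr, sub_mul_add _ _ _ hle]
  ring

theorem len_ctl3 (hp : p.Ok) (xs : List Bool) :
    (applyCtl p.ctl3 xs).length = p.R * p.c0 * p.r0 * p.W := by
  rw [applyCtl_length]
  unfold ctl3
  rw [addW_ctlOutLen.gridList 1 Ctl.Z ctlOutLen_Z _ _ _ _ _ _ _ _ _ _ (p.M_pos hp)]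
  simp only [addW_ctlOutLen.app, addW_ctlOutLen.nil, ctlOutLen_replicate, ctlOutLen_slot2]
  simp
  have hslot : p.M - 1 + p.V + (p.W - (p.M - 1) - p.V) = p.W := by
    have := hp.hE
    simp only [M, m, V, W]
    omega
  rw [hslot]
  ring

theorem ctlNeed_ctl3b : ctlNeed p.ctl3b = p.R * p.c0 * p.r0 * p.W := by
  unfold ctl3b
  rw [addW_ctlNeed.rep]
  simp only [addW_ctlNeed.app, addW_ctlNeed.nil, ctlNeed_replicate]
  simp
  unfold W
  ring

theorem len_ctl3b (xs : List Bool) :
    (applyCtl p.ctl3b xs).length = p.R * p.c0 * p.r0 * (32 * p.m) := by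
  rw [applyCtl_length]
  unfold ctl3b
  rw [addW_ctlOutLen.rep]
  simp only [addW_ctlOutLen.app, addW_ctlOutLen.nil, ctlOutLen_replicate]
  simp
  ring

/-- The stub had no hypothesis here; the statement needs `0 < p.m` (for `E = 0` the comb has
length 16), which follows from `p.Ok`. -/
theorem len_ker3 (hp : p.Ok) : p.ker3.length = 32 * p.m := by
  unfold ker3
  rw [addW_length.rep]
  have := hp.hE
  simp only [List.length_cons, List.length_replicate, m]
  omega

theorem ctlNeed_ctl4 (hp : p.Ok) : ctlNeed p.ctl4 = p.R * p.c0 * p.r0 * (32 * p.m) := by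
  unfold ctl4
  rw [addW_ctlNeed.rep]
  simp only [addW_ctlNeed.app, addW_ctlNeed.nil, ctlNeed_replicate]
  simp
  left
  have := hp.hE
  simp only [m, g]
  omega

theorem len_ctl4 (hp : p.Ok) (xs : List Bool) :
    (applyCtl p.ctl4 xs).length = p.R * p.c0 * p.r0 * p.E := by
  rw [applyCtl_length]
  unfold ctl4
  rw [addW_ctlOutLen.rep]
  simp only [addW_ctlOutLen.app, addW_ctlOutLen.nil, ctlOutLen_replicate]
  simp

end SwapParams

end Vale.Agent.H91.MT
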