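import Vale.Agent.H91.MT.GenCtl2_Lib
import Vale.Agent.H91.MT.PureLen

/-!
# Arithmetic and list facts for TASK GENCTL2
-/

namespace Vale.Agent.H91.MT

variable {α : Type}

namespace SwapParams

variable (p : SwapParams)

theorem two_le_P (hp : p.Ok) : 2 ≤ p.P := by
  have h := Nat.pow_le_pow_right (show 0 < 2 by norm_num) hp.ha
  simpa [SwapParams.P] using h

theorem M_eq0 : p.M = 0 + 8 * p.E := by
  unfold SwapParams.M SwapParams.m
  omega

theorem W_eq0 : p.W = 0 + 64 * p.E := by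
  unfold SwapParams.W SwapParams.m
  omega

theorem V_eq : p.V = 56 * p.E := by
  unfold SwapParams.V SwapParams.m
  omega

theorem h_eq (hp : p.Ok) (q : ℕ) (hq : p.E = q * p.P) : p.h = 0 + 4 * q := by
  have hP := p.two_le_P hp
  unfold SwapParams.h SwapParams.m
  rw [hq, ← Nat.mul_assoc, Nat.mul_div_cancel _ (by omega : 0 < p.P), Nat.zero_add]

theorem q_le_E (hp : p.Ok) (q : ℕ) (hq : p.E = q * p.P) : q ≤ p.E := by
  have hP := p.two_le_P hp
  rw [hq]
  exact Nat.le_mul_of_pos_right q (by omega)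

theorem one_le_q (hp : p.Ok) (q : ℕ) (hq : p.E = q * p.P) : 1 ≤ q := by
  have hE := hp.hE
  rcases Nat.eq_zero_or_pos q with h | h
  · rw [h, Nat.zero_mul] at hq
    omega
  · exact h

theorem sub8 (hp : p.Ok) : p.SA - (2 * p.P - 1) * 2 * p.P = 4 * p.P * p.P + 2 * p.P := by
  have hP := p.two_le_P hp
  unfold SwapParams.SA
  obtain ⟨k, hk⟩ : ∃ k, p.P = k + 1 := ⟨p.P - 1, by omega⟩
  rw [hk]
  apply Nat.sub_eq_of_eq_add
  have h1 : 2 * (k + 1) - 1 = 2 * k + 1 := by omega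
  rw [h1]
  ring

theorem N8_eq (hp : p.Ok) : (p.SA - (2 * p.P - 1) * 2 * p.P) * p.W
    = (0 + p.P * p.W + p.P * p.W + 2 * (p.P * (p.P * p.W)))
      + p.P * (0 + p.P * p.W + p.P * p.W) := by
  rw [p.sub8 hp]
  ring

theorem sub9 : p.SA - 2 * p.P * p.P = 6 * p.P * p.P := by
  unfold SwapParams.SA
  apply Nat.sub_eq_of_eq_add
  ring

theorem N9_eq : (p.SA - 2 * p.P * p.P) * p.W
    = 4 * (p.P * (p.P * p.W)) + p.P * (0 + p.P * p.W + p.P * p.W) := by
  rw [p.sub9]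
  ring

theorem SAW_eq : p.SA * p.W = 8 * (p.P * (p.P * p.W)) := by
  unfold SwapParams.SA
  ring

theorem BB_ge (hR : 1 ≤ p.R) : 8 * (p.P * (p.P * p.W)) ≤ p.R * p.SA * p.W := by
  have h1 : p.R * p.SA * p.W = p.R * (8 * (p.P * (p.P * p.W))) := by
    rw [Nat.mul_assoc, p.SAW_eq]
  rw [h1]
  exact Nat.le_mul_of_pos_left _ hR

theorem R_le_BB (hp : p.Ok) : p.R ≤ p.R * p.SA * p.W := by
  have hP := p.two_le_P hp
  have hE := hp.hE
  have hW := p.W_eq0
  rw [Nat.mul_assoc, p.SAW_eq]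
  refine Nat.le_mul_of_pos_right _ ?_
  have h1 : 0 < p.P * (p.P * p.W) := Nat.mul_pos (by omega) (Nat.mul_pos (by omega) (by omega))
  omega

theorem N8_le : (p.SA - (2 * p.P - 1) * 2 * p.P) * p.W ≤ 8 * (p.P * (p.P * p.W)) := by
  have h := Nat.mul_le_mul_right p.W (Nat.sub_le p.SA ((2 * p.P - 1) * 2 * p.P))
  rw [p.SAW_eq] at h
  exact h

theorem N9_le : (p.SA - 2 * p.P * p.P) * p.W ≤ 8 * (p.P * (p.P * p.W)) := by
  have h := Nat.mul_le_mul_right p.W (Nat.sub_le p.SA (2 * p.P * p.P))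
  rw [p.SAW_eq] at h
  exact h

theorem N1_le : (p.P - 1) * 2 * p.P * p.W ≤ 2 * (p.P * (p.P * p.W)) := by
  have h1 : (p.P - 1) * 2 * p.P * p.W = 2 * ((p.P - 1) * (p.P * p.W)) := by ring
  rw [h1]
  exact Nat.mul_le_mul_left _ (Nat.mul_le_mul_right _ (Nat.sub_le _ _))

theorem X_le (hp : p.Ok) :
    p.R * (p.P * (p.P + 1) + 1) * (p.M + 1) ≤ p.R * p.SA * p.W := by
  have hP := p.two_le_P hp
  have hE := hp.hE
  have hW := p.W_eq0
  have hM := p.M_eq0
  have a0 : p.P ≤ p.P * p.P := Nat.le_mul_of_pos_left _ (by omega)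
  have a1 : p.P * (p.P + 1) + 1 ≤ 3 * (p.P * p.P) := by
    rw [Nat.mul_add, Nat.mul_one]
    omega
  have a2 : p.M + 1 ≤ 2 * p.W := by omega
  have a3 : (p.P * (p.P + 1) + 1) * (p.M + 1) ≤ (3 * (p.P * p.P)) * (2 * p.W) :=
    Nat.mul_le_mul a1 a2
  have a4 : (3 * (p.P * p.P)) * (2 * p.W) ≤ p.SA * p.W := by
    rw [p.SAW_eq]
    have e : (3 * (p.P * p.P)) * (2 * p.W) = 6 * (p.P * (p.P * p.W)) := by ring
    rw [e]
    omega
  rw [Nat.mul_assoc, Nat.mul_assoc]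
  exact Nat.mul_le_mul_left _ (a3.trans a4)

theorem ctl2_len (hp : p.Ok) :
    (p.ctl2.map (csym (α := α))).length ≤ 2 * (p.R * p.SA * p.W) := by
  rw [List.length_map]
  have h := ctl_length_le p.ctl2 []
  rw [p.ctlNeed_ctl2 hp, p.len_ctl2 hp] at h
  omega

theorem ctl2_lend : (Sum.inl Sym.lend : Sym ⊕ α) ∉ p.ctl2.map csym := by
  intro h
  obtain ⟨c, _, hc⟩ := List.mem_map.mp h
  cases c <;> simp [csym] at hc

theorem ctl2_out (hp : p.Ok) :
    (gridList p.R p.P p.P p.M 0 p.eta p.eta ((2 * p.eta) % p.M) ((2 * p.h) % p.M)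
      ((2 * p.eta) % p.M) Sym.cZ
      (List.replicate ((p.P - 1) * 2 * p.P * p.W) Sym.cS)
      (List.replicate ((p.P - 1) * p.W) Sym.cS)
      (List.replicate p.V Sym.cC) (List.replicate p.M Sym.cS ++ List.replicate 1 Sym.cZ)
      (List.replicate p.W Sym.cS ++ List.replicate (p.P * p.W) Sym.cZ)
      (List.replicate ((p.SA - (2 * p.P - 1) * 2 * p.P) * p.W) Sym.cS ++
        List.replicate ((p.SA - 2 * p.P * p.P) * p.W) Sym.cZ)).map
        (Sum.inl : Sym → Sym ⊕ α) = p.ctl2.map csym := by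
  have hE := hp.hE
  have hW := p.W_eq0
  have hM := p.M_eq0
  have hV := p.V_eq
  have hs1 : p.W - p.V = p.M := by omega
  have hs2 : p.W - (p.M - 1) - p.V = 1 := by omega
  unfold SwapParams.ctl2 SwapParams.slot2
  rw [gridList_map, gridList_map, hs1, hs2]
  simp only [List.map_replicate, List.map_append, csym]

theorem ctl2_clean : ∀ x ∈ List.replicate ((p.P - 1) * 2 * p.P * p.W) Sym.cS ++
    List.replicate ((p.P - 1) * p.W) Sym.cS ++ List.replicate p.V Sym.cC ++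
    (List.replicate p.M Sym.cS ++ List.replicate 1 Sym.cZ) ++
    (List.replicate p.W Sym.cS ++ List.replicate (p.P * p.W) Sym.cZ) ++
    (List.replicate ((p.SA - (2 * p.P - 1) * 2 * p.P) * p.W) Sym.cS ++
      List.replicate ((p.SA - 2 * p.P * p.P) * p.W) Sym.cZ),
    x ≠ Sym.blank ∧ x ≠ Sym.lend := by
  intro x hx
  have hx' : x = Sym.cS ∨ x = Sym.cC ∨ x = Sym.cZ := by
    simp only [List.mem_append, List.mem_replicate] at hx
    rcases hx with ((((h | h) | h) | (h | h)) | (h | h)) | (h | h)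
    all_goals first | exact Or.inl h.2 | exact Or.inr (Or.inl h.2) | exact Or.inr (Or.inr h.2)
  rcases hx' with rfl | rfl | rfl <;> exact ⟨by decide, by decide⟩

end SwapParams

end Vale.Agent.H91.MT
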