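import Vale.Agent.H91.MT.GenGrid
import Vale.Agent.H91.MT.RegC

/-!
# Helper library for TASK GENCTL2 (usable by the other generator tasks)

`TStep T prog g g' b`: a Hoare-style specification of `prog` on the tapes `T i` (contents `g i`
before, `g' i` after, at most `b` steps) with a frame condition (all other tapes unchanged).
Every black-box register program gives a `TStep` that updates one index of `g`.
-/

namespace Vale.Agent.H91.MT

variable {α : Type} {K N : ℕ}

/-- Hoare-style specification on the tapes `T i`, with a frame condition. -/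
def TStep (T : Fin N → Fin K) (prog : Prog (Sym ⊕ α) K) (g g' : Fin N → Tape (Sym ⊕ α))
    (b : ℕ) : Prop :=
  ∀ s : St (Sym ⊕ α) K, (∀ i, s (T i) = g i) →
    ∃ s', RunLe prog s s' b ∧ (∀ i, s' (T i) = g' i) ∧ ∀ j, (∀ i, T i ≠ j) → s' j = s j

theorem TStep.seq {T : Fin N → Fin K} {p q : Prog (Sym ⊕ α) K}
    {g g' g'' : Fin N → Tape (Sym ⊕ α)} {b b' : ℕ}
    (h : TStep T p g g' b) (h' : TStep T q g' g'' b') :
    TStep T (Prog.seq p q) g g'' (b + b') := by
  intro s hs
  obtain ⟨s1, r1, e1, f1⟩ := h s hs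
  obtain ⟨s2, r2, e2, f2⟩ := h' s1 e1
  exact ⟨s2, r1.seq r2, e2, fun j hj => (f2 j hj).trans (f1 j hj)⟩

theorem TStep.cast {T : Fin N → Fin K} {p : Prog (Sym ⊕ α) K}
    {g g' g'' : Fin N → Tape (Sym ⊕ α)} {b b' : ℕ}
    (h : TStep T p g g' b) (hg : g' = g'') (hb : b ≤ b') : TStep T p g g'' b' := by
  subst hg
  intro s hs
  obtain ⟨s1, r1, e1, f1⟩ := h s hs
  exact ⟨s1, r1.mono hb, e1, f1⟩

theorem TStep.of_update {T : Fin N → Fin K} (hT : Function.Injective T)
    {prog : Prog (Sym ⊕ α) K} {g : Fin N → Tape (Sym ⊕ α)} (i0 : Fin N) (X : Tape (Sym ⊕ α))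
    {b : ℕ}
    (h : ∀ s : St (Sym ⊕ α) K, (∀ i, s (T i) = g i) →
      RunLe prog s (Function.update s (T i0) X) b) :
    TStep T prog g (Function.update g i0 X) b := by
  intro s hs
  refine ⟨_, h s hs, fun i => ?_, fun j hj => ?_⟩
  · by_cases hi : i = i0
    · subst hi
      simp
    · rw [Function.update_of_ne (hT.ne hi), Function.update_of_ne hi, hs]
  · rw [Function.update_of_ne (hj i0).symm]

theorem TStep.run {T : Fin N → Fin K} (hT : Function.Injective T)
    {prog : Prog (Sym ⊕ α) K} {g g' : Fin N → Tape (Sym ⊕ α)} {b : ℕ}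
    (h : TStep T prog g g' b) (s : St (Sym ⊕ α) K) (hs : ∀ i, s (T i) = g i) (i0 : Fin N)
    (X : Tape (Sym ⊕ α)) (hg : g' = Function.update g i0 X) :
    RunLe prog s (Function.update s (T i0) X) b := by
  obtain ⟨s', r, e, f⟩ := h s hs
  have hs' : s' = Function.update s (T i0) X := by
    funext j
    by_cases hj : ∃ i, T i = j
    · obtain ⟨i, rfl⟩ := hj
      rw [e, hg]
      by_cases hi : i = i0
      · subst hi
        simp
      · rw [Function.update_of_ne hi, Function.update_of_ne (hT.ne hi), hs]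
    · have hj' : ∀ i, T i ≠ j := fun i hi => hj ⟨i, hi⟩
      rw [f j hj', Function.update_of_ne (hj' i0).symm]
  rw [← hs']
  exact r

section steps

variable {T : Fin N → Fin K} (hT : Function.Injective T)
include hT

theorem ts_regCopy (i j : Fin N) (hij : i ≠ j) {g : Fin N → Tape (Sym ⊕ α)} {v w : ℕ}
    (hi : g i = ruler v 0) (hj : g j = ruler w 0) :
    TStep T (regCopy (T i) (T j)) g (Function.update g i (ruler w 0)) (10 * (v + w) + 30) :=
  TStep.of_update hT i _ fun s hs =>
    regCopy_run (T i) (T j) (hT.ne hij) v w s ((hs i).trans hi) ((hs j).trans hj)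

theorem ts_regAdd (i j : Fin N) (hij : i ≠ j) {g : Fin N → Tape (Sym ⊕ α)} {v w : ℕ}
    (hi : g i = ruler v 0) (hj : g j = ruler w 0) :
    TStep T (regAdd (T i) (T j)) g (Function.update g i (ruler (v + w) 0))
      (10 * (v + w) + 30) :=
  TStep.of_update hT i _ fun s hs =>
    regAdd_run (T i) (T j) (hT.ne hij) v w s ((hs i).trans hi) ((hs j).trans hj)

theorem ts_regConst (i : Fin N) (c : ℕ) {g : Fin N → Tape (Sym ⊕ α)} {v : ℕ}
    (hi : g i = ruler v 0) :
    TStep T (regConst (T i) c) g (Function.update g i (ruler c 0)) (10 * (v + c) + 20) :=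
  TStep.of_update hT i _ fun s hs => regConst_run (T i) c v s ((hs i).trans hi)

theorem ts_regMulAdd (r a b : Fin N) (hra : r ≠ a) (hrb : r ≠ b) (hab : a ≠ b)
    {g : Fin N → Tape (Sym ⊕ α)} {v x y : ℕ} (res : ℕ) (hres : res = v + x * y)
    (hr : g r = ruler v 0) (ha : g a = ruler x 0) (hb : g b = ruler y 0) :
    TStep T (regMulAdd (T r) (T a) (T b)) g (Function.update g r (ruler res 0))
      (10 * (res + x + y) + 40) := by
  subst hres
  exact TStep.of_update hT r _ fun s hs =>
    regMulAdd_run (T r) (T a) (T b) (hT.ne hra) (hT.ne hrb) (hT.ne hab) v x y s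
      ((hs r).trans hr) ((hs a).trans ha) ((hs b).trans hb)

theorem ts_regSub (r a : Fin N) (hra : r ≠ a) {g : Fin N → Tape (Sym ⊕ α)} {v x : ℕ} (res : ℕ)
    (hres : res = v - x) (hr : g r = ruler v 0) (ha : g a = ruler x 0) :
    TStep T (regSub (T r) (T a)) g (Function.update g r (ruler res 0)) (10 * (v + x) + 40) := by
  subst hres
  exact TStep.of_update hT r _ fun s hs =>
    regSub_run (T r) (T a) (hT.ne hra) v x s ((hs r).trans hr) ((hs a).trans ha)

theorem ts_regAddMod (r a m : Fin N) (hra : r ≠ a) (hrm : r ≠ m) (ham : a ≠ m)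
    {g : Fin N → Tape (Sym ⊕ α)} {v x M : ℕ} (res : ℕ) (hres : res = (v + x) % M)
    (hv : v < M) (hx : x ≤ M)
    (hr : g r = ruler v 0) (ha : g a = ruler x 0) (hm : g m = ruler M 0) :
    TStep T (regAddMod (T r) (T a) (T m)) g (Function.update g r (ruler res 0))
      (20 * M + 60) := by
  subst hres
  exact TStep.of_update hT r _ fun s hs =>
    regAddMod_run (T r) (T a) (T m) (hT.ne hra) (hT.ne hrm) (hT.ne ham) v x M hv hx s
      ((hs r).trans hr) ((hs a).trans ha) ((hs m).trans hm)

theorem ts_rewind (a : Fin N) {g : Fin N → Tape (Sym ⊕ α)} {l : List (Sym ⊕ α)} {p : ℕ}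
    (ha : g a = WT l p) (hl : Sum.inl Sym.lend ∉ l) :
    TStep T (rewind (T a)) g (Function.update g a (WT l 0)) (2 * p + 4) :=
  TStep.of_update hT a _ fun s hs => (rewind_run (T a) l hl p s ((hs a).trans ha)).le

/-- A template consisting of one run. -/
theorem ts_tpl1 (a r : Fin N) (har : a ≠ r) (x : Sym) (hx : x ≠ Sym.lend)
    {g : Fin N → Tape (Sym ⊕ α)} {n : ℕ} (ha : g a = WT [] 0) (hr : g r = ruler n 0) :
    TStep T (Prog.seq (emitRep (T a) (T r) x) (rewind (T a))) g
      (Function.update g a (WT ((List.replicate n x).map Sum.inl) 0)) (7 * n + 9) := by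
  refine TStep.of_update hT a _ fun s hs => ?_
  have h1 := emitRep_run (T a) (T r) (hT.ne har) x ([] : List (Sym ⊕ α)) n s
    ((hs a).trans ha) ((hs r).trans hr)
  have hl : (Sum.inl Sym.lend : Sym ⊕ α) ∉
      (([] : List (Sym ⊕ α)) ++ List.replicate n (Sum.inl x)) := by
    intro h
    rw [List.nil_append] at h
    have h2 := List.eq_of_mem_replicate h
    exact hx (Sum.inl.inj h2).symm
  have h2 := rewind_run (T a) (([] : List (Sym ⊕ α)) ++ List.replicate n (Sum.inl x)) hl
    (([] : List (Sym ⊕ α)).length + n)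
    (Function.update s (T a) (WT (([] : List (Sym ⊕ α)) ++ List.replicate n (Sum.inl x))
      (([] : List (Sym ⊕ α)).length + n)))
    (Function.update_self _ _ _)
  rw [Function.update_idem] at h2
  have h3 := h1.seq h2.le
  refine h3.cast rfl ?_ ?_
  · simp [List.map_replicate]
  · simp only [List.length_nil]
    omega

/-- A template consisting of two runs. -/
theorem ts_tpl2 (a r1 r2 : Fin N) (har1 : a ≠ r1) (har2 : a ≠ r2) (y1 y2 : Sym)
    (hx1 : y1 ≠ Sym.lend) (hx2 : y2 ≠ Sym.lend)
    {g : Fin N → Tape (Sym ⊕ α)} {n1 n2 : ℕ} (ha : g a = WT [] 0) (hr1 : g r1 = ruler n1 0)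
    (hr2 : g r2 = ruler n2 0) :
    TStep T (Prog.seq (emitRep (T a) (T r1) y1)
        (Prog.seq (emitRep (T a) (T r2) y2) (rewind (T a)))) g
      (Function.update g a
        (WT ((List.replicate n1 y1 ++ List.replicate n2 y2).map Sum.inl) 0))
      (7 * (n1 + n2) + 14) := by
  refine TStep.of_update hT a _ fun s hs => ?_
  have h1 := emitRep_run (T a) (T r1) (hT.ne har1) y1 ([] : List (Sym ⊕ α)) n1 s
    ((hs a).trans ha) ((hs r1).trans hr1)
  have e1 : ([] : List (Sym ⊕ α)).length + n1
      = (([] : List (Sym ⊕ α)) ++ List.replicate n1 (Sum.inl y1 : Sym ⊕ α)).length := by simp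
  have h2 := emitRep_run (T a) (T r2) (hT.ne har2) y2
    (([] : List (Sym ⊕ α)) ++ List.replicate n1 (Sum.inl y1)) n2
    (Function.update s (T a) (WT (([] : List (Sym ⊕ α)) ++ List.replicate n1 (Sum.inl y1))
      (([] : List (Sym ⊕ α)).length + n1)))
    (by rw [Function.update_self, e1])
    (by rw [Function.update_of_ne (hT.ne har2).symm]; exact (hs r2).trans hr2)
  rw [Function.update_idem] at h2
  have hl : (Sum.inl Sym.lend : Sym ⊕ α) ∉
      (([] : List (Sym ⊕ α)) ++ List.replicate n1 (Sum.inl y1) ++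
        List.replicate n2 (Sum.inl y2)) := by
    intro h
    rw [List.nil_append, List.mem_append] at h
    rcases h with h | h
    · exact hx1 (Sum.inl.inj (List.eq_of_mem_replicate h)).symm
    · exact hx2 (Sum.inl.inj (List.eq_of_mem_replicate h)).symm
  have h3 := rewind_run (T a) _ hl
    ((([] : List (Sym ⊕ α)) ++ List.replicate n1 (Sum.inl y1 : Sym ⊕ α)).length + n2)
    (Function.update s (T a) (WT (([] : List (Sym ⊕ α)) ++ List.replicate n1 (Sum.inl y1) ++
      List.replicate n2 (Sum.inl y2))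
      ((([] : List (Sym ⊕ α)) ++ List.replicate n1 (Sum.inl y1 : Sym ⊕ α)).length + n2)))
    (Function.update_self _ _ _)
  rw [Function.update_idem] at h3
  have h4 := h1.seq (h2.seq h3.le)
  refine h4.cast rfl ?_ ?_
  · simp [List.map_replicate]
  · simp only [List.nil_append, List.length_replicate]
    omega

theorem ts_clear1 (a : Fin N) (x : Sym) (hx1 : x ≠ Sym.blank) (hx2 : x ≠ Sym.lend)
    {g : Fin N → Tape (Sym ⊕ α)} {n : ℕ}
    (ha : g a = WT ((List.replicate n x).map Sum.inl) 0) :
    TStep T (clearTape (T a)) g (Function.update g a (WT [] 0)) (4 * n + 8) := by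
  refine TStep.of_update hT a _ fun s hs => ?_
  have h1 := clearTape_run (T a) ((List.replicate n x).map Sum.inl)
    (by
      intro h
      rw [List.map_replicate] at h
      exact hx1 (Sum.inl.inj (List.eq_of_mem_replicate h)).symm)
    (by
      intro h
      rw [List.map_replicate] at h
      exact hx2 (Sum.inl.inj (List.eq_of_mem_replicate h)).symm)
    0 (Nat.zero_le _) s ((hs a).trans ha)
  refine h1.cast rfl rfl ?_
  simp

theorem ts_clear2 (a : Fin N) (y1 y2 : Sym) (hx1 : y1 ≠ Sym.blank) (hx1' : y1 ≠ Sym.lend)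
    (hx2 : y2 ≠ Sym.blank) (hx2' : y2 ≠ Sym.lend)
    {g : Fin N → Tape (Sym ⊕ α)} {n1 n2 : ℕ}
    (ha : g a = WT ((List.replicate n1 y1 ++ List.replicate n2 y2).map Sum.inl) 0) :
    TStep T (clearTape (T a)) g (Function.update g a (WT [] 0)) (4 * (n1 + n2) + 8) := by
  refine TStep.of_update hT a _ fun s hs => ?_
  have h1 := clearTape_run (T a) ((List.replicate n1 y1 ++ List.replicate n2 y2).map Sum.inl)
    (by
      intro h
      rw [List.map_append, List.map_replicate, List.map_replicate, List.mem_append] at h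
      rcases h with h | h
      · exact hx1 (Sum.inl.inj (List.eq_of_mem_replicate h)).symm
      · exact hx2 (Sum.inl.inj (List.eq_of_mem_replicate h)).symm)
    (by
      intro h
      rw [List.map_append, List.map_replicate, List.map_replicate, List.mem_append] at h
      rcases h with h | h
      · exact hx1' (Sum.inl.inj (List.eq_of_mem_replicate h)).symm
      · exact hx2' (Sum.inl.inj (List.eq_of_mem_replicate h)).symm)
    0 (Nat.zero_le _) s ((hs a).trans ha)
  refine h1.cast rfl rfl ?_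
  simp

end steps

/-- The first 24 tapes of a 40-tape layout (the tapes of `genGrid`). -/
def sub24 (T : Fin 40 → Fin K) : Fin 24 → Fin K := fun i => T (Fin.castLE (by norm_num) i)

theorem sub24_injective {T : Fin 40 → Fin K} (hT : Function.Injective T) :
    Function.Injective (sub24 T) :=
  hT.comp (Fin.castLE_injective _)

theorem ts_genGrid40 {T : Fin 40 → Fin K} (hT : Function.Injective T) (z : Sym)
    (hz : z ≠ Sym.blank) (hz' : z ≠ Sym.lend)
    (reps rows cols M i0 i1 i2 c0 c1 c2 : ℕ) (hM : 1 ≤ M)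
    (h0 : i0 < M) (h1 : i1 < M) (h2 : i2 < M) (h3 : c0 < M) (h4 : c1 < M) (h5 : c2 < M)
    (arrPre rowPre body tail rowPost arrPost : List Sym)
    (hclean : ∀ x ∈ arrPre ++ rowPre ++ body ++ tail ++ rowPost ++ arrPost,
      x ≠ Sym.blank ∧ x ≠ Sym.lend)
    (out : List (Sym ⊕ α))
    (hout : (gridList reps rows cols M i0 i1 i2 c0 c1 c2 z
      arrPre rowPre body tail rowPost arrPost).map Sum.inl = out)
    {g : Fin 40 → Tape (Sym ⊕ α)}
    (g_out : g 0 = WT [] 0)
    (g_reps : g 1 = ruler reps 0) (g_rows : g 2 = ruler rows 0)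
    (g_cols : g 3 = ruler cols 0) (g_M : g 4 = ruler M 0)
    (g_i0 : g 5 = ruler i0 0) (g_i1 : g 6 = ruler i1 0) (g_i2 : g 7 = ruler i2 0)
    (g_c0 : g 8 = ruler c0 0) (g_c1 : g 9 = ruler c1 0) (g_c2 : g 10 = ruler c2 0)
    (g_arrPre : g 11 = WT (arrPre.map Sum.inl) 0)
    (g_rowPre : g 12 = WT (rowPre.map Sum.inl) 0)
    (g_body : g 13 = WT (body.map Sum.inl) 0)
    (g_tail : g 14 = WT (tail.map Sum.inl) 0)
    (g_rowPost : g 15 = WT (rowPost.map Sum.inl) 0)
    (g_arrPost : g 16 = WT (arrPost.map Sum.inl) 0)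
    (g17 : g 17 = ruler 0 0) (g18 : g 18 = ruler 0 0) (g19 : g 19 = ruler 0 0)
    (g20 : g 20 = ruler 0 0) (g21 : g 21 = ruler 0 0) (g22 : g 22 = ruler 0 0)
    (g23 : g 23 = ruler 0 0) :
    TStep T (genGrid (sub24 T) z) g (Function.update g 0 (WT out out.length))
      (200 * (out.length + reps * (rows * (cols + 1) + 1) * (M + 1) + 1)) := by
  refine TStep.of_update hT 0 _ fun s hs => ?_
  have hscr : ∀ i : Fin 24, 17 ≤ i.val → s (sub24 T i) = ruler 0 0 := by
    intro i hi
    have hi2 := i.isLt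
    have hc : i = 17 ∨ i = 18 ∨ i = 19 ∨ i = 20 ∨ i = 21 ∨ i = 22 ∨ i = 23 := by
      simp only [Fin.ext_iff]
      omega
    rcases hc with rfl | rfl | rfl | rfl | rfl | rfl | rfl
    · exact (hs 17).trans g17
    · exact (hs 18).trans g18
    · exact (hs 19).trans g19
    · exact (hs 20).trans g20
    · exact (hs 21).trans g21
    · exact (hs 22).trans g22
    · exact (hs 23).trans g23
  have h := genGrid_run (sub24 T) (sub24_injective hT) z hz hz' reps rows cols M i0 i1 i2 c0 c1 c2
    hM h0 h1 h2 h3 h4 h5 arrPre rowPre body tail rowPost arrPost hclean ([] : List (Sym ⊕ α)) s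
    ((hs 0).trans g_out) ((hs 1).trans g_reps) ((hs 2).trans g_rows) ((hs 3).trans g_cols)
    ((hs 4).trans g_M) ((hs 5).trans g_i0) ((hs 6).trans g_i1) ((hs 7).trans g_i2)
    ((hs 8).trans g_c0) ((hs 9).trans g_c1) ((hs 10).trans g_c2) ((hs 11).trans g_arrPre)
    ((hs 12).trans g_rowPre) ((hs 13).trans g_body) ((hs 14).trans g_tail)
    ((hs 15).trans g_rowPost) ((hs 16).trans g_arrPost) hscr
  have hlen : (gridList reps rows cols M i0 i1 i2 c0 c1 c2 z
      arrPre rowPre body tail rowPost arrPost).length = out.length := by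
    rw [← hout, List.length_map]
  rw [hlen, hout] at h
  refine h.cast rfl ?_ le_rfl
  simp [sub24]

/-- The initial contents of the 40 generator tapes. -/
def g0 (p : SwapParams) (q : ℕ) (spare : Tape (Sym ⊕ α)) : Fin 40 → Tape (Sym ⊕ α) := fun i =>
  if i.val = 24 then ruler p.R 0 else if i.val = 25 then ruler p.r0 0
  else if i.val = 26 then ruler p.c0 0 else if i.val = 27 then ruler p.a 0
  else if i.val = 28 then ruler p.P 0 else if i.val = 29 then ruler p.E 0
  else if i.val = 30 then ruler q 0 else if i.val = 31 then spare else ruler 0 0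

theorem base_g0 {T : Fin 40 → Fin K} (p : SwapParams) (q : ℕ) (s : St (Sym ⊕ α) K)
    (hbase : BaseRegs T p q s)
    (hempty : ∀ i : Fin 40, (i.val < 24 ∨ 32 ≤ i.val) → s (T i) = WT [] 0) :
    ∀ i, s (T i) = g0 p q (s (T 31)) i := by
  intro i
  obtain ⟨b1, b2, b3, b4, b5, b6, b7⟩ := hbase
  by_cases h : i.val < 24 ∨ 32 ≤ i.val
  · rw [hempty i h]
    unfold g0
    rw [if_neg (by omega), if_neg (by omega), if_neg (by omega), if_neg (by omega),
      if_neg (by omega), if_neg (by omega), if_neg (by omega), if_neg (by omega)]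
    rfl
  · have hi2 := i.isLt
    have hc : i = 24 ∨ i = 25 ∨ i = 26 ∨ i = 27 ∨ i = 28 ∨ i = 29 ∨ i = 30 ∨ i = 31 := by
      simp only [Fin.ext_iff]
      omega
    rcases hc with rfl | rfl | rfl | rfl | rfl | rfl | rfl | rfl
    · exact b1
    · exact b2
    · exact b3
    · exact b4
    · exact b5
    · exact b6
    · exact b7
    · rfl

end Vale.Agent.H91.MT
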