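import Vale.Agent.H91.MT.GenCtl3_Frame

/-!
# TASK GENCTL3: generating the control list `ctl3` on a tape

Tapes (an injective map `T : Fin 40 → Fin K`):
`T 0 .. T 23`: the tapes of `genGrid` (see GenGrid.lean: `T 0` output stream, `T 1 .. T 16`
parameter registers and templates, `T 17 .. T 23` scratch); all empty (`WT [] 0`) before; after
the run all are empty again except `T 0`, which holds the generated list, rewound;
`T 24 .. T 30`: base registers `R, r0, c0, a, P, E, q` with `E = q * P` (read only);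
`T 31`: spare base register (do not touch);
`T 32 .. T 39`: scratch registers, empty before and after.

The program is an instance of the generic generator `genProg` of `GenCtl3_Frame.lean`: a
straight-line list of register instructions computing the grid parameters and the templates.
-/

namespace Vale.Agent.H91.MT

variable {α : Type} {K : ℕ}

namespace G3

/-- The instruction list of `genCtl3`. -/
def ctl3Instrs : List Instr :=
  [ Instr.copy 1 24, Instr.copy 2 26, Instr.copy 3 25,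
    Instr.const 32 8, Instr.mulAdd 4 32 29,
    Instr.copy 5 4, Instr.sub 5 27, Instr.sub 5 27,
    Instr.const 33 4, Instr.mulAdd 34 33 30,
    Instr.copy 6 4, Instr.sub 6 34, Instr.copy 7 6,
    Instr.copy 8 6, Instr.sub 8 34, Instr.copy 10 8,
    Instr.const 35 64, Instr.mulAdd 36 35 29,
    Instr.copy 37 28, Instr.const 38 1, Instr.sub 37 38,
    Instr.copy 39 28, Instr.add 39 28,
    Instr.mulAdd 17 37 39, Instr.mulAdd 18 17 36, Instr.emit 11 18 Sym.cS,
    Instr.mulAdd 19 37 36, Instr.emit 12 19 Sym.cS,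
    Instr.const 20 56, Instr.mulAdd 21 20 29, Instr.emit 13 21 Sym.cC,
    Instr.emit 14 4 Sym.cS, Instr.emit 14 38 Sym.cZ,
    Instr.copy 22 39, Instr.sub 22 37, Instr.sub 22 25,
    Instr.mulAdd 23 22 36, Instr.emit 15 23 Sym.cS,
    Instr.const 18 0, Instr.mulAdd 18 32 28,
    Instr.const 19 0, Instr.mulAdd 19 18 28,
    Instr.copy 21 37, Instr.add 21 26,
    Instr.const 23 0, Instr.mulAdd 23 21 39,
    Instr.sub 19 23,
    Instr.const 22 0, Instr.mulAdd 22 19 36, Instr.emit 16 22 Sym.cS,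
    Instr.const 17 0, Instr.const 18 0, Instr.const 19 0, Instr.const 20 0,
    Instr.const 21 0, Instr.const 22 0, Instr.const 23 0 ]

theorem ctl3Instrs_wf : ∀ ins ∈ ctl3Instrs, ins.Wf := by decide

set_option maxRecDepth 8000 in
/-- The values computed by the instruction list. -/
theorem ctl3_eval (R r0 c0 a P E q : ℕ) :
    (execList ctl3Instrs (initRS R r0 c0 a P E q)).reg 0 = 0 ∧
    (execList ctl3Instrs (initRS R r0 c0 a P E q)).reg 1 = R ∧
    (execList ctl3Instrs (initRS R r0 c0 a P E q)).reg 2 = c0 ∧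
    (execList ctl3Instrs (initRS R r0 c0 a P E q)).reg 3 = r0 ∧
    (execList ctl3Instrs (initRS R r0 c0 a P E q)).reg 4 = 8 * E ∧
    (execList ctl3Instrs (initRS R r0 c0 a P E q)).reg 5 = 8 * E - a - a ∧
    (execList ctl3Instrs (initRS R r0 c0 a P E q)).reg 6 = 8 * E - 4 * q ∧
    (execList ctl3Instrs (initRS R r0 c0 a P E q)).reg 7 = 8 * E - 4 * q ∧
    (execList ctl3Instrs (initRS R r0 c0 a P E q)).reg 8 = 8 * E - 4 * q - 4 * q ∧
    (execList ctl3Instrs (initRS R r0 c0 a P E q)).reg 9 = 0 ∧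
    (execList ctl3Instrs (initRS R r0 c0 a P E q)).reg 10 = 8 * E - 4 * q - 4 * q ∧
    (execList ctl3Instrs (initRS R r0 c0 a P E q)).tpl 11
      = List.replicate ((P - 1) * (P + P) * (64 * E)) Sym.cS ∧
    (execList ctl3Instrs (initRS R r0 c0 a P E q)).tpl 12
      = List.replicate ((P - 1) * (64 * E)) Sym.cS ∧
    (execList ctl3Instrs (initRS R r0 c0 a P E q)).tpl 13 = List.replicate (56 * E) Sym.cC ∧
    (execList ctl3Instrs (initRS R r0 c0 a P E q)).tpl 14
      = List.replicate (8 * E) Sym.cS ++ List.replicate 1 Sym.cZ ∧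
    (execList ctl3Instrs (initRS R r0 c0 a P E q)).tpl 15
      = List.replicate ((P + P - (P - 1) - r0) * (64 * E)) Sym.cS ∧
    (execList ctl3Instrs (initRS R r0 c0 a P E q)).tpl 16
      = List.replicate ((8 * P * P - (P - 1 + c0) * (P + P)) * (64 * E)) Sym.cS ∧
    (execList ctl3Instrs (initRS R r0 c0 a P E q)).reg 17 = 0 ∧
    (execList ctl3Instrs (initRS R r0 c0 a P E q)).reg 18 = 0 ∧
    (execList ctl3Instrs (initRS R r0 c0 a P E q)).reg 19 = 0 ∧
    (execList ctl3Instrs (initRS R r0 c0 a P E q)).reg 20 = 0 ∧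
    (execList ctl3Instrs (initRS R r0 c0 a P E q)).reg 21 = 0 ∧
    (execList ctl3Instrs (initRS R r0 c0 a P E q)).reg 22 = 0 ∧
    (execList ctl3Instrs (initRS R r0 c0 a P E q)).reg 23 = 0 := by
  simp [ctl3Instrs, execList, Instr.exec, initRS]

set_option maxRecDepth 8000 in
/-- All values produced by the instruction list are below the output size. -/
theorem ctl3_bnd (R r0 c0 a P E q B : ℕ) (hP : 2 ≤ P) (hE : 16 ≤ E) (hR : 1 ≤ R)
    (hq : E = q * P) (hc : c0 ≤ P) (hB : R * (8 * P * P) * (64 * E) ≤ B) :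
    Bnd B ctl3Instrs (initRS R r0 c0 a P E q) := by
  have hK : 8 * P * P ≤ R * (8 * P * P) := Nat.le_mul_of_pos_left _ hR
  have hPP : 2 * P ≤ P * P := Nat.mul_le_mul_right P hP
  have hKpos : 1 ≤ R * (8 * P * P) := by nlinarith
  have hqE : q ≤ E := by
    rw [hq]
    exact Nat.le_mul_of_pos_right q (by omega)
  have k1 : ∀ v, v ≤ 8 * P * P → v * (64 * E) ≤ B :=
    fun v hv => (Nat.mul_le_mul_right _ (hv.trans hK)).trans hB
  have k2 : ∀ v, v ≤ 8 * P * P → v ≤ B :=
    fun v hv => ((hv.trans hK).trans (Nat.le_mul_of_pos_right _ (by omega))).trans hB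
  have k3 : ∀ v, v ≤ 64 * E → v ≤ B :=
    fun v hv => (hv.trans (Nat.le_mul_of_pos_left _ hKpos)).trans hB
  have hu : P - 1 + c0 ≤ 2 * P := by omega
  simp [ctl3Instrs, Bnd, Instr.need, Instr.exec, initRS]
  refine ⟨k3 _ (by omega), k3 _ (by omega), k3 _ (by omega), k3 _ (by omega), k3 _ (by omega),
    k3 _ (by omega), k3 _ (by omega), k2 _ ?_, k2 _ ?_, k1 _ ?_, k1 _ ?_, k3 _ (by omega),
    k3 _ (by omega), k3 _ (by omega), ?_, k1 _ ?_, k2 _ ?_, k2 _ le_rfl, k2 _ ?_, k2 _ ?_,
    k1 _ (Nat.sub_le _ _)⟩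
  · nlinarith
  · nlinarith [Nat.mul_le_mul_right (P + P) (Nat.sub_le P 1)]
  · nlinarith [Nat.mul_le_mul_right (P + P) (Nat.sub_le P 1)]
  · nlinarith [Nat.sub_le P 1]
  · exact lt_of_lt_of_le (by omega : 8 * E < 64 * E) (k3 _ le_rfl)
  · have : P + P - (P - 1) - r0 ≤ P + P := by omega
    nlinarith
  · nlinarith
  · nlinarith
  · nlinarith [Nat.mul_le_mul_right (P + P) hu]

/-- Length of the generated list: at most twice the output size. -/
theorem ctl3_len_le (R r0 c0 P E : ℕ) (hr : r0 ≤ P) (hc : c0 ≤ P) (hE : 16 ≤ E) :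
    R * ((P - 1) * 2 * P * (64 * E) + c0 * ((P - 1) * (64 * E)
        + r0 * (8 * E - 1 + 56 * E + (64 * E - 56 * E + (64 * E - (8 * E - 1) - 56 * E)))
        + (2 * P - (P - 1) - r0) * (64 * E))
      + (8 * P * P - (P - 1 + c0) * 2 * P) * (64 * E))
      ≤ 2 * (R * (8 * P * P) * (64 * E)) := by
  have t : 8 * E - 1 + 56 * E + (64 * E - 56 * E + (64 * E - (8 * E - 1) - 56 * E)) = 72 * E := by
    omega
  rw [t]
  have u1 : P - 1 ≤ P := Nat.sub_le _ _
  have u2 : 2 * P - (P - 1) - r0 ≤ 2 * P := by omega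
  have u3 : 8 * P * P - (P - 1 + c0) * 2 * P ≤ 8 * P * P := Nat.sub_le _ _
  calc R * ((P - 1) * 2 * P * (64 * E) + c0 * ((P - 1) * (64 * E) + r0 * (72 * E)
          + (2 * P - (P - 1) - r0) * (64 * E))
        + (8 * P * P - (P - 1 + c0) * 2 * P) * (64 * E))
      ≤ R * (P * 2 * P * (64 * E) + P * (P * (64 * E) + P * (72 * E) + (2 * P) * (64 * E))
        + (8 * P * P) * (64 * E)) := by gcongr
    _ = 904 * (R * (P * P * E)) := by ring
    _ ≤ 1024 * (R * (P * P * E)) := Nat.mul_le_mul_right _ (by norm_num)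
    _ = 2 * (R * (8 * P * P) * (64 * E)) := by ring

end G3

open G3

/-- Generator of `SwapParams.ctl3`. -/
def genCtl3 (T : Fin 40 → Fin K) : Prog (Sym ⊕ α) K := genProg T Sym.cZ ctl3Instrs

theorem genCtl3_run (T : Fin 40 → Fin K) (hT : Function.Injective T) (p : SwapParams)
    (hp : p.Ok) (q : ℕ) (hq : p.E = q * p.P) (hr0 : 1 ≤ p.r0) (hc0 : 1 ≤ p.c0) (hR : 1 ≤ p.R)
    (s : St (Sym ⊕ α) K) (hbase : BaseRegs T p q s)
    (hempty : ∀ i : Fin 40, (i.val < 24 ∨ 32 ≤ i.val) → s (T i) = WT [] 0) :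
    RunLe (genCtl3 T) s (Function.update s (T 0) (WT (p.ctl3.map csym) 0))
      (100000 * (p.R * p.SA * p.W + 1)) := by
  obtain ⟨ha, hr, hc, hE, -, -⟩ := hp
  have hP2 : 2 ≤ p.P := by
    have h := Nat.pow_le_pow_right (by norm_num : 0 < 2) ha
    simpa [SwapParams.P] using h
  have haP : p.a < p.P := Nat.lt_two_pow_self
  have hq1 : 1 ≤ q := by
    rcases Nat.eq_zero_or_pos q with h | h
    · rw [h, Nat.zero_mul] at hq
      omega
    · exact h
  have hqE : 2 * q ≤ p.E := by
    rw [hq, Nat.mul_comm 2 q]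
    exact Nat.mul_le_mul_left q hP2
  have hM8 : p.M = 8 * p.E := by
    simp only [SwapParams.M, SwapParams.m]
    omega
  have hW : p.W = 64 * p.E := by
    simp only [SwapParams.W, SwapParams.m]
    omega
  have hV : p.V = 56 * p.E := by
    simp only [SwapParams.V, SwapParams.m]
    omega
  have hSA : p.SA = 8 * p.P * p.P := rfl
  have hh : p.h = 4 * q := by
    have e : 4 * p.E = 4 * q * p.P := by rw [hq]; ring
    simp only [SwapParams.h, SwapParams.m, e]
    exact Nat.mul_div_cancel _ (by omega)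
  have heta : p.eta = 8 * p.E - 4 * q := by
    simp only [SwapParams.eta, hM8, hh]
  have hMpos : 0 < p.M := by omega
  have hBeq : p.R * p.SA * p.W = p.R * (8 * p.P * p.P) * (64 * p.E) := by rw [hSA, hW]
  obtain ⟨e0, e1, e2, e3, e4, e5, e6, e7, e8, e9, e10, e11, e12, e13, e14, e15, e16,
    e17, e18, e19, e20, e21, e22, e23⟩ := ctl3_eval p.R p.r0 p.c0 p.a p.P p.E q
  have hb := ctl3_bnd p.R p.r0 p.c0 p.a p.P p.E q (p.R * p.SA * p.W) hP2 hE hR hq hc hBeq.ge
  obtain ⟨hRle, hB1, hB2, hPle⟩ := size_facts p.R p.P p.E hR hP2 hE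
  rw [← hBeq] at hRle hB1 hB2
  have hinv := inv_execList ctl3Instrs _
    (inv_init hRle ((hr.trans hPle).trans hB1) ((hc.trans hPle).trans hB1)
      ((haP.le.trans hPle).trans hB1) (hPle.trans hB1) hB2 (by omega)) hb
  have key := gen_run T hT Sym.cZ (by decide) (by decide) ctl3Instrs ctl3Instrs_wf p q s hbase
    hempty p.R p.c0 p.r0 p.M ((p.M - 2 * p.a) % p.M) p.eta p.eta ((2 * p.eta) % p.M) 0
    ((2 * p.eta) % p.M) hMpos (Nat.mod_lt _ hMpos) (by rw [heta, hM8]; omega)
    (by rw [heta, hM8]; omega) (Nat.mod_lt _ hMpos) hMpos (Nat.mod_lt _ hMpos)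
    ((List.replicate ((p.P - 1) * 2 * p.P * p.W) Ctl.S).map csymS)
    ((List.replicate ((p.P - 1) * p.W) Ctl.S).map csymS)
    ((List.replicate p.V Ctl.C).map csymS) (p.slot2.map csymS)
    ((List.replicate ((2 * p.P - (p.P - 1) - p.r0) * p.W) Ctl.S).map csymS)
    ((List.replicate ((p.SA - (p.P - 1 + p.c0) * 2 * p.P) * p.W) Ctl.S).map csymS)
    (clean_map_csymS _ _ _ _ _ _) _ rfl e0 e1 e2 e3 (e4.trans hM8.symm)
    (by rw [e5, hM8, Nat.mod_eq_of_lt (by omega)]; omega)
    (e6.trans heta.symm) (e7.trans heta.symm)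
    (by
      rw [e8, heta, hM8]
      have e : 2 * (8 * p.E - 4 * q) = 8 * p.E + (8 * p.E - 8 * q) := by omega
      rw [e, Nat.add_mod_left, Nat.mod_eq_of_lt (by omega)]
      omega)
    e9
    (by
      rw [e10, heta, hM8]
      have e : 2 * (8 * p.E - 4 * q) = 8 * p.E + (8 * p.E - 8 * q) := by omega
      rw [e, Nat.add_mod_left, Nat.mod_eq_of_lt (by omega)]
      omega)
    (by rw [e11, List.map_replicate, hW, Nat.mul_assoc (p.P - 1) 2 p.P, Nat.two_mul]; rfl)
    (by rw [e12, List.map_replicate, hW]; rfl)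
    (by rw [e13, List.map_replicate, hV]; rfl)
    (by
      rw [e14, SwapParams.slot2, List.map_append, List.map_replicate, List.map_replicate, hW, hV,
        hM8]
      have a1 : 64 * p.E - 56 * p.E = 8 * p.E := by omega
      have a2 : 64 * p.E - (8 * p.E - 1) - 56 * p.E = 1 := by omega
      rw [a1, a2]
      rfl)
    (by
      rw [e15, List.map_replicate, hW]
      rw [Nat.two_mul]
      rfl)
    (by
      rw [e16, List.map_replicate, hW, hSA]
      rw [Nat.mul_assoc (p.P - 1 + p.c0) 2 p.P, Nat.two_mul]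
      rfl)
    (scr_of e17 e18 e19 e20 e21 e22 e23) (p.R * p.SA * p.W) hinv.1 _ hinv.2
  refine key.cast rfl ?_ ?_
  · rw [map_csym, SwapParams.ctl3, gridList_map csymS]
    rfl
  · have hlen : (gridList p.R p.c0 p.r0 p.M ((p.M - 2 * p.a) % p.M) p.eta p.eta
        ((2 * p.eta) % p.M) 0 ((2 * p.eta) % p.M) Sym.cZ
        ((List.replicate ((p.P - 1) * 2 * p.P * p.W) Ctl.S).map csymS)
        ((List.replicate ((p.P - 1) * p.W) Ctl.S).map csymS)
        ((List.replicate p.V Ctl.C).map csymS) (p.slot2.map csymS)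
        ((List.replicate ((2 * p.P - (p.P - 1) - p.r0) * p.W) Ctl.S).map csymS)
        ((List.replicate ((p.SA - (p.P - 1 + p.c0) * 2 * p.P) * p.W) Ctl.S).map csymS)).length
        ≤ 2 * (p.R * p.SA * p.W) := by
      rw [gridList_length _ _ _ _ _ _ _ _ _ _ hMpos, hBeq]
      simp only [List.length_map, List.length_replicate, List.length_append, SwapParams.slot2,
        hW, hV, hM8, hSA]
      exact ctl3_len_le p.R p.r0 p.c0 p.P p.E hr hc hE
    have hX : p.R * (p.c0 * (p.r0 + 1) + 1) * (p.M + 1) ≤ p.R * p.SA * p.W := by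
      rw [hBeq, hM8]
      exact loop_le p.R p.c0 p.r0 p.P p.E (by omega) (by omega) hP2 hE
    have hl : ctl3Instrs.length = 57 := rfl
    rw [hl]
    omega

end Vale.Agent.H91.MT
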