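import Vale.Agent.H91.MT.GenGrid
import Vale.Agent.H91.MT.RegC

/-!
# A frame for the generator tasks: straight-line register programs on the forty tapes

The generator programs (`genCtl1`, `genKer1`, ...) all have the same shape: a straight-line
sequence of register instructions and template emissions on the tapes `T 0 .. T 39`, then the
six template tapes are rewound, `genGrid` is called, the parameter and scratch tapes are cleared
and the output tape is rewound.  This file proves the shape once (`gen_run`); an instance only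
has to give its instruction list, evaluate it (pure arithmetic) and bound the cost.
-/

namespace Vale.Agent.H91.MT.G3

variable {α : Type} {K : ℕ}

/-! ## Overlay states -/

/-- Overlay: tape `T i` holds `A i`, all other tapes are those of `s`. -/
noncomputable def ovr (T : Fin 40 → Fin K) (s : St (Sym ⊕ α) K)
    (A : Fin 40 → Tape (Sym ⊕ α)) : St (Sym ⊕ α) K :=
  fun k => if h : ∃ i, T i = k then A (Classical.choose h) else s k

theorem ovr_apply {T : Fin 40 → Fin K} (hT : Function.Injective T) (s : St (Sym ⊕ α) K)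
    (A : Fin 40 → Tape (Sym ⊕ α)) (i : Fin 40) : ovr T s A (T i) = A i := by
  have h : ∃ j, T j = T i := ⟨i, rfl⟩
  simp only [ovr, dif_pos h]
  rw [hT (Classical.choose_spec h)]

theorem ovr_update {T : Fin 40 → Fin K} (hT : Function.Injective T) (s : St (Sym ⊕ α) K)
    (A : Fin 40 → Tape (Sym ⊕ α)) (i : Fin 40) (X : Tape (Sym ⊕ α)) :
    Function.update (ovr T s A) (T i) X = ovr T s (Function.update A i X) := by
  funext k
  by_cases hk : k = T i
  · subst hk
    rw [Function.update_self, ovr_apply hT, Function.update_self]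
  · rw [Function.update_of_ne hk]
    unfold ovr
    by_cases h : ∃ j, T j = k
    · simp only [dif_pos h]
      have hne : Classical.choose h ≠ i := by
        intro e
        apply hk
        rw [← Classical.choose_spec h, e]
      rw [Function.update_of_ne hne]
    · simp only [dif_neg h]

theorem ovr_self (T : Fin 40 → Fin K) (s : St (Sym ⊕ α) K) :
    ovr T s (fun i => s (T i)) = s := by
  funext k
  unfold ovr
  by_cases h : ∃ j, T j = k
  · simp only [dif_pos h]
    rw [Classical.choose_spec h]
  · simp only [dif_neg h]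

/-! ## Abstract states -/

/-- Abstract state of the generator tapes: register values and template contents. -/
structure RS where
  /-- values of the register tapes -/
  reg : Fin 40 → ℕ
  /-- contents of the template tapes -/
  tpl : Fin 40 → List Sym

/-- Template tapes (`T 11 .. T 16`). -/
def IsTpl (i : Fin 40) : Prop := 11 ≤ i.val ∧ i.val ≤ 16

instance : DecidablePred IsTpl := fun i => inferInstanceAs (Decidable (11 ≤ i.val ∧ i.val ≤ 16))

/-- Register tapes: everything except the templates and the spare tape `T 31`. -/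
def IsReg (i : Fin 40) : Prop := i.val ≠ 31 ∧ ¬ IsTpl i

instance : DecidablePred IsReg := fun i => inferInstanceAs (Decidable (i.val ≠ 31 ∧ ¬ IsTpl i))

/-- Registers a program may write to (not the base registers `T 24 .. T 30`). -/
def IsDst (i : Fin 40) : Prop := IsReg i ∧ (i.val < 24 ∨ 32 ≤ i.val)

instance : DecidablePred IsDst :=
  fun i => inferInstanceAs (Decidable (IsReg i ∧ (i.val < 24 ∨ 32 ≤ i.val)))

/-- The tapes described by an abstract state; `pos` gives the head positions of the template
tapes. -/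
def encP (T : Fin 40 → Fin K) (s : St (Sym ⊕ α) K) (σ : RS) (pos : Fin 40 → ℕ) :
    Fin 40 → Tape (Sym ⊕ α) := fun i =>
  if i.val = 31 then s (T i)
  else if IsTpl i then WT ((σ.tpl i).map Sum.inl) (pos i)
  else ruler (σ.reg i) 0

/-- The tapes described by an abstract state, template tapes in append position. -/
def enc (T : Fin 40 → Fin K) (s : St (Sym ⊕ α) K) (σ : RS) : Fin 40 → Tape (Sym ⊕ α) :=
  encP T s σ (fun i => (σ.tpl i).length)

theorem encP_reg (T : Fin 40 → Fin K) (s : St (Sym ⊕ α) K) (σ : RS) (pos : Fin 40 → ℕ)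
    {i : Fin 40} (h : IsReg i) : encP T s σ pos i = ruler (σ.reg i) 0 := by
  simp only [encP, if_neg h.1, if_neg h.2]

theorem encP_tpl (T : Fin 40 → Fin K) (s : St (Sym ⊕ α) K) (σ : RS) (pos : Fin 40 → ℕ)
    {i : Fin 40} (h : IsTpl i) : encP T s σ pos i = WT ((σ.tpl i).map Sum.inl) (pos i) := by
  have h31 : i.val ≠ 31 := by
    have := h.2
    omega
  simp only [encP, if_neg h31, if_pos h]

theorem encP_spare (T : Fin 40 → Fin K) (s : St (Sym ⊕ α) K) (σ : RS) (pos : Fin 40 → ℕ)
    {i : Fin 40} (h : i.val = 31) : encP T s σ pos i = s (T i) := by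
  simp only [encP, if_pos h]

theorem encP_update_reg (T : Fin 40 → Fin K) (s : St (Sym ⊕ α) K) (σ : RS) (pos : Fin 40 → ℕ)
    {r : Fin 40} (h : IsReg r) (v : ℕ) :
    Function.update (encP T s σ pos) r (ruler v 0)
      = encP T s ⟨Function.update σ.reg r v, σ.tpl⟩ pos := by
  funext i
  by_cases hi : i = r
  · subst hi
    rw [Function.update_self, encP_reg T s _ pos h]
    simp
  · rw [Function.update_of_ne hi]
    simp only [encP, Function.update_of_ne hi]

theorem enc_update_tpl (T : Fin 40 → Fin K) (s : St (Sym ⊕ α) K) (σ : RS)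
    {t : Fin 40} (h : IsTpl t) (l : List Sym) :
    Function.update (enc T s σ) t (WT (l.map Sum.inl) l.length)
      = enc T s ⟨σ.reg, Function.update σ.tpl t l⟩ := by
  funext i
  by_cases hi : i = t
  · subst hi
    rw [Function.update_self, enc, encP_tpl T s _ _ h]
    simp
  · rw [Function.update_of_ne hi]
    simp only [enc, encP, Function.update_of_ne hi]

/-! ## Instructions -/

/-- Straight-line instructions on the generator tapes. -/
inductive Instr
  | copy (r a : Fin 40)
  | add (r a : Fin 40)
  | inc (r : Fin 40)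
  | mulAdd (r a b : Fin 40)
  | sub (r a : Fin 40)
  | const (r : Fin 40) (c : ℕ)
  | emit (t r : Fin 40) (x : Sym)

namespace Instr

/-- Well-formedness: operands are registers of the right kind and distinct. -/
def Wf : Instr → Prop
  | copy r a => IsDst r ∧ IsReg a ∧ r ≠ a
  | add r a => IsDst r ∧ IsReg a ∧ r ≠ a
  | inc r => IsDst r
  | mulAdd r a b => IsDst r ∧ IsReg a ∧ IsReg b ∧ r ≠ a ∧ r ≠ b ∧ a ≠ b
  | sub r a => IsDst r ∧ IsReg a ∧ r ≠ a
  | const r _ => IsDst r
  | emit t r _ => IsTpl t ∧ IsReg r

instance : DecidablePred Wf := fun i => by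
  cases i <;> unfold Wf <;> infer_instance

/-- The effect on abstract states. -/
def exec : Instr → RS → RS
  | copy r a, σ => ⟨Function.update σ.reg r (σ.reg a), σ.tpl⟩
  | add r a, σ => ⟨Function.update σ.reg r (σ.reg r + σ.reg a), σ.tpl⟩
  | inc r, σ => ⟨Function.update σ.reg r (σ.reg r + 1), σ.tpl⟩
  | mulAdd r a b, σ => ⟨Function.update σ.reg r (σ.reg r + σ.reg a * σ.reg b), σ.tpl⟩
  | sub r a, σ => ⟨Function.update σ.reg r (σ.reg r - σ.reg a), σ.tpl⟩
  | const r c, σ => ⟨Function.update σ.reg r c, σ.tpl⟩
  | emit t r x, σ => ⟨σ.reg, Function.update σ.tpl t (σ.tpl t ++ List.replicate (σ.reg r) x)⟩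

/-- A (generous) bound for the running time. -/
def cost : Instr → RS → ℕ
  | copy r a, σ => 40 * (σ.reg r + σ.reg a) + 100
  | add r a, σ => 40 * (σ.reg r + σ.reg a) + 100
  | inc r, σ => 40 * σ.reg r + 100
  | mulAdd r a b, σ => 40 * (σ.reg r + σ.reg a * σ.reg b + σ.reg a + σ.reg b) + 100
  | sub r a, σ => 40 * (σ.reg r + σ.reg a) + 100
  | const r c, σ => 40 * (σ.reg r + c) + 100
  | emit _ r _, σ => 40 * σ.reg r + 100

/-- The value an instruction produces (it has to stay below the size bound). -/
def need : Instr → RS → ℕ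
  | copy _ _, _ => 0
  | add r a, σ => σ.reg r + σ.reg a
  | inc r, σ => σ.reg r + 1
  | mulAdd r a b, σ => σ.reg r + σ.reg a * σ.reg b
  | sub _ _, _ => 0
  | const _ c, _ => c
  | emit t r _, σ => (σ.tpl t).length + σ.reg r

/-- The machine program of an instruction. -/
def compile (T : Fin 40 → Fin K) : Instr → Prog (Sym ⊕ α) K
  | copy r a => regCopy (T r) (T a)
  | add r a => regAdd (T r) (T a)
  | inc r => regInc (T r)
  | mulAdd r a b => regMulAdd (T r) (T a) (T b)
  | sub r a => regSub (T r) (T a)
  | const r c => regConst (T r) c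
  | emit t r x => emitRep (T t) (T r) x

theorem run {T : Fin 40 → Fin K} (hT : Function.Injective T) (s : St (Sym ⊕ α) K)
    (ins : Instr) (h : ins.Wf) (σ : RS) :
    RunLe (ins.compile T) (ovr T s (enc T s σ)) (ovr T s (enc T s (ins.exec σ))) (ins.cost σ) := by
  cases ins with
  | copy r a =>
    obtain ⟨hr, ha, hra⟩ := h
    have h1 := regCopy_run (T r) (T a) (hT.ne hra) (σ.reg r) (σ.reg a) (ovr T s (enc T s σ))
      (by rw [ovr_apply hT, enc, encP_reg T s σ _ hr.1])
      (by rw [ovr_apply hT, enc, encP_reg T s σ _ ha])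
    rw [ovr_update hT, enc, encP_update_reg T s σ _ hr.1] at h1
    exact h1.cast rfl rfl (by simp only [cost]; omega)
  | add r a =>
    obtain ⟨hr, ha, hra⟩ := h
    have h1 := regAdd_run (T r) (T a) (hT.ne hra) (σ.reg r) (σ.reg a) (ovr T s (enc T s σ))
      (by rw [ovr_apply hT, enc, encP_reg T s σ _ hr.1])
      (by rw [ovr_apply hT, enc, encP_reg T s σ _ ha])
    rw [ovr_update hT, enc, encP_update_reg T s σ _ hr.1] at h1
    exact h1.cast rfl rfl (by simp only [cost]; omega)
  | inc r =>
    have hr : IsDst r := h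
    have h1 := regInc_run (T r) (σ.reg r) (ovr T s (enc T s σ))
      (by rw [ovr_apply hT, enc, encP_reg T s σ _ hr.1])
    rw [ovr_update hT, enc, encP_update_reg T s σ _ hr.1] at h1
    exact h1.cast rfl rfl (by simp only [cost]; omega)
  | mulAdd r a b =>
    obtain ⟨hr, ha, hb, hra, hrb, hab⟩ := h
    have h1 := regMulAdd_run (T r) (T a) (T b) (hT.ne hra) (hT.ne hrb) (hT.ne hab)
      (σ.reg r) (σ.reg a) (σ.reg b) (ovr T s (enc T s σ))
      (by rw [ovr_apply hT, enc, encP_reg T s σ _ hr.1])
      (by rw [ovr_apply hT, enc, encP_reg T s σ _ ha])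
      (by rw [ovr_apply hT, enc, encP_reg T s σ _ hb])
    rw [ovr_update hT, enc, encP_update_reg T s σ _ hr.1] at h1
    exact h1.cast rfl rfl (by simp only [cost]; omega)
  | sub r a =>
    obtain ⟨hr, ha, hra⟩ := h
    have h1 := regSub_run (T r) (T a) (hT.ne hra) (σ.reg r) (σ.reg a) (ovr T s (enc T s σ))
      (by rw [ovr_apply hT, enc, encP_reg T s σ _ hr.1])
      (by rw [ovr_apply hT, enc, encP_reg T s σ _ ha])
    rw [ovr_update hT, enc, encP_update_reg T s σ _ hr.1] at h1
    exact h1.cast rfl rfl (by simp only [cost]; omega)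
  | const r c =>
    have hr : IsDst r := h
    have h1 := regConst_run (T r) c (σ.reg r) (ovr T s (enc T s σ))
      (by rw [ovr_apply hT, enc, encP_reg T s σ _ hr.1])
    rw [ovr_update hT, enc, encP_update_reg T s σ _ hr.1] at h1
    exact h1.cast rfl rfl (by simp only [cost]; omega)
  | emit t r x =>
    obtain ⟨ht, hr⟩ := h
    have htr : t ≠ r := by
      intro e
      subst e
      exact hr.2 ht
    have h1 := emitRep_run (T t) (T r) (hT.ne htr) x ((σ.tpl t).map Sum.inl) (σ.reg r)
      (ovr T s (enc T s σ))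
      (by rw [ovr_apply hT, enc, encP_tpl T s σ _ ht, List.length_map])
      (by rw [ovr_apply hT, enc, encP_reg T s σ _ hr])
    rw [ovr_update hT] at h1
    have e : (WT ((σ.tpl t).map (Sum.inl : Sym → Sym ⊕ α)
          ++ List.replicate (σ.reg r) (Sum.inl x))
        (((σ.tpl t).map (Sum.inl : Sym → Sym ⊕ α)).length + σ.reg r) : Tape (Sym ⊕ α))
        = WT ((σ.tpl t ++ List.replicate (σ.reg r) x).map Sum.inl)
          (σ.tpl t ++ List.replicate (σ.reg r) x).length := by
      simp
    rw [e, enc_update_tpl T s σ ht] at h1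
    exact h1.cast rfl rfl (by simp only [cost]; omega)

end Instr

/-- Run a list of instructions on abstract states. -/
def execList : List Instr → RS → RS
  | [], σ => σ
  | i :: is, σ => execList is (i.exec σ)

/-- Time bound for a list of instructions. -/
def costList : List Instr → RS → ℕ
  | [], _ => 1
  | i :: is, σ => i.cost σ + costList is (i.exec σ)

/-- The machine program of a list of instructions. -/
def compileList (T : Fin 40 → Fin K) : List Instr → Prog (Sym ⊕ α) K
  | [] => Prog.mv (T 0) Dir.S
  | i :: is => Prog.seq (i.compile T) (compileList T is)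

theorem run_list {T : Fin 40 → Fin K} (hT : Function.Injective T) (s : St (Sym ⊕ α) K)
    (is : List Instr) (hwf : ∀ ins ∈ is, ins.Wf) (σ : RS) :
    RunLe (compileList T is) (ovr T s (enc T s σ)) (ovr T s (enc T s (execList is σ)))
      (costList is σ) := by
  induction is generalizing σ with
  | nil =>
    have h := (Run.mv (T 0) Dir.S (ovr T s (enc T s σ))).le
    have e : (ovr T s (enc T s σ) (T 0)).move Dir.S = ovr T s (enc T s σ) (T 0) := rfl
    rw [e, Function.update_eq_self] at h
    exact h
  | cons i is ih =>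
    have h1 := Instr.run hT s i (hwf i (by simp)) σ
    have h2 := ih (fun ins hins => hwf ins (by simp [hins])) (i.exec σ)
    exact RunLe.seq h1 h2

/-! ## Size bounds -/

/-- All values produced along the run stay below `B`. -/
def Bnd (B : ℕ) : List Instr → RS → Prop
  | [], _ => True
  | i :: is, σ => i.need σ ≤ B ∧ Bnd B is (i.exec σ)

/-- All registers and templates are of size at most `B`. -/
def Inv (B : ℕ) (σ : RS) : Prop := (∀ i, σ.reg i ≤ B) ∧ (∀ i, (σ.tpl i).length ≤ B)

theorem Instr.inv_exec {B : ℕ} (ins : Instr) (σ : RS) (hσ : Inv B σ) (hn : ins.need σ ≤ B) :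
    Inv B (ins.exec σ) ∧ ins.cost σ ≤ 120 * B + 100 := by
  obtain ⟨h1, h2⟩ := hσ
  cases ins with
  | copy r a =>
    refine ⟨⟨fun i => ?_, h2⟩, ?_⟩
    · simp only [Instr.exec, Function.update_apply]
      split_ifs
      · exact h1 a
      · exact h1 i
    · have := h1 r
      have := h1 a
      simp only [Instr.cost]
      omega
  | add r a =>
    simp only [Instr.need] at hn
    refine ⟨⟨fun i => ?_, h2⟩, ?_⟩
    · simp only [Instr.exec, Function.update_apply]
      split_ifs
      · exact hn
      · exact h1 i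
    · simp only [Instr.cost]
      omega
  | inc r =>
    simp only [Instr.need] at hn
    refine ⟨⟨fun i => ?_, h2⟩, ?_⟩
    · simp only [Instr.exec, Function.update_apply]
      split_ifs
      · exact hn
      · exact h1 i
    · simp only [Instr.cost]
      omega
  | mulAdd r a b =>
    simp only [Instr.need] at hn
    refine ⟨⟨fun i => ?_, h2⟩, ?_⟩
    · simp only [Instr.exec, Function.update_apply]
      split_ifs
      · exact hn
      · exact h1 i
    · have := h1 a
      have := h1 b
      simp only [Instr.cost]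
      omega
  | sub r a =>
    refine ⟨⟨fun i => ?_, h2⟩, ?_⟩
    · simp only [Instr.exec, Function.update_apply]
      split_ifs
      · exact (Nat.sub_le _ _).trans (h1 r)
      · exact h1 i
    · have := h1 r
      have := h1 a
      simp only [Instr.cost]
      omega
  | const r c =>
    simp only [Instr.need] at hn
    refine ⟨⟨fun i => ?_, h2⟩, ?_⟩
    · simp only [Instr.exec, Function.update_apply]
      split_ifs
      · exact hn
      · exact h1 i
    · have := h1 r
      simp only [Instr.cost]
      omega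
  | emit t r x =>
    simp only [Instr.need] at hn
    refine ⟨⟨h1, fun i => ?_⟩, ?_⟩
    · simp only [Instr.exec, Function.update_apply]
      split_ifs with hi
      · subst hi
        simpa using hn
      · exact h2 i
    · have := h1 r
      simp only [Instr.cost]
      omega

theorem inv_execList {B : ℕ} (is : List Instr) (σ : RS) (hσ : Inv B σ) (hb : Bnd B is σ) :
    Inv B (execList is σ) ∧ costList is σ ≤ is.length * (120 * B + 100) + 1 := by
  induction is generalizing σ with
  | nil => exact ⟨hσ, by simp [costList]⟩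
  | cons i is ih =>
    obtain ⟨hn, hb'⟩ := hb
    obtain ⟨h1, h2⟩ := i.inv_exec σ hσ hn
    obtain ⟨h3, h4⟩ := ih (i.exec σ) h1 hb'
    refine ⟨h3, ?_⟩
    simp only [costList, List.length_cons]
    have e : (is.length + 1) * (120 * B + 100) = is.length * (120 * B + 100) + (120 * B + 100) := by
      ring
    omega

/-- Instructions do not change the base registers. -/
theorem execList_reg_base (is : List Instr) (hwf : ∀ ins ∈ is, ins.Wf) (σ : RS) (i : Fin 40)
    (h1 : 24 ≤ i.val) (h2 : i.val ≤ 31) : (execList is σ).reg i = σ.reg i := by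
  induction is generalizing σ with
  | nil => rfl
  | cons ins is ih =>
    rw [execList, ih (fun j hj => hwf j (by simp [hj]))]
    have hw := hwf ins (by simp)
    have key : ∀ r : Fin 40, IsDst r → i ≠ r := by
      intro r hr e
      subst e
      have := hr.2
      have := hr.1.1
      omega
    cases ins with
    | copy r a => exact Function.update_of_ne (key r hw.1) _ _
    | add r a => exact Function.update_of_ne (key r hw.1) _ _
    | inc r => exact Function.update_of_ne (key r hw) _ _
    | mulAdd r a b => exact Function.update_of_ne (key r hw.1) _ _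
    | sub r a => exact Function.update_of_ne (key r hw.1) _ _
    | const r c => exact Function.update_of_ne (key r hw) _ _
    | emit t r x => rfl

/-! ## Rewinding and clearing lists of tapes -/

/-- Rewind the tapes of a list. -/
def rewindList (T : Fin 40 → Fin K) : List (Fin 40) → Prog (Sym ⊕ α) K
  | [] => Prog.mv (T 0) Dir.S
  | i :: L => Prog.seq (rewind (T i)) (rewindList T L)

theorem rewindList_run {T : Fin 40 → Fin K} (hT : Function.Injective T) (s : St (Sym ⊕ α) K)
    (B : ℕ) (L : List (Fin 40)) (A : Fin 40 → Tape (Sym ⊕ α))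
    (h : ∀ i ∈ L, ∃ l p, A i = WT l p ∧ Sum.inl Sym.lend ∉ l ∧ p ≤ B) :
    RunLe (rewindList T L) (ovr T s A)
      (ovr T s (fun i => if i ∈ L then ⟨1, (A i).cells⟩ else A i)) (L.length * (2 * B + 4) + 1) := by
  induction L generalizing A with
  | nil =>
    have h1 := (Run.mv (T 0) Dir.S (ovr T s A)).le
    have e : (ovr T s A (T 0)).move Dir.S = ovr T s A (T 0) := rfl
    rw [e, Function.update_eq_self] at h1
    exact h1.cast rfl rfl (by simp)
  | cons i L ih =>
    obtain ⟨l, p, hA, hl, hp⟩ := h i (by simp)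
    have h1 := (rewind_run (T i) l hl p (ovr T s A) (by rw [ovr_apply hT, hA])).le
    rw [ovr_update hT] at h1
    have h2 := ih (Function.update A i (WT l 0)) (by
      intro j hj
      by_cases hji : j = i
      · subst hji
        exact ⟨l, 0, by simp, hl, Nat.zero_le _⟩
      · rw [Function.update_of_ne hji]
        exact h j (by simp [hj]))
    have h3 := RunLe.seq h1 h2
    refine h3.cast rfl ?_ ?_
    · congr 1
      funext j
      by_cases hji : j = i
      · subst hji
        simp only [Function.update_self, List.mem_cons, true_or, if_true, hA]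
        split_ifs <;> rfl
      · simp only [Function.update_of_ne hji, List.mem_cons, hji, false_or]
    · simp only [List.length_cons]
      have e : (L.length + 1) * (2 * B + 4) = L.length * (2 * B + 4) + (2 * B + 4) := by ring
      omega

/-- Clear the tapes of a list. -/
def clearList (T : Fin 40 → Fin K) : List (Fin 40) → Prog (Sym ⊕ α) K
  | [] => Prog.mv (T 0) Dir.S
  | i :: L => Prog.seq (clearTape (T i)) (clearList T L)

theorem clearList_run {T : Fin 40 → Fin K} (hT : Function.Injective T) (s : St (Sym ⊕ α) K)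
    (B : ℕ) (L : List (Fin 40)) (A : Fin 40 → Tape (Sym ⊕ α))
    (h : ∀ i ∈ L, ∃ l p, A i = WT l p ∧ p ≤ l.length ∧ Sum.inl Sym.blank ∉ l ∧
      Sum.inl Sym.lend ∉ l ∧ l.length ≤ B) :
    RunLe (clearList T L) (ovr T s A)
      (ovr T s (fun i => if i ∈ L then WT [] 0 else A i)) (L.length * (4 * B + 8) + 1) := by
  induction L generalizing A with
  | nil =>
    have h1 := (Run.mv (T 0) Dir.S (ovr T s A)).le
    have e : (ovr T s A (T 0)).move Dir.S = ovr T s A (T 0) := rfl
    rw [e, Function.update_eq_self] at h1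
    exact h1.cast rfl rfl (by simp)
  | cons i L ih =>
    obtain ⟨l, p, hA, hp, hb, hl, hlen⟩ := h i (by simp)
    have h1 := clearTape_run (T i) l hb hl p hp (ovr T s A) (by rw [ovr_apply hT, hA])
    rw [ovr_update hT] at h1
    have h2 := ih (Function.update A i (WT [] 0)) (by
      intro j hj
      by_cases hji : j = i
      · subst hji
        exact ⟨[], 0, by simp, le_rfl, by simp, by simp, Nat.zero_le _⟩
      · rw [Function.update_of_ne hji]
        exact h j (by simp [hj]))
    have h3 := RunLe.seq h1 h2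
    refine h3.cast rfl ?_ ?_
    · congr 1
      funext j
      by_cases hji : j = i
      · subst hji
        simp only [Function.update_self, List.mem_cons, true_or, if_true]
        split_ifs <;> rfl
      · simp only [Function.update_of_ne hji, List.mem_cons, hji, false_or]
    · simp only [List.length_cons]
      have e : (L.length + 1) * (4 * B + 8) = L.length * (4 * B + 8) + (4 * B + 8) := by ring
      omega

/-! ## Grid lists: length and members -/

theorem length_flatMap_const {β γ : Type} (l : List β) (f : β → List γ) (c : ℕ)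
    (h : ∀ x ∈ l, (f x).length = c) : (l.flatMap f).length = l.length * c := by
  induction l with
  | nil => simp
  | cons a l ih =>
    rw [List.flatMap_cons, List.length_append, h a (by simp),
      ih (fun x hx => h x (by simp [hx])), List.length_cons]
    ring

theorem gridList_length {β : Type} (reps rows cols M i0 i1 i2 c0 c1 c2 : ℕ) (hM : 1 ≤ M) (z : β)
    (arrPre rowPre body tail rowPost arrPost : List β) :
    (gridList reps rows cols M i0 i1 i2 c0 c1 c2 z arrPre rowPre body tail rowPost arrPost).length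
      = reps * (arrPre.length + rows * (rowPre.length
          + cols * (M - 1 + body.length + tail.length) + rowPost.length) + arrPost.length) := by
  unfold gridList
  rw [length_flatMap_const _ _ (arrPre.length + rows * (rowPre.length
      + cols * (M - 1 + body.length + tail.length) + rowPost.length) + arrPost.length),
    List.length_range]
  intro _ _
  rw [List.length_append, List.length_append,
    length_flatMap_const _ _ (rowPre.length + cols * (M - 1 + body.length + tail.length)
      + rowPost.length), List.length_range]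
  intro u1 _
  rw [List.length_append, List.length_append,
    length_flatMap_const _ _ (M - 1 + body.length + tail.length), List.length_range]
  intro u2 _
  have hlt : gridExp M i0 i1 i2 c0 c1 c2 u1 u2 < M := Nat.mod_lt _ (by omega)
  simp only [List.length_append, List.length_replicate]
  omega

theorem mem_gridList {β : Type} (reps rows cols M i0 i1 i2 c0 c1 c2 : ℕ) (z : β)
    (arrPre rowPre body tail rowPost arrPost : List β) (x : β)
    (hx : x ∈ gridList reps rows cols M i0 i1 i2 c0 c1 c2 z
      arrPre rowPre body tail rowPost arrPost) :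
    x = z ∨ x ∈ arrPre ++ rowPre ++ body ++ tail ++ rowPost ++ arrPost := by
  simp only [gridList, List.mem_flatMap, List.mem_append, List.mem_replicate] at hx ⊢
  obtain ⟨_, _, (h | ⟨_, _, (h | ⟨_, _, (((h | h) | h) | h)⟩) | h⟩) | h⟩ := hx
  · tauto
  · tauto
  · exact Or.inl h.2
  · tauto
  · exact Or.inl h.2
  · tauto
  · tauto
  · tauto

/-! ## The initial state -/

/-- The abstract state at the start of a generator: base registers set, everything else empty. -/
def initRS (R r0 c0 a P E q : ℕ) : RS :=
  ⟨fun i => if i = 24 then R else if i = 25 then r0 else if i = 26 then c0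
    else if i = 27 then a else if i = 28 then P else if i = 29 then E
    else if i = 30 then q else 0, fun _ => []⟩

theorem enc_init {T : Fin 40 → Fin K} {p : SwapParams} {q : ℕ} {s : St (Sym ⊕ α) K}
    (hbase : BaseRegs T p q s)
    (hempty : ∀ i : Fin 40, (i.val < 24 ∨ 32 ≤ i.val) → s (T i) = WT [] 0) :
    enc T s (initRS p.R p.r0 p.c0 p.a p.P p.E q) = fun i => s (T i) := by
  obtain ⟨b24, b25, b26, b27, b28, b29, b30⟩ := hbase
  funext i
  by_cases h31 : i.val = 31
  · exact encP_spare T s _ _ h31
  by_cases ht : IsTpl i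
  · rw [enc, encP_tpl T s _ _ ht, hempty i (Or.inl (by have := ht.2; omega))]
    rfl
  rw [enc, encP_reg T s _ _ ⟨h31, ht⟩]
  by_cases h24 : i = 24
  · subst h24
    rw [b24]; rfl
  by_cases h25 : i = 25
  · subst h25
    rw [b25]; rfl
  by_cases h26 : i = 26
  · subst h26
    rw [b26]; rfl
  by_cases h27 : i = 27
  · subst h27
    rw [b27]; rfl
  by_cases h28 : i = 28
  · subst h28
    rw [b28]; rfl
  by_cases h29 : i = 29
  · subst h29
    rw [b29]; rfl
  by_cases h30 : i = 30
  · subst h30
    rw [b30]; rfl
  have hi := i.isLt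
  have g24 : i.val ≠ 24 := fun h => h24 (Fin.ext h)
  have g25 : i.val ≠ 25 := fun h => h25 (Fin.ext h)
  have g26 : i.val ≠ 26 := fun h => h26 (Fin.ext h)
  have g27 : i.val ≠ 27 := fun h => h27 (Fin.ext h)
  have g28 : i.val ≠ 28 := fun h => h28 (Fin.ext h)
  have g29 : i.val ≠ 29 := fun h => h29 (Fin.ext h)
  have g30 : i.val ≠ 30 := fun h => h30 (Fin.ext h)
  rw [hempty i (by omega)]
  simp only [initRS, if_neg h24, if_neg h25, if_neg h26, if_neg h27, if_neg h28, if_neg h29,
    if_neg h30]
  rfl

/-- `Inv` for the initial state. -/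
theorem inv_init {R r0 c0 a P E q B : ℕ} (h1 : R ≤ B) (h2 : r0 ≤ B) (h3 : c0 ≤ B)
    (h4 : a ≤ B) (h5 : P ≤ B) (h6 : E ≤ B) (h7 : q ≤ B) : Inv B (initRS R r0 c0 a P E q) := by
  refine ⟨fun i => ?_, fun i => by simp [initRS]⟩
  simp only [initRS]
  split_ifs <;> first | assumption | exact Nat.zero_le _

/-- The scratch registers of `genGrid` are zero. -/
theorem scr_of {σ : RS} (h17 : σ.reg 17 = 0) (h18 : σ.reg 18 = 0) (h19 : σ.reg 19 = 0)
    (h20 : σ.reg 20 = 0) (h21 : σ.reg 21 = 0) (h22 : σ.reg 22 = 0) (h23 : σ.reg 23 = 0) :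
    ∀ i : Fin 40, 17 ≤ i.val → i.val ≤ 23 → σ.reg i = 0 := by
  intro i h1 h2
  rcases i with ⟨i, hi⟩
  simp only at h1 h2
  interval_cases i <;> assumption

/-! ## Size facts -/

/-- The base values are below the output size `R * (8 * P * P) * (64 * E)`. -/
theorem size_facts (R P E : ℕ) (hR : 1 ≤ R) (hP : 2 ≤ P) (hE : 16 ≤ E) :
    R ≤ R * (8 * P * P) * (64 * E) ∧ P * P ≤ R * (8 * P * P) * (64 * E) ∧
      E ≤ R * (8 * P * P) * (64 * E) ∧ P ≤ P * P := by
  have hPP : 0 < P * P := Nat.mul_pos (by omega) (by omega)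
  have h8 : 0 < 8 * P * P := by
    rw [Nat.mul_assoc]
    omega
  have hRK : 0 < R * (8 * P * P) := Nat.mul_pos (by omega) h8
  refine ⟨?_, ?_, ?_, Nat.le_mul_of_pos_left _ (by omega)⟩
  · rw [Nat.mul_assoc]
    exact Nat.le_mul_of_pos_right _ (Nat.mul_pos h8 (by omega))
  · have h1 : P * P ≤ 8 * P * P := by
      rw [Nat.mul_assoc]
      omega
    exact (h1.trans (Nat.le_mul_of_pos_left _ (by omega))).trans
      (Nat.le_mul_of_pos_right _ (by omega))
  · exact (by omega : E ≤ 64 * E).trans (Nat.le_mul_of_pos_left _ hRK)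

/-- The loop overhead of `genGrid` is below the output size when the grid has at most
`2 P` rows and `2 P` columns and the modulus is `8 E`. -/
theorem loop_le (R rows cols P E : ℕ) (hr : rows ≤ 2 * P) (hc : cols ≤ 2 * P) (hP : 2 ≤ P)
    (hE : 16 ≤ E) :
    R * (rows * (cols + 1) + 1) * (8 * E + 1) ≤ R * (8 * P * P) * (64 * E) := by
  have h1 : rows * (cols + 1) + 1 ≤ 8 * P * P := by
    have h2 := Nat.mul_le_mul hr (Nat.add_le_add_right hc 1)
    nlinarith
  exact Nat.mul_le_mul (Nat.mul_le_mul_left _ h1) (by omega)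

/-! ## Symbols -/

/-- Control symbols as work symbols. -/
def csymS : Ctl → Sym
  | Ctl.C => Sym.cC
  | Ctl.S => Sym.cS
  | Ctl.Z => Sym.cZ
  | Ctl.O => Sym.cO
  | Ctl.N => Sym.cN

theorem csym_eq (c : Ctl) : (csym c : Sym ⊕ α) = Sum.inl (csymS c) := by
  cases c <;> rfl

/-- Bits as work symbols. -/
def bsymS (b : Bool) : Sym := if b then Sym.one else Sym.zero

theorem bsym_eq (b : Bool) : (bsym b : Sym ⊕ α) = Sum.inl (bsymS b) := by
  cases b <;> rfl

theorem map_csym (l : List Ctl) :
    l.map (csym : Ctl → Sym ⊕ α) = (l.map csymS).map Sum.inl := by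
  rw [List.map_map]
  exact List.map_congr_left (fun c _ => csym_eq c)

theorem clean_map_csymS (a b c d e f : List Ctl) :
    ∀ x ∈ a.map csymS ++ b.map csymS ++ c.map csymS ++ d.map csymS ++ e.map csymS
      ++ f.map csymS, x ≠ Sym.blank ∧ x ≠ Sym.lend := by
  intro x hx
  have h : ∃ c, csymS c = x := by
    simp only [List.mem_append, List.mem_map] at hx
    rcases hx with ((((⟨c, _, h⟩ | ⟨c, _, h⟩) | ⟨c, _, h⟩) | ⟨c, _, h⟩) | ⟨c, _, h⟩) | ⟨c, _, h⟩ <;>
      exact ⟨c, h⟩
  obtain ⟨c, rfl⟩ := h
  cases c <;> exact ⟨by decide, by decide⟩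

theorem clean_map_bsymS (a b c d e f : List Bool) :
    ∀ x ∈ a.map bsymS ++ b.map bsymS ++ c.map bsymS ++ d.map bsymS ++ e.map bsymS
      ++ f.map bsymS, x ≠ Sym.blank ∧ x ≠ Sym.lend := by
  intro x hx
  have h : ∃ c, bsymS c = x := by
    simp only [List.mem_append, List.mem_map] at hx
    rcases hx with ((((⟨c, _, h⟩ | ⟨c, _, h⟩) | ⟨c, _, h⟩) | ⟨c, _, h⟩) | ⟨c, _, h⟩) | ⟨c, _, h⟩ <;>
      exact ⟨c, h⟩
  obtain ⟨c, rfl⟩ := h
  cases c <;> exact ⟨by decide, by decide⟩

theorem map_bsym (l : List Bool) :
    l.map (bsym : Bool → Sym ⊕ α) = (l.map bsymS).map Sum.inl := by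
  rw [List.map_map]
  exact List.map_congr_left (fun c _ => bsym_eq c)

/-! ## The generic generator -/

/-- The template tapes. -/
def tplList : List (Fin 40) := [11, 12, 13, 14, 15, 16]

/-- The tapes cleared at the end. -/
def clrList : List (Fin 40) :=
  [1, 2, 3, 4, 5, 6, 7, 8, 9, 10, 11, 12, 13, 14, 15, 16, 32, 33, 34, 35, 36, 37, 38, 39]

theorem mem_tplList (i : Fin 40) : i ∈ tplList ↔ IsTpl i := by
  rcases i with ⟨i, hi⟩
  simp only [tplList, IsTpl, List.mem_cons, Fin.ext_iff, List.not_mem_nil, or_false]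
  have e : ∀ n : ℕ, n < 40 → ((OfNat.ofNat n : Fin 40) : ℕ) = n := fun n hn => Nat.mod_eq_of_lt hn
  simp only [e 11 (by norm_num), e 12 (by norm_num), e 13 (by norm_num),
    e 14 (by norm_num), e 15 (by norm_num), e 16 (by norm_num)]
  omega

theorem mem_clrList (i : Fin 40) : i ∈ clrList ↔ (1 ≤ i.val ∧ i.val ≤ 16) ∨ 32 ≤ i.val := by
  rcases i with ⟨i, hi⟩
  simp only [clrList, List.mem_cons, Fin.ext_iff, List.not_mem_nil, or_false]
  have e : ∀ n : ℕ, n < 40 → ((OfNat.ofNat n : Fin 40) : ℕ) = n := fun n hn => Nat.mod_eq_of_lt hn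
  simp only [e 1 (by norm_num), e 2 (by norm_num), e 3 (by norm_num),
    e 4 (by norm_num), e 5 (by norm_num), e 6 (by norm_num), e 7 (by norm_num),
    e 8 (by norm_num), e 9 (by norm_num), e 10 (by norm_num), e 11 (by norm_num),
    e 12 (by norm_num), e 13 (by norm_num), e 14 (by norm_num), e 15 (by norm_num),
    e 16 (by norm_num), e 32 (by norm_num), e 33 (by norm_num), e 34 (by norm_num),
    e 35 (by norm_num), e 36 (by norm_num), e 37 (by norm_num), e 38 (by norm_num),
    e 39 (by norm_num)]
  omega

/-- The generic generator: run the instructions, rewind the templates, generate the grid, clear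
the parameter and scratch tapes, rewind the output. -/
def genProg (T : Fin 40 → Fin K) (z : Sym) (is : List Instr) : Prog (Sym ⊕ α) K :=
  Prog.seq (compileList T is)
    (Prog.seq (rewindList T tplList)
      (Prog.seq (genGrid (fun i : Fin 24 => T (Fin.castLE (by norm_num) i)) z)
        (Prog.seq (clearList T clrList) (rewind (T 0)))))

/-- The generic generator theorem.  `σf` is the abstract state after the instructions; it has
to hold the grid parameters in the registers `1 .. 10`, the templates on `11 .. 16`, and zero in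
the register `0` and in the scratch registers `17 .. 23` of `genGrid`. -/
theorem gen_run (T : Fin 40 → Fin K) (hT : Function.Injective T) (z : Sym)
    (hz : z ≠ Sym.blank) (hz' : z ≠ Sym.lend) (is : List Instr) (hwf : ∀ ins ∈ is, ins.Wf)
    (p : SwapParams) (q : ℕ) (s : St (Sym ⊕ α) K) (hbase : BaseRegs T p q s)
    (hempty : ∀ i : Fin 40, (i.val < 24 ∨ 32 ≤ i.val) → s (T i) = WT [] 0)
    (reps rows cols M i0 i1 i2 c0 c1 c2 : ℕ) (hM : 1 ≤ M)
    (h0 : i0 < M) (h1 : i1 < M) (h2 : i2 < M) (h3 : c0 < M) (h4 : c1 < M) (h5 : c2 < M)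
    (arrPre rowPre body tail rowPost arrPost : List Sym)
    (hclean : ∀ x ∈ arrPre ++ rowPre ++ body ++ tail ++ rowPost ++ arrPost,
      x ≠ Sym.blank ∧ x ≠ Sym.lend)
    (σf : RS) (hσ : execList is (initRS p.R p.r0 p.c0 p.a p.P p.E q) = σf) (hr0 : σf.reg 0 = 0)
    (hr1 : σf.reg 1 = reps) (hr2 : σf.reg 2 = rows) (hr3 : σf.reg 3 = cols) (hr4 : σf.reg 4 = M)
    (hr5 : σf.reg 5 = i0) (hr6 : σf.reg 6 = i1) (hr7 : σf.reg 7 = i2) (hr8 : σf.reg 8 = c0)
    (hr9 : σf.reg 9 = c1) (hr10 : σf.reg 10 = c2)
    (ht11 : σf.tpl 11 = arrPre) (ht12 : σf.tpl 12 = rowPre) (ht13 : σf.tpl 13 = body)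
    (ht14 : σf.tpl 14 = tail) (ht15 : σf.tpl 15 = rowPost) (ht16 : σf.tpl 16 = arrPost)
    (hscr : ∀ i : Fin 40, 17 ≤ i.val → i.val ≤ 23 → σf.reg i = 0)
    (B : ℕ) (hB : Inv B σf) (C : ℕ)
    (hC : costList is (initRS p.R p.r0 p.c0 p.a p.P p.E q) ≤ C) :
    RunLe (genProg T z is) s
      (Function.update s (T 0)
        (WT ((gridList reps rows cols M i0 i1 i2 c0 c1 c2 z
            arrPre rowPre body tail rowPost arrPost).map Sum.inl) 0))
      (C + 200 * ((gridList reps rows cols M i0 i1 i2 c0 c1 c2 z
            arrPre rowPre body tail rowPost arrPost).length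
          + reps * (rows * (cols + 1) + 1) * (M + 1) + 1)
        + 2 * (gridList reps rows cols M i0 i1 i2 c0 c1 c2 z
            arrPre rowPre body tail rowPost arrPost).length
        + 108 * B + 300) := by
  subst hσ
  generalize hG : gridList reps rows cols M i0 i1 i2 c0 c1 c2 z
    arrPre rowPre body tail rowPost arrPost = G
  generalize hσ : execList is (initRS p.R p.r0 p.c0 p.a p.P p.E q) = σ at *
  have hcl : ∀ i : Fin 40, IsTpl i → ∀ x ∈ σ.tpl i, x ≠ Sym.blank ∧ x ≠ Sym.lend := by
    intro i hi x hx
    have hi' := (mem_tplList i).mpr hi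
    simp only [tplList, List.mem_cons, List.not_mem_nil, or_false] at hi'
    apply hclean
    rcases hi' with rfl | rfl | rfl | rfl | rfl | rfl
    · rw [ht11] at hx; simp [hx]
    · rw [ht12] at hx; simp [hx]
    · rw [ht13] at hx; simp [hx]
    · rw [ht14] at hx; simp [hx]
    · rw [ht15] at hx; simp [hx]
    · rw [ht16] at hx; simp [hx]
  have hnb : ∀ i : Fin 40, IsTpl i →
      (Sum.inl Sym.blank : Sym ⊕ α) ∉ (σ.tpl i).map Sum.inl := by
    intro i hi hmem
    obtain ⟨x, hx, hxe⟩ := List.mem_map.mp hmem
    exact (hcl i hi x hx).1 (Sum.inl.inj hxe)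
  have hnl : ∀ i : Fin 40, IsTpl i →
      (Sum.inl Sym.lend : Sym ⊕ α) ∉ (σ.tpl i).map Sum.inl := by
    intro i hi hmem
    obtain ⟨x, hx, hxe⟩ := List.mem_map.mp hmem
    exact (hcl i hi x hx).2 (Sum.inl.inj hxe)
  -- the instructions
  have r1 := run_list hT s is hwf (initRS p.R p.r0 p.c0 p.a p.P p.E q)
  rw [enc_init hbase hempty, ovr_self, hσ] at r1
  -- rewind the templates
  have r2 := rewindList_run hT s B tplList (enc T s σ) (by
    intro i hi
    have hi' := (mem_tplList i).mp hi
    exact ⟨(σ.tpl i).map Sum.inl, (σ.tpl i).length, encP_tpl T s σ _ hi', hnl i hi', hB.2 i⟩)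
  have e2 : (fun i => if i ∈ tplList then (⟨1, (enc T s σ i).cells⟩ : Tape (Sym ⊕ α))
      else enc T s σ i) = encP T s σ (fun _ => 0) := by
    funext i
    by_cases hi : i ∈ tplList
    · have hi' := (mem_tplList i).mp hi
      rw [if_pos hi, enc, encP_tpl T s σ _ hi', encP_tpl T s σ _ hi']
      rfl
    · have hi' : ¬ IsTpl i := fun h => hi ((mem_tplList i).mpr h)
      rw [if_neg hi]
      simp only [enc, encP, if_neg hi']
  rw [e2] at r2
  -- the grid
  have hT' : Function.Injective (fun i : Fin 24 => T (Fin.castLE (by norm_num) i)) :=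
    hT.comp (Fin.castLE_injective _)
  have hscr' : ∀ i : Fin 24, 17 ≤ i.val →
      ovr T s (encP T s σ (fun _ => 0)) (T (Fin.castLE (by norm_num) i)) = ruler 0 0 := by
    intro i hi
    have hlt := i.isLt
    have hreg : IsReg (Fin.castLE (by norm_num : 24 ≤ 40) i) := by
      refine ⟨?_, ?_⟩
      · show i.val ≠ 31
        omega
      · intro h
        have h16 : i.val ≤ 16 := h.2
        omega
    rw [ovr_apply hT, encP_reg T s σ _ hreg,
      hscr _ (show 17 ≤ i.val from hi) (show i.val ≤ 23 by omega)]
  have r3 := genGrid_run (fun i : Fin 24 => T (Fin.castLE (by norm_num) i)) hT' z hz hz'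
    reps rows cols M i0 i1 i2 c0 c1 c2 hM h0 h1 h2 h3 h4 h5
    arrPre rowPre body tail rowPost arrPost hclean
    [] (ovr T s (encP T s σ (fun _ => 0)))
    (by
      show ovr T s _ (T 0) = _
      rw [ovr_apply hT, encP_reg T s σ _ (by decide), hr0]
      rfl)
    (by show ovr T s _ (T 1) = _; rw [ovr_apply hT, encP_reg T s σ _ (by decide), hr1])
    (by show ovr T s _ (T 2) = _; rw [ovr_apply hT, encP_reg T s σ _ (by decide), hr2])
    (by show ovr T s _ (T 3) = _; rw [ovr_apply hT, encP_reg T s σ _ (by decide), hr3])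
    (by show ovr T s _ (T 4) = _; rw [ovr_apply hT, encP_reg T s σ _ (by decide), hr4])
    (by show ovr T s _ (T 5) = _; rw [ovr_apply hT, encP_reg T s σ _ (by decide), hr5])
    (by show ovr T s _ (T 6) = _; rw [ovr_apply hT, encP_reg T s σ _ (by decide), hr6])
    (by show ovr T s _ (T 7) = _; rw [ovr_apply hT, encP_reg T s σ _ (by decide), hr7])
    (by show ovr T s _ (T 8) = _; rw [ovr_apply hT, encP_reg T s σ _ (by decide), hr8])
    (by show ovr T s _ (T 9) = _; rw [ovr_apply hT, encP_reg T s σ _ (by decide), hr9])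
    (by show ovr T s _ (T 10) = _; rw [ovr_apply hT, encP_reg T s σ _ (by decide), hr10])
    (by show ovr T s _ (T 11) = _; rw [ovr_apply hT, encP_tpl T s σ _ (by decide), ht11])
    (by show ovr T s _ (T 12) = _; rw [ovr_apply hT, encP_tpl T s σ _ (by decide), ht12])
    (by show ovr T s _ (T 13) = _; rw [ovr_apply hT, encP_tpl T s σ _ (by decide), ht13])
    (by show ovr T s _ (T 14) = _; rw [ovr_apply hT, encP_tpl T s σ _ (by decide), ht14])
    (by show ovr T s _ (T 15) = _; rw [ovr_apply hT, encP_tpl T s σ _ (by decide), ht15])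
    (by show ovr T s _ (T 16) = _; rw [ovr_apply hT, encP_tpl T s σ _ (by decide), ht16])
    hscr'
  rw [hG] at r3
  have r3' : RunLe (genGrid (fun i : Fin 24 => T (Fin.castLE (by norm_num) i)) z)
      (ovr T s (encP T s σ (fun _ => 0)))
      (ovr T s (Function.update (encP T s σ (fun _ => 0)) 0 (WT (G.map Sum.inl) G.length)))
      (200 * (G.length + reps * (rows * (cols + 1) + 1) * (M + 1) + 1)) := by
    refine r3.cast rfl ?_ le_rfl
    rw [← ovr_update hT]
    simp only [List.nil_append, List.length_nil, Nat.zero_add]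
    rfl
  -- clear
  have r4 := clearList_run hT s B clrList
    (Function.update (encP T s σ (fun _ => 0)) 0 (WT (G.map Sum.inl) G.length)) (by
    intro i hi
    have hi' := (mem_clrList i).mp hi
    have hne : i ≠ 0 := by
      intro e
      subst e
      simp at hi'
    rw [Function.update_of_ne hne]
    by_cases ht : IsTpl i
    · exact ⟨(σ.tpl i).map Sum.inl, 0, encP_tpl T s σ _ ht, Nat.zero_le _, hnb i ht, hnl i ht,
        by simpa using hB.2 i⟩
    · have hreg : IsReg i := ⟨by rcases hi' with h | h <;> omega, ht⟩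
      refine ⟨List.replicate (σ.reg i) (Sum.inl Sym.one), 0, encP_reg T s σ _ hreg,
        Nat.zero_le _, ?_, lend_not_mem_replicate_one _, by simpa using hB.1 i⟩
      intro hmem
      have := List.eq_of_mem_replicate hmem
      cases this)
  -- rewind the output
  have h0c : (0 : Fin 40) ∉ clrList := by
    intro h
    have := (mem_clrList 0).mp h
    simp at this
  have hGl : (Sum.inl Sym.lend : Sym ⊕ α) ∉ G.map Sum.inl := by
    intro hmem
    obtain ⟨x, hx, hxe⟩ := List.mem_map.mp hmem
    have hx' : x = Sym.lend := Sum.inl.inj hxe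
    rw [← hG] at hx
    rcases mem_gridList _ _ _ _ _ _ _ _ _ _ _ _ _ _ _ _ _ x hx with h | h
    · exact hz' (h ▸ hx')
    · exact (hclean x h).2 hx'
  have r5 := (rewind_run (T 0) (G.map Sum.inl) hGl G.length
    (ovr T s (fun i => if i ∈ clrList then WT [] 0
      else Function.update (encP T s σ (fun _ => 0)) 0 (WT (G.map Sum.inl) G.length) i))
    (by rw [ovr_apply hT, if_neg h0c, Function.update_self])).le
  rw [ovr_update hT] at r5
  have l1 : tplList.length = 6 := rfl
  have l2 : clrList.length = 24 := rfl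
  rw [l1] at r2
  rw [l2] at r4
  have r := RunLe.seq r1 (RunLe.seq r2 (RunLe.seq r3' (RunLe.seq r4 r5)))
  refine r.cast rfl ?_ (by omega)
  have e : Function.update s (T 0) (WT (G.map Sum.inl) 0)
      = ovr T s (Function.update (fun i => s (T i)) 0 (WT (G.map Sum.inl) 0)) := by
    rw [← ovr_update hT, ovr_self]
  rw [e]
  congr 1
  funext i
  by_cases hi0 : i = 0
  · subst hi0
    simp
  · simp only [Function.update_of_ne hi0]
    by_cases hc : i ∈ clrList
    · rw [if_pos hc]
      have hc' := (mem_clrList i).mp hc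
      exact (hempty i (by rcases hc' with h | h <;> omega)).symm
    · rw [if_neg hc]
      have hc' : ¬ ((1 ≤ i.val ∧ i.val ≤ 16) ∨ 32 ≤ i.val) :=
        fun h => hc ((mem_clrList i).mpr h)
      have hival : i.val ≠ 0 := fun h => hi0 (Fin.ext h)
      by_cases h31 : i.val = 31
      · exact encP_spare T s σ _ h31
      · have hreg : IsReg i := ⟨h31, fun h => by have := h.1; have := h.2; omega⟩
        rw [encP_reg T s σ _ hreg]
        by_cases h23 : i.val ≤ 23
        · rw [hscr i (by omega) h23, hempty i (by omega)]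
          rfl
        · rw [← hσ, execList_reg_base is hwf (initRS p.R p.r0 p.c0 p.a p.P p.E q) i (by omega)
            (by have := i.isLt; omega)]
          have h := congrFun (enc_init hbase hempty) i
          rw [enc, encP_reg T s _ _ hreg] at h
          exact h

end Vale.Agent.H91.MT.G3
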