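import Vale.Agent.H91.MT.GenGrid_Row

/-!
# TASK GENGRID, part 4: the array emitter and the loop over the arrays
-/

namespace Vale.Agent.H91.MT.GG

set_option linter.unusedSimpArgs false

variable {α : Type} {K : ℕ}

/-- One array: `arrPre`, the rows, `arrPost`.  The scratch registers are set up at the start
(`T 23 := M - 1`, `T 17, T 18, T 19 := i0, i1, i2`) and erased at the end. -/
def arrP (T : Fin 24 → Fin K) (z : Sym) : Prog (Sym ⊕ α) K :=
  Prog.seq (copyApp (T 11) (T 0)) <|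
  Prog.seq (regInc (T 22)) <|
  Prog.seq (regCopy (T 23) (T 4)) <|
  Prog.seq (regSub (T 23) (T 22)) <|
  Prog.seq (clearTape (T 22)) <|
  Prog.seq (regCopy (T 17) (T 5)) <|
  Prog.seq (regCopy (T 18) (T 6)) <|
  Prog.seq (regCopy (T 19) (T 7)) <|
  Prog.seq (forRuler (T 2) (rowP T z)) <|
  Prog.seq (copyApp (T 16) (T 0)) <|
  Prog.seq (clearTape (T 17)) <|
  Prog.seq (clearTape (T 18)) <|
  Prog.seq (clearTape (T 19)) (clearTape (T 23))

/-- Time bound of one array. -/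
def arrB (nrows cols M : ℕ) (arrPre rowPre body tail rowPost arrPost : List (Sym ⊕ α)) : ℕ :=
  5 * (arrPre.length + arrPost.length) +
    nrows * (rowB cols M rowPre body tail rowPost + 4) + 100 * M + 292

theorem arrP_run (T : Fin 24 → Fin K) (hT : Function.Injective T) (z : Sym)
    (nrows cols M i0 i1 i2 c0 c1 c2 : ℕ) (hM : 1 ≤ M)
    (h0 : i0 < M) (h1 : i1 < M) (h2 : i2 < M) (hc0 : c0 < M) (hc1 : c1 < M) (hc2 : c2 < M)
    (arrPre rowPre body tail rowPost arrPost : List (Sym ⊕ α))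
    (hab : Sum.inl Sym.blank ∉ arrPre) (hal : Sum.inl Sym.lend ∉ arrPre)
    (hpb : Sum.inl Sym.blank ∉ rowPre) (hpl : Sum.inl Sym.lend ∉ rowPre)
    (hbb : Sum.inl Sym.blank ∉ body) (hbl : Sum.inl Sym.lend ∉ body)
    (htb : Sum.inl Sym.blank ∉ tail) (htl : Sum.inl Sym.lend ∉ tail)
    (hqb : Sum.inl Sym.blank ∉ rowPost) (hql : Sum.inl Sym.lend ∉ rowPost)
    (hcb : Sum.inl Sym.blank ∉ arrPost) (hcl : Sum.inl Sym.lend ∉ arrPost)
    (o : List (Sym ⊕ α)) (st : St (Sym ⊕ α) K)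
    (h_out : st (T 0) = WTe o) (h_rows : st (T 2) = ruler nrows 0)
    (h_cols : st (T 3) = ruler cols 0) (h_M : st (T 4) = ruler M 0)
    (h_i0 : st (T 5) = ruler i0 0) (h_i1 : st (T 6) = ruler i1 0) (h_i2 : st (T 7) = ruler i2 0)
    (h_c0 : st (T 8) = ruler c0 0) (h_c1 : st (T 9) = ruler c1 0) (h_c2 : st (T 10) = ruler c2 0)
    (h_arrPre : st (T 11) = WT arrPre 0)
    (h_rowPre : st (T 12) = WT rowPre 0) (h_body : st (T 13) = WT body 0)
    (h_tail : st (T 14) = WT tail 0) (h_rowPost : st (T 15) = WT rowPost 0)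
    (h_arrPost : st (T 16) = WT arrPost 0)
    (h_R0 : st (T 17) = ruler 0 0) (h_A : st (T 18) = ruler 0 0) (h_R1 : st (T 19) = ruler 0 0)
    (h_s : st (T 20) = ruler 0 0) (h_d : st (T 21) = ruler 0 0)
    (h_t : st (T 22) = ruler 0 0) (h_M1 : st (T 23) = ruler 0 0) :
    RunLe (arrP T z) st
      (Function.update st (T 0) (WTe (o ++
        arr nrows cols M i0 i1 i2 c0 c1 c2 (Sum.inl z) arrPre rowPre body tail rowPost arrPost)))
      (arrB nrows cols M arrPre rowPre body tail rowPost arrPost) := by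
  have ne : ∀ i j : Fin 24, i ≠ j → T i ≠ T j := fun i j h => hT.ne h
  have b1 := r0_lt M i0 i1 c0 nrows hM
  have b2 := av_lt M i1 c0 nrows hM
  have b3 := dv_lt M i2 c1 c2 nrows 0 hM
  refine RunLe.cast
    (RunLe.seq (app_run (T 11) (T 0) (ne _ _ (by decide)) arrPre o hab hal st h_arrPre h_out) <|
     RunLe.seq (regInc_run (T 22) 0 _ ?_) <|
     RunLe.seq (regCopy_run (T 23) (T 4) (ne _ _ (by decide)) 0 M _ ?_ ?_) <|
     RunLe.seq (regSub_run (T 23) (T 22) (ne _ _ (by decide)) M (0 + 1) _ ?_ ?_) <|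
     RunLe.seq (clr_run (T 22) (0 + 1) _ ?_) <|
     RunLe.seq (regCopy_run (T 17) (T 5) (ne _ _ (by decide)) 0 i0 _ ?_ ?_) <|
     RunLe.seq (regCopy_run (T 18) (T 6) (ne _ _ (by decide)) 0 i1 _ ?_ ?_) <|
     RunLe.seq (regCopy_run (T 19) (T 7) (ne _ _ (by decide)) 0 i2 _ ?_ ?_) <|
     RunLe.seq (rowLoop_run T hT z nrows cols M i0 i1 i2 c0 c1 c2 hM hc0 hc1 hc2
       rowPre body tail rowPost hpb hpl hbb hbl htb htl hqb hql (o ++ arrPre) _
       ?_ ?_ ?_ ?_ ?_ ?_ ?_ ?_ ?_ ?_ ?_ ?_ ?_ ?_ ?_ ?_ ?_ ?_) <|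
     RunLe.seq (app_run (T 16) (T 0) (ne _ _ (by decide)) arrPost
       (o ++ arrPre ++ rows cols M i0 i1 i2 c0 c1 c2 (Sum.inl z) rowPre body tail rowPost nrows)
       hcb hcl _ ?_ ?_) <|
     RunLe.seq (clr_run (T 17) (r0 M i0 i1 c0 nrows) _ ?_) <|
     RunLe.seq (clr_run (T 18) (av M i1 c0 nrows) _ ?_) <|
     RunLe.seq (clr_run (T 19) (dv M i2 c1 c2 nrows 0) _ ?_)
       (clr_run (T 23) (M - 1) _ ?_))
    rfl ?fin ?bd
  case fin =>
    funext j
    simp only [Function.update_apply, arr, List.append_assoc]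
    split_ifs <;> simp_all [hT.eq_iff]
  case bd =>
    unfold arrB
    omega
  all_goals
    simp only [Function.update_apply, hT.eq_iff, Fin.reduceEq, if_false, if_true, Nat.zero_add,
      r0_zero M i0 i1 c0 h0, av_zero M i1 c0 h1, dv_zero_zero M i2 c1 c2 h2,
      h_rows, h_cols, h_M, h_i0, h_i1, h_i2, h_c0, h_c1, h_c2, h_rowPre, h_body, h_tail,
      h_rowPost, h_arrPost, h_R0, h_A, h_R1, h_s, h_d, h_t, h_M1]

/-- All arrays. -/
theorem arrLoop_run (T : Fin 24 → Fin K) (hT : Function.Injective T) (z : Sym)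
    (nreps nrows cols M i0 i1 i2 c0 c1 c2 : ℕ) (hM : 1 ≤ M)
    (h0 : i0 < M) (h1 : i1 < M) (h2 : i2 < M) (hc0 : c0 < M) (hc1 : c1 < M) (hc2 : c2 < M)
    (arrPre rowPre body tail rowPost arrPost : List (Sym ⊕ α))
    (hab : Sum.inl Sym.blank ∉ arrPre) (hal : Sum.inl Sym.lend ∉ arrPre)
    (hpb : Sum.inl Sym.blank ∉ rowPre) (hpl : Sum.inl Sym.lend ∉ rowPre)
    (hbb : Sum.inl Sym.blank ∉ body) (hbl : Sum.inl Sym.lend ∉ body)
    (htb : Sum.inl Sym.blank ∉ tail) (htl : Sum.inl Sym.lend ∉ tail)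
    (hqb : Sum.inl Sym.blank ∉ rowPost) (hql : Sum.inl Sym.lend ∉ rowPost)
    (hcb : Sum.inl Sym.blank ∉ arrPost) (hcl : Sum.inl Sym.lend ∉ arrPost)
    (o : List (Sym ⊕ α)) (st : St (Sym ⊕ α) K)
    (h_out : st (T 0) = WTe o) (h_reps : st (T 1) = ruler nreps 0)
    (h_rows : st (T 2) = ruler nrows 0)
    (h_cols : st (T 3) = ruler cols 0) (h_M : st (T 4) = ruler M 0)
    (h_i0 : st (T 5) = ruler i0 0) (h_i1 : st (T 6) = ruler i1 0) (h_i2 : st (T 7) = ruler i2 0)
    (h_c0 : st (T 8) = ruler c0 0) (h_c1 : st (T 9) = ruler c1 0) (h_c2 : st (T 10) = ruler c2 0)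
    (h_arrPre : st (T 11) = WT arrPre 0)
    (h_rowPre : st (T 12) = WT rowPre 0) (h_body : st (T 13) = WT body 0)
    (h_tail : st (T 14) = WT tail 0) (h_rowPost : st (T 15) = WT rowPost 0)
    (h_arrPost : st (T 16) = WT arrPost 0)
    (h_R0 : st (T 17) = ruler 0 0) (h_A : st (T 18) = ruler 0 0) (h_R1 : st (T 19) = ruler 0 0)
    (h_s : st (T 20) = ruler 0 0) (h_d : st (T 21) = ruler 0 0)
    (h_t : st (T 22) = ruler 0 0) (h_M1 : st (T 23) = ruler 0 0) :
    RunLe (forRuler (T 1) (arrP T z)) st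
      (Function.update st (T 0) (WTe (o ++ reps
        (arr nrows cols M i0 i1 i2 c0 c1 c2 (Sum.inl z) arrPre rowPre body tail rowPost arrPost)
        nreps)))
      (nreps * (arrB nrows cols M arrPre rowPre body tail rowPost arrPost + 4) + 5) := by
  have h := forRuler_run (T 1) (arrP T z) nreps
    (fun i => Function.update (Function.update st
        (T 0) (WTe (o ++ reps
          (arr nrows cols M i0 i1 i2 c0 c1 c2 (Sum.inl z) arrPre rowPre body tail rowPost arrPost)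
          i)))
        (T 1) (ruler nreps i))
    (fun _ => arrB nrows cols M arrPre rowPre body tail rowPost arrPost)
    (by intro i _; simp)
    (by
      intro i _
      refine (arrP_run T hT z nrows cols M i0 i1 i2 c0 c1 c2 hM h0 h1 h2 hc0 hc1 hc2
        arrPre rowPre body tail rowPost arrPost hab hal hpb hpl hbb hbl htb htl hqb hql hcb hcl
        (o ++ reps
          (arr nrows cols M i0 i1 i2 c0 c1 c2 (Sum.inl z) arrPre rowPre body tail rowPost arrPost)
          i) _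
        ?_ ?_ ?_ ?_ ?_ ?_ ?_ ?_ ?_ ?_ ?_ ?_ ?_ ?_ ?_ ?_ ?_ ?_ ?_ ?_ ?_ ?_ ?_).cast rfl ?fin le_rfl
      case fin =>
        rw [reps_succ]
        funext j
        simp only [Function.update_apply, List.append_assoc]
        split_ifs <;> simp_all [hT.eq_iff]
      all_goals
        simp only [Function.update_apply, hT.eq_iff, Fin.reduceEq, if_false, if_true,
          h_rows, h_cols, h_M, h_i0, h_i1, h_i2, h_c0, h_c1, h_c2, h_arrPre, h_rowPre, h_body,
          h_tail, h_rowPost, h_arrPost, h_R0, h_A, h_R1, h_s, h_d, h_t, h_M1])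
  refine h.cast ?_ ?_ (le_of_eq ?_)
  · funext j
    simp only [Function.update_apply, reps_zero, List.append_nil]
    split_ifs <;> simp_all [hT.eq_iff]
  · funext j
    simp only [Function.update_apply]
    split_ifs <;> simp_all [hT.eq_iff]
  · simp only [Finset.sum_const, Finset.card_range, smul_eq_mul]
    ring

end Vale.Agent.H91.MT.GG
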