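import Vale.Agent.H91.MT.RegB
import Vale.Agent.H91.MT.Pure
import Vale.Agent.H91.MT.GenGrid_Arr

/-!
# TASK GENGRID: generating a grid list on a tape

Tapes (an injective map `T : Fin 24 → Fin K`):
`T 0` output stream (append mode);
`T 1, T 2, T 3` registers `reps, rows, cols`; `T 4` register `M`;
`T 5 .. T 10` registers `i0, i1, i2, c0, c1, c2` (all `< M`);
`T 11 .. T 16` template tapes `arrPre, rowPre, body, tail, rowPost, arrPost` (at home);
`T 17 .. T 23` scratch registers, empty before and after.

Suggested program (registers `R0, A, R1, s, D, t` on scratch tapes):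
```
for a in reps:  append arrPre;  R0 := i0; A := i1; R1 := i2
  for u1 in rows:  append rowPre;  s := R0; D := R1
    for u2 in cols:
      emit z^s; append body; t := M - 1 - s; emit z^t; append tail
      s := (s + D) % M;  D := (D + c2) % M
    append rowPost;  R0 := (R0 + A) % M;  A := (A + c0) % M;  R1 := (R1 + c1) % M
  append arrPost
```
Numeric constants in the time bound may be changed (keep the shape).

Implementation (files GenGrid_Pure, GenGrid_Slot, GenGrid_Row, GenGrid_Arr, names in the
namespace GG): the program is `forRuler (T 1) (GG.arrP T z)`.  Scratch use: `T 17, T 18, T 19`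
row-start exponent, its increment and the first difference of the row; `T 20, T 21` exponent of
the current slot and its increment; `T 22` the count `M - 1 - s`; `T 23` holds `M - 1`.  Each
level erases its own scratch registers, so every array starts from the initial state.
-/

namespace Vale.Agent.H91.MT

variable {α : Type} {K : ℕ}

/-- The grid generator. -/
def genGrid (T : Fin 24 → Fin K) (z : Sym) : Prog (Sym ⊕ α) K :=
  forRuler (T 1) (GG.arrP T z)

theorem genGrid_run (T : Fin 24 → Fin K) (hT : Function.Injective T) (z : Sym)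
    (hz : z ≠ Sym.blank) (hz' : z ≠ Sym.lend)
    (reps rows cols M i0 i1 i2 c0 c1 c2 : ℕ) (hM : 1 ≤ M)
    (h0 : i0 < M) (h1 : i1 < M) (h2 : i2 < M) (h3 : c0 < M) (h4 : c1 < M) (h5 : c2 < M)
    (arrPre rowPre body tail rowPost arrPost : List Sym)
    (hclean : ∀ x ∈ arrPre ++ rowPre ++ body ++ tail ++ rowPost ++ arrPost,
      x ≠ Sym.blank ∧ x ≠ Sym.lend)
    (o : List (Sym ⊕ α)) (s : St (Sym ⊕ α) K)
    (h_out : s (T 0) = WT o o.length)
    (h_reps : s (T 1) = ruler reps 0) (h_rows : s (T 2) = ruler rows 0)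
    (h_cols : s (T 3) = ruler cols 0) (h_M : s (T 4) = ruler M 0)
    (h_i0 : s (T 5) = ruler i0 0) (h_i1 : s (T 6) = ruler i1 0) (h_i2 : s (T 7) = ruler i2 0)
    (h_c0 : s (T 8) = ruler c0 0) (h_c1 : s (T 9) = ruler c1 0) (h_c2 : s (T 10) = ruler c2 0)
    (h_arrPre : s (T 11) = WT (arrPre.map Sum.inl) 0)
    (h_rowPre : s (T 12) = WT (rowPre.map Sum.inl) 0)
    (h_body : s (T 13) = WT (body.map Sum.inl) 0)
    (h_tail : s (T 14) = WT (tail.map Sum.inl) 0)
    (h_rowPost : s (T 15) = WT (rowPost.map Sum.inl) 0)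
    (h_arrPost : s (T 16) = WT (arrPost.map Sum.inl) 0)
    (h_scr : ∀ i : Fin 24, 17 ≤ i.val → s (T i) = ruler 0 0) :
    RunLe (genGrid T z) s
      (Function.update s (T 0)
        (WT (o ++ (gridList reps rows cols M i0 i1 i2 c0 c1 c2 z
            arrPre rowPre body tail rowPost arrPost).map Sum.inl)
          (o.length + (gridList reps rows cols M i0 i1 i2 c0 c1 c2 z
            arrPre rowPre body tail rowPost arrPost).length)))
      (200 * ((gridList reps rows cols M i0 i1 i2 c0 c1 c2 z
            arrPre rowPre body tail rowPost arrPost).length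
          + reps * (rows * (cols + 1) + 1) * (M + 1) + 1)) := by
  have _hz := hz
  have _hz' := hz'
  have cl : ∀ l : List Sym,
      (∀ x ∈ l, x ∈ arrPre ++ rowPre ++ body ++ tail ++ rowPost ++ arrPost) →
      (Sum.inl Sym.blank : Sym ⊕ α) ∉ l.map Sum.inl ∧
        (Sum.inl Sym.lend : Sym ⊕ α) ∉ l.map Sum.inl := by
    intro l hl
    constructor
    · intro hm
      obtain ⟨x, hx, e⟩ := List.mem_map.1 hm
      exact (hclean x (hl x hx)).1 (Sum.inl.inj e)
    · intro hm
      obtain ⟨x, hx, e⟩ := List.mem_map.1 hm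
      exact (hclean x (hl x hx)).2 (Sum.inl.inj e)
  have k1 := cl arrPre (by intro x hx; simp [hx])
  have k2 := cl rowPre (by intro x hx; simp [hx])
  have k3 := cl body (by intro x hx; simp [hx])
  have k4 := cl tail (by intro x hx; simp [hx])
  have k5 := cl rowPost (by intro x hx; simp [hx])
  have k6 := cl arrPost (by intro x hx; simp [hx])
  have h := GG.arrLoop_run T hT z reps rows cols M i0 i1 i2 c0 c1 c2 hM h0 h1 h2 h3 h4 h5
    (arrPre.map Sum.inl) (rowPre.map Sum.inl) (body.map Sum.inl) (tail.map Sum.inl)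
    (rowPost.map Sum.inl) (arrPost.map Sum.inl)
    k1.1 k1.2 k2.1 k2.2 k3.1 k3.2 k4.1 k4.2 k5.1 k5.2 k6.1 k6.2 o s h_out
    h_reps h_rows h_cols h_M h_i0 h_i1 h_i2 h_c0 h_c1 h_c2
    h_arrPre h_rowPre h_body h_tail h_rowPost h_arrPost
    (h_scr 17 (by decide)) (h_scr 18 (by decide)) (h_scr 19 (by decide)) (h_scr 20 (by decide))
    (h_scr 21 (by decide)) (h_scr 22 (by decide)) (h_scr 23 (by decide))
  have e : GG.reps (GG.arr rows cols M i0 i1 i2 c0 c1 c2 (Sum.inl z : Sym ⊕ α)
      (arrPre.map Sum.inl) (rowPre.map Sum.inl) (body.map Sum.inl) (tail.map Sum.inl)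
      (rowPost.map Sum.inl) (arrPost.map Sum.inl)) reps =
      (gridList reps rows cols M i0 i1 i2 c0 c1 c2 z
        arrPre rowPre body tail rowPost arrPost).map Sum.inl := by
    rw [GG.gridList_map', GG.gridList_eq]
  rw [e] at h
  refine h.cast rfl ?_ ?_
  · unfold GG.WTe
    rw [List.length_append, List.length_map]
  · rw [GG.gridList_length _ _ _ _ _ _ _ _ _ _ hM]
    unfold GG.arrB GG.rowB
    simp only [List.length_map]
    exact GG.bound_le reps rows cols M arrPre.length arrPost.length rowPre.length rowPost.length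
      body.length tail.length hM

end Vale.Agent.H91.MT
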