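import Vale.Agent.H91.MT.Pure

/-!
# TASK GENGRID, part 1: the recurrences behind `gridExp` and the shape of `gridList`

The generator keeps the exponent of the current slot in registers updated by finite differences;
here are the closed forms of those registers and the decomposition of `gridList` into arrays,
rows and slots.
-/

namespace Vale.Agent.H91.MT.GG

/-- Exponent at the start of row `u1`. -/
def r0 (M i0 i1 c0 u1 : ℕ) : ℕ := (i0 + u1 * i1 + u1.choose 2 * c0) % M

/-- Increment of the row-start exponent at row `u1`. -/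
def av (M i1 c0 u1 : ℕ) : ℕ := (i1 + u1 * c0) % M

/-- First difference along row `u1`, at column `u2`. -/
def dv (M i2 c1 c2 u1 u2 : ℕ) : ℕ := (i2 + u1 * c1 + u2 * c2) % M

theorem choose_two_succ (n : ℕ) : (n + 1).choose 2 = n.choose 2 + n := by
  have h := Nat.choose_succ_succ' n 1
  rw [Nat.choose_one_right] at h
  have e : (1 + 1 : ℕ) = 2 := rfl
  rw [e] at h
  omega

theorem gridExp_zero (M i0 i1 i2 c0 c1 c2 u1 : ℕ) :
    gridExp M i0 i1 i2 c0 c1 c2 u1 0 = r0 M i0 i1 c0 u1 := by
  simp [gridExp, r0]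

theorem gridExp_succ (M i0 i1 i2 c0 c1 c2 u1 u2 : ℕ) :
    gridExp M i0 i1 i2 c0 c1 c2 u1 (u2 + 1) =
      (gridExp M i0 i1 i2 c0 c1 c2 u1 u2 + dv M i2 c1 c2 u1 u2) % M := by
  unfold gridExp dv
  rw [← Nat.add_mod, choose_two_succ]
  congr 1
  ring

theorem gridExp_lt (M i0 i1 i2 c0 c1 c2 u1 u2 : ℕ) (hM : 1 ≤ M) :
    gridExp M i0 i1 i2 c0 c1 c2 u1 u2 < M := Nat.mod_lt _ hM

theorem dv_succ (M i2 c1 c2 u1 u2 : ℕ) :
    dv M i2 c1 c2 u1 (u2 + 1) = (dv M i2 c1 c2 u1 u2 + c2) % M := by
  unfold dv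
  rw [Nat.mod_add_mod]
  congr 1
  ring

theorem dv_lt (M i2 c1 c2 u1 u2 : ℕ) (hM : 1 ≤ M) : dv M i2 c1 c2 u1 u2 < M := Nat.mod_lt _ hM

theorem r0_zero (M i0 i1 c0 : ℕ) (h : i0 < M) : r0 M i0 i1 c0 0 = i0 := by
  simp [r0, Nat.mod_eq_of_lt h]

theorem r0_succ (M i0 i1 c0 u1 : ℕ) :
    r0 M i0 i1 c0 (u1 + 1) = (r0 M i0 i1 c0 u1 + av M i1 c0 u1) % M := by
  unfold r0 av
  rw [← Nat.add_mod, choose_two_succ]
  congr 1
  ring

theorem r0_lt (M i0 i1 c0 u1 : ℕ) (hM : 1 ≤ M) : r0 M i0 i1 c0 u1 < M := Nat.mod_lt _ hM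

theorem av_zero (M i1 c0 : ℕ) (h : i1 < M) : av M i1 c0 0 = i1 := by
  simp [av, Nat.mod_eq_of_lt h]

theorem av_succ (M i1 c0 u1 : ℕ) : av M i1 c0 (u1 + 1) = (av M i1 c0 u1 + c0) % M := by
  unfold av
  rw [Nat.mod_add_mod]
  congr 1
  ring

theorem av_lt (M i1 c0 u1 : ℕ) (hM : 1 ≤ M) : av M i1 c0 u1 < M := Nat.mod_lt _ hM

theorem dv_zero_zero (M i2 c1 c2 : ℕ) (h : i2 < M) : dv M i2 c1 c2 0 0 = i2 := by
  simp [dv, Nat.mod_eq_of_lt h]

theorem dv_row_succ (M i2 c1 c2 u1 : ℕ) :
    dv M i2 c1 c2 (u1 + 1) 0 = (dv M i2 c1 c2 u1 0 + c1) % M := by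
  unfold dv
  rw [Nat.mod_add_mod]
  congr 1
  ring

/-! ## The pieces of a grid list -/

variable {β : Type}

/-- One slot: `z^e ++ body ++ z^(M-1-e) ++ tail`. -/
def slot (M e : ℕ) (z : β) (body tail : List β) : List β :=
  List.replicate e z ++ body ++ List.replicate (M - 1 - e) z ++ tail

/-- The first `n` slots of row `u1`. -/
def slots (M i0 i1 i2 c0 c1 c2 : ℕ) (z : β) (body tail : List β) (u1 n : ℕ) : List β :=
  (List.range n).flatMap fun u2 => slot M (gridExp M i0 i1 i2 c0 c1 c2 u1 u2) z body tail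

/-- Row `u1`. -/
def row (cols M i0 i1 i2 c0 c1 c2 : ℕ) (z : β) (rowPre body tail rowPost : List β) (u1 : ℕ) :
    List β :=
  rowPre ++ slots M i0 i1 i2 c0 c1 c2 z body tail u1 cols ++ rowPost

/-- The first `n` rows. -/
def rows (cols M i0 i1 i2 c0 c1 c2 : ℕ) (z : β) (rowPre body tail rowPost : List β) (n : ℕ) :
    List β :=
  (List.range n).flatMap fun u1 => row cols M i0 i1 i2 c0 c1 c2 z rowPre body tail rowPost u1

/-- One array. -/
def arr (nrows cols M i0 i1 i2 c0 c1 c2 : ℕ) (z : β)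
    (arrPre rowPre body tail rowPost arrPost : List β) : List β :=
  arrPre ++ rows cols M i0 i1 i2 c0 c1 c2 z rowPre body tail rowPost nrows ++ arrPost

/-- `n` copies of a list. -/
def reps (l : List β) (n : ℕ) : List β := (List.range n).flatMap fun _ => l

theorem gridList_eq (nreps nrows cols M i0 i1 i2 c0 c1 c2 : ℕ) (z : β)
    (arrPre rowPre body tail rowPost arrPost : List β) :
    gridList nreps nrows cols M i0 i1 i2 c0 c1 c2 z arrPre rowPre body tail rowPost arrPost =
      reps (arr nrows cols M i0 i1 i2 c0 c1 c2 z arrPre rowPre body tail rowPost arrPost)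
        nreps := rfl

theorem slot_length (M e : ℕ) (z : β) (body tail : List β) (he : e < M) :
    (slot M e z body tail).length = M - 1 + body.length + tail.length := by
  simp only [slot, List.length_append, List.length_replicate]
  omega

theorem slots_zero (M i0 i1 i2 c0 c1 c2 : ℕ) (z : β) (body tail : List β) (u1 : ℕ) :
    slots M i0 i1 i2 c0 c1 c2 z body tail u1 0 = [] := rfl

theorem slots_succ (M i0 i1 i2 c0 c1 c2 : ℕ) (z : β) (body tail : List β) (u1 n : ℕ) :
    slots M i0 i1 i2 c0 c1 c2 z body tail u1 (n + 1) =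
      slots M i0 i1 i2 c0 c1 c2 z body tail u1 n ++
        slot M (gridExp M i0 i1 i2 c0 c1 c2 u1 n) z body tail := by
  simp [slots, List.range_succ]

theorem rows_zero (cols M i0 i1 i2 c0 c1 c2 : ℕ) (z : β) (rowPre body tail rowPost : List β) :
    rows cols M i0 i1 i2 c0 c1 c2 z rowPre body tail rowPost 0 = [] := rfl

theorem rows_succ (cols M i0 i1 i2 c0 c1 c2 : ℕ) (z : β) (rowPre body tail rowPost : List β)
    (n : ℕ) :
    rows cols M i0 i1 i2 c0 c1 c2 z rowPre body tail rowPost (n + 1) =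
      rows cols M i0 i1 i2 c0 c1 c2 z rowPre body tail rowPost n ++
        row cols M i0 i1 i2 c0 c1 c2 z rowPre body tail rowPost n := by
  simp [rows, List.range_succ]

theorem reps_zero (l : List β) : reps l 0 = [] := rfl

theorem reps_succ (l : List β) (n : ℕ) : reps l (n + 1) = reps l n ++ l := by
  simp [reps, List.range_succ]

theorem gridList_map' {γ : Type} (f : β → γ) (nreps nrows cols M i0 i1 i2 c0 c1 c2 : ℕ) (z : β)
    (arrPre rowPre body tail rowPost arrPost : List β) :
    (gridList nreps nrows cols M i0 i1 i2 c0 c1 c2 z arrPre rowPre body tail rowPost arrPost).map f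
      = gridList nreps nrows cols M i0 i1 i2 c0 c1 c2 (f z) (arrPre.map f) (rowPre.map f)
          (body.map f) (tail.map f) (rowPost.map f) (arrPost.map f) := by
  simp [gridList, List.map_flatMap]

/-! ## Lengths -/

theorem slots_length (M i0 i1 i2 c0 c1 c2 : ℕ) (hM : 1 ≤ M) (z : β) (body tail : List β)
    (u1 n : ℕ) :
    (slots M i0 i1 i2 c0 c1 c2 z body tail u1 n).length =
      n * (M - 1 + body.length + tail.length) := by
  induction n with
  | zero => simp [slots_zero]
  | succ n ih =>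
    rw [slots_succ, List.length_append, ih,
      slot_length _ _ _ _ _ (gridExp_lt M i0 i1 i2 c0 c1 c2 u1 n hM)]
    ring

theorem row_length (cols M i0 i1 i2 c0 c1 c2 : ℕ) (hM : 1 ≤ M) (z : β)
    (rowPre body tail rowPost : List β) (u1 : ℕ) :
    (row cols M i0 i1 i2 c0 c1 c2 z rowPre body tail rowPost u1).length =
      rowPre.length + cols * (M - 1 + body.length + tail.length) + rowPost.length := by
  simp only [row, List.length_append, slots_length M i0 i1 i2 c0 c1 c2 hM]

theorem rows_length (cols M i0 i1 i2 c0 c1 c2 : ℕ) (hM : 1 ≤ M) (z : β)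
    (rowPre body tail rowPost : List β) (n : ℕ) :
    (rows cols M i0 i1 i2 c0 c1 c2 z rowPre body tail rowPost n).length =
      n * (rowPre.length + cols * (M - 1 + body.length + tail.length) + rowPost.length) := by
  induction n with
  | zero => simp [rows_zero]
  | succ n ih =>
    rw [rows_succ, List.length_append, ih, row_length cols M i0 i1 i2 c0 c1 c2 hM]
    ring

theorem reps_length (l : List β) (n : ℕ) : (reps l n).length = n * l.length := by
  induction n with
  | zero => simp [reps_zero]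
  | succ n ih =>
    rw [reps_succ, List.length_append, ih]
    ring

theorem gridList_length (nreps nrows cols M i0 i1 i2 c0 c1 c2 : ℕ) (hM : 1 ≤ M) (z : β)
    (arrPre rowPre body tail rowPost arrPost : List β) :
    (gridList nreps nrows cols M i0 i1 i2 c0 c1 c2 z arrPre rowPre body tail rowPost
      arrPost).length =
      nreps * (arrPre.length + nrows * (rowPre.length +
        cols * (M - 1 + body.length + tail.length) + rowPost.length) + arrPost.length) := by
  rw [gridList_eq, reps_length]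
  simp only [arr, List.length_append, rows_length cols M i0 i1 i2 c0 c1 c2 hM]

/-- The arithmetic behind the time bound of the generator. -/
theorem bound_le (nreps nrows cols M a1 a2 p1 p2 b t : ℕ) (hM : 1 ≤ M) :
    nreps * (5 * (a1 + a2) + nrows * (5 * (p1 + p2) +
        cols * (5 * (b + t) + 100 * M + 294) + 140 * M + 252 + 4) + 100 * M + 292 + 4) + 5 ≤
      200 * (nreps * (a1 + nrows * (p1 + cols * (M - 1 + b + t) + p2) + a2) +
        nreps * (nrows * (cols + 1) + 1) * (M + 1) + 1) := by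
  obtain ⟨m, rfl⟩ : ∃ m, M = m + 1 := ⟨M - 1, by omega⟩
  simp only [Nat.add_sub_cancel]
  have s1 : 5 * (b + t) + 100 * (m + 1) + 294 ≤ 200 * (m + b + t) + 200 * (m + 1 + 1) := by omega
  have s2 := Nat.mul_le_mul_left cols s1
  have s3 : 5 * (p1 + p2) + cols * (5 * (b + t) + 100 * (m + 1) + 294) + 140 * (m + 1) + 252 + 4 ≤
      200 * (p1 + cols * (m + b + t) + p2) + 200 * ((cols + 1) * (m + 1 + 1)) := by
    nlinarith [s2]
  have s4 := Nat.mul_le_mul_left nrows s3
  have s5 : 5 * (a1 + a2) + nrows * (5 * (p1 + p2) +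
        cols * (5 * (b + t) + 100 * (m + 1) + 294) + 140 * (m + 1) + 252 + 4) + 100 * (m + 1) +
        292 + 4 ≤
      200 * (a1 + nrows * (p1 + cols * (m + b + t) + p2) + a2) +
        200 * ((nrows * (cols + 1) + 1) * (m + 1 + 1)) := by
    nlinarith [s4]
  have s6 := Nat.mul_le_mul_left nreps s5
  nlinarith [s6]

end Vale.Agent.H91.MT.GG
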