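import Vale.Agent.H91.MT.GenGrid_Slot

/-!
# TASK GENGRID, part 3: the row emitter and the loop over the rows
-/

namespace Vale.Agent.H91.MT.GG

set_option linter.unusedSimpArgs false

variable {α : Type} {K : ℕ}

/-- One row: `rowPre`, the slots, `rowPost`; then the row registers are advanced
(`T 17` row-start exponent, `T 18` its increment, `T 19` the first difference of the row). -/
def rowP (T : Fin 24 → Fin K) (z : Sym) : Prog (Sym ⊕ α) K :=
  Prog.seq (copyApp (T 12) (T 0)) <|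
  Prog.seq (regCopy (T 20) (T 17)) <|
  Prog.seq (regCopy (T 21) (T 19)) <|
  Prog.seq (forRuler (T 3) (slotP T z)) <|
  Prog.seq (copyApp (T 15) (T 0)) <|
  Prog.seq (clearTape (T 20)) <|
  Prog.seq (clearTape (T 21)) <|
  Prog.seq (regAddMod (T 17) (T 18) (T 4)) <|
  Prog.seq (regAddMod (T 18) (T 8) (T 4)) (regAddMod (T 19) (T 9) (T 4))

/-- Time bound of one row. -/
def rowB (cols M : ℕ) (rowPre body tail rowPost : List (Sym ⊕ α)) : ℕ :=
  5 * (rowPre.length + rowPost.length) +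
    cols * (5 * (body.length + tail.length) + 100 * M + 294) + 140 * M + 252

theorem rowP_run (T : Fin 24 → Fin K) (hT : Function.Injective T) (z : Sym)
    (cols M i0 i1 i2 c0 c1 c2 u1 : ℕ) (hM : 1 ≤ M) (hc0 : c0 < M) (hc1 : c1 < M) (hc2 : c2 < M)
    (rowPre body tail rowPost : List (Sym ⊕ α))
    (hpb : Sum.inl Sym.blank ∉ rowPre) (hpl : Sum.inl Sym.lend ∉ rowPre)
    (hbb : Sum.inl Sym.blank ∉ body) (hbl : Sum.inl Sym.lend ∉ body)
    (htb : Sum.inl Sym.blank ∉ tail) (htl : Sum.inl Sym.lend ∉ tail)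
    (hqb : Sum.inl Sym.blank ∉ rowPost) (hql : Sum.inl Sym.lend ∉ rowPost)
    (o : List (Sym ⊕ α)) (st : St (Sym ⊕ α) K)
    (h_out : st (T 0) = WTe o) (h_cols : st (T 3) = ruler cols 0)
    (h_M : st (T 4) = ruler M 0) (h_c0 : st (T 8) = ruler c0 0) (h_c1 : st (T 9) = ruler c1 0)
    (h_c2 : st (T 10) = ruler c2 0)
    (h_rowPre : st (T 12) = WT rowPre 0) (h_body : st (T 13) = WT body 0)
    (h_tail : st (T 14) = WT tail 0) (h_rowPost : st (T 15) = WT rowPost 0)
    (h_R0 : st (T 17) = ruler (r0 M i0 i1 c0 u1) 0) (h_A : st (T 18) = ruler (av M i1 c0 u1) 0)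
    (h_R1 : st (T 19) = ruler (dv M i2 c1 c2 u1 0) 0)
    (h_s : st (T 20) = ruler 0 0) (h_d : st (T 21) = ruler 0 0)
    (h_t : st (T 22) = ruler 0 0) (h_M1 : st (T 23) = ruler (M - 1) 0) :
    RunLe (rowP T z) st
      (Function.update (Function.update (Function.update (Function.update st
        (T 0) (WTe (o ++ row cols M i0 i1 i2 c0 c1 c2 (Sum.inl z) rowPre body tail rowPost u1)))
        (T 17) (ruler (r0 M i0 i1 c0 (u1 + 1)) 0))
        (T 18) (ruler (av M i1 c0 (u1 + 1)) 0))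
        (T 19) (ruler (dv M i2 c1 c2 (u1 + 1) 0) 0))
      (rowB cols M rowPre body tail rowPost) := by
  have ne : ∀ i j : Fin 24, i ≠ j → T i ≠ T j := fun i j h => hT.ne h
  have b1 := r0_lt M i0 i1 c0 u1 hM
  have b2 := av_lt M i1 c0 u1 hM
  have b3 := dv_lt M i2 c1 c2 u1 0 hM
  have b4 := gridExp_lt M i0 i1 i2 c0 c1 c2 u1 cols hM
  have b5 := dv_lt M i2 c1 c2 u1 cols hM
  refine RunLe.cast
    (RunLe.seq (app_run (T 12) (T 0) (ne _ _ (by decide)) rowPre o hpb hpl st h_rowPre h_out) <|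
     RunLe.seq (regCopy_run (T 20) (T 17) (ne _ _ (by decide)) 0 (r0 M i0 i1 c0 u1) _ ?_ ?_) <|
     RunLe.seq (regCopy_run (T 21) (T 19) (ne _ _ (by decide)) 0 (dv M i2 c1 c2 u1 0) _ ?_ ?_) <|
     RunLe.seq (slotLoop_run T hT z cols M i0 i1 i2 c0 c1 c2 u1 hM hc2 body tail hbb hbl htb htl
       (o ++ rowPre) _ ?_ ?_ ?_ ?_ ?_ ?_ ?_ ?_ ?_ ?_) <|
     RunLe.seq (app_run (T 15) (T 0) (ne _ _ (by decide)) rowPost
       (o ++ rowPre ++ slots M i0 i1 i2 c0 c1 c2 (Sum.inl z) body tail u1 cols) hqb hql _ ?_ ?_) <|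
     RunLe.seq (clr_run (T 20) (gridExp M i0 i1 i2 c0 c1 c2 u1 cols) _ ?_) <|
     RunLe.seq (clr_run (T 21) (dv M i2 c1 c2 u1 cols) _ ?_) <|
     RunLe.seq (regAddMod_run (T 17) (T 18) (T 4) (ne _ _ (by decide)) (ne _ _ (by decide))
       (ne _ _ (by decide)) (r0 M i0 i1 c0 u1) (av M i1 c0 u1) M b1 b2.le _ ?_ ?_ ?_) <|
     RunLe.seq (regAddMod_run (T 18) (T 8) (T 4) (ne _ _ (by decide)) (ne _ _ (by decide))
       (ne _ _ (by decide)) (av M i1 c0 u1) c0 M b2 hc0.le _ ?_ ?_ ?_)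
       (regAddMod_run (T 19) (T 9) (T 4) (ne _ _ (by decide)) (ne _ _ (by decide))
       (ne _ _ (by decide)) (dv M i2 c1 c2 u1 0) c1 M b3 hc1.le _ ?_ ?_ ?_))
    rfl ?fin ?bd
  case fin =>
    funext j
    simp only [Function.update_apply, row, r0_succ, av_succ, dv_row_succ, List.append_assoc]
    split_ifs <;> simp_all [hT.eq_iff]
  case bd =>
    unfold rowB
    omega
  all_goals
    simp only [Function.update_apply, hT.eq_iff, Fin.reduceEq, if_false, if_true, gridExp_zero,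
      h_cols, h_M, h_c0, h_c1, h_c2, h_body, h_tail, h_rowPost, h_R0, h_A, h_R1, h_s, h_d, h_t,
      h_M1]

/-- All rows of an array. -/
theorem rowLoop_run (T : Fin 24 → Fin K) (hT : Function.Injective T) (z : Sym)
    (nrows cols M i0 i1 i2 c0 c1 c2 : ℕ) (hM : 1 ≤ M) (hc0 : c0 < M) (hc1 : c1 < M)
    (hc2 : c2 < M) (rowPre body tail rowPost : List (Sym ⊕ α))
    (hpb : Sum.inl Sym.blank ∉ rowPre) (hpl : Sum.inl Sym.lend ∉ rowPre)
    (hbb : Sum.inl Sym.blank ∉ body) (hbl : Sum.inl Sym.lend ∉ body)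
    (htb : Sum.inl Sym.blank ∉ tail) (htl : Sum.inl Sym.lend ∉ tail)
    (hqb : Sum.inl Sym.blank ∉ rowPost) (hql : Sum.inl Sym.lend ∉ rowPost)
    (o : List (Sym ⊕ α)) (st : St (Sym ⊕ α) K)
    (h_out : st (T 0) = WTe o) (h_rows : st (T 2) = ruler nrows 0)
    (h_cols : st (T 3) = ruler cols 0)
    (h_M : st (T 4) = ruler M 0) (h_c0 : st (T 8) = ruler c0 0) (h_c1 : st (T 9) = ruler c1 0)
    (h_c2 : st (T 10) = ruler c2 0)
    (h_rowPre : st (T 12) = WT rowPre 0) (h_body : st (T 13) = WT body 0)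
    (h_tail : st (T 14) = WT tail 0) (h_rowPost : st (T 15) = WT rowPost 0)
    (h_R0 : st (T 17) = ruler (r0 M i0 i1 c0 0) 0) (h_A : st (T 18) = ruler (av M i1 c0 0) 0)
    (h_R1 : st (T 19) = ruler (dv M i2 c1 c2 0 0) 0)
    (h_s : st (T 20) = ruler 0 0) (h_d : st (T 21) = ruler 0 0)
    (h_t : st (T 22) = ruler 0 0) (h_M1 : st (T 23) = ruler (M - 1) 0) :
    RunLe (forRuler (T 2) (rowP T z)) st
      (Function.update (Function.update (Function.update (Function.update st
        (T 0) (WTe (o ++ rows cols M i0 i1 i2 c0 c1 c2 (Sum.inl z) rowPre body tail rowPost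
          nrows)))
        (T 17) (ruler (r0 M i0 i1 c0 nrows) 0))
        (T 18) (ruler (av M i1 c0 nrows) 0))
        (T 19) (ruler (dv M i2 c1 c2 nrows 0) 0))
      (nrows * (rowB cols M rowPre body tail rowPost + 4) + 5) := by
  have h := forRuler_run (T 2) (rowP T z) nrows
    (fun i => Function.update (Function.update (Function.update (Function.update
      (Function.update st
        (T 0) (WTe (o ++ rows cols M i0 i1 i2 c0 c1 c2 (Sum.inl z) rowPre body tail rowPost i)))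
        (T 17) (ruler (r0 M i0 i1 c0 i) 0))
        (T 18) (ruler (av M i1 c0 i) 0))
        (T 19) (ruler (dv M i2 c1 c2 i 0) 0))
        (T 2) (ruler nrows i))
    (fun _ => rowB cols M rowPre body tail rowPost)
    (by intro i _; simp)
    (by
      intro i _
      refine (rowP_run T hT z cols M i0 i1 i2 c0 c1 c2 i hM hc0 hc1 hc2 rowPre body tail rowPost
        hpb hpl hbb hbl htb htl hqb hql
        (o ++ rows cols M i0 i1 i2 c0 c1 c2 (Sum.inl z) rowPre body tail rowPost i) _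
        ?_ ?_ ?_ ?_ ?_ ?_ ?_ ?_ ?_ ?_ ?_ ?_ ?_ ?_ ?_ ?_ ?_).cast rfl ?fin le_rfl
      case fin =>
        rw [rows_succ]
        funext j
        simp only [Function.update_apply, List.append_assoc]
        split_ifs <;> simp_all [hT.eq_iff]
      all_goals
        simp only [Function.update_apply, hT.eq_iff, Fin.reduceEq, if_false, if_true,
          h_cols, h_M, h_c0, h_c1, h_c2, h_rowPre, h_body, h_tail, h_rowPost, h_s, h_d, h_t,
          h_M1])
  refine h.cast ?_ ?_ (le_of_eq ?_)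
  · funext j
    simp only [Function.update_apply, rows_zero, List.append_nil]
    split_ifs <;> simp_all [hT.eq_iff]
  · funext j
    simp only [Function.update_apply]
    split_ifs <;> simp_all [hT.eq_iff]
  · simp only [Finset.sum_const, Finset.card_range, smul_eq_mul]
    ring

end Vale.Agent.H91.MT.GG
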