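import Vale.Agent.H91.MT.RegB
import Vale.Agent.H91.MT.GenGrid_Pure

/-!
# TASK GENGRID, part 2: wrappers of the register programs and the slot emitter
-/

namespace Vale.Agent.H91.MT.GG

set_option linter.unusedSimpArgs false

variable {α : Type} {K : ℕ}

/-- A stream in append mode: head just after the data. -/
def WTe (l : List (Sym ⊕ α)) : Tape (Sym ⊕ α) := WT l l.length

theorem emit_run (a r : Fin K) (har : a ≠ r) (x : Sym) (l : List (Sym ⊕ α)) (n : ℕ)
    (st : St (Sym ⊕ α) K) (ha : st a = WTe l) (hr : st r = ruler n 0) :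
    RunLe (emitRep a r x) st
      (Function.update st a (WTe (l ++ List.replicate n (Sum.inl x)))) (5 * n + 5) := by
  refine (emitRep_run a r har x l n st ha hr).cast rfl ?_ le_rfl
  simp [WTe]

theorem app_run (a b : Fin K) (hab : a ≠ b) (l l' : List (Sym ⊕ α))
    (hb : Sum.inl Sym.blank ∉ l) (hl : Sum.inl Sym.lend ∉ l) (st : St (Sym ⊕ α) K)
    (ha : st a = WT l 0) (hb' : st b = WTe l') :
    RunLe (copyApp a b) st (Function.update st b (WTe (l' ++ l))) (5 * l.length + 8) := by
  refine (copyApp_run a b hab l l' hb hl st ha hb').cast rfl ?_ le_rfl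
  simp [WTe]

theorem clr_run (a : Fin K) (v : ℕ) (st : St (Sym ⊕ α) K) (h : st a = ruler v 0) :
    RunLe (clearTape a) st (Function.update st a (ruler 0 0)) (4 * v + 8) := by
  refine (clearTape_run a (List.replicate v (Sum.inl Sym.one)) (blank_not_mem_replicate_one v)
    (lend_not_mem_replicate_one v) 0 (Nat.zero_le _) st h).cast rfl rfl ?_
  simp

/-- Reading a tape of the layout in a state where another tape of the layout was updated. -/
theorem upd {T : Fin 24 → Fin K} (hT : Function.Injective T) (st : St (Sym ⊕ α) K)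
    (i j : Fin 24) (X : Tape (Sym ⊕ α)) (h : j ≠ i) :
    Function.update st (T i) X (T j) = st (T j) :=
  Function.update_of_ne (hT.ne h) _ _

/-- The slot emitter: appends `z^s ++ body ++ z^(M-1-s) ++ tail` and advances the exponent
registers (`T 20` holds `s`, `T 21` the first difference, `T 23` holds `M - 1`). -/
def slotP (T : Fin 24 → Fin K) (z : Sym) : Prog (Sym ⊕ α) K :=
  Prog.seq (emitRep (T 0) (T 20) z) <|
  Prog.seq (copyApp (T 13) (T 0)) <|
  Prog.seq (regCopy (T 22) (T 23)) <|
  Prog.seq (regSub (T 22) (T 20)) <|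
  Prog.seq (emitRep (T 0) (T 22) z) <|
  Prog.seq (copyApp (T 14) (T 0)) <|
  Prog.seq (clearTape (T 22)) <|
  Prog.seq (regAddMod (T 20) (T 21) (T 4)) (regAddMod (T 21) (T 10) (T 4))

theorem slotP_run (T : Fin 24 → Fin K) (hT : Function.Injective T) (z : Sym)
    (M c2 sv dv : ℕ) (hM : 1 ≤ M) (hc2 : c2 < M) (hsv : sv < M) (hdv : dv < M)
    (body tail : List (Sym ⊕ α))
    (hbb : Sum.inl Sym.blank ∉ body) (hbl : Sum.inl Sym.lend ∉ body)
    (htb : Sum.inl Sym.blank ∉ tail) (htl : Sum.inl Sym.lend ∉ tail)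
    (o : List (Sym ⊕ α)) (st : St (Sym ⊕ α) K)
    (h_out : st (T 0) = WTe o) (h_M : st (T 4) = ruler M 0) (h_c2 : st (T 10) = ruler c2 0)
    (h_body : st (T 13) = WT body 0) (h_tail : st (T 14) = WT tail 0)
    (h_s : st (T 20) = ruler sv 0) (h_d : st (T 21) = ruler dv 0)
    (h_t : st (T 22) = ruler 0 0) (h_M1 : st (T 23) = ruler (M - 1) 0) :
    RunLe (slotP T z) st
      (Function.update (Function.update (Function.update st
        (T 0) (WTe (o ++ slot M sv (Sum.inl z) body tail)))
        (T 20) (ruler ((sv + dv) % M) 0))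
        (T 21) (ruler ((dv + c2) % M) 0))
      (5 * (body.length + tail.length) + 100 * M + 290) := by
  have ne : ∀ i j : Fin 24, i ≠ j → T i ≠ T j := fun i j h => hT.ne h
  refine RunLe.cast
    (RunLe.seq (emit_run (T 0) (T 20) (ne _ _ (by decide)) z o sv st h_out h_s) <|
     RunLe.seq (app_run (T 13) (T 0) (ne _ _ (by decide)) body _ hbb hbl _ ?_
       (Function.update_self ..)) <|
     RunLe.seq (regCopy_run (T 22) (T 23) (ne _ _ (by decide)) 0 (M - 1) _ ?_ ?_) <|
     RunLe.seq (regSub_run (T 22) (T 20) (ne _ _ (by decide)) (M - 1) sv _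
       (Function.update_self ..) ?_) <|
     RunLe.seq (emit_run (T 0) (T 22) (ne _ _ (by decide)) z
       (o ++ List.replicate sv (Sum.inl z) ++ body) (M - 1 - sv) _ ?_
       (Function.update_self ..)) <|
     RunLe.seq (app_run (T 14) (T 0) (ne _ _ (by decide)) tail _ htb htl _ ?_
       (Function.update_self ..)) <|
     RunLe.seq (clr_run (T 22) (M - 1 - sv) _ ?_) <|
     RunLe.seq (regAddMod_run (T 20) (T 21) (T 4) (ne _ _ (by decide)) (ne _ _ (by decide))
       (ne _ _ (by decide)) sv dv M hsv hdv.le _ ?_ ?_ ?_)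
       (regAddMod_run (T 21) (T 10) (T 4) (ne _ _ (by decide)) (ne _ _ (by decide))
       (ne _ _ (by decide)) dv c2 M hdv hc2.le _ ?_ ?_ ?_))
    rfl ?fin ?bd
  case fin =>
    funext j
    simp only [Function.update_apply, slot, List.append_assoc]
    split_ifs <;> simp_all [hT.eq_iff]
  case bd => omega
  all_goals
    simp only [Function.update_apply, hT.eq_iff, Fin.reduceEq, if_false, if_true, h_M, h_c2,
      h_body, h_tail, h_s, h_d, h_t, h_M1]

/-- All slots of a row. -/
theorem slotLoop_run (T : Fin 24 → Fin K) (hT : Function.Injective T) (z : Sym)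
    (cols M i0 i1 i2 c0 c1 c2 u1 : ℕ) (hM : 1 ≤ M) (hc2 : c2 < M)
    (body tail : List (Sym ⊕ α))
    (hbb : Sum.inl Sym.blank ∉ body) (hbl : Sum.inl Sym.lend ∉ body)
    (htb : Sum.inl Sym.blank ∉ tail) (htl : Sum.inl Sym.lend ∉ tail)
    (o : List (Sym ⊕ α)) (st : St (Sym ⊕ α) K)
    (h_out : st (T 0) = WTe o) (h_cols : st (T 3) = ruler cols 0)
    (h_M : st (T 4) = ruler M 0) (h_c2 : st (T 10) = ruler c2 0)
    (h_body : st (T 13) = WT body 0) (h_tail : st (T 14) = WT tail 0)
    (h_s : st (T 20) = ruler (gridExp M i0 i1 i2 c0 c1 c2 u1 0) 0)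
    (h_d : st (T 21) = ruler (dv M i2 c1 c2 u1 0) 0)
    (h_t : st (T 22) = ruler 0 0) (h_M1 : st (T 23) = ruler (M - 1) 0) :
    RunLe (forRuler (T 3) (slotP T z)) st
      (Function.update (Function.update (Function.update st
        (T 0) (WTe (o ++ slots M i0 i1 i2 c0 c1 c2 (Sum.inl z) body tail u1 cols)))
        (T 20) (ruler (gridExp M i0 i1 i2 c0 c1 c2 u1 cols) 0))
        (T 21) (ruler (dv M i2 c1 c2 u1 cols) 0))
      (cols * (5 * (body.length + tail.length) + 100 * M + 294) + 5) := by
  have h := forRuler_run (T 3) (slotP T z) cols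
    (fun i => Function.update (Function.update (Function.update (Function.update st
        (T 0) (WTe (o ++ slots M i0 i1 i2 c0 c1 c2 (Sum.inl z) body tail u1 i)))
        (T 20) (ruler (gridExp M i0 i1 i2 c0 c1 c2 u1 i) 0))
        (T 21) (ruler (dv M i2 c1 c2 u1 i) 0))
        (T 3) (ruler cols i))
    (fun _ => 5 * (body.length + tail.length) + 100 * M + 290)
    (by intro i _; simp)
    (by
      intro i _
      refine (slotP_run T hT z M c2 (gridExp M i0 i1 i2 c0 c1 c2 u1 i) (dv M i2 c1 c2 u1 i)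
        hM hc2 (gridExp_lt _ _ _ _ _ _ _ _ _ hM) (dv_lt _ _ _ _ _ _ hM) body tail hbb hbl htb htl
        (o ++ slots M i0 i1 i2 c0 c1 c2 (Sum.inl z) body tail u1 i) _
        ?_ ?_ ?_ ?_ ?_ ?_ ?_ ?_ ?_).cast rfl ?fin le_rfl
      case fin =>
        rw [slots_succ, gridExp_succ, dv_succ]
        funext j
        simp only [Function.update_apply, List.append_assoc]
        split_ifs <;> simp_all [hT.eq_iff]
      all_goals
        simp only [Function.update_apply, hT.eq_iff, Fin.reduceEq, if_false, if_true, h_M, h_c2,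
          h_body, h_tail, h_t, h_M1])
  refine h.cast ?_ ?_ (le_of_eq ?_)
  · funext j
    simp only [Function.update_apply, slots_zero, List.append_nil]
    split_ifs <;> simp_all [hT.eq_iff]
  · funext j
    simp only [Function.update_apply]
    split_ifs <;> simp_all [hT.eq_iff]
  · simp only [Finset.sum_const, Finset.card_range, smul_eq_mul]
    ring

end Vale.Agent.H91.MT.GG
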