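import Vale.Agent.H91.MT.GenGrid
import Vale.Agent.H91.MT.RegC

/-!
# Overlay states for straight-line generator programs (helper for TASK GENKER1)

`ovl T s v` is the state that holds `v i` on tape `T i` and agrees with `s` elsewhere.  Each
register / stream program of RegA, RegB, RegC and `genGrid` gets a version acting on overlay
states, so that a straight-line program over the tapes `T i` can be executed symbolically on the
vector `v` (nested `Function.update`s with literal indices).
-/

namespace Vale.Agent.H91.MT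

namespace Ovl

variable {α : Type} {K n : ℕ}

/-- The state that is `v i` on tape `T i` and `s` elsewhere. -/
noncomputable def ovl (T : Fin n → Fin K) (s : St (Sym ⊕ α) K) (v : Fin n → Tape (Sym ⊕ α)) :
    St (Sym ⊕ α) K :=
  open Classical in fun j => if h : ∃ i, T i = j then v h.choose else s j

theorem ovl_apply {T : Fin n → Fin K} (hT : Function.Injective T) (s : St (Sym ⊕ α) K)
    (v : Fin n → Tape (Sym ⊕ α)) (i : Fin n) : ovl T s v (T i) = v i := by
  classical
  have h : ∃ i', T i' = T i := ⟨i, rfl⟩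
  unfold ovl
  rw [dif_pos h]
  exact congrArg v (hT h.choose_spec)

theorem ovl_update {T : Fin n → Fin K} (hT : Function.Injective T) (s : St (Sym ⊕ α) K)
    (v : Fin n → Tape (Sym ⊕ α)) (i : Fin n) (x : Tape (Sym ⊕ α)) :
    Function.update (ovl T s v) (T i) x = ovl T s (Function.update v i x) := by
  classical
  funext j
  by_cases hj : j = T i
  · subst hj
    rw [Function.update_self, ovl_apply hT, Function.update_self]
  · rw [Function.update_of_ne hj]
    unfold ovl
    by_cases h : ∃ i', T i' = j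
    · rw [dif_pos h, dif_pos h]
      have : h.choose ≠ i := by
        intro e
        exact hj (by rw [← h.choose_spec, e])
      rw [Function.update_of_ne this]
    · rw [dif_neg h, dif_neg h]

theorem ovl_self {T : Fin n → Fin K} (s : St (Sym ⊕ α) K) :
    ovl T s (fun i => s (T i)) = s := by
  classical
  funext j
  unfold ovl
  by_cases h : ∃ i', T i' = j
  · rw [dif_pos h]
    exact congrArg s h.choose_spec
  · rw [dif_neg h]

/-- The target shape of a generator: only one tape differs from the start. -/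
theorem ovl_final {T : Fin n → Fin K} (hT : Function.Injective T) (s : St (Sym ⊕ α) K)
    (i : Fin n) (x : Tape (Sym ⊕ α)) :
    ovl T s (Function.update (fun i => s (T i)) i x) = Function.update s (T i) x := by
  rw [← ovl_update hT, ovl_self]

/-! ## The register programs on overlay states -/

section
variable {T : Fin n → Fin K} (hT : Function.Injective T) (s : St (Sym ⊕ α) K)
  (v : Fin n → Tape (Sym ⊕ α))
include hT

theorem regConst_ovl (r : Fin n) (c x : ℕ) (hr : v r = ruler x 0) :
    RunLe (regConst (T r) c) (ovl T s v) (ovl T s (Function.update v r (ruler c 0)))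
      (10 * (x + c) + 20) := by
  have h := regConst_run (α := α) (T r) c x (ovl T s v) (by rw [ovl_apply hT, hr])
  rwa [ovl_update hT] at h

theorem regCopy_ovl (r a : Fin n) (hra : r ≠ a) (x w : ℕ) (hr : v r = ruler x 0)
    (ha : v a = ruler w 0) :
    RunLe (regCopy (T r) (T a)) (ovl T s v) (ovl T s (Function.update v r (ruler w 0)))
      (10 * (x + w) + 30) := by
  have h := regCopy_run (α := α) (T r) (T a) (hT.ne hra) x w (ovl T s v)
    (by rw [ovl_apply hT, hr]) (by rw [ovl_apply hT, ha])
  rwa [ovl_update hT] at h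

theorem regAdd_ovl (r a : Fin n) (hra : r ≠ a) (x w : ℕ) {val : ℕ} (hval : x + w = val)
    (hr : v r = ruler x 0) (ha : v a = ruler w 0) :
    RunLe (regAdd (T r) (T a)) (ovl T s v) (ovl T s (Function.update v r (ruler val 0)))
      (10 * (x + w) + 30) := by
  subst hval
  have h := regAdd_run (α := α) (T r) (T a) (hT.ne hra) x w (ovl T s v)
    (by rw [ovl_apply hT, hr]) (by rw [ovl_apply hT, ha])
  rwa [ovl_update hT] at h

theorem regSub_ovl (r a : Fin n) (hra : r ≠ a) (x w : ℕ) {val : ℕ} (hval : x - w = val)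
    (hr : v r = ruler x 0) (ha : v a = ruler w 0) :
    RunLe (regSub (T r) (T a)) (ovl T s v) (ovl T s (Function.update v r (ruler val 0)))
      (10 * (x + w) + 40) := by
  subst hval
  have h := regSub_run (α := α) (T r) (T a) (hT.ne hra) x w (ovl T s v)
    (by rw [ovl_apply hT, hr]) (by rw [ovl_apply hT, ha])
  rwa [ovl_update hT] at h

theorem regMulAdd_ovl (r a b : Fin n) (hra : r ≠ a) (hrb : r ≠ b) (hab : a ≠ b) (x y z : ℕ)
    {val : ℕ} (hval : x + y * z = val)
    (hr : v r = ruler x 0) (ha : v a = ruler y 0) (hb : v b = ruler z 0) :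
    RunLe (regMulAdd (T r) (T a) (T b)) (ovl T s v)
      (ovl T s (Function.update v r (ruler val 0)))
      (10 * (x + y * z + y + z) + 40) := by
  subst hval
  have h := regMulAdd_run (α := α) (T r) (T a) (T b) (hT.ne hra) (hT.ne hrb) (hT.ne hab) x y z
    (ovl T s v) (by rw [ovl_apply hT, hr]) (by rw [ovl_apply hT, ha]) (by rw [ovl_apply hT, hb])
  rwa [ovl_update hT] at h

theorem emitRep_ovl (a r : Fin n) (har : a ≠ r) (x : Sym) (l : List (Sym ⊕ α)) (m : ℕ)
    (ha : v a = WT l l.length) (hr : v r = ruler m 0) :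
    RunLe (emitRep (T a) (T r) x) (ovl T s v)
      (ovl T s (Function.update v a (WT (l ++ List.replicate m (Sum.inl x)) (l.length + m))))
      (5 * m + 5) := by
  have h := emitRep_run (α := α) (T a) (T r) (hT.ne har) x l m (ovl T s v)
    (by rw [ovl_apply hT, ha]) (by rw [ovl_apply hT, hr])
  rwa [ovl_update hT] at h

theorem rewind_ovl (a : Fin n) (l : List (Sym ⊕ α)) (hl : Sum.inl Sym.lend ∉ l) (p : ℕ)
    (ha : v a = WT l p) :
    RunLe (rewind (T a)) (ovl T s v) (ovl T s (Function.update v a (WT l 0))) (2 * p + 4) := by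
  have h := (rewind_run (α := α) (T a) l hl p (ovl T s v) (by rw [ovl_apply hT, ha])).le
  rwa [ovl_update hT] at h

theorem clearTape_ovl (a : Fin n) (l : List (Sym ⊕ α)) (hb : Sum.inl Sym.blank ∉ l)
    (hl : Sum.inl Sym.lend ∉ l) (p : ℕ) (hp : p ≤ l.length) (ha : v a = WT l p) :
    RunLe (clearTape (T a)) (ovl T s v) (ovl T s (Function.update v a (WT [] 0)))
      (4 * l.length + 8) := by
  have h := clearTape_run (α := α) (T a) l hb hl p hp (ovl T s v) (by rw [ovl_apply hT, ha])
  rwa [ovl_update hT] at h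

end

/-! ## Goals for straight-line programs with an accumulated cost -/

/-- Run `p` from `S` to `S'` with cost at most `bound - acc`. -/
def Goal {Γ : Type} (p : Prog Γ K) (S S' : St Γ K) (acc bound : ℕ) : Prop :=
  ∃ B, RunLe p S S' B ∧ acc + B ≤ bound

/-- One more instruction: its cost bound `c` is added to the accumulated cost. -/
theorem Goal.step {Γ : Type} {p rest : Prog Γ K} {S S1 S' : St Γ K} {b c acc bound : ℕ}
    (h : RunLe p S S1 b) (hb : b ≤ c) (k : Goal rest S1 S' (acc + c) bound) :
    Goal (Prog.seq p rest) S S' acc bound := by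
  obtain ⟨B, hB, hle⟩ := k
  exact ⟨b + B, RunLe.seq h hB, by omega⟩

/-- The last instruction. -/
theorem Goal.last {Γ : Type} {p : Prog Γ K} {S S1 S' : St Γ K} {b c acc bound : ℕ}
    (h : RunLe p S S1 b) (hb : b ≤ c) (hS : S1 = S') (hacc : acc + c ≤ bound) :
    Goal p S S' acc bound :=
  ⟨b, h.cast rfl hS le_rfl, by omega⟩

theorem Goal.runLe {Γ : Type} {p : Prog Γ K} {S S' : St Γ K} {bound : ℕ}
    (h : Goal p S S' 0 bound) : RunLe p S S' bound := by
  obtain ⟨B, hB, hle⟩ := h
  exact hB.mono (by omega)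

/-! ## The grid generator on the first 24 tapes of a 40-tape layout -/

/-- The first 24 tapes of a 40-tape layout. -/
def sub24 (T : Fin 40 → Fin K) : Fin 24 → Fin K := fun i => T (Fin.castLE (by norm_num) i)

theorem sub24_injective {T : Fin 40 → Fin K} (hT : Function.Injective T) :
    Function.Injective (sub24 T) := by
  intro i j h
  exact Fin.castLE_injective _ (hT h)

theorem genGrid_ovl {T : Fin 40 → Fin K} (hT : Function.Injective T) (s : St (Sym ⊕ α) K)
    (v : Fin 40 → Tape (Sym ⊕ α)) (z : Sym)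
    (hz : z ≠ Sym.blank) (hz' : z ≠ Sym.lend)
    (reps rows cols M i0 i1 i2 c0 c1 c2 : ℕ) (hM : 1 ≤ M)
    (h0 : i0 < M) (h1 : i1 < M) (h2 : i2 < M) (h3 : c0 < M) (h4 : c1 < M) (h5 : c2 < M)
    (arrPre rowPre body tail rowPost arrPost : List Sym)
    (hclean : ∀ x ∈ arrPre ++ rowPre ++ body ++ tail ++ rowPost ++ arrPost,
      x ≠ Sym.blank ∧ x ≠ Sym.lend)
    (o : List (Sym ⊕ α))
    (h_out : v 0 = WT o o.length)
    (h_reps : v 1 = ruler reps 0) (h_rows : v 2 = ruler rows 0)
    (h_cols : v 3 = ruler cols 0) (h_M : v 4 = ruler M 0)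
    (h_i0 : v 5 = ruler i0 0) (h_i1 : v 6 = ruler i1 0) (h_i2 : v 7 = ruler i2 0)
    (h_c0 : v 8 = ruler c0 0) (h_c1 : v 9 = ruler c1 0) (h_c2 : v 10 = ruler c2 0)
    (h_arrPre : v 11 = WT (arrPre.map Sum.inl) 0)
    (h_rowPre : v 12 = WT (rowPre.map Sum.inl) 0)
    (h_body : v 13 = WT (body.map Sum.inl) 0)
    (h_tail : v 14 = WT (tail.map Sum.inl) 0)
    (h_rowPost : v 15 = WT (rowPost.map Sum.inl) 0)
    (h_arrPost : v 16 = WT (arrPost.map Sum.inl) 0)
    (h17 : v 17 = ruler 0 0) (h18 : v 18 = ruler 0 0) (h19 : v 19 = ruler 0 0)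
    (h20 : v 20 = ruler 0 0) (h21 : v 21 = ruler 0 0) (h22 : v 22 = ruler 0 0)
    (h23 : v 23 = ruler 0 0) :
    RunLe (genGrid (sub24 T) z) (ovl T s v)
      (ovl T s (Function.update v 0
        (WT (o ++ (gridList reps rows cols M i0 i1 i2 c0 c1 c2 z
            arrPre rowPre body tail rowPost arrPost).map Sum.inl)
          (o.length + (gridList reps rows cols M i0 i1 i2 c0 c1 c2 z
            arrPre rowPre body tail rowPost arrPost).length))))
      (200 * ((gridList reps rows cols M i0 i1 i2 c0 c1 c2 z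
            arrPre rowPre body tail rowPost arrPost).length
          + reps * (rows * (cols + 1) + 1) * (M + 1) + 1)) := by
  have key : ∀ (i : Fin 40) (x : Tape (Sym ⊕ α)), v i = x → ovl T s v (T i) = x := by
    intro i x hx
    rw [ovl_apply hT, hx]
  have h := genGrid_run (α := α) (sub24 T) (sub24_injective hT) z hz hz' reps rows cols M i0 i1 i2
    c0 c1 c2 hM h0 h1 h2 h3 h4 h5 arrPre rowPre body tail rowPost arrPost hclean o (ovl T s v)
    (key 0 _ h_out) (key 1 _ h_reps) (key 2 _ h_rows) (key 3 _ h_cols) (key 4 _ h_M)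
    (key 5 _ h_i0) (key 6 _ h_i1) (key 7 _ h_i2) (key 8 _ h_c0) (key 9 _ h_c1) (key 10 _ h_c2)
    (key 11 _ h_arrPre) (key 12 _ h_rowPre) (key 13 _ h_body) (key 14 _ h_tail)
    (key 15 _ h_rowPost) (key 16 _ h_arrPost)
    (by
      intro i hi
      rcases i with ⟨i, hi'⟩
      simp only at hi
      interval_cases i
      · exact key 17 _ h17
      · exact key 18 _ h18
      · exact key 19 _ h19
      · exact key 20 _ h20
      · exact key 21 _ h21
      · exact key 22 _ h22
      · exact key 23 _ h23)
  have e : sub24 T 0 = T 0 := rfl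
  rw [e, ovl_update hT] at h
  exact h

/-! ## Elements of a grid list -/

theorem mem_gridList {β : Type} (reps rows cols M i0 i1 i2 c0 c1 c2 : ℕ) (z : β)
    (arrPre rowPre body tail rowPost arrPost : List β) (x : β)
    (hx : x ∈ gridList reps rows cols M i0 i1 i2 c0 c1 c2 z arrPre rowPre body tail rowPost
      arrPost) :
    x = z ∨ x ∈ arrPre ∨ x ∈ rowPre ∨ x ∈ body ∨ x ∈ tail ∨ x ∈ rowPost ∨ x ∈ arrPost := by
  unfold gridList at hx
  simp only [List.mem_flatMap, List.mem_append, List.mem_replicate, List.mem_range] at hx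
  aesop

end Ovl

end Vale.Agent.H91.MT
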