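import Vale.Agent.H91.MT.GenGrid
import Vale.Agent.H91.MT.RegC
import Vale.Agent.H91.MT.PureLen
import Vale.Agent.H91.MT.GenKer1_Ovl

/-!
# TASK GENKER1: generating the kernel `ker1` on a tape

Tapes (an injective map `T : Fin 40 → Fin K`):
`T 0 .. T 23`: the tapes of `genGrid` (see GenGrid.lean: `T 0` output stream, `T 1 .. T 16`
parameter registers and templates, `T 17 .. T 23` scratch); all empty (`WT [] 0`) before; after
the run all are empty again except `T 0`, which holds the generated list, rewound;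
`T 24 .. T 30`: base registers `R, r0, c0, a, P, E, q` with `E = q * P` (read only);
`T 31`: spare base register (do not touch);
`T 32 .. T 39`: scratch registers, empty before and after.

Plan: compute the parameter registers and templates of the grid with the register programs of
RegA / RegB / RegC (their statements may be used as black boxes), call `genGrid`, clear the
parameter tapes, rewind `T 0`.  Unfold the `SwapParams` definitions to see the exact numbers;
with `m = 4E`, `M = 8E`, `h = 4q`, `W = 64E`, `V = 56E`, `SA = 8 P^2`, `g = 8`.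
Numeric constants in the time bound may be changed (keep the shape).

The proof executes the straight-line program symbolically on overlay states
(`Ovl.ovl`, see GenKer1_Ovl.lean).
-/

namespace Vale.Agent.H91.MT

variable {α : Type} {K : ℕ}

/-- Generator of `SwapParams.ker1`. -/
def genKer1 (T : Fin 40 → Fin K) : Prog (Sym ⊕ α) K :=
  Prog.seq (regConst (T 1) 1) <|
  Prog.seq (regCopy (T 2) (T 28)) <|
  Prog.seq (regAdd (T 2) (T 28)) <|
  Prog.seq (regSub (T 2) (T 1)) <|
  Prog.seq (regCopy (T 3) (T 2)) <|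
  Prog.seq (regConst (T 32) 8) <|
  Prog.seq (regMulAdd (T 4) (T 32) (T 29)) <|
  Prog.seq (regCopy (T 5) (T 4)) <|
  Prog.seq (regMulAdd (T 33) (T 32) (T 30)) <|
  Prog.seq (regSub (T 5) (T 33)) <|
  Prog.seq (regCopy (T 6) (T 5)) <|
  Prog.seq (regCopy (T 7) (T 5)) <|
  Prog.seq (regCopy (T 9) (T 5)) <|
  Prog.seq (emitRep (T 13) (T 1) Sym.one) <|
  Prog.seq (rewind (T 13)) <|
  Prog.seq (regConst (T 35) 7) <|
  Prog.seq (regMulAdd (T 34) (T 35) (T 4)) <|
  Prog.seq (emitRep (T 14) (T 34) Sym.zero) <|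
  Prog.seq (rewind (T 14)) <|
  Prog.seq (regMulAdd (T 36) (T 32) (T 4)) <|
  Prog.seq (emitRep (T 15) (T 36) Sym.zero) <|
  Prog.seq (rewind (T 15)) <|
  Prog.seq (genGrid (Ovl.sub24 T) Sym.zero) <|
  Prog.seq (rewind (T 0)) <|
  Prog.seq (regConst (T 1) 0) <|
  Prog.seq (regConst (T 2) 0) <|
  Prog.seq (regConst (T 3) 0) <|
  Prog.seq (regConst (T 4) 0) <|
  Prog.seq (regConst (T 5) 0) <|
  Prog.seq (regConst (T 6) 0) <|
  Prog.seq (regConst (T 7) 0) <|
  Prog.seq (regConst (T 9) 0) <|
  Prog.seq (clearTape (T 13)) <|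
  Prog.seq (clearTape (T 14)) <|
  Prog.seq (clearTape (T 15)) <|
  Prog.seq (regConst (T 32) 0) <|
  Prog.seq (regConst (T 33) 0) <|
  Prog.seq (regConst (T 34) 0) <|
  Prog.seq (regConst (T 35) 0) <|
  regConst (T 36) 0

namespace GenKer1

/-- The generated grid, as a list of work symbols, is the kernel. -/
theorem ker_map (p : SwapParams) :
    (gridList 1 (2 * p.P - 1) (2 * p.P - 1) p.M p.kap p.kap p.kap 0 p.kap 0 Sym.zero
      [] [] [Sym.one] (List.replicate (p.W - p.M) Sym.zero) (List.replicate p.W Sym.zero) []).map (Sum.inl : Sym → Sym ⊕ α) = p.ker1.map bsym := by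
  rw [SwapParams.ker1, gridList_map, gridList_map]
  simp [bsym]

theorem ker_length (p : SwapParams) (hp : p.Ok) :
    (gridList 1 (2 * p.P - 1) (2 * p.P - 1) p.M p.kap p.kap p.kap 0 p.kap 0 Sym.zero
      [] [] [Sym.one] (List.replicate (p.W - p.M) Sym.zero) (List.replicate p.W Sym.zero) []).length = (2 * p.P - 1) * (2 * p.P) * p.W := by
  have h1 := congrArg List.length (ker_map (α := Unit) p)
  rw [List.length_map, List.length_map, SwapParams.len_ker1 p hp] at h1
  exact h1

theorem lend_not_mem (p : SwapParams) :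
    (Sum.inl Sym.lend : Sym ⊕ α) ∉ [] ++ (gridList 1 (2 * p.P - 1) (2 * p.P - 1) p.M p.kap p.kap p.kap 0 p.kap 0 Sym.zero
      [] [] [Sym.one] (List.replicate (p.W - p.M) Sym.zero) (List.replicate p.W Sym.zero) []).map Sum.inl := by
  intro hmem
  rw [List.nil_append, List.mem_map] at hmem
  obtain ⟨x, hx, hxe⟩ := hmem
  have hx' : x = Sym.lend := Sum.inl_injective hxe
  subst hx'
  have := Ovl.mem_gridList _ _ _ _ _ _ _ _ _ _ _ _ _ _ _ _ _ _ hx
  simp at this

theorem clean (p : SwapParams) :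
    ∀ x ∈ ([] : List Sym) ++ [] ++ [Sym.one] ++ List.replicate (p.W - p.M) Sym.zero ++
      List.replicate p.W Sym.zero ++ [], x ≠ Sym.blank ∧ x ≠ Sym.lend := by
  intro x hx
  have hx' : x = Sym.one ∨ x = Sym.zero := by
    simp only [List.nil_append, List.append_nil, List.mem_append, List.mem_singleton,
      List.mem_replicate] at hx
    tauto
  rcases hx' with rfl | rfl <;> exact ⟨by decide, by decide⟩

/-- The arithmetic facts used for the time bound. -/
theorem arith (p : SwapParams) (hp : p.Ok) (q : ℕ) (hq : p.E = q * p.P) (hR : 1 ≤ p.R) :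
    1 ≤ p.P ∧ 1 ≤ q ∧ p.P ≤ p.E ∧ q ≤ p.E ∧ p.M = 8 * p.E ∧ p.W = 64 * p.E ∧ p.h = 4 * q ∧
    512 * (p.P * p.P * p.E) ≤ p.R * p.SA * p.W ∧ p.E ≤ p.P * p.P * p.E ∧
    (gridList 1 (2 * p.P - 1) (2 * p.P - 1) p.M p.kap p.kap p.kap 0 p.kap 0 Sym.zero
      [] [] [Sym.one] (List.replicate (p.W - p.M) Sym.zero) (List.replicate p.W Sym.zero) []).length ≤ 256 * (p.P * p.P * p.E) ∧
    1 * ((2 * p.P - 1) * (2 * p.P - 1 + 1) + 1) * (p.M + 1) ≤ 36 * (p.P * p.P * p.E) := by
  have hE := hp.hE
  have hP1 : 1 ≤ p.P := Nat.one_le_two_pow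
  have hq1 : 1 ≤ q := by
    rcases Nat.eq_zero_or_pos q with h | h
    · rw [h, zero_mul] at hq; omega
    · exact h
  have hPE : p.P ≤ p.E := by rw [hq]; exact Nat.le_mul_of_pos_left _ hq1
  have hqE : q ≤ p.E := by rw [hq]; exact Nat.le_mul_of_pos_right _ hP1
  have hM : p.M = 8 * p.E := by
    show 2 * (4 * p.E) = 8 * p.E
    omega
  have hW : p.W = 64 * p.E := by
    show 16 * (4 * p.E) = 64 * p.E
    omega
  have hh : p.h = 4 * q := by
    show 4 * p.E / p.P = 4 * q
    rw [hq, ← Nat.mul_assoc]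
    exact Nat.mul_div_cancel _ (by omega)
  have hA : 512 * (p.P * p.P * p.E) ≤ p.R * p.SA * p.W := by
    calc 512 * (p.P * p.P * p.E) = 1 * (8 * p.P * p.P) * (16 * (4 * p.E)) := by ring
      _ ≤ p.R * p.SA * p.W := Nat.mul_le_mul (Nat.mul_le_mul hR le_rfl) le_rfl
  have hEA : p.E ≤ p.P * p.P * p.E := Nat.le_mul_of_pos_left _ (Nat.mul_pos hP1 hP1)
  have hgl : (gridList 1 (2 * p.P - 1) (2 * p.P - 1) p.M p.kap p.kap p.kap 0 p.kap 0 Sym.zero
      [] [] [Sym.one] (List.replicate (p.W - p.M) Sym.zero) (List.replicate p.W Sym.zero) []).length ≤ 256 * (p.P * p.P * p.E) := by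
    rw [ker_length p hp, hW]
    calc (2 * p.P - 1) * (2 * p.P) * (64 * p.E) ≤ (2 * p.P) * (2 * p.P) * (64 * p.E) :=
          Nat.mul_le_mul (Nat.mul_le_mul (Nat.sub_le _ _) le_rfl) le_rfl
      _ = 256 * (p.P * p.P * p.E) := by ring
  have hslots : 1 * ((2 * p.P - 1) * (2 * p.P - 1 + 1) + 1) * (p.M + 1)
      ≤ 36 * (p.P * p.P * p.E) := by
    have a2 : 2 * p.P - 1 + 1 = 2 * p.P := by omega
    have a3 : (2 * p.P - 1) * (2 * p.P - 1 + 1) + 1 ≤ 4 * (p.P * p.P) := by
      rw [a2]
      have e := Nat.sub_one_mul (2 * p.P) (2 * p.P)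
      have e2 : 2 * p.P * (2 * p.P) = 4 * (p.P * p.P) := by ring
      have e3 : 1 ≤ p.P * p.P := Nat.mul_pos hP1 hP1
      have e4 : 2 * p.P ≤ 4 * (p.P * p.P) := by nlinarith
      omega
    calc 1 * ((2 * p.P - 1) * (2 * p.P - 1 + 1) + 1) * (p.M + 1)
        ≤ 1 * (4 * (p.P * p.P)) * (9 * p.E) :=
          Nat.mul_le_mul (Nat.mul_le_mul le_rfl a3) (by omega)
      _ = 36 * (p.P * p.P * p.E) := by ring
  exact ⟨hP1, hq1, hPE, hqE, hM, hW, hh, hA, hEA, hgl, hslots⟩

end GenKer1

open Ovl in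
theorem genKer1_run (T : Fin 40 → Fin K) (hT : Function.Injective T) (p : SwapParams)
    (hp : p.Ok) (q : ℕ) (hq : p.E = q * p.P) (hr0 : 1 ≤ p.r0) (hc0 : 1 ≤ p.c0) (hR : 1 ≤ p.R)
    (s : St (Sym ⊕ α) K) (hbase : BaseRegs T p q s)
    (hempty : ∀ i : Fin 40, (i.val < 24 ∨ 32 ≤ i.val) → s (T i) = WT [] 0) :
    RunLe (genKer1 T) s (Function.update s (T 0) (WT (p.ker1.map bsym) 0))
      (100000 * (p.R * p.SA * p.W + 1)) := by
  obtain ⟨bR, br0, bc0, ba, bP, bE, bq⟩ := hbase
  have hz : ∀ i : Fin 40, (i.val < 24 ∨ 32 ≤ i.val) → s (T i) = ruler 0 0 :=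
    fun i hi => hempty i hi
  have z1 := hz 1 (by decide)
  have z2 := hz 2 (by decide)
  have z3 := hz 3 (by decide)
  have z4 := hz 4 (by decide)
  have z5 := hz 5 (by decide)
  have z6 := hz 6 (by decide)
  have z7 := hz 7 (by decide)
  have z8 := hz 8 (by decide)
  have z9 := hz 9 (by decide)
  have z10 := hz 10 (by decide)
  have z17 := hz 17 (by decide)
  have z18 := hz 18 (by decide)
  have z19 := hz 19 (by decide)
  have z20 := hz 20 (by decide)
  have z21 := hz 21 (by decide)
  have z22 := hz 22 (by decide)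
  have z23 := hz 23 (by decide)
  have z32 := hz 32 (by decide)
  have z33 := hz 33 (by decide)
  have z34 := hz 34 (by decide)
  have z35 := hz 35 (by decide)
  have z36 := hz 36 (by decide)
  have e0 := hempty 0 (by decide)
  have e11 := hempty 11 (by decide)
  have e12 := hempty 12 (by decide)
  have e13 := hempty 13 (by decide)
  have e14 := hempty 14 (by decide)
  have e15 := hempty 15 (by decide)
  have e16 := hempty 16 (by decide)
  obtain ⟨hP1, hq1, hPE, hqE, hM, hW, hh, hA, hEA, hgl, hslots⟩ := GenKer1.arith p hp q hq hR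
  have hE := hp.hE
  have hkap : p.kap = p.M - 2 * p.h := rfl
  have hker := GenKer1.ker_map (α := α) p
  have hlend := GenKer1.lend_not_mem (α := α) p
  have hclean := GenKer1.clean p
  have key : Goal (genKer1 (α := α) T) (ovl T s (fun i => s (T i)))
      (ovl T s (Function.update (fun i => s (T i)) 0 (WT (p.ker1.map bsym) 0))) 0
      (100000 * (p.R * p.SA * p.W + 1)) := by
    unfold genKer1
    refine Goal.step (regConst_ovl hT s _ 1 1 0 (by exact z1))
      (by omega : _ ≤ 100000 * p.E) ?_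
    refine Goal.step (regCopy_ovl hT s _ 2 28 (by decide) 0 p.P (by exact z2) (by exact bP))
      (by omega : _ ≤ 100000 * p.E) ?_
    refine Goal.step (regAdd_ovl hT s _ 2 28 (by decide) p.P p.P (val := 2 * p.P) (by omega) (by rfl) (by exact bP))
      (by omega : _ ≤ 100000 * p.E) ?_
    refine Goal.step (regSub_ovl hT s _ 2 1 (by decide) (2 * p.P) 1 (val := 2 * p.P - 1) rfl (by rfl) (by rfl))
      (by omega : _ ≤ 100000 * p.E) ?_
    refine Goal.step (regCopy_ovl hT s _ 3 2 (by decide) 0 (2 * p.P - 1) (by exact z3) (by rfl))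
      (by omega : _ ≤ 100000 * p.E) ?_
    refine Goal.step (regConst_ovl hT s _ 32 8 0 (by exact z32))
      (by omega : _ ≤ 100000 * p.E) ?_
    refine Goal.step (regMulAdd_ovl hT s _ 4 32 29 (by decide) (by decide) (by decide) 0 8 p.E (val := p.M) (by omega) (by exact z4) (by rfl) (by exact bE))
      (by omega : _ ≤ 100000 * p.E) ?_
    refine Goal.step (regCopy_ovl hT s _ 5 4 (by decide) 0 p.M (by exact z5) (by rfl))
      (by omega : _ ≤ 100000 * p.E) ?_
    refine Goal.step (regMulAdd_ovl hT s _ 33 32 30 (by decide) (by decide) (by decide) 0 8 q (val := 2 * p.h) (by omega) (by exact z33) (by rfl) (by exact bq))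
      (by omega : _ ≤ 100000 * p.E) ?_
    refine Goal.step (regSub_ovl hT s _ 5 33 (by decide) p.M (2 * p.h) (val := p.kap) rfl (by rfl) (by rfl))
      (by omega : _ ≤ 100000 * p.E) ?_
    refine Goal.step (regCopy_ovl hT s _ 6 5 (by decide) 0 p.kap (by exact z6) (by rfl))
      (by omega : _ ≤ 100000 * p.E) ?_
    refine Goal.step (regCopy_ovl hT s _ 7 5 (by decide) 0 p.kap (by exact z7) (by rfl))
      (by omega : _ ≤ 100000 * p.E) ?_
    refine Goal.step (regCopy_ovl hT s _ 9 5 (by decide) 0 p.kap (by exact z9) (by rfl))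
      (by omega : _ ≤ 100000 * p.E) ?_
    refine Goal.step (emitRep_ovl hT s _ 13 1 (by decide) Sym.one [] 1 (by exact e13) (by rfl))
      (by omega : _ ≤ 100000 * p.E) ?_
    refine Goal.step (rewind_ovl hT s _ 13 ([] ++ List.replicate 1 (Sum.inl Sym.one)) (by simp) 1 (by rfl))
      (by omega : _ ≤ 100000 * p.E) ?_
    refine Goal.step (regConst_ovl hT s _ 35 7 0 (by exact z35))
      (by omega : _ ≤ 100000 * p.E) ?_
    refine Goal.step (regMulAdd_ovl hT s _ 34 35 4 (by decide) (by decide) (by decide) 0 7 p.M (val := p.W - p.M) (by omega) (by exact z34) (by rfl) (by rfl))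
      (by omega : _ ≤ 100000 * p.E) ?_
    refine Goal.step (emitRep_ovl hT s _ 14 34 (by decide) Sym.zero [] (p.W - p.M) (by exact e14) (by rfl))
      (by omega : _ ≤ 100000 * p.E) ?_
    refine Goal.step (rewind_ovl hT s _ 14 ([] ++ List.replicate (p.W - p.M) (Sum.inl Sym.zero)) (by simp) (0 + (p.W - p.M)) (by rfl))
      (by omega : _ ≤ 100000 * p.E) ?_
    refine Goal.step (regMulAdd_ovl hT s _ 36 32 4 (by decide) (by decide) (by decide) 0 8 p.M (val := p.W) (by omega) (by exact z36) (by rfl) (by rfl))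
      (by omega : _ ≤ 100000 * p.E) ?_
    refine Goal.step (emitRep_ovl hT s _ 15 36 (by decide) Sym.zero [] p.W (by exact e15) (by rfl))
      (by omega : _ ≤ 100000 * p.E) ?_
    refine Goal.step (rewind_ovl hT s _ 15 ([] ++ List.replicate p.W (Sum.inl Sym.zero)) (by simp) (0 + p.W) (by rfl))
      (by omega : _ ≤ 100000 * p.E) ?_
    refine Goal.step (genGrid_ovl hT s _ Sym.zero (by decide) (by decide) 1 (2 * p.P - 1) (2 * p.P - 1) p.M p.kap p.kap p.kap 0 p.kap 0 (by omega) (by omega) (by omega) (by omega) (by omega) (by omega) (by omega)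
        [] [] [Sym.one] (List.replicate (p.W - p.M) Sym.zero) (List.replicate p.W Sym.zero) [] hclean []
        (by exact e0) (by rfl) (by rfl) (by rfl) (by rfl) (by rfl) (by rfl) (by rfl) (by exact z8) (by rfl) (by exact z10)
        (by exact e11) (by exact e12) (by rfl) (by rw [List.map_replicate]; rfl) (by rw [List.map_replicate]; rfl) (by exact e16)
        (by exact z17) (by exact z18) (by exact z19) (by exact z20) (by exact z21) (by exact z22) (by exact z23))
      (by omega : _ ≤ 10000000 * (p.P * p.P * p.E)) ?_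
    refine Goal.step (rewind_ovl hT s _ 0 ([] ++ (gridList 1 (2 * p.P - 1) (2 * p.P - 1) p.M p.kap p.kap p.kap 0 p.kap 0 Sym.zero [] [] [Sym.one] (List.replicate (p.W - p.M) Sym.zero) (List.replicate p.W Sym.zero) []).map Sum.inl) hlend (0 + (gridList 1 (2 * p.P - 1) (2 * p.P - 1) p.M p.kap p.kap p.kap 0 p.kap 0 Sym.zero [] [] [Sym.one] (List.replicate (p.W - p.M) Sym.zero) (List.replicate p.W Sym.zero) []).length) (by rfl))
      (by omega : _ ≤ 10000000 * (p.P * p.P * p.E)) ?_
    refine Goal.step (regConst_ovl hT s _ 1 0 1 (by rfl))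
      (by omega : _ ≤ 100000 * p.E) ?_
    refine Goal.step (regConst_ovl hT s _ 2 0 (2 * p.P - 1) (by rfl))
      (by omega : _ ≤ 100000 * p.E) ?_
    refine Goal.step (regConst_ovl hT s _ 3 0 (2 * p.P - 1) (by rfl))
      (by omega : _ ≤ 100000 * p.E) ?_
    refine Goal.step (regConst_ovl hT s _ 4 0 p.M (by rfl))
      (by omega : _ ≤ 100000 * p.E) ?_
    refine Goal.step (regConst_ovl hT s _ 5 0 p.kap (by rfl))
      (by omega : _ ≤ 100000 * p.E) ?_
    refine Goal.step (regConst_ovl hT s _ 6 0 p.kap (by rfl))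
      (by omega : _ ≤ 100000 * p.E) ?_
    refine Goal.step (regConst_ovl hT s _ 7 0 p.kap (by rfl))
      (by omega : _ ≤ 100000 * p.E) ?_
    refine Goal.step (regConst_ovl hT s _ 9 0 p.kap (by rfl))
      (by omega : _ ≤ 100000 * p.E) ?_
    refine Goal.step (clearTape_ovl hT s _ 13 ([] ++ List.replicate 1 (Sum.inl Sym.one)) (by simp) (by simp) 0 (Nat.zero_le _) (by rfl))
      (by simp only [List.length_append, List.length_nil, List.length_replicate]; omega : _ ≤ 100000 * p.E) ?_
    refine Goal.step (clearTape_ovl hT s _ 14 ([] ++ List.replicate (p.W - p.M) (Sum.inl Sym.zero)) (by simp) (by simp) 0 (Nat.zero_le _) (by rfl))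
      (by simp only [List.length_append, List.length_nil, List.length_replicate]; omega : _ ≤ 100000 * p.E) ?_
    refine Goal.step (clearTape_ovl hT s _ 15 ([] ++ List.replicate p.W (Sum.inl Sym.zero)) (by simp) (by simp) 0 (Nat.zero_le _) (by rfl))
      (by simp only [List.length_append, List.length_nil, List.length_replicate]; omega : _ ≤ 100000 * p.E) ?_
    refine Goal.step (regConst_ovl hT s _ 32 0 8 (by rfl))
      (by omega : _ ≤ 100000 * p.E) ?_
    refine Goal.step (regConst_ovl hT s _ 33 0 (2 * p.h) (by rfl))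
      (by omega : _ ≤ 100000 * p.E) ?_
    refine Goal.step (regConst_ovl hT s _ 34 0 (p.W - p.M) (by rfl))
      (by omega : _ ≤ 100000 * p.E) ?_
    refine Goal.step (regConst_ovl hT s _ 35 0 7 (by rfl))
      (by omega : _ ≤ 100000 * p.E) ?_
    refine Goal.last (regConst_ovl hT s _ 36 0 p.W (by rfl))
      (by omega : _ ≤ 100000 * p.E) ?_ ?_
    · congr 1
      funext i
      fin_cases i
      · exact congrArg (fun l => WT l 0) hker
      all_goals first | rfl | exact (hz _ (by decide)).symm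
    · omega
  have h := key.runLe
  rw [ovl_self, ovl_final hT] at h
  exact h

end Vale.Agent.H91.MT
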