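import Vale.Agent.H91.MT.GenKer2_Aux

/-!
# TASK GENKER2: generating the kernel `ker2` on a tape

Tapes (an injective map `T : Fin 40 → Fin K`):
`T 0 .. T 23`: the tapes of `genGrid` (see the GenGrid file: `T 0` output stream, `T 1 .. T 16`
parameter registers and templates, `T 17 .. T 23` scratch); all empty (`WT [] 0`) before; after
the run all are empty again except `T 0`, which holds the generated list, rewound;
`T 24 .. T 30`: base registers `R, r0, c0, a, P, E, q` with `E = q * P` (read only);
`T 31`: spare base register (do not touch);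
`T 32 .. T 39`: scratch registers, empty before and after.

The program computes the parameter registers and templates of the grid (`M = 8E`, `2h = 8q`,
`3h = 12q`, tail `0^(56E)`, row end `0^(64E)`), calls `genGrid`, clears the parameter tapes and
rewinds `T 0`.
-/

namespace Vale.Agent.H91.MT

variable {α : Type} {K : ℕ}

/-- The grid of `ker2` over work symbols, with the numeric parameters in closed form. -/
def gk2Grid (p : SwapParams) (q : ℕ) : List Sym :=
  gridList 1 (p.P + p.P - 1) (p.P + p.P - 1) (8 * p.E) (8 * q) (12 * q) (12 * q) (8 * q) 0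
    (8 * q) Sym.zero [] [] [Sym.one] (List.replicate (56 * p.E) Sym.zero)
    (List.replicate (64 * p.E) Sym.zero) []

theorem gk2_P_ge (p : SwapParams) (hp : p.Ok) : 2 ≤ p.P := by
  have h := hp.ha
  unfold SwapParams.P
  calc 2 = 2 ^ 1 := rfl
    _ ≤ 2 ^ p.a := Nat.pow_le_pow_right (by norm_num) h

theorem gk2Grid_map (p : SwapParams) (hp : p.Ok) (q : ℕ) (hq : p.E = q * p.P) :
    (p.ker2.map bsym : List (Sym ⊕ α)) = (gk2Grid p q).map Sum.inl := by
  have hP2 := gk2_P_ge p hp
  have hE16 := hp.hE
  have hq1 : 1 ≤ q := by
    rcases Nat.eq_zero_or_pos q with h | h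
    · rw [h, zero_mul] at hq
      omega
    · exact h
  have hqE : q * 2 ≤ p.E := by
    rw [hq]
    exact Nat.mul_le_mul_left q hP2
  have hM : p.M = 8 * p.E := by
    unfold SwapParams.M SwapParams.m
    ring
  have hW : p.W = 64 * p.E := by
    unfold SwapParams.W SwapParams.m
    ring
  have hh : p.h = 4 * q := by
    unfold SwapParams.h SwapParams.m
    rw [hq, ← mul_assoc]
    exact Nat.mul_div_cancel _ (by omega)
  have h2h : (2 * p.h) % p.M = 8 * q := by
    rw [hh, hM, Nat.mod_eq_of_lt (by omega)]
    ring
  have h3h : (3 * p.h) % p.M = 12 * q := by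
    rw [hh, hM, Nat.mod_eq_of_lt (by omega)]
    ring
  have hWM : p.W - p.M = 56 * p.E := by
    rw [hW, hM]
    omega
  have h2P : 2 * p.P = p.P + p.P := by ring
  unfold SwapParams.ker2 gk2Grid
  rw [h2h, h3h, hWM, hM, hW, h2P, gridList_map, gridList_map]
  simp [bsym]

theorem gk2Grid_length_le (p : SwapParams) (q : ℕ) (hE : 1 ≤ p.E) (hP : 1 ≤ p.P) :
    (gk2Grid p q).length ≤ 256 * (p.P * p.P * p.E) := by
  unfold gk2Grid
  rw [gk2_gridList_length _ _ _ _ _ _ _ _ _ _ (by omega)]
  simp only [List.length_nil, List.length_replicate, List.length_cons]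
  obtain ⟨n, hn⟩ : ∃ n, p.P + p.P - 1 = n := ⟨_, rfl⟩
  have hn' : n + 1 = 2 * p.P := by omega
  rw [hn]
  have e1 : 8 * p.E - 1 + (0 + 1) + 56 * p.E = 64 * p.E := by omega
  rw [e1]
  have e2 : 256 * (p.P * p.P * p.E) = (n + 1) * ((n + 1) * (64 * p.E)) := by
    rw [hn']
    ring
  rw [e2]
  nlinarith [Nat.zero_le (n * p.E), Nat.zero_le p.E, Nat.zero_le (n * n * p.E)]

theorem gk2Grid_lend (p : SwapParams) (hp : p.Ok) (q : ℕ) (hq : p.E = q * p.P) :
    (Sum.inl Sym.lend : Sym ⊕ α) ∉ (gk2Grid p q).map Sum.inl := by
  rw [← gk2Grid_map p hp q hq]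
  intro h
  obtain ⟨b, -, hb⟩ := List.mem_map.1 h
  cases b <;> simp [bsym] at hb

/-- The call of `genGrid` for `ker2`, in layout form. -/
theorem gk2_step_grid (T : Fin 40 → Fin K) (hT : Function.Injective T) (s : St (Sym ⊕ α) K)
    (c : Fin 40 → Tape (Sym ⊕ α)) (p : SwapParams) (q : ℕ) (hP : 1 ≤ p.P) (hq1 : 1 ≤ q)
    (hqE : q * 2 ≤ p.E)
    (h_out : c 0 = WT [] 0)
    (h_reps : c 1 = ruler 1 0) (h_rows : c 2 = ruler (p.P + p.P - 1) 0)
    (h_cols : c 3 = ruler (p.P + p.P - 1) 0) (h_M : c 4 = ruler (8 * p.E) 0)
    (h_i0 : c 5 = ruler (8 * q) 0) (h_i1 : c 6 = ruler (12 * q) 0)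
    (h_i2 : c 7 = ruler (12 * q) 0)
    (h_c0 : c 8 = ruler (8 * q) 0) (h_c1 : c 9 = ruler 0 0) (h_c2 : c 10 = ruler (8 * q) 0)
    (h_arrPre : c 11 = WT [] 0) (h_rowPre : c 12 = WT [] 0)
    (h_body : c 13 = ruler 1 0)
    (h_tail : c 14 = WT (List.replicate (56 * p.E) (Sum.inl Sym.zero)) 0)
    (h_rowPost : c 15 = WT (List.replicate (64 * p.E) (Sum.inl Sym.zero)) 0)
    (h_arrPost : c 16 = WT [] 0)
    (h17 : c 17 = ruler 0 0) (h18 : c 18 = ruler 0 0) (h19 : c 19 = ruler 0 0)
    (h20 : c 20 = ruler 0 0) (h21 : c 21 = ruler 0 0) (h22 : c 22 = ruler 0 0)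
    (h23 : c 23 = ruler 0 0) :
    RunLe (genGrid (fun i : Fin 24 => T (Fin.castLE (by norm_num) i)) Sym.zero)
      (Function.extend T c s)
      (Function.extend T (Function.update c 0
        (WT ((gk2Grid p q).map Sum.inl) (gk2Grid p q).length)) s)
      (2000 * ((gk2Grid p q).length + 36 * (p.P * p.P * p.E) + 1)) := by
  have key := gk2_genGrid T hT s c Sym.zero (by decide) (by decide)
    1 (p.P + p.P - 1) (p.P + p.P - 1) (8 * p.E) (8 * q) (12 * q) (12 * q) (8 * q) 0 (8 * q)
    (by omega) (by omega) (by omega) (by omega) (by omega) (by omega) (by omega)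
    [] [] [Sym.one] (List.replicate (56 * p.E) Sym.zero) (List.replicate (64 * p.E) Sym.zero) []
    (by
      intro x hx
      simp only [List.nil_append, List.append_nil, List.mem_append, List.mem_singleton,
        List.mem_replicate] at hx
      rcases hx with (rfl | ⟨-, rfl⟩) | ⟨-, rfl⟩ <;> exact ⟨by decide, by decide⟩)
    h_out h_reps h_rows h_cols h_M h_i0 h_i1 h_i2 h_c0 h_c1 h_c2
    (by rw [h_arrPre]; rfl) (by rw [h_rowPre]; rfl) (by rw [h_body]; rfl)
    (by rw [h_tail, List.map_replicate]) (by rw [h_rowPost, List.map_replicate])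
    (by rw [h_arrPost]; rfl) h17 h18 h19 h20 h21 h22 h23
  refine RunLe.mono key ?_
  have hG : 1 * ((p.P + p.P - 1) * (p.P + p.P - 1 + 1) + 1) * (8 * p.E + 1) ≤
      36 * (p.P * p.P * p.E) := by
    obtain ⟨n, hn⟩ : ∃ n, p.P + p.P - 1 = n := ⟨_, rfl⟩
    have hn' : n + 1 = 2 * p.P := by omega
    rw [hn]
    have hE1 : 1 ≤ p.E := by omega
    have e2 : 36 * (p.P * p.P * p.E) = 9 * ((n + 1) * (n + 1) * p.E) := by
      rw [hn']
      ring
    rw [e2]
    have hn1 : 1 ≤ n := by omega
    nlinarith [Nat.mul_le_mul hn1 hE1, Nat.mul_le_mul (Nat.mul_le_mul hn1 hn1) hE1,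
      Nat.zero_le (n * p.E), Nat.zero_le (n * n * p.E), Nat.zero_le (n * n)]
  show 2000 * ((gk2Grid p q).length +
    1 * ((p.P + p.P - 1) * (p.P + p.P - 1 + 1) + 1) * (8 * p.E + 1) + 1) ≤ _
  omega

/-- The arithmetic behind the time bound of `genKer2_run`. -/
theorem gk2_bound (P E q L X Y : ℕ) (hE16 : 16 ≤ E) (hqE : q * 2 ≤ E)
    (hL : L ≤ 256 * X) (hX : 512 * X ≤ Y) (hXE : 4 * E ≤ X) (hXP : 32 * P ≤ X) :
    60 * 0 + 200 +
      (100 * (0 + P) + 300 +
        (100 * (P + P) + 300 +
          (100 * (P + P + 1) + 400 +
            (100 * (0 + (P + P - 1)) + 300 +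
              (100 * (0 + 8) + 200 +
                (100 * (0 + 8 * E + 8 + E) + 400 +
                  (100 * (0 + 8 * q + 8 + q) + 400 +
                    (100 * (0 + 12) + 200 +
                      (100 * (0 + 12 * q + 12 + q) + 400 +
                        (100 * (0 + 12 * q) + 300 +
                          (100 * (0 + 8 * q) + 300 +
                            (100 * (0 + 8 * q) + 300 +
                              (60 * 0 + 200 +
                                (100 * (0 + 56) + 200 +
                                  (100 * (0 + 56 * E + 56 + E) + 400 +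
                                    (50 * (56 * E) + 50 +
                                      (2 * (56 * E) + 4 +
                                        (100 * (0 + 64) + 200 +
                                          (100 * (0 + 64 * E + 64 + E) + 400 +
                                            (50 * (64 * E) + 50 +
                                              (2 * (64 * E) + 4 +
                                                (2000 * (L + 36 * X + 1) +
                                                  (40 * 1 + 80 +
                                                    (40 * (P + P - 1) + 80 +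
                                                      (40 * (P + P - 1) + 80 +
                                                        (40 * (8 * E) + 80 +
                                                          (40 * (8 * q) + 80 +
                                                            (40 * (12 * q) + 80 +
                                                              (40 * (12 * q) + 80 +
                                                                (40 * (8 * q) + 80 +
                                                                  (40 * (8 * q) + 80 +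
                                                                    (40 * 1 + 80 +
                                                                      (40 * (56 * E) + 80 +
                                                                        (40 * (64 * E) + 80 +
                                                                          (40 * 8 + 80 +
                                                                            (40 * 12 + 80 +
                                                                              (40 * 56 + 80 +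
                                                                                (40 * (56 * E) + 80 +
                                                                                  (40 * 64 + 80 +
                                                                                    (40 * (64 * E) + 80 +
                                                                                      (2 * L +
                                                                                        4))))))))))))))))))))))))))))))))))))))))) ≤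
    100000 * (Y + 1) := by
  have h1 : P + P - 1 ≤ P + P := Nat.sub_le _ _
  linarith

/-- Generator of `SwapParams.ker2`. -/
def genKer2 (T : Fin 40 → Fin K) : Prog (Sym ⊕ α) K :=
  Prog.seq (regInc (T 1)) <|
  Prog.seq (regAdd (T 2) (T 28)) <|
  Prog.seq (regAdd (T 2) (T 28)) <|
  Prog.seq (regSub (T 2) (T 1)) <|
  Prog.seq (regAdd (T 3) (T 2)) <|
  Prog.seq (regConst (T 32) 8) <|
  Prog.seq (regMulAdd (T 4) (T 32) (T 29)) <|
  Prog.seq (regMulAdd (T 5) (T 32) (T 30)) <|
  Prog.seq (regConst (T 33) 12) <|
  Prog.seq (regMulAdd (T 6) (T 33) (T 30)) <|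
  Prog.seq (regAdd (T 7) (T 6)) <|
  Prog.seq (regAdd (T 8) (T 5)) <|
  Prog.seq (regAdd (T 10) (T 5)) <|
  Prog.seq (regInc (T 13)) <|
  Prog.seq (regConst (T 34) 56) <|
  Prog.seq (regMulAdd (T 35) (T 34) (T 29)) <|
  Prog.seq (emitRep (T 14) (T 35) Sym.zero) <|
  Prog.seq (rewind (T 14)) <|
  Prog.seq (regConst (T 36) 64) <|
  Prog.seq (regMulAdd (T 37) (T 36) (T 29)) <|
  Prog.seq (emitRep (T 15) (T 37) Sym.zero) <|
  Prog.seq (rewind (T 15)) <|
  Prog.seq (genGrid (fun i : Fin 24 => T (Fin.castLE (by norm_num) i)) Sym.zero) <|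
  Prog.seq (clearTape (T 1)) <|
  Prog.seq (clearTape (T 2)) <|
  Prog.seq (clearTape (T 3)) <|
  Prog.seq (clearTape (T 4)) <|
  Prog.seq (clearTape (T 5)) <|
  Prog.seq (clearTape (T 6)) <|
  Prog.seq (clearTape (T 7)) <|
  Prog.seq (clearTape (T 8)) <|
  Prog.seq (clearTape (T 10)) <|
  Prog.seq (clearTape (T 13)) <|
  Prog.seq (clearTape (T 14)) <|
  Prog.seq (clearTape (T 15)) <|
  Prog.seq (clearTape (T 32)) <|
  Prog.seq (clearTape (T 33)) <|
  Prog.seq (clearTape (T 34)) <|
  Prog.seq (clearTape (T 35)) <|
  Prog.seq (clearTape (T 36)) <|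
  Prog.seq (clearTape (T 37)) <|
  rewind (T 0)

theorem genKer2_run (T : Fin 40 → Fin K) (hT : Function.Injective T) (p : SwapParams)
    (hp : p.Ok) (q : ℕ) (hq : p.E = q * p.P) (hr0 : 1 ≤ p.r0) (hc0 : 1 ≤ p.c0) (hR : 1 ≤ p.R)
    (s : St (Sym ⊕ α) K) (hbase : BaseRegs T p q s)
    (hempty : ∀ i : Fin 40, (i.val < 24 ∨ 32 ≤ i.val) → s (T i) = WT [] 0) :
    RunLe (genKer2 T) s (Function.update s (T 0) (WT (p.ker2.map bsym) 0))
      (100000 * (p.R * p.SA * p.W + 1)) := by
  obtain ⟨-, -, -, -, bP, bE, bq⟩ := hbase
  have hP2 := gk2_P_ge p hp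
  have hE16 := hp.hE
  have hq1 : 1 ≤ q := by
    rcases Nat.eq_zero_or_pos q with h | h
    · rw [h, zero_mul] at hq
      omega
    · exact h
  have hqE : q * 2 ≤ p.E := by
    rw [hq]
    exact Nat.mul_le_mul_left q hP2
  have e0 : s (T 0) = WT [] 0 := hempty 0 (by decide)
  have e1 : s (T 1) = WT [] 0 := hempty 1 (by decide)
  have e2 : s (T 2) = WT [] 0 := hempty 2 (by decide)
  have e3 : s (T 3) = WT [] 0 := hempty 3 (by decide)
  have e4 : s (T 4) = WT [] 0 := hempty 4 (by decide)
  have e5 : s (T 5) = WT [] 0 := hempty 5 (by decide)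
  have e6 : s (T 6) = WT [] 0 := hempty 6 (by decide)
  have e7 : s (T 7) = WT [] 0 := hempty 7 (by decide)
  have e8 : s (T 8) = WT [] 0 := hempty 8 (by decide)
  have e9 : s (T 9) = WT [] 0 := hempty 9 (by decide)
  have e10 : s (T 10) = WT [] 0 := hempty 10 (by decide)
  have e11 : s (T 11) = WT [] 0 := hempty 11 (by decide)
  have e12 : s (T 12) = WT [] 0 := hempty 12 (by decide)
  have e13 : s (T 13) = WT [] 0 := hempty 13 (by decide)
  have e14 : s (T 14) = WT [] 0 := hempty 14 (by decide)
  have e15 : s (T 15) = WT [] 0 := hempty 15 (by decide)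
  have e16 : s (T 16) = WT [] 0 := hempty 16 (by decide)
  have e17 : s (T 17) = WT [] 0 := hempty 17 (by decide)
  have e18 : s (T 18) = WT [] 0 := hempty 18 (by decide)
  have e19 : s (T 19) = WT [] 0 := hempty 19 (by decide)
  have e20 : s (T 20) = WT [] 0 := hempty 20 (by decide)
  have e21 : s (T 21) = WT [] 0 := hempty 21 (by decide)
  have e22 : s (T 22) = WT [] 0 := hempty 22 (by decide)
  have e23 : s (T 23) = WT [] 0 := hempty 23 (by decide)
  have e32 : s (T 32) = WT [] 0 := hempty 32 (by decide)
  have e33 : s (T 33) = WT [] 0 := hempty 33 (by decide)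
  have e34 : s (T 34) = WT [] 0 := hempty 34 (by decide)
  have e35 : s (T 35) = WT [] 0 := hempty 35 (by decide)
  have e36 : s (T 36) = WT [] 0 := hempty 36 (by decide)
  have e37 : s (T 37) = WT [] 0 := hempty 37 (by decide)
  have hr0' : (ruler 0 0 : Tape (Sym ⊕ α)) = WT [] 0 := rfl
  apply RunLe.cast (s₁ := Function.extend T (fun i => s (T i)) s)
  case h =>
    unfold genKer2
    apply RunLe.seq (gk2_regInc T hT s (fun i => s (T i)) 1 0 (by simp [e1, hr0']))
    apply RunLe.seq (gk2_regAdd T hT s _ 2 28 (by decide) 0 p.P (by simp [e2, hr0'])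
      (by simp [bP]))
    apply RunLe.seq (gk2_regAdd T hT s _ 2 28 (by decide) p.P p.P (by simp)
      (by simp [bP]))
    apply RunLe.seq (gk2_regSub T hT s _ 2 1 (by decide) (p.P + p.P) 1 (by simp)
      (by simp))
    apply RunLe.seq (gk2_regAdd T hT s _ 3 2 (by decide) 0 (p.P + p.P - 1) (by simp [e3, hr0'])
      (by simp))
    apply RunLe.seq (gk2_regConst T hT s _ 32 8 0 (by simp [e32, hr0']))
    apply RunLe.seq (gk2_regMulAdd T hT s _ 4 32 29 (by decide) (by decide) (by decide)
      0 8 p.E (by simp [e4, hr0']) (by simp) (by simp [bE]))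
    apply RunLe.seq (gk2_regMulAdd T hT s _ 5 32 30 (by decide) (by decide) (by decide)
      0 8 q (by simp [e5, hr0']) (by simp) (by simp [bq]))
    apply RunLe.seq (gk2_regConst T hT s _ 33 12 0 (by simp [e33, hr0']))
    apply RunLe.seq (gk2_regMulAdd T hT s _ 6 33 30 (by decide) (by decide) (by decide)
      0 12 q (by simp [e6, hr0']) (by simp) (by simp [bq]))
    apply RunLe.seq (gk2_regAdd T hT s _ 7 6 (by decide) 0 (12 * q) (by simp [e7, hr0'])
      (by simp))
    apply RunLe.seq (gk2_regAdd T hT s _ 8 5 (by decide) 0 (8 * q) (by simp [e8, hr0'])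
      (by simp))
    apply RunLe.seq (gk2_regAdd T hT s _ 10 5 (by decide) 0 (8 * q) (by simp [e10, hr0'])
      (by simp))
    apply RunLe.seq (gk2_regInc T hT s _ 13 0 (by simp [e13, hr0']))
    apply RunLe.seq (gk2_regConst T hT s _ 34 56 0 (by simp [e34, hr0']))
    apply RunLe.seq (gk2_regMulAdd T hT s _ 35 34 29 (by decide) (by decide) (by decide)
      0 56 p.E (by simp [e35, hr0']) (by simp) (by simp [bE]))
    apply RunLe.seq (gk2_emitRep T hT s _ 14 35 (by decide) Sym.zero [] (56 * p.E)
      (by simp [e14]) (by simp))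
    apply RunLe.seq (gk2_rewind T hT s _ 14 (List.replicate (56 * p.E) (Sum.inl Sym.zero))
      (gk2_lend_not_mem_replicate _ _ (by decide)) (56 * p.E) (by simp))
    apply RunLe.seq (gk2_regConst T hT s _ 36 64 0 (by simp [e36, hr0']))
    apply RunLe.seq (gk2_regMulAdd T hT s _ 37 36 29 (by decide) (by decide) (by decide)
      0 64 p.E (by simp [e37, hr0']) (by simp) (by simp [bE]))
    apply RunLe.seq (gk2_emitRep T hT s _ 15 37 (by decide) Sym.zero [] (64 * p.E)
      (by simp [e15]) (by simp))
    apply RunLe.seq (gk2_rewind T hT s _ 15 (List.replicate (64 * p.E) (Sum.inl Sym.zero))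
      (gk2_lend_not_mem_replicate _ _ (by decide)) (64 * p.E) (by simp))
    apply RunLe.seq (gk2_step_grid T hT s _ p q (by omega) hq1 hqE
      (by simp [e0]) (by simp) (by simp) (by simp) (by simp) (by simp) (by simp) (by simp)
      (by simp) (by simp [e9, hr0']) (by simp) (by simp [e11]) (by simp [e12]) (by simp)
      (by simp) (by simp) (by simp [e16])
      (by simp [e17, hr0']) (by simp [e18, hr0']) (by simp [e19, hr0']) (by simp [e20, hr0'])
      (by simp [e21, hr0']) (by simp [e22, hr0']) (by simp [e23, hr0']))
    apply RunLe.seq (gk2_clear T hT s _ 1 Sym.one (by decide) (by decide) 1 (by simp [ruler]))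
    apply RunLe.seq (gk2_clear T hT s _ 2 Sym.one (by decide) (by decide) (p.P + p.P - 1) (by simp [ruler]))
    apply RunLe.seq (gk2_clear T hT s _ 3 Sym.one (by decide) (by decide) (p.P + p.P - 1) (by simp [ruler]))
    apply RunLe.seq (gk2_clear T hT s _ 4 Sym.one (by decide) (by decide) (8 * p.E) (by simp [ruler]))
    apply RunLe.seq (gk2_clear T hT s _ 5 Sym.one (by decide) (by decide) (8 * q) (by simp [ruler]))
    apply RunLe.seq (gk2_clear T hT s _ 6 Sym.one (by decide) (by decide) (12 * q) (by simp [ruler]))
    apply RunLe.seq (gk2_clear T hT s _ 7 Sym.one (by decide) (by decide) (12 * q) (by simp [ruler]))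
    apply RunLe.seq (gk2_clear T hT s _ 8 Sym.one (by decide) (by decide) (8 * q) (by simp [ruler]))
    apply RunLe.seq (gk2_clear T hT s _ 10 Sym.one (by decide) (by decide) (8 * q) (by simp [ruler]))
    apply RunLe.seq (gk2_clear T hT s _ 13 Sym.one (by decide) (by decide) 1 (by simp [ruler]))
    apply RunLe.seq (gk2_clear T hT s _ 14 Sym.zero (by decide) (by decide) (56 * p.E) (by simp [ruler]))
    apply RunLe.seq (gk2_clear T hT s _ 15 Sym.zero (by decide) (by decide) (64 * p.E) (by simp [ruler]))
    apply RunLe.seq (gk2_clear T hT s _ 32 Sym.one (by decide) (by decide) 8 (by simp [ruler]))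
    apply RunLe.seq (gk2_clear T hT s _ 33 Sym.one (by decide) (by decide) 12 (by simp [ruler]))
    apply RunLe.seq (gk2_clear T hT s _ 34 Sym.one (by decide) (by decide) 56 (by simp [ruler]))
    apply RunLe.seq (gk2_clear T hT s _ 35 Sym.one (by decide) (by decide) (56 * p.E) (by simp [ruler]))
    apply RunLe.seq (gk2_clear T hT s _ 36 Sym.one (by decide) (by decide) 64 (by simp [ruler]))
    apply RunLe.seq (gk2_clear T hT s _ 37 Sym.one (by decide) (by decide) (64 * p.E) (by simp [ruler]))
    exact gk2_rewind T hT s _ 0 ((gk2Grid p q).map Sum.inl) (gk2Grid_lend p hp q hq)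
      (gk2Grid p q).length (by simp)
  case hs => exact gk2_ext_self T hT s
  case hs' =>
    rw [gk2Grid_map p hp q hq]
    conv_rhs => rw [← gk2_ext_self T hT s]
    rw [gk2_ext_update T hT]
    congr 1
    funext i
    fin_cases i <;> simp [e1, e2, e3, e4, e5, e6, e7, e8, e9, e10, e11, e12, e13, e14, e15, e16, e17, e18, e19, e20, e21, e22, e23, e32, e33, e34, e35, e36, e37]
  case hb =>
    have hL := gk2Grid_length_le p q (by omega) (by omega)
    have hX : 512 * (p.P * p.P * p.E) ≤ p.R * p.SA * p.W := by
      unfold SwapParams.SA SwapParams.W SwapParams.m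
      calc 512 * (p.P * p.P * p.E) = 1 * (8 * p.P * p.P) * (16 * (4 * p.E)) := by ring
        _ ≤ p.R * (8 * p.P * p.P) * (16 * (4 * p.E)) := by gcongr
    have hXE : 4 * p.E ≤ p.P * p.P * p.E := by nlinarith
    have hXP : 32 * p.P ≤ p.P * p.P * p.E := by nlinarith
    exact gk2_bound p.P p.E q (gk2Grid p q).length (p.P * p.P * p.E) (p.R * p.SA * p.W)
      hE16 hqE hL hX hXE hXP

end Vale.Agent.H91.MT
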