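import Vale.Agent.H91.MT.GenGrid
import Vale.Agent.H91.MT.RegC

/-!
# Auxiliary lemmas for TASK GENKER2

A state whose tapes `T i` (for an injective layout `T : Fin 40 → Fin K`) hold `c i` is written
`Function.extend T c s`.  The register programs of RegA / RegB / RegC and `genGrid` are restated
for such states, with generous time bounds, so that a straight-line program can be verified by
looking up literal indices in nested `Function.update`s.
-/

namespace Vale.Agent.H91.MT

variable {α : Type} {K : ℕ}

theorem gk2_ext_update {Γ : Type} (T : Fin 40 → Fin K) (hT : Function.Injective T) (s : St Γ K)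
    (c : Fin 40 → Tape Γ) (i : Fin 40) (x : Tape Γ) :
    Function.update (Function.extend T c s) (T i) x =
      Function.extend T (Function.update c i x) s := by
  funext j
  by_cases h : ∃ a, T a = j
  · obtain ⟨a, rfl⟩ := h
    rw [hT.extend_apply]
    by_cases hai : a = i
    · subst hai
      simp
    · rw [Function.update_of_ne (hT.ne hai), hT.extend_apply, Function.update_of_ne hai]
  · have hj : j ≠ T i := fun e => h ⟨i, e.symm⟩
    rw [Function.update_of_ne hj, Function.extend_apply' _ _ _ h, Function.extend_apply' _ _ _ h]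

theorem gk2_ext_self {Γ : Type} (T : Fin 40 → Fin K) (hT : Function.Injective T) (s : St Γ K) :
    Function.extend T (fun i => s (T i)) s = s := by
  funext j
  by_cases h : ∃ a, T a = j
  · obtain ⟨a, rfl⟩ := h
    rw [hT.extend_apply]
  · rw [Function.extend_apply' _ _ _ h]

theorem gk2_blank_not_mem_replicate (n : ℕ) (x : Sym) (hx : x ≠ Sym.blank) :
    (Sum.inl Sym.blank : Sym ⊕ α) ∉ List.replicate n (Sum.inl x) := by
  intro h
  have := List.eq_of_mem_replicate h
  exact hx (Sum.inl.inj this).symm

theorem gk2_lend_not_mem_replicate (n : ℕ) (x : Sym) (hx : x ≠ Sym.lend) :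
    (Sum.inl Sym.lend : Sym ⊕ α) ∉ List.replicate n (Sum.inl x) := by
  intro h
  have := List.eq_of_mem_replicate h
  exact hx (Sum.inl.inj this).symm

section Lifted

variable (T : Fin 40 → Fin K) (hT : Function.Injective T) (s : St (Sym ⊕ α) K)
  (c : Fin 40 → Tape (Sym ⊕ α))

include hT

theorem gk2_regInc (i : Fin 40) (v : ℕ) (hi : c i = ruler v 0) :
    RunLe (regInc (T i)) (Function.extend T c s)
      (Function.extend T (Function.update c i (ruler (v + 1) 0)) s) (60 * v + 200) := by
  have h := regInc_run (T i) v (Function.extend T c s) (by rw [hT.extend_apply, hi])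
  rw [gk2_ext_update T hT] at h
  exact h.mono (by omega)

theorem gk2_regAdd (i j : Fin 40) (hij : i ≠ j) (v w : ℕ) (hi : c i = ruler v 0)
    (hj : c j = ruler w 0) :
    RunLe (regAdd (T i) (T j)) (Function.extend T c s)
      (Function.extend T (Function.update c i (ruler (v + w) 0)) s) (100 * (v + w) + 300) := by
  have h := regAdd_run (T i) (T j) (hT.ne hij) v w (Function.extend T c s)
    (by rw [hT.extend_apply, hi]) (by rw [hT.extend_apply, hj])
  rw [gk2_ext_update T hT] at h
  exact h.mono (by omega)

theorem gk2_regSub (i j : Fin 40) (hij : i ≠ j) (v w : ℕ) (hi : c i = ruler v 0)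
    (hj : c j = ruler w 0) :
    RunLe (regSub (T i) (T j)) (Function.extend T c s)
      (Function.extend T (Function.update c i (ruler (v - w) 0)) s) (100 * (v + w) + 400) := by
  have h := regSub_run (T i) (T j) (hT.ne hij) v w (Function.extend T c s)
    (by rw [hT.extend_apply, hi]) (by rw [hT.extend_apply, hj])
  rw [gk2_ext_update T hT] at h
  exact h.mono (by omega)

theorem gk2_regConst (i : Fin 40) (n v : ℕ) (hi : c i = ruler v 0) :
    RunLe (regConst (T i) n) (Function.extend T c s)
      (Function.extend T (Function.update c i (ruler n 0)) s) (100 * (v + n) + 200) := by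
  have h := regConst_run (T i) n v (Function.extend T c s) (by rw [hT.extend_apply, hi])
  rw [gk2_ext_update T hT] at h
  exact h.mono (by omega)

theorem gk2_regMulAdd (i a b : Fin 40) (hia : i ≠ a) (hib : i ≠ b) (hab : a ≠ b) (v x y : ℕ)
    (hi : c i = ruler v 0) (ha : c a = ruler x 0) (hb : c b = ruler y 0) :
    RunLe (regMulAdd (T i) (T a) (T b)) (Function.extend T c s)
      (Function.extend T (Function.update c i (ruler (v + x * y) 0)) s)
      (100 * (v + x * y + x + y) + 400) := by
  have h := regMulAdd_run (T i) (T a) (T b) (hT.ne hia) (hT.ne hib) (hT.ne hab) v x y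
    (Function.extend T c s)
    (by rw [hT.extend_apply, hi]) (by rw [hT.extend_apply, ha]) (by rw [hT.extend_apply, hb])
  rw [gk2_ext_update T hT] at h
  exact h.mono (by omega)

theorem gk2_emitRep (i r : Fin 40) (hir : i ≠ r) (x : Sym) (l : List (Sym ⊕ α)) (n : ℕ)
    (hi : c i = WT l l.length) (hr : c r = ruler n 0) :
    RunLe (emitRep (T i) (T r) x) (Function.extend T c s)
      (Function.extend T (Function.update c i
        (WT (l ++ List.replicate n (Sum.inl x)) (l.length + n))) s) (50 * n + 50) := by
  have h := emitRep_run (T i) (T r) (hT.ne hir) x l n (Function.extend T c s)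
    (by rw [hT.extend_apply, hi]) (by rw [hT.extend_apply, hr])
  rw [gk2_ext_update T hT] at h
  exact h.mono (by omega)

theorem gk2_rewind (i : Fin 40) (l : List (Sym ⊕ α)) (hl : Sum.inl Sym.lend ∉ l) (p : ℕ)
    (hi : c i = WT l p) :
    RunLe (rewind (T i)) (Function.extend T c s)
      (Function.extend T (Function.update c i (WT l 0)) s) (2 * p + 4) := by
  have h := rewind_run (T i) l hl p (Function.extend T c s) (by rw [hT.extend_apply, hi])
  rw [gk2_ext_update T hT] at h
  exact h.le

theorem gk2_clear (i : Fin 40) (x : Sym) (hx : x ≠ Sym.blank) (hx' : x ≠ Sym.lend) (n : ℕ)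
    (hi : c i = WT (List.replicate n (Sum.inl x)) 0) :
    RunLe (clearTape (T i)) (Function.extend T c s)
      (Function.extend T (Function.update c i (WT [] 0)) s) (40 * n + 80) := by
  have h := clearTape_run (T i) (List.replicate n (Sum.inl x))
    (gk2_blank_not_mem_replicate n x hx) (gk2_lend_not_mem_replicate n x hx') 0 (Nat.zero_le _)
    (Function.extend T c s) (by rw [hT.extend_apply, hi])
  rw [gk2_ext_update T hT] at h
  refine h.mono ?_
  simp only [List.length_replicate]
  omega

theorem gk2_genGrid (z : Sym) (hz : z ≠ Sym.blank) (hz' : z ≠ Sym.lend)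
    (reps rows cols M i0 i1 i2 c0 c1 c2 : ℕ) (hM : 1 ≤ M)
    (h0 : i0 < M) (h1 : i1 < M) (h2 : i2 < M) (h3 : c0 < M) (h4 : c1 < M) (h5 : c2 < M)
    (arrPre rowPre body tail rowPost arrPost : List Sym)
    (hcl : ∀ x ∈ arrPre ++ rowPre ++ body ++ tail ++ rowPost ++ arrPost,
      x ≠ Sym.blank ∧ x ≠ Sym.lend)
    (h_out : c 0 = WT [] 0)
    (h_reps : c 1 = ruler reps 0) (h_rows : c 2 = ruler rows 0)
    (h_cols : c 3 = ruler cols 0) (h_M : c 4 = ruler M 0)
    (h_i0 : c 5 = ruler i0 0) (h_i1 : c 6 = ruler i1 0) (h_i2 : c 7 = ruler i2 0)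
    (h_c0 : c 8 = ruler c0 0) (h_c1 : c 9 = ruler c1 0) (h_c2 : c 10 = ruler c2 0)
    (h_arrPre : c 11 = WT (arrPre.map Sum.inl) 0)
    (h_rowPre : c 12 = WT (rowPre.map Sum.inl) 0)
    (h_body : c 13 = WT (body.map Sum.inl) 0)
    (h_tail : c 14 = WT (tail.map Sum.inl) 0)
    (h_rowPost : c 15 = WT (rowPost.map Sum.inl) 0)
    (h_arrPost : c 16 = WT (arrPost.map Sum.inl) 0)
    (h17 : c 17 = ruler 0 0) (h18 : c 18 = ruler 0 0) (h19 : c 19 = ruler 0 0)
    (h20 : c 20 = ruler 0 0) (h21 : c 21 = ruler 0 0) (h22 : c 22 = ruler 0 0)
    (h23 : c 23 = ruler 0 0) :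
    RunLe (genGrid (fun i : Fin 24 => T (Fin.castLE (by norm_num) i)) z) (Function.extend T c s)
      (Function.extend T (Function.update c 0
        (WT ((gridList reps rows cols M i0 i1 i2 c0 c1 c2 z
            arrPre rowPre body tail rowPost arrPost).map Sum.inl)
          (gridList reps rows cols M i0 i1 i2 c0 c1 c2 z
            arrPre rowPre body tail rowPost arrPost).length)) s)
      (2000 * ((gridList reps rows cols M i0 i1 i2 c0 c1 c2 z
            arrPre rowPre body tail rowPost arrPost).length
          + reps * (rows * (cols + 1) + 1) * (M + 1) + 1)) := by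
  have hT' : Function.Injective (fun i : Fin 24 => T (Fin.castLE (by norm_num : 24 ≤ 40) i)) :=
    hT.comp (Fin.castLE_injective _)
  have key := genGrid_run (fun i : Fin 24 => T (Fin.castLE (by norm_num : 24 ≤ 40) i)) hT' z hz hz'
    reps rows cols M i0 i1 i2 c0 c1 c2 hM h0 h1 h2 h3 h4 h5
    arrPre rowPre body tail rowPost arrPost hcl [] (Function.extend T c s)
    (by show Function.extend T c s (T 0) = _; rw [hT.extend_apply, h_out]; rfl)
    (by show Function.extend T c s (T 1) = _; rw [hT.extend_apply, h_reps])
    (by show Function.extend T c s (T 2) = _; rw [hT.extend_apply, h_rows])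
    (by show Function.extend T c s (T 3) = _; rw [hT.extend_apply, h_cols])
    (by show Function.extend T c s (T 4) = _; rw [hT.extend_apply, h_M])
    (by show Function.extend T c s (T 5) = _; rw [hT.extend_apply, h_i0])
    (by show Function.extend T c s (T 6) = _; rw [hT.extend_apply, h_i1])
    (by show Function.extend T c s (T 7) = _; rw [hT.extend_apply, h_i2])
    (by show Function.extend T c s (T 8) = _; rw [hT.extend_apply, h_c0])
    (by show Function.extend T c s (T 9) = _; rw [hT.extend_apply, h_c1])
    (by show Function.extend T c s (T 10) = _; rw [hT.extend_apply, h_c2])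
    (by show Function.extend T c s (T 11) = _; rw [hT.extend_apply, h_arrPre])
    (by show Function.extend T c s (T 12) = _; rw [hT.extend_apply, h_rowPre])
    (by show Function.extend T c s (T 13) = _; rw [hT.extend_apply, h_body])
    (by show Function.extend T c s (T 14) = _; rw [hT.extend_apply, h_tail])
    (by show Function.extend T c s (T 15) = _; rw [hT.extend_apply, h_rowPost])
    (by show Function.extend T c s (T 16) = _; rw [hT.extend_apply, h_arrPost])
    (by
      intro i hi
      show Function.extend T c s (T (Fin.castLE (by norm_num : 24 ≤ 40) i)) = _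
      rw [hT.extend_apply]
      fin_cases i
      all_goals first
        | exact absurd hi (by decide)
        | exact h17 | exact h18 | exact h19 | exact h20 | exact h21 | exact h22 | exact h23)
  have e0 : Fin.castLE (by norm_num : 24 ≤ 40) (0 : Fin 24) = (0 : Fin 40) := rfl
  rw [e0, gk2_ext_update T hT] at key
  simp only [List.nil_append, List.length_nil, zero_add] at key
  exact key.mono (by omega)

end Lifted

theorem gk2_gridList_length {β : Type} (reps rows cols M i0 i1 i2 c0 c1 c2 : ℕ) (hM : 1 ≤ M)
    (z : β) (arrPre rowPre body tail rowPost arrPost : List β) :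
    (gridList reps rows cols M i0 i1 i2 c0 c1 c2 z
        arrPre rowPre body tail rowPost arrPost).length =
      reps * (arrPre.length + rows * (rowPre.length +
        cols * (M - 1 + body.length + tail.length) + rowPost.length) + arrPost.length) := by
  unfold gridList
  have hslot : ∀ u1 u2, (List.replicate (gridExp M i0 i1 i2 c0 c1 c2 u1 u2) z ++ body ++
      List.replicate (M - 1 - gridExp M i0 i1 i2 c0 c1 c2 u1 u2) z ++ tail).length =
        M - 1 + body.length + tail.length := by
    intro u1 u2
    have : gridExp M i0 i1 i2 c0 c1 c2 u1 u2 < M := Nat.mod_lt _ hM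
    simp only [List.length_append, List.length_replicate]
    omega
  simp only [List.length_flatMap, List.length_append, hslot, List.map_const', List.sum_replicate,
    List.length_range, smul_eq_mul]

end Vale.Agent.H91.MT
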