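import Vale.Agent.H91.MT.GenRep_Ov

/-!
# TASK GENREP: generating the periodic lists `ctl3b`, `ker3`, `ctl4` on a tape

Tapes (an injective map `T : Fin 40 → Fin K`):
`T 0 .. T 23`: the tapes of `genGrid` (see the grid generator file: `T 0` output stream, `T 1 .. T 16`
parameter registers and templates, `T 17 .. T 23` scratch); all empty (`WT [] 0`) before; after
the run all are empty again except `T 0`, which holds the generated list, rewound;
`T 24 .. T 30`: base registers `R, r0, c0, a, P, E, q` with `E = q * P` (read only);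
`T 31`: spare base register (do not touch);
`T 32 .. T 39`: scratch registers, empty before and after.

Plan: compute the parameter registers and templates of the grid with the register programs of
RegA / RegB / RegC (their statements may be used as black boxes), call `genGrid`, clear the
parameter tapes, rewind `T 0`.  Unfold the `SwapParams` definitions to see the exact numbers;
with `m = 4E`, `M = 8E`, `h = 4q`, `W = 64E`, `V = 56E`, `SA = 8 P^2`, `g = 8`.
Numeric constants in the time bound may be changed (keep the shape).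
-/

namespace Vale.Agent.H91.MT

variable {α : Type} {K : ℕ}

/-- Arithmetic behind the time bounds of the three generators. -/
theorem genRep_arith (p : SwapParams) (hp : p.Ok) (hr0 : 1 ≤ p.r0) (hc0 : 1 ≤ p.c0)
    (hR : 1 ≤ p.R) :
    ∃ A : ℕ, p.R * p.SA * p.W = 512 * A ∧ p.R * p.c0 * p.r0 * p.E ≤ A ∧
      p.R * p.c0 * p.r0 ≤ A ∧ p.E ≤ A ∧ p.R * p.c0 ≤ p.R * p.c0 * p.r0 ∧ p.R ≤ p.R * p.c0 ∧
      p.c0 ≤ p.R * p.c0 ∧ p.r0 ≤ p.R * p.c0 * p.r0 ∧ 16 ≤ p.E := by
  have hP1 : 1 ≤ p.P := Nat.one_le_two_pow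
  have hx : p.R * p.c0 * p.r0 ≤ p.R * p.P * p.P :=
    Nat.mul_le_mul (Nat.mul_le_mul_left _ hp.hc) hp.hr
  have hE1 : 1 ≤ p.E := le_trans (by norm_num) hp.hE
  have hRPP : 1 ≤ p.R * p.P * p.P := Nat.mul_pos (Nat.mul_pos hR hP1) hP1
  have hRc : 1 ≤ p.R * p.c0 := Nat.mul_pos hR hc0
  refine ⟨p.R * p.P * p.P * p.E, ?_, Nat.mul_le_mul_right _ hx,
    hx.trans (Nat.le_mul_of_pos_right _ hE1), Nat.le_mul_of_pos_left _ hRPP,
    Nat.le_mul_of_pos_right _ hr0, Nat.le_mul_of_pos_right _ hc0,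
    Nat.le_mul_of_pos_left _ hR, Nat.le_mul_of_pos_left _ hRc, hp.hE⟩
  unfold SwapParams.SA SwapParams.W SwapParams.m
  ring

/-- Generator of `SwapParams.ctl3b`. -/
def genCtl3b (T : Fin 40 → Fin K) : Prog (Sym ⊕ α) K :=
  Prog.seq (Prog.seq (Prog.seq (Prog.seq (Prog.seq (Prog.seq (Prog.seq (Prog.seq (Prog.seq
    (Prog.seq (Prog.seq (Prog.seq
    (regMulAdd (T 33) (T 24) (T 26))
    (regMulAdd (T 1) (T 33) (T 25)))
    (regDouble (T 1) (T 35))) (regDouble (T 1) (T 35))) (regDouble (T 1) (T 35)))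
    (regCopy (T 32) (T 29))) (regDouble (T 32) (T 35))) (regDouble (T 32) (T 35)))
    (emitRuns (T 13) [(Sym.cC, T 32), (Sym.cZ, T 32), (Sym.cN, T 32), (Sym.cZ, T 32)]))
    (rewind (T 13))) (regConst (T 33) 0)) (regConst (T 32) 0)) (genRepCore T)

theorem genCtl3b_run (T : Fin 40 → Fin K) (hT : Function.Injective T) (p : SwapParams)
    (hp : p.Ok) (q : ℕ) (hq : p.E = q * p.P) (hr0 : 1 ≤ p.r0) (hc0 : 1 ≤ p.c0) (hR : 1 ≤ p.R)
    (s : St (Sym ⊕ α) K) (hbase : BaseRegs T p q s)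
    (hempty : ∀ i : Fin 40, (i.val < 24 ∨ 32 ≤ i.val) → s (T i) = WT [] 0) :
    RunLe (genCtl3b T) s (Function.update s (T 0) (WT (p.ctl3b.map csym) 0))
      (100000 * (p.R * p.SA * p.W + 1)) := by
  obtain ⟨bR, br0, bc0, _, _, bE, _⟩ := hbase
  have z1 := hempty 1 (Or.inl (by decide))
  have z13 := hempty 13 (Or.inl (by decide))
  have z32 := hempty 32 (Or.inr (by decide))
  have z33 := hempty 33 (Or.inr (by decide))
  have z34 := hempty 34 (Or.inr (by decide))
  have z35 := hempty 35 (Or.inr (by decide))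
  have hs := ov_init s _ _ _ _ _ _ z1 z13 z32 z33 z34 z35
  -- reps: T 33 := R * c0, T 1 := 8 * (R * c0 * r0)
  have r1 := ((regMulAdd_run (T 33) (T 24) (T 26) (hT.ne (by decide)) (hT.ne (by decide))
    (hT.ne (by decide)) 0 p.R p.c0 _ (ov_33 hT s _ _ _ _ _ _)
    ((ov_base hT s _ _ _ _ _ _ 24 (by decide) (by decide)).trans bR)
    ((ov_base hT s _ _ _ _ _ _ 26 (by decide) (by decide)).trans bc0)).cast hs.symm
    ((ov_set33 hT s _ _ _ _ _ _ _).trans (by rw [Nat.zero_add])) le_rfl)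
  have r2 := r1.seq ((regMulAdd_run (T 1) (T 33) (T 25) (hT.ne (by decide)) (hT.ne (by decide))
    (hT.ne (by decide)) 0 (p.R * p.c0) p.r0 _ (ov_1 hT s _ _ _ _ _ _)
    (ov_33 hT s _ _ _ _ _ _)
    ((ov_base hT s _ _ _ _ _ _ 25 (by decide) (by decide)).trans br0)).cast rfl
    ((ov_set1 hT s _ _ _ _ _ _ _).trans (by rw [Nat.zero_add])) le_rfl)
  have r3 := r2.seq ((regDouble_run (T 1) (T 35) (hT.ne (by decide)) _ _
    (ov_1 hT s _ _ _ _ _ _) (ov_35 hT s _ _ _ _ _ _)).cast rfl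
    (ov_set1 hT s _ _ _ _ _ _ _) le_rfl)
  have r4 := r3.seq ((regDouble_run (T 1) (T 35) (hT.ne (by decide)) _ _
    (ov_1 hT s _ _ _ _ _ _) (ov_35 hT s _ _ _ _ _ _)).cast rfl
    (ov_set1 hT s _ _ _ _ _ _ _) le_rfl)
  have e8 : 2 * (2 * (2 * (p.R * p.c0 * p.r0))) = 8 * (p.R * p.c0 * p.r0) := by omega
  have r5 := r4.seq ((regDouble_run (T 1) (T 35) (hT.ne (by decide)) _ _
    (ov_1 hT s _ _ _ _ _ _) (ov_35 hT s _ _ _ _ _ _)).cast rfl
    ((ov_set1 hT s _ _ _ _ _ _ _).trans (by rw [e8])) le_rfl)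
  -- the register m = 4 E on T 32
  have r6 := r5.seq ((regCopy_run (T 32) (T 29) (hT.ne (by decide)) 0 p.E _
    (ov_32 hT s _ _ _ _ _ _)
    ((ov_base hT s _ _ _ _ _ _ 29 (by decide) (by decide)).trans bE)).cast rfl
    (ov_set32 hT s _ _ _ _ _ _ _) le_rfl)
  have r7 := r6.seq ((regDouble_run (T 32) (T 35) (hT.ne (by decide)) _ _
    (ov_32 hT s _ _ _ _ _ _) (ov_35 hT s _ _ _ _ _ _)).cast rfl
    (ov_set32 hT s _ _ _ _ _ _ _) le_rfl)
  have em : 2 * (2 * p.E) = p.m := by unfold SwapParams.m; omega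
  have r8 := r7.seq ((regDouble_run (T 32) (T 35) (hT.ne (by decide)) _ _
    (ov_32 hT s _ _ _ _ _ _) (ov_35 hT s _ _ _ _ _ _)).cast rfl
    ((ov_set32 hT s _ _ _ _ _ _ _).trans (by rw [em])) le_rfl)
  -- the pattern
  obtain ⟨body, hbody⟩ : ∃ body : List Sym, body = List.replicate p.m Sym.cC ++
      List.replicate p.m Sym.cZ ++ List.replicate p.m Sym.cN ++ List.replicate p.m Sym.cZ :=
    ⟨_, rfl⟩
  have hclean : ∀ x ∈ body, x ≠ Sym.blank ∧ x ≠ Sym.lend := by
    intro x hx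
    rw [hbody] at hx
    simp only [List.mem_append, List.mem_replicate] at hx
    rcases hx with ((⟨_, rfl⟩ | ⟨_, rfl⟩) | ⟨_, rfl⟩) | ⟨_, rfl⟩ <;> decide
  have hlen : body.length = 4 * p.m := by
    rw [hbody]
    simp only [List.length_append, List.length_replicate]
    omega
  have r9 := r8.seq ((emitRuns_run (T 13) (fun _ => p.m)
    [(Sym.cC, T 32), (Sym.cZ, T 32), (Sym.cN, T 32), (Sym.cZ, T 32)] [] _
    (ov_13 hT s _ _ _ _ _ _) (by
      intro xr hxr
      simp only [List.mem_cons, List.not_mem_nil, or_false] at hxr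
      rcases hxr with rfl | rfl | rfl | rfl <;>
        exact ⟨hT.ne (by decide), ov_32 hT s _ _ _ _ _ _⟩)).cast rfl
    ((ov_set13 hT s _ _ _ _ _ _ _).trans (show _ = ov T s _ (WT (body.map Sum.inl) (4 * p.m))
      _ _ _ _ by
        rw [hbody]
        simp only [List.flatMap_cons, List.flatMap_nil, List.append_nil, List.nil_append,
          List.map_append, List.map_replicate, List.append_assoc, List.map_cons, List.map_nil,
          List.sum_cons, List.sum_nil, List.length_nil]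
        congr 2
        omega)) le_rfl)
  have hl13 : (Sum.inl Sym.lend : Sym ⊕ α) ∉ body.map Sum.inl := by
    intro h
    rw [List.mem_map] at h
    obtain ⟨x, hx, e⟩ := h
    exact (hclean x hx).2 (Sum.inl.inj e)
  have r10 := r9.seq ((rewind_run (T 13) _ hl13 (4 * p.m) _ (ov_13 hT s _ _ _ _ _ _)).le.cast rfl
    (ov_set13 hT s _ _ _ _ _ _ _) le_rfl)
  have r11 := r10.seq ((regConst_run (T 33) 0 _ _ (ov_33 hT s _ _ _ _ _ _)).cast rfl
    (ov_set33 hT s _ _ _ _ _ _ _) le_rfl)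
  have r12 := r11.seq ((regConst_run (T 32) 0 _ _ (ov_32 hT s _ _ _ _ _ _)).cast rfl
    (ov_set32 hT s _ _ _ _ _ _ _) le_rfl)
  have r13 := r12.seq (genRepCore_run T hT (8 * (p.R * p.c0 * p.r0)) body hclean _
    (ov_1 hT s _ _ _ _ _ _) (ov_13 hT s _ _ _ _ _ _) (by
      intro i hi h1 h13
      rw [ov_low hT s _ _ _ _ _ _ i hi h1 h13]
      exact hempty i (Or.inl hi)))
  have hfin : (rep (8 * (p.R * p.c0 * p.r0)) body).map (Sum.inl : Sym → Sym ⊕ α)
      = p.ctl3b.map csym := by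
    rw [SwapParams.ctl3b, rep_map, rep_map, hbody]
    congr 1
    simp [csym, List.map_append, List.map_replicate]
  obtain ⟨A, hA, a1, a2, a3, a4, a5, a6, a7, a8⟩ := genRep_arith p hp hr0 hc0 hR
  refine r13.cast rfl ?_ ?_
  · rw [hfin]
    exact ov_final hT s _ z1 z13 z32 z33 z34 z35 _ _
  · have em' : p.m = 4 * p.E := rfl
    have e1 : 8 * (p.R * p.c0 * p.r0) * body.length = 128 * (p.R * p.c0 * p.r0 * p.E) := by
      rw [hlen, em']
      ring
    simp only [List.map_cons, List.map_nil, List.sum_cons, List.sum_nil]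
    rw [e1, hlen, hA, em']
    omega

/-- Generator of `SwapParams.ker3`. -/
def genKer3 (T : Fin 40 → Fin K) : Prog (Sym ⊕ α) K :=
  Prog.seq (Prog.seq (Prog.seq (Prog.seq (Prog.seq (Prog.seq (Prog.seq (Prog.seq (Prog.seq
    (Prog.seq (Prog.seq
    (regConst (T 1) 16)
    (regConst (T 33) 1))
    (regCopy (T 32) (T 29))) (regDouble (T 32) (T 35))) (regDouble (T 32) (T 35)))
    (regDouble (T 32) (T 35))) (regSub (T 32) (T 33)))
    (emitRuns (T 13) [(Sym.one, T 33), (Sym.zero, T 32)]))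
    (rewind (T 13))) (regConst (T 33) 0)) (regConst (T 32) 0)) (genRepCore T)

theorem genKer3_run (T : Fin 40 → Fin K) (hT : Function.Injective T) (p : SwapParams)
    (hp : p.Ok) (q : ℕ) (hq : p.E = q * p.P) (hr0 : 1 ≤ p.r0) (hc0 : 1 ≤ p.c0) (hR : 1 ≤ p.R)
    (s : St (Sym ⊕ α) K) (hbase : BaseRegs T p q s)
    (hempty : ∀ i : Fin 40, (i.val < 24 ∨ 32 ≤ i.val) → s (T i) = WT [] 0) :
    RunLe (genKer3 T) s (Function.update s (T 0) (WT (p.ker3.map bsym) 0))
      (100000 * (p.R * p.SA * p.W + 1)) := by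
  obtain ⟨_, _, _, _, _, bE, _⟩ := hbase
  have z1 := hempty 1 (Or.inl (by decide))
  have z13 := hempty 13 (Or.inl (by decide))
  have z32 := hempty 32 (Or.inr (by decide))
  have z33 := hempty 33 (Or.inr (by decide))
  have z34 := hempty 34 (Or.inr (by decide))
  have z35 := hempty 35 (Or.inr (by decide))
  have hs := ov_init s _ _ _ _ _ _ z1 z13 z32 z33 z34 z35
  have hE := hp.hE
  have em' : p.m = 4 * p.E := rfl
  have r1 := ((regConst_run (T 1) 16 0 _ (ov_1 hT s _ _ _ _ _ _)).cast hs.symm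
    (ov_set1 hT s _ _ _ _ _ _ _) le_rfl)
  have r2 := r1.seq ((regConst_run (T 33) 1 0 _ (ov_33 hT s _ _ _ _ _ _)).cast rfl
    (ov_set33 hT s _ _ _ _ _ _ _) le_rfl)
  have r3 := r2.seq ((regCopy_run (T 32) (T 29) (hT.ne (by decide)) 0 p.E _
    (ov_32 hT s _ _ _ _ _ _)
    ((ov_base hT s _ _ _ _ _ _ 29 (by decide) (by decide)).trans bE)).cast rfl
    (ov_set32 hT s _ _ _ _ _ _ _) le_rfl)
  have r4 := r3.seq ((regDouble_run (T 32) (T 35) (hT.ne (by decide)) _ _
    (ov_32 hT s _ _ _ _ _ _) (ov_35 hT s _ _ _ _ _ _)).cast rfl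
    (ov_set32 hT s _ _ _ _ _ _ _) le_rfl)
  have r5 := r4.seq ((regDouble_run (T 32) (T 35) (hT.ne (by decide)) _ _
    (ov_32 hT s _ _ _ _ _ _) (ov_35 hT s _ _ _ _ _ _)).cast rfl
    (ov_set32 hT s _ _ _ _ _ _ _) le_rfl)
  have r6 := r5.seq ((regDouble_run (T 32) (T 35) (hT.ne (by decide)) _ _
    (ov_32 hT s _ _ _ _ _ _) (ov_35 hT s _ _ _ _ _ _)).cast rfl
    (ov_set32 hT s _ _ _ _ _ _ _) le_rfl)
  have e1 : 2 * (2 * (2 * p.E)) - 1 = 2 * p.m - 1 := by rw [em']; omega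
  have r7 := r6.seq ((regSub_run (T 32) (T 33) (hT.ne (by decide)) _ _ _
    (ov_32 hT s _ _ _ _ _ _) (ov_33 hT s _ _ _ _ _ _)).cast rfl
    ((ov_set32 hT s _ _ _ _ _ _ _).trans (by rw [e1])) le_rfl)
  -- the pattern
  obtain ⟨val, hval⟩ : ∃ val : Fin K → ℕ, val = fun r => if r = T 33 then 1 else 2 * p.m - 1 :=
    ⟨_, rfl⟩
  have v33 : val (T 33) = 1 := by rw [hval]; simp
  have v32 : val (T 32) = 2 * p.m - 1 := by rw [hval]; simp [hT.eq_iff]
  obtain ⟨body, hbody⟩ : ∃ body : List Sym,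
      body = Sym.one :: List.replicate (2 * p.m - 1) Sym.zero := ⟨_, rfl⟩
  have hclean : ∀ x ∈ body, x ≠ Sym.blank ∧ x ≠ Sym.lend := by
    intro x hx
    rw [hbody] at hx
    simp only [List.mem_cons, List.mem_replicate] at hx
    rcases hx with rfl | ⟨_, rfl⟩ <;> decide
  have hlen : body.length = 2 * p.m := by
    rw [hbody, List.length_cons, List.length_replicate, em']
    omega
  have r8 := r7.seq ((emitRuns_run (T 13) val [(Sym.one, T 33), (Sym.zero, T 32)] [] _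
    (ov_13 hT s _ _ _ _ _ _) (by
      intro xr hxr
      simp only [List.mem_cons, List.not_mem_nil, or_false] at hxr
      rcases hxr with rfl | rfl
      · exact ⟨hT.ne (by decide), by rw [v33]; exact ov_33 hT s _ _ _ _ _ _⟩
      · exact ⟨hT.ne (by decide), by rw [v32]; exact ov_32 hT s _ _ _ _ _ _⟩)).cast rfl
    ((ov_set13 hT s _ _ _ _ _ _ _).trans (show _ = ov T s _ (WT (body.map Sum.inl) (2 * p.m))
      _ _ _ _ by
        rw [hbody]
        simp only [List.flatMap_cons, List.flatMap_nil, List.append_nil, List.nil_append,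
          List.map_replicate, List.map_cons, List.map_nil,
          List.sum_cons, List.sum_nil, List.length_nil, v33, v32, List.replicate_one,
          List.singleton_append]
        congr 2
        rw [em']
        omega)) le_rfl)
  have hl13 : (Sum.inl Sym.lend : Sym ⊕ α) ∉ body.map Sum.inl := by
    intro h
    rw [List.mem_map] at h
    obtain ⟨x, hx, e⟩ := h
    exact (hclean x hx).2 (Sum.inl.inj e)
  have r9 := r8.seq ((rewind_run (T 13) _ hl13 (2 * p.m) _ (ov_13 hT s _ _ _ _ _ _)).le.cast rfl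
    (ov_set13 hT s _ _ _ _ _ _ _) le_rfl)
  have r10 := r9.seq ((regConst_run (T 33) 0 _ _ (ov_33 hT s _ _ _ _ _ _)).cast rfl
    (ov_set33 hT s _ _ _ _ _ _ _) le_rfl)
  have r11 := r10.seq ((regConst_run (T 32) 0 _ _ (ov_32 hT s _ _ _ _ _ _)).cast rfl
    (ov_set32 hT s _ _ _ _ _ _ _) le_rfl)
  have r12 := r11.seq (genRepCore_run T hT 16 body hclean _
    (ov_1 hT s _ _ _ _ _ _) (ov_13 hT s _ _ _ _ _ _) (by
      intro i hi h1 h13
      rw [ov_low hT s _ _ _ _ _ _ i hi h1 h13]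
      exact hempty i (Or.inl hi)))
  have hfin : (rep 16 body).map (Sum.inl : Sym → Sym ⊕ α) = p.ker3.map bsym := by
    rw [SwapParams.ker3, rep_map, rep_map, hbody]
    congr 1
    simp [bsym, List.map_replicate]
  obtain ⟨A, hA, a1, a2, a3, a4, a5, a6, a7, a8⟩ := genRep_arith p hp hr0 hc0 hR
  refine r12.cast rfl ?_ ?_
  · rw [hfin]
    exact ov_final hT s _ z1 z13 z32 z33 z34 z35 _ _
  · simp only [List.map_cons, List.map_nil, List.sum_cons, List.sum_nil, v33, v32]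
    rw [hlen, hA, em']
    omega

/-- Generator of `SwapParams.ctl4`. -/
def genCtl4 (T : Fin 40 → Fin K) : Prog (Sym ⊕ α) K :=
  Prog.seq (Prog.seq (Prog.seq (Prog.seq (Prog.seq (Prog.seq (Prog.seq (Prog.seq (Prog.seq
    (Prog.seq (Prog.seq (Prog.seq (Prog.seq (Prog.seq (Prog.seq (Prog.seq
    (regMulAdd (T 33) (T 24) (T 26))
    (regMulAdd (T 1) (T 33) (T 25)))
    (regConst (T 33) 0)) (regConst (T 34) 8)) (regConst (T 35) 120))
    (regMulAdd (T 32) (T 35) (T 29))) (regAdd (T 32) (T 34)))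
    (regMulAdd (T 33) (T 34) (T 29))) (regSub (T 33) (T 34))) (regSub (T 33) (T 29)))
    (emitRuns (T 13) [(Sym.cS, T 32), (Sym.cC, T 29), (Sym.cS, T 33)]))
    (rewind (T 13))) (regConst (T 32) 0)) (regConst (T 33) 0)) (regConst (T 34) 0))
    (regConst (T 35) 0)) (genRepCore T)

theorem genCtl4_run (T : Fin 40 → Fin K) (hT : Function.Injective T) (p : SwapParams)
    (hp : p.Ok) (q : ℕ) (hq : p.E = q * p.P) (hr0 : 1 ≤ p.r0) (hc0 : 1 ≤ p.c0) (hR : 1 ≤ p.R)
    (s : St (Sym ⊕ α) K) (hbase : BaseRegs T p q s)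
    (hempty : ∀ i : Fin 40, (i.val < 24 ∨ 32 ≤ i.val) → s (T i) = WT [] 0) :
    RunLe (genCtl4 T) s (Function.update s (T 0) (WT (p.ctl4.map csym) 0))
      (100000 * (p.R * p.SA * p.W + 1)) := by
  obtain ⟨bR, br0, bc0, _, _, bE, _⟩ := hbase
  have z1 := hempty 1 (Or.inl (by decide))
  have z13 := hempty 13 (Or.inl (by decide))
  have z32 := hempty 32 (Or.inr (by decide))
  have z33 := hempty 33 (Or.inr (by decide))
  have z34 := hempty 34 (Or.inr (by decide))
  have z35 := hempty 35 (Or.inr (by decide))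
  have hs := ov_init s _ _ _ _ _ _ z1 z13 z32 z33 z34 z35
  have hE := hp.hE
  have em' : p.m = 4 * p.E := rfl
  have eg : p.g = 8 := rfl
  have r1 := ((regMulAdd_run (T 33) (T 24) (T 26) (hT.ne (by decide)) (hT.ne (by decide))
    (hT.ne (by decide)) 0 p.R p.c0 _ (ov_33 hT s _ _ _ _ _ _)
    ((ov_base hT s _ _ _ _ _ _ 24 (by decide) (by decide)).trans bR)
    ((ov_base hT s _ _ _ _ _ _ 26 (by decide) (by decide)).trans bc0)).cast hs.symm
    ((ov_set33 hT s _ _ _ _ _ _ _).trans (by rw [Nat.zero_add])) le_rfl)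
  have r2 := r1.seq ((regMulAdd_run (T 1) (T 33) (T 25) (hT.ne (by decide)) (hT.ne (by decide))
    (hT.ne (by decide)) 0 (p.R * p.c0) p.r0 _ (ov_1 hT s _ _ _ _ _ _)
    (ov_33 hT s _ _ _ _ _ _)
    ((ov_base hT s _ _ _ _ _ _ 25 (by decide) (by decide)).trans br0)).cast rfl
    ((ov_set1 hT s _ _ _ _ _ _ _).trans (by rw [Nat.zero_add])) le_rfl)
  have r3 := r2.seq ((regConst_run (T 33) 0 _ _ (ov_33 hT s _ _ _ _ _ _)).cast rfl
    (ov_set33 hT s _ _ _ _ _ _ _) le_rfl)
  have r4 := r3.seq ((regConst_run (T 34) 8 0 _ (ov_34 hT s _ _ _ _ _ _)).cast rfl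
    (ov_set34 hT s _ _ _ _ _ _ _) le_rfl)
  have r5 := r4.seq ((regConst_run (T 35) 120 0 _ (ov_35 hT s _ _ _ _ _ _)).cast rfl
    (ov_set35 hT s _ _ _ _ _ _ _) le_rfl)
  have r6 := r5.seq ((regMulAdd_run (T 32) (T 35) (T 29) (hT.ne (by decide))
    (hT.ne (by decide)) (hT.ne (by decide)) 0 120 p.E _ (ov_32 hT s _ _ _ _ _ _)
    (ov_35 hT s _ _ _ _ _ _)
    ((ov_base hT s _ _ _ _ _ _ 29 (by decide) (by decide)).trans bE)).cast rfl
    ((ov_set32 hT s _ _ _ _ _ _ _).trans (by rw [Nat.zero_add])) le_rfl)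
  have e7 : 120 * p.E + 8 = 30 * p.m + p.g := by rw [em', eg]; omega
  have r7 := r6.seq ((regAdd_run (T 32) (T 34) (hT.ne (by decide)) _ _ _
    (ov_32 hT s _ _ _ _ _ _) (ov_34 hT s _ _ _ _ _ _)).cast rfl
    ((ov_set32 hT s _ _ _ _ _ _ _).trans (by rw [e7])) le_rfl)
  have r8 := r7.seq ((regMulAdd_run (T 33) (T 34) (T 29) (hT.ne (by decide))
    (hT.ne (by decide)) (hT.ne (by decide)) 0 8 p.E _ (ov_33 hT s _ _ _ _ _ _)
    (ov_34 hT s _ _ _ _ _ _)
    ((ov_base hT s _ _ _ _ _ _ 29 (by decide) (by decide)).trans bE)).cast rfl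
    ((ov_set33 hT s _ _ _ _ _ _ _).trans (by rw [Nat.zero_add])) le_rfl)
  have r9 := r8.seq ((regSub_run (T 33) (T 34) (hT.ne (by decide)) _ _ _
    (ov_33 hT s _ _ _ _ _ _) (ov_34 hT s _ _ _ _ _ _)).cast rfl
    (ov_set33 hT s _ _ _ _ _ _ _) le_rfl)
  have e10 : 8 * p.E - 8 - p.E = 2 * p.m - p.g - p.E := by rw [em', eg]; omega
  have r10 := r9.seq ((regSub_run (T 33) (T 29) (hT.ne (by decide)) _ _ _
    (ov_33 hT s _ _ _ _ _ _)
    ((ov_base hT s _ _ _ _ _ _ 29 (by decide) (by decide)).trans bE)).cast rfl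
    ((ov_set33 hT s _ _ _ _ _ _ _).trans (by rw [e10])) le_rfl)
  -- the pattern
  obtain ⟨val, hval⟩ : ∃ val : Fin K → ℕ, val = fun r => if r = T 32 then 30 * p.m + p.g
      else if r = T 29 then p.E else 2 * p.m - p.g - p.E := ⟨_, rfl⟩
  have v32 : val (T 32) = 30 * p.m + p.g := by rw [hval]; simp
  have v29 : val (T 29) = p.E := by rw [hval]; simp [hT.eq_iff]
  have v33 : val (T 33) = 2 * p.m - p.g - p.E := by rw [hval]; simp [hT.eq_iff]
  obtain ⟨body, hbody⟩ : ∃ body : List Sym, body = List.replicate (30 * p.m + p.g) Sym.cS ++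
      List.replicate p.E Sym.cC ++ List.replicate (2 * p.m - p.g - p.E) Sym.cS := ⟨_, rfl⟩
  have hclean : ∀ x ∈ body, x ≠ Sym.blank ∧ x ≠ Sym.lend := by
    intro x hx
    rw [hbody] at hx
    simp only [List.mem_append, List.mem_replicate] at hx
    rcases hx with (⟨_, rfl⟩ | ⟨_, rfl⟩) | ⟨_, rfl⟩ <;> decide
  have hlen : body.length = 32 * p.m := by
    rw [hbody]
    simp only [List.length_append, List.length_replicate]
    rw [em', eg]
    omega
  have r11 := r10.seq ((emitRuns_run (T 13) val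
    [(Sym.cS, T 32), (Sym.cC, T 29), (Sym.cS, T 33)] [] _
    (ov_13 hT s _ _ _ _ _ _) (by
      intro xr hxr
      simp only [List.mem_cons, List.not_mem_nil, or_false] at hxr
      rcases hxr with rfl | rfl | rfl
      · exact ⟨hT.ne (by decide), by rw [v32]; exact ov_32 hT s _ _ _ _ _ _⟩
      · exact ⟨hT.ne (by decide), by
          rw [v29]
          exact (ov_base hT s _ _ _ _ _ _ 29 (by decide) (by decide)).trans bE⟩
      · exact ⟨hT.ne (by decide), by rw [v33]; exact ov_33 hT s _ _ _ _ _ _⟩)).cast rfl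
    ((ov_set13 hT s _ _ _ _ _ _ _).trans (show _ = ov T s _ (WT (body.map Sum.inl) (32 * p.m))
      _ _ _ _ by
        rw [hbody]
        simp only [List.flatMap_cons, List.flatMap_nil, List.append_nil, List.nil_append,
          List.map_append, List.map_replicate, List.append_assoc, List.map_cons, List.map_nil,
          List.sum_cons, List.sum_nil, List.length_nil, v32, v29, v33]
        congr 2
        rw [em', eg]
        omega)) le_rfl)
  have hl13 : (Sum.inl Sym.lend : Sym ⊕ α) ∉ body.map Sum.inl := by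
    intro h
    rw [List.mem_map] at h
    obtain ⟨x, hx, e⟩ := h
    exact (hclean x hx).2 (Sum.inl.inj e)
  have r12 := r11.seq ((rewind_run (T 13) _ hl13 (32 * p.m) _
    (ov_13 hT s _ _ _ _ _ _)).le.cast rfl (ov_set13 hT s _ _ _ _ _ _ _) le_rfl)
  have r13 := r12.seq ((regConst_run (T 32) 0 _ _ (ov_32 hT s _ _ _ _ _ _)).cast rfl
    (ov_set32 hT s _ _ _ _ _ _ _) le_rfl)
  have r14 := r13.seq ((regConst_run (T 33) 0 _ _ (ov_33 hT s _ _ _ _ _ _)).cast rfl
    (ov_set33 hT s _ _ _ _ _ _ _) le_rfl)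
  have r15 := r14.seq ((regConst_run (T 34) 0 _ _ (ov_34 hT s _ _ _ _ _ _)).cast rfl
    (ov_set34 hT s _ _ _ _ _ _ _) le_rfl)
  have r16 := r15.seq ((regConst_run (T 35) 0 _ _ (ov_35 hT s _ _ _ _ _ _)).cast rfl
    (ov_set35 hT s _ _ _ _ _ _ _) le_rfl)
  have r17 := r16.seq (genRepCore_run T hT (p.R * p.c0 * p.r0) body hclean _
    (ov_1 hT s _ _ _ _ _ _) (ov_13 hT s _ _ _ _ _ _) (by
      intro i hi h1 h13
      rw [ov_low hT s _ _ _ _ _ _ i hi h1 h13]
      exact hempty i (Or.inl hi)))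
  have hfin : (rep (p.R * p.c0 * p.r0) body).map (Sum.inl : Sym → Sym ⊕ α)
      = p.ctl4.map csym := by
    rw [SwapParams.ctl4, rep_map, rep_map, hbody]
    congr 1
    simp [csym, List.map_append, List.map_replicate]
  obtain ⟨A, hA, a1, a2, a3, a4, a5, a6, a7, a8⟩ := genRep_arith p hp hr0 hc0 hR
  refine r17.cast rfl ?_ ?_
  · rw [hfin]
    exact ov_final hT s _ z1 z13 z32 z33 z34 z35 _ _
  · have e1 : p.R * p.c0 * p.r0 * body.length = 128 * (p.R * p.c0 * p.r0 * p.E) := by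
      rw [hlen, em']
      ring
    simp only [List.map_cons, List.map_nil, List.sum_cons, List.sum_nil, v32, v29, v33]
    rw [e1, hlen, hA, em', eg]
    omega

end Vale.Agent.H91.MT
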