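import Vale.Agent.H91.MT.GenGrid
import Vale.Agent.H91.MT.RegC

/-!
# Auxiliary lemmas for TASK GENREP: repeated patterns, symbol maps, template emission
-/

namespace Vale.Agent.H91.MT

variable {α : Type} {K : ℕ}

/-- The work symbol of a control symbol. -/
def ctlS : Ctl → Sym
  | Ctl.C => Sym.cC
  | Ctl.S => Sym.cS
  | Ctl.Z => Sym.cZ
  | Ctl.O => Sym.cO
  | Ctl.N => Sym.cN

theorem csym_eq (c : Ctl) : (csym c : Sym ⊕ α) = Sum.inl (ctlS c) := by
  cases c <;> rfl

/-- The work symbol of a bit. -/
def bitS (b : Bool) : Sym := if b then Sym.one else Sym.zero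

theorem bsym_eq (b : Bool) : (bsym b : Sym ⊕ α) = Sum.inl (bitS b) := by
  cases b <;> rfl

theorem rep_map {β γ : Type} (f : β → γ) (n : ℕ) (l : List β) :
    (rep n l).map f = rep n (l.map f) := by
  simp [rep, List.map_flatten, List.map_replicate]

theorem mem_rep {β : Type} {n : ℕ} {l : List β} {x : β} (h : x ∈ rep n l) : x ∈ l := by
  simp only [rep, List.mem_flatten, List.mem_replicate] at h
  obtain ⟨l', ⟨_, rfl⟩, hx⟩ := h
  exact hx

theorem rep_length {β : Type} (n : ℕ) (l : List β) : (rep n l).length = n * l.length := by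
  simp [rep, List.length_flatten, List.map_replicate, List.sum_replicate]

/-- Specification of `emitRuns`: every run `(x, r)` appends `x ^ (value of r)`. -/
theorem emitRuns_run (t : Fin K) (val : Fin K → ℕ) (runs : List (Sym × Fin K)) :
    ∀ (l : List (Sym ⊕ α)) (s : St (Sym ⊕ α) K), s t = WT l l.length →
      (∀ xr ∈ runs, xr.2 ≠ t ∧ s xr.2 = ruler (val xr.2) 0) →
      RunLe (emitRuns t runs) s
        (Function.update s t
          (WT (l ++ runs.flatMap (fun xr => List.replicate (val xr.2) (Sum.inl xr.1)))
            (l.length + (runs.map (fun xr => val xr.2)).sum)))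
        ((runs.map (fun xr => 5 * val xr.2 + 5)).sum + 1) := by
  induction runs with
  | nil =>
    intro l s hs _
    have h := (Run.mv t Dir.S s).le
    rw [hs, WT_move_S] at h
    refine h.cast rfl ?_ (by simp)
    simp
  | cons xr rest ih =>
    intro l s hs hr
    obtain ⟨x, r⟩ := xr
    have hr0 := hr (x, r) (by simp)
    have h1 := emitRep_run t r hr0.1.symm x l (val r) s hs hr0.2
    have h2 := ih (l ++ List.replicate (val r) (Sum.inl x))
      (Function.update s t (WT (l ++ List.replicate (val r) (Sum.inl x)) (l.length + val r)))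
      (by simp) (by
        intro xr' hxr'
        have := hr xr' (List.mem_cons_of_mem _ hxr')
        refine ⟨this.1, ?_⟩
        rw [Function.update_of_ne this.1]
        exact this.2)
    have h3 := RunLe.seq h1 h2
    refine h3.cast rfl ?_ ?_
    · rw [Function.update_idem]
      congr 2
      · simp [List.append_assoc]
      · simp [Nat.add_assoc]
    · simp
      omega

end Vale.Agent.H91.MT
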