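import Vale.Agent.H91.MT.GenRep_Aux

/-!
# Common part of the generators of TASK GENREP

Given the number of repetitions in register `T 1` and the pattern on the template tape `T 13`,
`genRepCore` writes the repeated pattern on `T 0` (rewound) and clears `T 1 .. T 4` and `T 13`.
-/

namespace Vale.Agent.H91.MT

variable {α : Type} {K : ℕ}

/-- The tapes of `genGrid` inside the layout of the generators. -/
def T24 (T : Fin 40 → Fin K) : Fin 24 → Fin K := fun i => T ⟨i.val, by omega⟩

theorem T24_inj {T : Fin 40 → Fin K} (hT : Function.Injective T) :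
    Function.Injective (T24 T) := by
  intro i j h
  have h2 := hT h
  exact Fin.ext (by simpa using congrArg Fin.val h2)

/-- Repeat the pattern on `T 13` as often as register `T 1` says; clean up. -/
def genRepCore (T : Fin 40 → Fin K) : Prog (Sym ⊕ α) K :=
  Prog.seq (Prog.seq (Prog.seq (Prog.seq (Prog.seq (Prog.seq (Prog.seq (Prog.seq (Prog.seq
    (regConst (T 2) 1) (regConst (T 3) 1)) (regConst (T 4) 1)) (genGrid (T24 T) Sym.cZ))
    (rewind (T 0))) (regConst (T 1) 0)) (regConst (T 2) 0)) (regConst (T 3) 0))
    (regConst (T 4) 0)) (clearTape (T 13))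

theorem genRepCore_run (T : Fin 40 → Fin K) (hT : Function.Injective T) (n : ℕ)
    (body : List Sym) (hbody : ∀ x ∈ body, x ≠ Sym.blank ∧ x ≠ Sym.lend)
    (s : St (Sym ⊕ α) K) (h1 : s (T 1) = ruler n 0)
    (h13 : s (T 13) = WT (body.map Sum.inl) 0)
    (hempty : ∀ i : Fin 40, i.val < 24 → i ≠ 1 → i ≠ 13 → s (T i) = WT [] 0) :
    RunLe (genRepCore T) s
      (Function.update (Function.update (Function.update s (T 0)
        (WT ((rep n body).map Sum.inl) 0)) (T 1) (WT [] 0)) (T 13) (WT [] 0))
      (300 * (n * body.length) + 1300 * n + 10 * body.length + 500) := by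
  have hG : gridList n 1 1 1 0 0 0 0 0 0 Sym.cZ [] [] body [] [] [] = rep n body :=
    (rep_eq_gridList n Sym.cZ body).symm
  have hclean : ∀ x ∈ ([] : List Sym) ++ [] ++ body ++ [] ++ [] ++ [],
      x ≠ Sym.blank ∧ x ≠ Sym.lend := by
    intro x hx
    apply hbody
    simpa using hx
  have hlend : (Sum.inl Sym.lend : Sym ⊕ α) ∉ (rep n body).map Sum.inl := by
    intro h
    rw [List.mem_map] at h
    obtain ⟨x, hx, e⟩ := h
    have := Sum.inl.inj e
    exact (hbody x (mem_rep hx)).2 this
  have hb1 : (Sum.inl Sym.blank : Sym ⊕ α) ∉ body.map Sum.inl := by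
    intro h
    rw [List.mem_map] at h
    obtain ⟨x, hx, e⟩ := h
    exact (hbody x hx).1 (Sum.inl.inj e)
  have hb2 : (Sum.inl Sym.lend : Sym ⊕ α) ∉ body.map Sum.inl := by
    intro h
    rw [List.mem_map] at h
    obtain ⟨x, hx, e⟩ := h
    exact (hbody x hx).2 (Sum.inl.inj e)
  have e0 := hempty 0 (by decide) (by decide) (by decide)
  have e2 := hempty 2 (by decide) (by decide) (by decide)
  have e3 := hempty 3 (by decide) (by decide) (by decide)
  have e4 := hempty 4 (by decide) (by decide) (by decide)
  have r1 := regConst_run (T 2) 1 0 s e2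
  have r2 := r1.seq (regConst_run (T 3) 1 0 _ (by
    rw [Function.update_of_ne (hT.ne (by decide))]; exact e3))
  have r3 := r2.seq (regConst_run (T 4) 1 0 _ (by
    rw [Function.update_of_ne (hT.ne (by decide)), Function.update_of_ne (hT.ne (by decide))]
    exact e4))
  -- the state before the grid generator
  obtain ⟨s3, hs3⟩ : ∃ s3 : St (Sym ⊕ α) K, s3 = Function.update (Function.update
      (Function.update s (T 2) (ruler 1 0)) (T 3) (ruler 1 0)) (T 4) (ruler 1 0) := ⟨_, rfl⟩
  rw [← hs3] at r3
  have look : ∀ j : Fin 40, j ≠ 2 → j ≠ 3 → j ≠ 4 → s3 (T j) = s (T j) := by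
    intro j h2 h3 h4
    rw [hs3]
    simp [hT.eq_iff, h2, h3, h4]
  have s3_2 : s3 (T 2) = ruler 1 0 := by rw [hs3]; simp [hT.eq_iff]
  have s3_3 : s3 (T 3) = ruler 1 0 := by rw [hs3]; simp [hT.eq_iff]
  have s3_4 : s3 (T 4) = ruler 1 0 := by rw [hs3]; simp
  have lookE : ∀ j : Fin 40, j.val < 24 → j ≠ 1 → j ≠ 13 → j ≠ 2 → j ≠ 3 → j ≠ 4 →
      s3 (T j) = ruler 0 0 := by
    intro j hj h1' h13' h2 h3 h4
    rw [look j h2 h3 h4]
    exact hempty j hj h1' h13'
  have r4 := r3.seq (genGrid_run (T24 T) (T24_inj hT) Sym.cZ (by decide) (by decide)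
    n 1 1 1 0 0 0 0 0 0 le_rfl (by omega) (by omega) (by omega) (by omega) (by omega) (by omega)
    [] [] body [] [] [] hclean [] s3
    (lookE 0 (by decide) (by decide) (by decide) (by decide) (by decide) (by decide))
    ((look 1 (by decide) (by decide) (by decide)).trans h1)
    s3_2 s3_3 s3_4
    (lookE 5 (by decide) (by decide) (by decide) (by decide) (by decide) (by decide))
    (lookE 6 (by decide) (by decide) (by decide) (by decide) (by decide) (by decide))
    (lookE 7 (by decide) (by decide) (by decide) (by decide) (by decide) (by decide))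
    (lookE 8 (by decide) (by decide) (by decide) (by decide) (by decide) (by decide))
    (lookE 9 (by decide) (by decide) (by decide) (by decide) (by decide) (by decide))
    (lookE 10 (by decide) (by decide) (by decide) (by decide) (by decide) (by decide))
    (lookE 11 (by decide) (by decide) (by decide) (by decide) (by decide) (by decide))
    (lookE 12 (by decide) (by decide) (by decide) (by decide) (by decide) (by decide))
    ((look 13 (by decide) (by decide) (by decide)).trans h13)
    (lookE 14 (by decide) (by decide) (by decide) (by decide) (by decide) (by decide))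
    (lookE 15 (by decide) (by decide) (by decide) (by decide) (by decide) (by decide))
    (lookE 16 (by decide) (by decide) (by decide) (by decide) (by decide) (by decide))
    (by
      intro i hi
      apply lookE ⟨i.val, by omega⟩ i.isLt
      all_goals
        intro h
        have := congrArg Fin.val h
        simp at this
        omega))
  have r4' := r4.cast rfl (show _ = Function.update s3 (T 0)
      (WT ((rep n body).map Sum.inl) (n * body.length)) by
    rw [hG, rep_length, List.nil_append, List.length_nil, Nat.zero_add]
    rfl) le_rfl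
  have r5 := r4'.seq (rewind_run (T 0) _ hlend (n * body.length) _
    (Function.update_self _ _ _)).le
  rw [Function.update_idem] at r5
  have r6 := r5.seq (regConst_run (T 1) 0 n _ (by
    rw [Function.update_of_ne (hT.ne (by decide))]
    exact (look 1 (by decide) (by decide) (by decide)).trans h1))
  have r7 := r6.seq (regConst_run (T 2) 0 1 _ (by
    rw [Function.update_of_ne (hT.ne (by decide)), Function.update_of_ne (hT.ne (by decide))]
    exact s3_2))
  have r8 := r7.seq (regConst_run (T 3) 0 1 _ (by
    rw [Function.update_of_ne (hT.ne (by decide)), Function.update_of_ne (hT.ne (by decide)),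
      Function.update_of_ne (hT.ne (by decide))]
    exact s3_3))
  have r9 := r8.seq (regConst_run (T 4) 0 1 _ (by
    rw [Function.update_of_ne (hT.ne (by decide)), Function.update_of_ne (hT.ne (by decide)),
      Function.update_of_ne (hT.ne (by decide)), Function.update_of_ne (hT.ne (by decide))]
    exact s3_4))
  have r10 := r9.seq (clearTape_run (T 13) (body.map Sum.inl) hb1 hb2 0 (Nat.zero_le _) _ (by
    rw [Function.update_of_ne (hT.ne (by decide)), Function.update_of_ne (hT.ne (by decide)),
      Function.update_of_ne (hT.ne (by decide)), Function.update_of_ne (hT.ne (by decide)),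
      Function.update_of_ne (hT.ne (by decide))]
    exact (look 13 (by decide) (by decide) (by decide)).trans h13))
  refine r10.cast rfl ?_ ?_
  · have z : (ruler 0 0 : Tape (Sym ⊕ α)) = WT [] 0 := rfl
    funext j
    rw [hs3]
    simp only [Function.update_apply, z]
    split_ifs <;> simp_all [hT.eq_iff]
  · rw [hG, rep_length, List.length_map]
    omega

end Vale.Agent.H91.MT
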