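import Vale.Agent.H91.MT.GenRep_Core

/-!
# State bookkeeping for TASK GENREP

`ov T s t1 t13 a b c d` is the state `s` with the tapes `T 1, T 13, T 32, T 33, T 34, T 35`
replaced.
-/

namespace Vale.Agent.H91.MT

variable {α : Type} {K : ℕ}

/-- The state `s` with six tapes replaced. -/
def ov (T : Fin 40 → Fin K) (s : St (Sym ⊕ α) K) (t1 t13 a b c d : Tape (Sym ⊕ α)) :
    St (Sym ⊕ α) K :=
  fun j => if j = T 1 then t1 else if j = T 13 then t13 else if j = T 32 then a
    else if j = T 33 then b else if j = T 34 then c else if j = T 35 then d else s j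

variable {T : Fin 40 → Fin K} (hT : Function.Injective T) (s : St (Sym ⊕ α) K)
  (t1 t13 a b c d : Tape (Sym ⊕ α))

include hT

theorem ov_1 : ov T s t1 t13 a b c d (T 1) = t1 := by simp [ov]

theorem ov_13 : ov T s t1 t13 a b c d (T 13) = t13 := by simp [ov, hT.eq_iff]

theorem ov_32 : ov T s t1 t13 a b c d (T 32) = a := by simp [ov, hT.eq_iff]

theorem ov_33 : ov T s t1 t13 a b c d (T 33) = b := by simp [ov, hT.eq_iff]

theorem ov_34 : ov T s t1 t13 a b c d (T 34) = c := by simp [ov, hT.eq_iff]

theorem ov_35 : ov T s t1 t13 a b c d (T 35) = d := by simp [ov, hT.eq_iff]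

theorem ov_other (i : Fin 40) (h1 : i ≠ 1) (h13 : i ≠ 13) (h32 : i ≠ 32) (h33 : i ≠ 33)
    (h34 : i ≠ 34) (h35 : i ≠ 35) : ov T s t1 t13 a b c d (T i) = s (T i) := by
  simp [ov, hT.eq_iff, h1, h13, h32, h33, h34, h35]

theorem ov_low (i : Fin 40) (hi : i.val < 24) (h1 : i ≠ 1) (h13 : i ≠ 13) :
    ov T s t1 t13 a b c d (T i) = s (T i) := by
  apply ov_other hT s t1 t13 a b c d i h1 h13
  all_goals
    intro h
    rw [h] at hi
    exact absurd hi (by decide)

theorem ov_set1 (X : Tape (Sym ⊕ α)) :
    Function.update (ov T s t1 t13 a b c d) (T 1) X = ov T s X t13 a b c d := by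
  funext j
  simp only [ov, Function.update_apply]
  split_ifs <;> simp_all [hT.eq_iff]

theorem ov_set13 (X : Tape (Sym ⊕ α)) :
    Function.update (ov T s t1 t13 a b c d) (T 13) X = ov T s t1 X a b c d := by
  funext j
  simp only [ov, Function.update_apply]
  split_ifs <;> simp_all [hT.eq_iff]

theorem ov_set32 (X : Tape (Sym ⊕ α)) :
    Function.update (ov T s t1 t13 a b c d) (T 32) X = ov T s t1 t13 X b c d := by
  funext j
  simp only [ov, Function.update_apply]
  split_ifs <;> simp_all [hT.eq_iff]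

theorem ov_set33 (X : Tape (Sym ⊕ α)) :
    Function.update (ov T s t1 t13 a b c d) (T 33) X = ov T s t1 t13 a X c d := by
  funext j
  simp only [ov, Function.update_apply]
  split_ifs <;> simp_all [hT.eq_iff]

theorem ov_set34 (X : Tape (Sym ⊕ α)) :
    Function.update (ov T s t1 t13 a b c d) (T 34) X = ov T s t1 t13 a b X d := by
  funext j
  simp only [ov, Function.update_apply]
  split_ifs <;> simp_all [hT.eq_iff]

theorem ov_set35 (X : Tape (Sym ⊕ α)) :
    Function.update (ov T s t1 t13 a b c d) (T 35) X = ov T s t1 t13 a b c X := by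
  funext j
  simp only [ov, Function.update_apply]
  split_ifs <;> simp_all [hT.eq_iff]

theorem ov_base (i : Fin 40) (hi : 24 ≤ i.val) (hi' : i.val ≤ 31) :
    ov T s t1 t13 a b c d (T i) = s (T i) := by
  apply ov_other hT s t1 t13 a b c d i
  all_goals
    intro h
    rw [h] at hi hi'
    revert hi hi'
    decide

omit hT in
theorem ov_init (h1 : s (T 1) = t1) (h13 : s (T 13) = t13) (h32 : s (T 32) = a)
    (h33 : s (T 33) = b) (h34 : s (T 34) = c) (h35 : s (T 35) = d) :
    s = ov T s t1 t13 a b c d := by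
  funext j
  simp only [ov]
  split_ifs <;> simp_all

/-- The final state of a generator: the overlay with clean scratch tapes, after `genRepCore`. -/
theorem ov_final (X : Tape (Sym ⊕ α)) (h1 : s (T 1) = WT [] 0) (h13 : s (T 13) = WT [] 0)
    (h32 : s (T 32) = WT [] 0) (h33 : s (T 33) = WT [] 0) (h34 : s (T 34) = WT [] 0)
    (h35 : s (T 35) = WT [] 0) (t1 t13 : Tape (Sym ⊕ α)) :
    Function.update (Function.update (Function.update
      (ov T s t1 t13 (WT [] 0) (WT [] 0) (WT [] 0) (WT [] 0)) (T 0) X) (T 1) (WT [] 0))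
      (T 13) (WT [] 0) = Function.update s (T 0) X := by
  funext j
  simp only [ov, Function.update_apply]
  split_ifs <;> simp_all [hT.eq_iff]

end Vale.Agent.H91.MT
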