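import Vale.Agent.H91.MT.Addr

/-!
# TASK UNSHUFFLE, pure part: one unshuffle pass as a concatenation of segments
-/

namespace Vale.Agent.H91.MT.Unshuf

/-- `n` consecutive values of `f` starting at `a`. -/
def seg {β : Type} (f : ℕ → β) (a n : ℕ) : List β := (List.range n).map fun i => f (a + i)

theorem seg_succ {β : Type} (f : ℕ → β) (a n : ℕ) :
    seg f a (n + 1) = seg f a n ++ [f (a + n)] := by
  simp [seg, List.range_succ]

@[simp] theorem seg_length {β : Type} (f : ℕ → β) (a n : ℕ) : (seg f a n).length = n := by
  simp [seg]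

theorem mem_seg {β : Type} {f : ℕ → β} {a n : ℕ} {x : β} :
    x ∈ seg f a n ↔ ∃ i, i < n ∧ f (a + i) = x := by
  simp [seg]

theorem map_range_mul {β : Type} (n m : ℕ) (F : ℕ → β) :
    (List.range (n * m)).map F = (List.range n).flatMap fun j => seg F (j * m) m := by
  induction n with
  | zero => simp
  | succ n ih =>
    rw [Nat.succ_mul, List.range_add, List.map_append, ih, List.range_succ, List.flatMap_append]
    simp [seg]

/-- The even-numbered items of the first `t` pairs of the period starting at `P0`. -/
def evens {β : Type} (f : ℕ → β) (e P0 t : ℕ) : List β :=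
  (List.range t).flatMap fun i => seg f (P0 + 2 * i * e) e

/-- The odd-numbered items of the first `t` pairs of the period starting at `P0`. -/
def odds {β : Type} (f : ℕ → β) (e P0 t : ℕ) : List β :=
  (List.range t).flatMap fun i => seg f (P0 + 2 * i * e + e) e

theorem evens_succ {β : Type} (f : ℕ → β) (e P0 t : ℕ) :
    evens f e P0 (t + 1) = evens f e P0 t ++ seg f (P0 + 2 * t * e) e := by
  simp [evens, List.range_succ, List.flatMap_append]

theorem odds_succ {β : Type} (f : ℕ → β) (e P0 t : ℕ) :
    odds f e P0 (t + 1) = odds f e P0 t ++ seg f (P0 + 2 * t * e + e) e := by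
  simp [odds, List.range_succ, List.flatMap_append]

@[simp] theorem evens_length {β : Type} (f : ℕ → β) (e P0 t : ℕ) :
    (evens f e P0 t).length = t * e := by
  induction t with
  | zero => simp [evens]
  | succ t ih => rw [evens_succ, List.length_append, ih, seg_length]; ring

@[simp] theorem odds_length {β : Type} (f : ℕ → β) (e P0 t : ℕ) :
    (odds f e P0 t).length = t * e := by
  induction t with
  | zero => simp [odds]
  | succ t ih => rw [odds_succ, List.length_append, ih, seg_length]; ring

theorem mem_odds {β : Type} {f : ℕ → β} {e P0 t : ℕ} {x : β} (hx : x ∈ odds f e P0 t) :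
    ∃ k, k < P0 + 2 * t * e ∧ f k = x := by
  simp only [odds, List.mem_flatMap, List.mem_range, mem_seg] at hx
  obtain ⟨i, hi, b, hb, rfl⟩ := hx
  refine ⟨_, ?_, rfl⟩
  have : 2 * (i + 1) * e ≤ 2 * t * e := Nat.mul_le_mul_right e (by omega)
  nlinarith

/-- The result after `j` periods. -/
def unshufRes {β : Type} (f : ℕ → β) (e h j : ℕ) : List β :=
  (List.range j).flatMap fun j' =>
    evens f e (j' * (2 * h * e)) h ++ odds f e (j' * (2 * h * e)) h

theorem unshufRes_succ {β : Type} (f : ℕ → β) (e h j : ℕ) :
    unshufRes f e h (j + 1) = unshufRes f e h j ++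
      (evens f e (j * (2 * h * e)) h ++ odds f e (j * (2 * h * e)) h) := by
  simp [unshufRes, List.range_succ, List.flatMap_append]

@[simp] theorem unshufRes_length {β : Type} (f : ℕ → β) (e h j : ℕ) :
    (unshufRes f e h j).length = j * (2 * h * e) := by
  induction j with
  | zero => simp [unshufRes]
  | succ j ih =>
    rw [unshufRes_succ, List.length_append, ih, List.length_append, evens_length, odds_length]
    ring

theorem unshufIdx_even (e h j i b : ℕ) (hi : i < h) (hb : b < e) :
    unshufIdx e h (j * (2 * h * e) + (i * e + b)) = j * (2 * h * e) + 2 * i * e + b := by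
  have h1 : (i + 1) * e ≤ h * e := Nat.mul_le_mul_right e hi
  have hN : i * e + b < 2 * h * e := by nlinarith
  have hd : (i * e + b) / e = i := by
    rw [Nat.mul_comm i e, Nat.mul_add_div (by omega), Nat.div_eq_of_lt hb, Nat.add_zero]
  have hm : (i * e + b) % e = b := by
    rw [Nat.mul_comm i e, Nat.mul_add_mod, Nat.mod_eq_of_lt hb]
  unfold unshufIdx
  rw [Nat.mul_comm j, Nat.mul_add_div (by omega), Nat.mul_add_mod, Nat.div_eq_of_lt hN,
    Nat.mod_eq_of_lt hN, hd, hm, if_pos hi]
  ring

theorem unshufIdx_odd (e h j i b : ℕ) (hi : i < h) (hb : b < e) :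
    unshufIdx e h (j * (2 * h * e) + (h * e + (i * e + b))) =
      j * (2 * h * e) + 2 * i * e + e + b := by
  have h1 : (i + 1) * e ≤ h * e := Nat.mul_le_mul_right e hi
  have hN : h * e + (i * e + b) < 2 * h * e := by nlinarith
  have hd : (h * e + (i * e + b)) / e = h + i := by
    have : h * e + (i * e + b) = e * (h + i) + b := by ring
    rw [this, Nat.mul_add_div (by omega), Nat.div_eq_of_lt hb, Nat.add_zero]
  have hm : (h * e + (i * e + b)) % e = b := by
    have : h * e + (i * e + b) = e * (h + i) + b := by ring
    rw [this, Nat.mul_add_mod, Nat.mod_eq_of_lt hb]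
  unfold unshufIdx
  rw [Nat.mul_comm j, Nat.mul_add_div (by omega), Nat.mul_add_mod, Nat.div_eq_of_lt hN,
    Nat.mod_eq_of_lt hN, hd, hm, if_neg (by omega)]
  have : h + i - h = i := by omega
  rw [this]
  ring

theorem unshufIdx_lt (e h q pos : ℕ) (hpos : pos < q * (2 * h * e)) :
    unshufIdx e h pos < q * (2 * h * e) := by
  have hN : 0 < 2 * h * e := by
    rcases Nat.eq_zero_or_pos (2 * h * e) with h0 | h0
    · rw [h0] at hpos; simp at hpos
    · exact h0
  have he : 0 < e := by
    rcases Nat.eq_zero_or_pos e with h0 | h0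
    · rw [h0] at hN; simp at hN
    · exact h0
  have hj : pos / (2 * h * e) + 1 ≤ q := (Nat.div_lt_iff_lt_mul hN).mpr hpos
  have hr : pos % (2 * h * e) < 2 * h * e := Nat.mod_lt _ hN
  have hre : pos % (2 * h * e) / e < 2 * h := by
    rw [Nat.div_lt_iff_lt_mul he]; exact hr
  have hb : pos % (2 * h * e) % e < e := Nat.mod_lt _ he
  have hX : (if pos % (2 * h * e) / e < h then 2 * (pos % (2 * h * e) / e)
      else 2 * (pos % (2 * h * e) / e - h) + 1) + 1 ≤ 2 * h := by
    split_ifs <;> omega
  have h2 := Nat.mul_le_mul_right e hX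
  have h3 := Nat.mul_le_mul_right (2 * h * e) hj
  unfold unshufIdx
  nlinarith

/-- One unshuffle pass is the concatenation, over the periods, of the even items followed by
the odd items. -/
theorem map_unshufIdx {β : Type} (f : ℕ → β) (e h q : ℕ) :
    (List.range (q * (2 * h * e))).map (fun pos => f (unshufIdx e h pos)) =
      unshufRes f e h q := by
  rw [map_range_mul, unshufRes, List.flatMap_def, List.flatMap_def]
  congr 1
  apply List.map_congr_left
  intro j _
  have e2 : 2 * h * e = h * e + h * e := by ring
  have e3 : seg (fun pos => f (unshufIdx e h pos)) (j * (2 * h * e)) (2 * h * e) =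
      (List.range (h * e)).map (fun r => f (unshufIdx e h (j * (2 * h * e) + r))) ++
      (List.range (h * e)).map (fun r => f (unshufIdx e h (j * (2 * h * e) + (h * e + r)))) := by
    unfold seg
    conv_lhs => rw [e2, List.range_add, List.map_append, List.map_map, ← e2]
    rfl
  rw [e3, map_range_mul, map_range_mul, evens, odds, List.flatMap_def, List.flatMap_def,
    List.flatMap_def, List.flatMap_def]
  congr 2
  · apply List.map_congr_left
    intro i hi
    apply List.map_congr_left
    intro b hb
    beta_reduce
    rw [unshufIdx_even e h j i b (List.mem_range.mp hi) (List.mem_range.mp hb)]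
  · apply List.map_congr_left
    intro i hi
    apply List.map_congr_left
    intro b hb
    beta_reduce
    rw [unshufIdx_odd e h j i b (List.mem_range.mp hi) (List.mem_range.mp hb)]

theorem bsym_ne_blank {α : Type} (b : Bool) : (bsym b : Sym ⊕ α) ≠ Sum.inl Sym.blank := by
  cases b <;> simp [bsym]

theorem bsym_ne_lend {α : Type} (b : Bool) : (bsym b : Sym ⊕ α) ≠ Sum.inl Sym.lend := by
  cases b <;> simp [bsym]

theorem blank_not_mem_map_bsym {α : Type} (l : List Bool) :
    (Sum.inl Sym.blank : Sym ⊕ α) ∉ l.map bsym := by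
  intro h
  obtain ⟨b, _, hb⟩ := List.mem_map.mp h
  exact bsym_ne_blank b hb

theorem lend_not_mem_map_bsym {α : Type} (l : List Bool) :
    (Sum.inl Sym.lend : Sym ⊕ α) ∉ l.map bsym := by
  intro h
  obtain ⟨b, _, hb⟩ := List.mem_map.mp h
  exact bsym_ne_lend b hb

/-- The machine-level result of the pass is the unshuffled list. -/
theorem unshufRes_eq {α : Type} (e h q : ℕ) (l : List Bool) (hl : l.length = q * (2 * h * e)) :
    unshufRes (fun i => (l.map (bsym (α := α))).getD i (Sum.inl Sym.blank)) e h q =
      (unshuf e h l).map bsym := by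
  rw [← map_unshufIdx, unshuf, List.map_map, ← hl]
  apply List.map_congr_left
  intro pos hpos
  have h1 : unshufIdx e h pos < l.length := by
    rw [hl]; exact unshufIdx_lt e h q pos (by rw [← hl]; exact List.mem_range.mp hpos)
  simp [List.getD_eq_getElem?_getD, h1]

end Vale.Agent.H91.MT.Unshuf
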