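import Vale.Agent.H91.MT.RegA
import Vale.Agent.H91.MT.Unshuffle_Pure

/-!
# TASK UNSHUFFLE: one perfect-unshuffle pass on the machine
-/

namespace Vale.Agent.H91.MT.Unshuf

variable {α : Type} {K : ℕ}

/-- The reading function of a work tape holding `L`. -/
def rdf (L : List (Sym ⊕ α)) : ℕ → Sym ⊕ α := fun i => L.getD i (Sum.inl Sym.blank)

/-- Copy one cell from `a` to the stream `b` for every cell of the ruler `r`. -/
def copyE (a b r : Fin K) : Prog (Sym ⊕ α) K := forRuler r (Prog.cp a b (fun hd => hd a))

theorem copyE_run (a b r : Fin K) (hab : a ≠ b) (har : a ≠ r) (hbr : b ≠ r)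
    (L L' : List (Sym ⊕ α)) (p e : ℕ) (s : St (Sym ⊕ α) K)
    (ha : s a = WT L p) (hb : s b = WT L' L'.length) (hr : s r = ruler e 0) :
    RunLe (copyE a b r) s
      (Function.update (Function.update s a (WT L (p + e))) b
        (WT (L' ++ seg (rdf L) p e) (L' ++ seg (rdf L) p e).length)) (5 * e + 5) := by
  have h := forRuler_run r (Prog.cp a b (fun hd => hd a)) e
    (fun i => Function.update (Function.update (Function.update s a (WT L (p + i))) b
        (WT (L' ++ seg (rdf L) p i) (L' ++ seg (rdf L) p i).length)) r (ruler e i))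
    (fun _ => 1) (by intro i _; simp) (by
      intro i _
      have h1 := Run.cp a b hab (fun hd => hd a)
        (Function.update (Function.update (Function.update s a (WT L (p + i))) b
          (WT (L' ++ seg (rdf L) p i) (L' ++ seg (rdf L) p i).length)) r (ruler e i))
      simp only [St.heads, Function.update_of_ne har, Function.update_of_ne hbr,
        Function.update_of_ne hab, Function.update_self, WT_read, WT_move_R] at h1
      rw [WT_write_end, WT_move_R] at h1
      refine h1.le.cast rfl ?_ le_rfl
      have e1 : L' ++ seg (rdf L) p (i + 1) =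
          L' ++ seg (rdf L) p i ++ [L.getD (p + i) (Sum.inl Sym.blank)] := by
        rw [seg_succ, List.append_assoc]; rfl
      have e2 : (L' ++ seg (rdf L) p i ++ [L.getD (p + i) (Sum.inl Sym.blank)]).length =
          (L' ++ seg (rdf L) p i).length + 1 := by
        simp only [List.length_append, List.length_singleton]
      rw [e1, e2]
      funext j
      simp only [Function.update_apply]
      split_ifs <;> first | rfl | simp_all)
  refine h.cast ?_ ?_ ?_
  · funext j
    simp only [Function.update_apply]
    split_ifs <;> simp_all [seg]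
  · funext j
    simp only [Function.update_apply]
    split_ifs <;> first | rfl | simp_all
  · simp [Finset.sum_const]; omega

/-- One pair of items: `e` cells to `dst`, then `e` cells to `d2`. -/
def copyPair (src d2 dst re : Fin K) : Prog (Sym ⊕ α) K :=
  Prog.seq (copyE src dst re) (copyE src d2 re)

theorem copyPair_run (src d2 dst re : Fin K) (h12 : src ≠ d2) (h13 : src ≠ dst) (h14 : src ≠ re)
    (h23 : d2 ≠ dst) (h24 : d2 ≠ re) (h34 : dst ≠ re)
    (L D D2 : List (Sym ⊕ α)) (p e : ℕ) (s : St (Sym ⊕ α) K)
    (hsrc : s src = WT L p) (hdst : s dst = WT D D.length) (hd2 : s d2 = WT D2 D2.length)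
    (hre : s re = ruler e 0) :
    RunLe (copyPair src d2 dst re) s
      (Function.update (Function.update (Function.update s src (WT L (p + e + e))) dst
        (WT (D ++ seg (rdf L) p e) (D ++ seg (rdf L) p e).length)) d2
        (WT (D2 ++ seg (rdf L) (p + e) e) (D2 ++ seg (rdf L) (p + e) e).length))
      (10 * e + 10) := by
  have h1 := copyE_run src dst re h13 h14 h34 L D p e s hsrc hdst hre
  have h2 := copyE_run src d2 re h12 h14 h24 L D2 (p + e) e
    (Function.update (Function.update s src (WT L (p + e))) dst
      (WT (D ++ seg (rdf L) p e) (D ++ seg (rdf L) p e).length))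
    (by rw [Function.update_of_ne h13, Function.update_self])
    (by rw [Function.update_of_ne h23, Function.update_of_ne h12.symm, hd2])
    (by rw [Function.update_of_ne h34.symm, Function.update_of_ne h14.symm, hre])
  refine (h1.seq h2).cast rfl ?_ (by omega)
  funext j
  simp only [Function.update_apply]
  split_ifs <;> first | rfl | simp_all

theorem not_mem_odds (L : List (Sym ⊕ α)) (x : Sym ⊕ α) (hx : x ∉ L) (e P0 t : ℕ)
    (hP : P0 + 2 * t * e ≤ L.length) : x ∉ odds (rdf L) e P0 t := by
  intro h
  obtain ⟨k, hk, rfl⟩ := mem_odds h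
  apply hx
  have hk' : k < L.length := by omega
  unfold rdf
  rw [List.getD_eq_getElem _ _ hk']
  exact List.getElem_mem hk'

/-- One period: `h` pairs of items, the even items go to `dst`, the odd ones to `d2`; then `d2`
is appended to `dst` and erased. -/
def unshufPeriod (src d2 dst re rh : Fin K) : Prog (Sym ⊕ α) K :=
  Prog.seq (forRuler rh (copyPair src d2 dst re))
    (Prog.seq (rewind d2) (Prog.seq (copyApp d2 dst) (clearTape d2)))

theorem unshufPeriod_run (src d2 dst re rh : Fin K) (h12 : src ≠ d2) (h13 : src ≠ dst)
    (h14 : src ≠ re) (h15 : src ≠ rh) (h23 : d2 ≠ dst) (h24 : d2 ≠ re) (h25 : d2 ≠ rh)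
    (h34 : dst ≠ re) (h35 : dst ≠ rh) (h45 : re ≠ rh)
    (L D : List (Sym ⊕ α)) (hLb : Sum.inl Sym.blank ∉ L) (hLl : Sum.inl Sym.lend ∉ L)
    (P0 e h : ℕ) (hP : P0 + 2 * h * e ≤ L.length) (s : St (Sym ⊕ α) K)
    (hsrc : s src = WT L P0) (hd2 : s d2 = WT [] 0) (hdst : s dst = WT D D.length)
    (hre : s re = ruler e 0) (hrh : s rh = ruler h 0) :
    RunLe (unshufPeriod src d2 dst re rh) s
      (Function.update (Function.update s src (WT L (P0 + 2 * h * e))) dst
        (WT (D ++ (evens (rdf L) e P0 h ++ odds (rdf L) e P0 h))
          (D ++ (evens (rdf L) e P0 h ++ odds (rdf L) e P0 h)).length))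
      (21 * (h * e) + 14 * h + 25) := by
  have hloop := forRuler_run rh (copyPair src d2 dst re) h
    (fun t => Function.update (Function.update (Function.update (Function.update s
        src (WT L (P0 + 2 * t * e)))
        dst (WT (D ++ evens (rdf L) e P0 t) (D ++ evens (rdf L) e P0 t).length))
        d2 (WT (odds (rdf L) e P0 t) (odds (rdf L) e P0 t).length))
        rh (ruler h t))
    (fun _ => 10 * e + 10) (by intro i _; simp) (by
      intro t _
      have h1 := copyPair_run src d2 dst re h12 h13 h14 h23 h24 h34 L
        (D ++ evens (rdf L) e P0 t) (odds (rdf L) e P0 t) (P0 + 2 * t * e) e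
        (Function.update (Function.update (Function.update (Function.update s
          src (WT L (P0 + 2 * t * e)))
          dst (WT (D ++ evens (rdf L) e P0 t) (D ++ evens (rdf L) e P0 t).length))
          d2 (WT (odds (rdf L) e P0 t) (odds (rdf L) e P0 t).length))
          rh (ruler h t))
        (by rw [Function.update_of_ne h15, Function.update_of_ne h12, Function.update_of_ne h13,
          Function.update_self])
        (by rw [Function.update_of_ne h35, Function.update_of_ne h23.symm, Function.update_self])
        (by rw [Function.update_of_ne h25, Function.update_self])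
        (by rw [Function.update_of_ne h45, Function.update_of_ne h24.symm,
          Function.update_of_ne h34.symm, Function.update_of_ne h14.symm, hre])
      refine h1.cast rfl ?_ le_rfl
      have e1 : P0 + 2 * (t + 1) * e = P0 + 2 * t * e + e + e := by ring
      rw [evens_succ, odds_succ, ← List.append_assoc, e1]
      funext j
      simp only [Function.update_apply]
      split_ifs <;> first | rfl | simp_all)
  have hOl : Sum.inl Sym.lend ∉ odds (rdf L) e P0 h := not_mem_odds L _ hLl e P0 h hP
  have hOb : Sum.inl Sym.blank ∉ odds (rdf L) e P0 h := not_mem_odds L _ hLb e P0 h hP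
  refine (hloop.seq ((rewind_run d2 (odds (rdf L) e P0 h) hOl (odds (rdf L) e P0 h).length _
    ?_).le.seq ((copyApp_run d2 dst h23 (odds (rdf L) e P0 h) (D ++ evens (rdf L) e P0 h) hOb hOl _
    ?_ ?_).seq (clearTape_run d2 (odds (rdf L) e P0 h) hOb hOl 0 (Nat.zero_le _) _ ?_)))).cast
    ?_ ?_ ?_
  · rw [Function.update_of_ne h25, Function.update_of_ne h25, Function.update_self]
  · rw [Function.update_self]
  · rw [Function.update_of_ne h23.symm, Function.update_of_ne h35,
      Function.update_of_ne h35, Function.update_of_ne h23.symm, Function.update_self]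
  · rw [Function.update_of_ne h23, Function.update_self]
  · funext j
    simp only [Function.update_apply]
    split_ifs <;> first | rfl | simp_all [evens, odds]
  · rw [← List.append_assoc, List.length_append (as := D ++ evens (rdf L) e P0 h)]
    funext j
    simp only [Function.update_apply]
    split_ifs <;> first | rfl | simp_all
  · have e1 : ∑ i ∈ Finset.range h, (10 * e + 10 + 2) = 10 * (h * e) + 12 * h := by
      simp [Finset.sum_const]; ring
    rw [e1, odds_length]
    omega

theorem unshufLoop_run (src d2 dst re rh : Fin K) (h12 : src ≠ d2) (h13 : src ≠ dst)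
    (h14 : src ≠ re) (h15 : src ≠ rh) (h23 : d2 ≠ dst) (h24 : d2 ≠ re) (h25 : d2 ≠ rh)
    (h34 : dst ≠ re) (h35 : dst ≠ rh) (h45 : re ≠ rh)
    (L : List (Sym ⊕ α)) (hLb : Sum.inl Sym.blank ∉ L) (hLl : Sum.inl Sym.lend ∉ L)
    (e h q : ℕ) (he : 1 ≤ e) (hh : 1 ≤ h) (hL : L.length = q * (2 * h * e))
    (s : St (Sym ⊕ α) K)
    (hsrc : s src = WT L 0) (hd2 : s d2 = WT [] 0) (hdst : s dst = WT [] 0)
    (hre : s re = ruler e 0) (hrh : s rh = ruler h 0) :
    RunLe (Prog.loop (notSym src Sym.blank) (unshufPeriod src d2 dst re rh)) s
      (Function.update (Function.update s src (WT L L.length)) dst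
        (WT (unshufRes (rdf L) e h q) (unshufRes (rdf L) e h q).length))
      (q * (21 * (h * e) + 14 * h + 26) + 1) := by
  have hN : 0 < 2 * h * e := by positivity
  have key : ∀ k, k ≤ q →
      RunLe (Prog.loop (notSym src Sym.blank) (unshufPeriod src d2 dst re rh))
        (Function.update (Function.update s src (WT L ((q - k) * (2 * h * e)))) dst
          (WT (unshufRes (rdf L) e h (q - k)) (unshufRes (rdf L) e h (q - k)).length))
        (Function.update (Function.update s src (WT L (q * (2 * h * e)))) dst
          (WT (unshufRes (rdf L) e h q) (unshufRes (rdf L) e h q).length))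
        (k * (21 * (h * e) + 14 * h + 26) + 1) := by
    intro k
    induction k with
    | zero =>
      intro _
      have h0 : notSym src Sym.blank (St.heads (Function.update (Function.update s src
          (WT L (q * (2 * h * e)))) dst
          (WT (unshufRes (rdf L) e h q) (unshufRes (rdf L) e h q).length))) = false := by
        apply notSym_false
        rw [Function.update_of_ne h13, Function.update_self, WT_read, ← hL,
          List.getD_eq_default _ _ le_rfl]
      simpa using RunLe.loop_false h0
    | succ k ih =>
      intro hk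
      have hlt : (q - (k + 1)) * (2 * h * e) < L.length := by
        rw [hL]
        exact Nat.mul_lt_mul_of_pos_right (by omega) hN
      have h1 : notSym src Sym.blank (St.heads (Function.update (Function.update s src
          (WT L ((q - (k + 1)) * (2 * h * e)))) dst
          (WT (unshufRes (rdf L) e h (q - (k + 1)))
            (unshufRes (rdf L) e h (q - (k + 1))).length))) = true := by
        apply notSym_true
        rw [Function.update_of_ne h13, Function.update_self, WT_read,
          List.getD_eq_getElem _ _ hlt]
        intro hx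
        exact hLb (hx ▸ List.getElem_mem hlt)
      have h2 := unshufPeriod_run src d2 dst re rh h12 h13 h14 h15 h23 h24 h25 h34 h35 h45 L
        (unshufRes (rdf L) e h (q - (k + 1))) hLb hLl ((q - (k + 1)) * (2 * h * e)) e h
        (by
          have : (q - (k + 1) + 1) * (2 * h * e) ≤ q * (2 * h * e) :=
            Nat.mul_le_mul_right _ (by omega)
          rw [hL]
          linarith)
        (Function.update (Function.update s src
          (WT L ((q - (k + 1)) * (2 * h * e)))) dst
          (WT (unshufRes (rdf L) e h (q - (k + 1)))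
            (unshufRes (rdf L) e h (q - (k + 1))).length))
        (by rw [Function.update_of_ne h13, Function.update_self])
        (by rw [Function.update_of_ne h23, Function.update_of_ne h12.symm, hd2])
        (by rw [Function.update_self])
        (by rw [Function.update_of_ne h34.symm, Function.update_of_ne h14.symm, hre])
        (by rw [Function.update_of_ne h35.symm, Function.update_of_ne h15.symm, hrh])
      have e1 : q - k = q - (k + 1) + 1 := by omega
      have h3 := ih (by omega)
      rw [e1, unshufRes_succ, Nat.succ_mul] at h3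
      refine (RunLe.loop_true h1 (h2.cast rfl ?_ le_rfl) h3).mono ?_
      · funext j
        simp only [Function.update_apply]
        split_ifs <;> rfl
      · have : (k + 1) * (21 * (h * e) + 14 * h + 26) =
            k * (21 * (h * e) + 14 * h + 26) + (21 * (h * e) + 14 * h + 26) := by ring
        omega
  have h1 := key q le_rfl
  refine h1.cast ?_ ?_ le_rfl
  · funext j
    simp only [Function.update_apply]
    split_ifs <;> first | rfl | simp_all [unshufRes]
  · rw [hL]

end Vale.Agent.H91.MT.Unshuf

namespace Vale.Agent.H91.MT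

open Unshuf

variable {α : Type} {K : ℕ}

set_option linter.unusedVariables false in
/-- One unshuffle pass, in place on `src` (scratch tapes `d1 d2 dst`, rulers `re rh`; this
program does not touch `d1`). -/
def unshufPass (src d1 d2 dst re rh : Fin K) : Prog (Sym ⊕ α) K :=
  Prog.seq (Prog.loop (notSym src Sym.blank) (unshufPeriod src d2 dst re rh))
    (Prog.seq (clearTape src) (Prog.seq (rewind dst) (Prog.seq (copyApp dst src)
      (Prog.seq (rewind src) (clearTape dst)))))

theorem unshufPass_run_aux (T : Fin 6 → Fin K) (hT : Function.Injective T) (e h q : ℕ)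
    (he : 1 ≤ e) (hh : 1 ≤ h) (L U : List (Sym ⊕ α))
    (hLb : Sum.inl Sym.blank ∉ L) (hLl : Sum.inl Sym.lend ∉ L)
    (hUb : Sum.inl Sym.blank ∉ U) (hUl : Sum.inl Sym.lend ∉ U)
    (hLlen : L.length = q * (2 * h * e)) (hUlen : U.length = L.length)
    (eU : unshufRes (rdf L) e h q = U)
    (s : St (Sym ⊕ α) K)
    (hsrc : s (T 0) = WT L 0) (hd2 : s (T 2) = WT [] 0)
    (hdst : s (T 3) = WT [] 0) (hre : s (T 4) = ruler e 0) (hrh : s (T 5) = ruler h 0) :
    RunLe (unshufPass (T 0) (T 1) (T 2) (T 3) (T 4) (T 5)) s
      (Function.update s (T 0) (WT U 0)) (100 * (L.length + 1)) := by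
  have h02 : T 0 ≠ T 2 := hT.ne (by decide)
  have h03 : T 0 ≠ T 3 := hT.ne (by decide)
  have h04 : T 0 ≠ T 4 := hT.ne (by decide)
  have h05 : T 0 ≠ T 5 := hT.ne (by decide)
  have h23 : T 2 ≠ T 3 := hT.ne (by decide)
  have h24 : T 2 ≠ T 4 := hT.ne (by decide)
  have h25 : T 2 ≠ T 5 := hT.ne (by decide)
  have h34 : T 3 ≠ T 4 := hT.ne (by decide)
  have h35 : T 3 ≠ T 5 := hT.ne (by decide)
  have h45 : T 4 ≠ T 5 := hT.ne (by decide)
  have hloop := unshufLoop_run (T 0) (T 2) (T 3) (T 4) (T 5) h02 h03 h04 h05 h23 h24 h25 h34 h35
    h45 L hLb hLl e h q he hh hLlen s hsrc hd2 hdst hre hrh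
  rw [eU] at hloop
  have hUl' : Sum.inl Sym.lend ∉ ([] : List (Sym ⊕ α)) ++ U := by
    rw [List.nil_append]; exact hUl
  refine (hloop.seq ((clearTape_run (T 0) L hLb hLl L.length le_rfl _
    ?_).seq ((rewind_run (T 3) U hUl U.length _
    ?_).le.seq ((copyApp_run (T 3) (T 0) h03.symm U [] hUb hUl _
    ?_ ?_).seq ((rewind_run (T 0) ([] ++ U) hUl'
    (([] : List (Sym ⊕ α)).length + U.length) _ ?_).le.seq
    (clearTape_run (T 3) U hUb hUl 0 (Nat.zero_le _) _ ?_)))))).cast
    rfl ?_ ?_
  · rw [Function.update_of_ne h03, Function.update_self]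
  · rw [Function.update_of_ne h03.symm, Function.update_self]
  · rw [Function.update_self]
  · rw [Function.update_of_ne h03, Function.update_self]; rfl
  · rw [Function.update_self]
  · rw [Function.update_of_ne h03.symm, Function.update_of_ne h03.symm, Function.update_self]
  · funext j
    simp only [Function.update_apply]
    split_ifs <;> first | rfl | simp_all
  · have hX1 : q * h ≤ q * h * e := Nat.le_mul_of_pos_right _ he
    have hX2 : q ≤ q * h := Nat.le_mul_of_pos_right _ hh
    simp only [List.length_nil, hUlen]
    rw [hLlen]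
    nlinarith

set_option linter.unusedVariables false in
theorem unshufPass_run (T : Fin 6 → Fin K) (hT : Function.Injective T) (e h q : ℕ)
    (he : 1 ≤ e) (hh : 1 ≤ h) (l : List Bool) (hl : l.length = q * (2 * h * e))
    (s : St (Sym ⊕ α) K)
    (hsrc : s (T 0) = WT (l.map bsym) 0) (hd1 : s (T 1) = WT [] 0) (hd2 : s (T 2) = WT [] 0)
    (hdst : s (T 3) = WT [] 0) (hre : s (T 4) = ruler e 0) (hrh : s (T 5) = ruler h 0) :
    RunLe (unshufPass (T 0) (T 1) (T 2) (T 3) (T 4) (T 5)) s
      (Function.update s (T 0) (WT ((unshuf e h l).map bsym) 0)) (100 * (l.length + 1)) := by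
  have h1 := unshufPass_run_aux T hT e h q he hh (l.map bsym) ((unshuf e h l).map bsym)
    (blank_not_mem_map_bsym l) (lend_not_mem_map_bsym l) (blank_not_mem_map_bsym _)
    (lend_not_mem_map_bsym _) (by rw [List.length_map, hl])
    (by rw [List.length_map, List.length_map, unshuf_length])
    (unshufRes_eq e h q l hl) s hsrc hd2 hdst hre hrh
  rw [List.length_map] at h1
  exact h1

end Vale.Agent.H91.MT
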