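import Vale.Agent.H91.MT.Level
import Vale.Agent.H91.MT.RegC
import Vale.Agent.H91.MT.Unshuffle

/-!
# TASK LCLASS: classical transposition of all `2^u × 2^u` blocks (assembly of black boxes)

Layout `L : Fin 80 → Fin K` as in `LevelSt` (Level.lean): data on `L 48`, `u` in register
`L 51`, scratch tapes `L 55 .. L 71`.  Program: build the rulers `1` (item size) and
`2^(2u-1)` (half period), run `u` unshuffle passes (`forRuler` over the register `u`), clear the
rulers.  Use `unshufPass_run`, `block_unshuf` (Level.lean) and the register programs as black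
boxes.  Numeric constants in the time bound may be changed.
-/

namespace Vale.Agent.H91.MT

/-- Classical block transposition. -/
def classicalBlock {α : Type} {K : ℕ} (L : Fin 80 → Fin K) : Prog (Sym ⊕ α) K :=
  Prog.seq (regConst (L 58) 1)
  (Prog.seq (regCopy (L 60) (L 51))
  (Prog.seq (regAdd (L 60) (L 51))
  (Prog.seq (regSub (L 60) (L 58))
  (Prog.seq (regPow2 (L 59) (L 60) (L 61))
  (Prog.seq (forRuler (L 51) (unshufPass (L 48) (L 55) (L 56) (L 57) (L 58) (L 59)))
  (Prog.seq (clearTape (L 58))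
  (Prog.seq (clearTape (L 59)) (clearTape (L 60)))))))))

/-- Iterated unshuffle passes keep the length. -/
theorem lclass_iter_length (e h : ℕ) (i : ℕ) (X : List Bool) :
    ((unshuf e h)^[i] X).length = X.length := by
  induction i with
  | zero => rfl
  | succ i ih => rw [Function.iterate_succ_apply', unshuf_length, ih]

/-- The tape vector handed to `unshufPass_run`. -/
theorem lclass_tapes_inj {K : ℕ} (L : Fin 80 → Fin K) (hL : Function.Injective L) :
    Function.Injective (![L 48, L 55, L 56, L 57, L 58, L 59] : Fin 6 → Fin K) := by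
  intro a b hab
  fin_cases a <;> fin_cases b <;> first | rfl | (exfalso; revert hab; simp [hL.eq_iff])

/-- The arithmetic behind the period length. -/
theorem lclass_len (ν u : ℕ) (hu : 1 ≤ u) (hν : u ≤ ν) :
    4 ^ ν = 4 ^ (ν - u) * (2 * 2 ^ (u + u - 1) * 1) := by
  have e1 : 2 * 2 ^ (u + u - 1) = 4 ^ u := by
    have e2 : u + u = (u + u - 1) + 1 := by omega
    have e3 : (4 : ℕ) ^ u = 2 ^ (u + u) := by
      rw [show (4 : ℕ) = 2 ^ 2 by norm_num, ← pow_mul, two_mul]
    rw [e3]
    conv_rhs => rw [e2, pow_succ]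
    ring
  rw [mul_one, e1, ← pow_add]
  congr 1
  omega

/-- The arithmetic behind the time bound. -/
theorem lclass_time (ν u : ℕ) (hu : 1 ≤ u) (hν : u ≤ ν) :
    (10 * (0 + 1) + 20) + ((10 * (0 + u) + 30) + ((10 * (u + u) + 30) +
      ((10 * (u + u + 1) + 40) + ((10 * 0 + 200 * 2 ^ (u + u - 1) + 100) +
      (((∑ _i ∈ Finset.range u, (100 * (4 ^ ν + 1) + 2)) + 2 * u + 5) +
      ((4 * 1 + 8) + ((4 * 2 ^ (u + u - 1) + 8) + (4 * (u + u - 1) + 8))))))))
      ≤ 2000 * (4 ^ ν * (u + 1)) := by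
  have hsum : (∑ _i ∈ Finset.range u, (100 * (4 ^ ν + 1) + 2)) = u * (100 * (4 ^ ν + 1) + 2) := by
    rw [Finset.sum_const, Finset.card_range, smul_eq_mul]
  have hQ : 2 * 2 ^ (u + u - 1) ≤ 4 ^ ν := by
    have h1 := lclass_len ν u hu hν
    have h2 : 1 ≤ 4 ^ (ν - u) := Nat.one_le_pow _ _ (by norm_num)
    rw [mul_one] at h1
    calc 2 * 2 ^ (u + u - 1) = 1 * (2 * 2 ^ (u + u - 1)) := (one_mul _).symm
      _ ≤ 4 ^ (ν - u) * (2 * 2 ^ (u + u - 1)) := Nat.mul_le_mul_right _ h2
      _ = 4 ^ ν := h1.symm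
  have hu' : u ≤ 4 ^ ν := le_trans hν (Nat.lt_pow_self (by norm_num)).le
  have e1 : u * (100 * (4 ^ ν + 1) + 2) = 100 * (u * 4 ^ ν) + 102 * u := by ring
  have e2 : 2000 * (4 ^ ν * (u + 1)) = 2000 * (u * 4 ^ ν) + 2000 * 4 ^ ν := by ring
  rw [hsum, e1, e2]
  generalize u * 4 ^ ν = M
  generalize 4 ^ ν = P at hQ hu'
  generalize 2 ^ (u + u - 1) = Q at hQ
  omega

/-- The run of `classicalBlock` on the tapes it uses. -/
theorem classicalBlock_run {α : Type} {K : ℕ} (L : Fin 80 → Fin K) (hL : Function.Injective L)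
    (ν u : ℕ) (hu : 1 ≤ u) (hν : u ≤ ν) (X : List Bool) (hX : X.length = 4 ^ ν)
    (s : St (Sym ⊕ α) K)
    (h48 : s (L 48) = WT (X.map bsym) 0) (h51 : s (L 51) = ruler u 0)
    (h55 : s (L 55) = WT [] 0) (h56 : s (L 56) = WT [] 0) (h57 : s (L 57) = WT [] 0)
    (h58 : s (L 58) = WT [] 0) (h59 : s (L 59) = WT [] 0) (h60 : s (L 60) = WT [] 0)
    (h61 : s (L 61) = WT [] 0) :
    RunLe (classicalBlock L) s
      (Function.update s (L 48) (WT (((unshuf 1 (2 ^ (u + u - 1)))^[u] X).map bsym) 0))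
      (2000 * (4 ^ ν * (u + 1))) := by
  have hr0 : ∀ n : ℕ, (ruler 0 n : Tape (Sym ⊕ α)) = WT [] n := fun n => rfl
  -- step 1: `L 58 := 1`
  have r1 := regConst_run (L 58) 1 0 s h58
  obtain ⟨s1, hs1⟩ : ∃ s1 : St (Sym ⊕ α) K, s1 = Function.update s (L 58) (ruler 1 0) := ⟨_, rfl⟩
  rw [← hs1] at r1
  -- step 2: `L 60 := u`
  have r2 := regCopy_run (L 60) (L 51) (hL.ne (by decide)) 0 u s1
    (by simp [hs1, hL.eq_iff, h60, hr0]) (by simp [hs1, hL.eq_iff, h51])
  obtain ⟨s2, hs2⟩ : ∃ s2 : St (Sym ⊕ α) K, s2 = Function.update s1 (L 60) (ruler u 0) := ⟨_, rfl⟩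
  rw [← hs2] at r2
  -- step 3: `L 60 := u + u`
  have r3 := regAdd_run (L 60) (L 51) (hL.ne (by decide)) u u s2
    (by simp [hs2]) (by simp [hs2, hs1, hL.eq_iff, h51])
  obtain ⟨s3, hs3⟩ : ∃ s3 : St (Sym ⊕ α) K, s3 = Function.update s2 (L 60) (ruler (u + u) 0) :=
    ⟨_, rfl⟩
  rw [← hs3] at r3
  -- step 4: `L 60 := u + u - 1`
  have r4 := regSub_run (L 60) (L 58) (hL.ne (by decide)) (u + u) 1 s3
    (by simp [hs3]) (by simp [hs3, hs2, hs1, hL.eq_iff])
  obtain ⟨s4, hs4⟩ : ∃ s4 : St (Sym ⊕ α) K,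
      s4 = Function.update s3 (L 60) (ruler (u + u - 1) 0) := ⟨_, rfl⟩
  rw [← hs4] at r4
  -- step 5: `L 59 := 2 ^ (u + u - 1)`
  have r5 := regPow2_run (L 59) (L 60) (L 61) (hL.ne (by decide)) (hL.ne (by decide))
    (hL.ne (by decide)) 0 (u + u - 1) s4
    (by simp [hs4, hs3, hs2, hs1, hL.eq_iff, h59, hr0]) (by simp [hs4])
    (by simp [hs4, hs3, hs2, hs1, hL.eq_iff, h61, hr0])
  obtain ⟨s5, hs5⟩ : ∃ s5 : St (Sym ⊕ α) K,
      s5 = Function.update s4 (L 59) (ruler (2 ^ (u + u - 1)) 0) := ⟨_, rfl⟩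
  rw [← hs5] at r5
  -- the values of `s5` on the tapes used by the passes
  have s5_48 : s5 (L 48) = WT (X.map bsym) 0 := by
    simp [hs5, hs4, hs3, hs2, hs1, hL.eq_iff, h48]
  have s5_51 : s5 (L 51) = ruler u 0 := by
    simp [hs5, hs4, hs3, hs2, hs1, hL.eq_iff, h51]
  have s5_55 : s5 (L 55) = WT [] 0 := by
    simp [hs5, hs4, hs3, hs2, hs1, hL.eq_iff, h55]
  have s5_56 : s5 (L 56) = WT [] 0 := by
    simp [hs5, hs4, hs3, hs2, hs1, hL.eq_iff, h56]
  have s5_57 : s5 (L 57) = WT [] 0 := by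
    simp [hs5, hs4, hs3, hs2, hs1, hL.eq_iff, h57]
  have s5_58 : s5 (L 58) = ruler 1 0 := by
    simp [hs5, hs4, hs3, hs2, hs1, hL.eq_iff]
  have s5_59 : s5 (L 59) = ruler (2 ^ (u + u - 1)) 0 := by
    simp [hs5]
  have s5_60 : s5 (L 60) = ruler (u + u - 1) 0 := by
    simp [hs5, hs4, hL.eq_iff]
  -- step 6: the `u` passes
  have r6 := forRuler_run (L 51) (unshufPass (L 48) (L 55) (L 56) (L 57) (L 58) (L 59)) u
    (fun i => Function.update (Function.update s5 (L 48)
      (WT (((unshuf 1 (2 ^ (u + u - 1)))^[i] X).map bsym) 0)) (L 51) (ruler u i))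
    (fun _ => 100 * (4 ^ ν + 1))
    (by intro i _; simp)
    (by
      intro i hi
      have hlen : ((unshuf 1 (2 ^ (u + u - 1)))^[i] X).length =
          4 ^ (ν - u) * (2 * 2 ^ (u + u - 1) * 1) := by
        rw [lclass_iter_length, hX]
        exact lclass_len ν u hu hν
      have hp := unshufPass_run ![L 48, L 55, L 56, L 57, L 58, L 59] (lclass_tapes_inj L hL) 1
        (2 ^ (u + u - 1)) (4 ^ (ν - u)) le_rfl Nat.one_le_two_pow
        ((unshuf 1 (2 ^ (u + u - 1)))^[i] X) hlen
        (Function.update (Function.update s5 (L 48)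
          (WT (((unshuf 1 (2 ^ (u + u - 1)))^[i] X).map bsym) 0)) (L 51) (ruler u i))
        (by simp [hL.eq_iff]) (by simp [hL.eq_iff, s5_55]) (by simp [hL.eq_iff, s5_56])
        (by simp [hL.eq_iff, s5_57]) (by simp [hL.eq_iff, s5_58]) (by simp [hL.eq_iff, s5_59])
      refine hp.cast rfl ?_ ?_
      · funext t
        rw [Function.iterate_succ_apply']
        simp only [Function.update_apply, Matrix.cons_val_zero]
        split_ifs <;> simp_all [hL.eq_iff]
      · rw [lclass_iter_length, hX])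
  have hS0 : (Function.update (Function.update s5 (L 48)
      (WT (((unshuf 1 (2 ^ (u + u - 1)))^[0] X).map bsym) 0)) (L 51) (ruler u 0)) = s5 := by
    funext t
    simp only [Function.update_apply, Function.iterate_zero, id_eq]
    split_ifs <;> simp_all
  obtain ⟨s6, hs6⟩ : ∃ s6 : St (Sym ⊕ α) K, s6 = Function.update (Function.update
      (Function.update s5 (L 48) (WT (((unshuf 1 (2 ^ (u + u - 1)))^[u] X).map bsym) 0))
      (L 51) (ruler u u)) (L 51) (ruler u 0) := ⟨_, rfl⟩
  have r6' : RunLe (forRuler (L 51) (unshufPass (L 48) (L 55) (L 56) (L 57) (L 58) (L 59))) s5 s6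
      ((∑ _i ∈ Finset.range u, (100 * (4 ^ ν + 1) + 2)) + 2 * u + 5) :=
    r6.cast hS0 hs6.symm le_rfl
  -- steps 7-9: clear the rulers
  have r7 := clearTape_run (L 58) (List.replicate 1 (Sum.inl Sym.one))
    (regC_blank_not_mem_replicate_one 1) (lend_not_mem_replicate_one 1) 0 (Nat.zero_le _) s6
    (by simp [hs6, hL.eq_iff, s5_58]; rfl)
  obtain ⟨s7, hs7⟩ : ∃ s7 : St (Sym ⊕ α) K, s7 = Function.update s6 (L 58) (WT [] 0) := ⟨_, rfl⟩
  rw [← hs7] at r7
  have r8 := clearTape_run (L 59) (List.replicate (2 ^ (u + u - 1)) (Sum.inl Sym.one))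
    (regC_blank_not_mem_replicate_one _) (lend_not_mem_replicate_one _) 0 (Nat.zero_le _) s7
    (by simp [hs7, hs6, hL.eq_iff, s5_59]; rfl)
  obtain ⟨s8, hs8⟩ : ∃ s8 : St (Sym ⊕ α) K, s8 = Function.update s7 (L 59) (WT [] 0) := ⟨_, rfl⟩
  rw [← hs8] at r8
  have r9 := clearTape_run (L 60) (List.replicate (u + u - 1) (Sum.inl Sym.one))
    (regC_blank_not_mem_replicate_one _) (lend_not_mem_replicate_one _) 0 (Nat.zero_le _) s8
    (by simp [hs8, hs7, hs6, hL.eq_iff, s5_60]; rfl)
  simp only [List.length_replicate] at r7 r8 r9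
  refine (r1.seq (r2.seq (r3.seq (r4.seq (r5.seq (r6'.seq (r7.seq (r8.seq r9)))))))).cast rfl ?_
    (lclass_time ν u hu hν)
  funext t
  simp only [hs8, hs7, hs6, hs5, hs4, hs3, hs2, hs1, Function.update_apply]
  split_ifs <;> simp_all [hL.eq_iff]

/-- TASK LCLASS. -/
theorem classicalBlock_spec (A : Machine) {K : ℕ} (L : Fin 80 → Fin K)
    (sim : Fin (A.k + 1) → Fin K) (h : Function.Injective (Sum.elim sim L)) (ν u j : ℕ)
    (go : Sym) (X : List Bool) (hu : 1 ≤ u) (hν : u ≤ ν) (hX : X.length = 4 ^ ν)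
    (s : St (ΓB A) K) (hs : LevelSt A L sim ν u j go X s) :
    ∃ s', RunLe (classicalBlock L) s s' (2000 * (4 ^ ν * (u + 1))) ∧
      LevelFrame A L sim s s' ∧
      LevelSt A L sim ν u j go (swapArr (4 ^ (ν - u)) (2 ^ u) (2 ^ u) 1 X) s' := by
  have hL : Function.Injective L := by
    intro a b hab
    have h1 : Sum.elim sim L (Sum.inr a) = Sum.elim sim L (Sum.inr b) := hab
    exact Sum.inr_injective (h h1)
  have hsimL : ∀ (t : Fin (A.k + 1)) (i : Fin 80), sim t ≠ L i := by
    intro t i hti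
    have h1 : Sum.elim sim L (Sum.inl t) = Sum.elim sim L (Sum.inr i) := hti
    exact Sum.inl_ne_inr (h h1)
  obtain ⟨h31, h44, h52, h51, h53, h54, h48, h47, hsim, hrest⟩ := hs
  have hrun := classicalBlock_run (α := (A.Γ × Bool) ⊕ A.Q) L hL ν u hu hν X hX s h48 h51
    (hrest 55 (by decide) (by decide) (by decide) (by decide) (by decide) (by decide) (by decide)
      (by decide) (by decide))
    (hrest 56 (by decide) (by decide) (by decide) (by decide) (by decide) (by decide) (by decide)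
      (by decide) (by decide))
    (hrest 57 (by decide) (by decide) (by decide) (by decide) (by decide) (by decide) (by decide)
      (by decide) (by decide))
    (hrest 58 (by decide) (by decide) (by decide) (by decide) (by decide) (by decide) (by decide)
      (by decide) (by decide))
    (hrest 59 (by decide) (by decide) (by decide) (by decide) (by decide) (by decide) (by decide)
      (by decide) (by decide))
    (hrest 60 (by decide) (by decide) (by decide) (by decide) (by decide) (by decide) (by decide)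
      (by decide) (by decide))
    (hrest 61 (by decide) (by decide) (by decide) (by decide) (by decide) (by decide) (by decide)
      (by decide) (by decide))
  have hblock := block_unshuf ν u hu hν X hX
  rw [two_mul] at hblock
  rw [← hblock] at hrun
  refine ⟨_, hrun, ?_, ?_⟩
  · intro t ht _
    exact Function.update_of_ne (ht 48 (by decide)) _ _
  · refine ⟨?_, ?_, ?_, ?_, ?_, ?_, ?_, ?_, ?_, ?_⟩
    · rw [Function.update_of_ne (hL.ne (by decide))]; exact h31
    · rw [Function.update_of_ne (hL.ne (by decide))]; exact h44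
    · rw [Function.update_of_ne (hL.ne (by decide))]; exact h52
    · rw [Function.update_of_ne (hL.ne (by decide))]; exact h51
    · rw [Function.update_of_ne (hL.ne (by decide))]; exact h53
    · rw [Function.update_of_ne (hL.ne (by decide))]; exact h54
    · rw [Function.update_self]
    · rw [Function.update_of_ne (hL.ne (by decide))]; exact h47
    · intro t
      rw [Function.update_of_ne (hsimL t 48)]
      exact hsim t
    · intro i hi1 hi2 hi3 hi4 hi5 hi6 hi7 hi8 hi9
      have hne : L i ≠ L 48 := hL.ne (fun e => hi5 (by rw [e]; rfl))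
      rw [Function.update_of_ne hne]
      exact hrest i hi1 hi2 hi3 hi4 hi5 hi6 hi7 hi8 hi9

end Vale.Agent.H91.MT
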