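import Vale.Agent.H91.MT.LDown_Swap

/-!
# TASK LDOWN, part 4: the phases of one descent step in layout form
-/

namespace Vale.Agent.H91.MT

variable {α : Type} {K : ℕ}

theorem lDownC_empty {ν u j : ℕ} {go : Sym} {X : List Bool} {c : Fin 80 → Tape (Sym ⊕ α)}
    (hc : lDownC ν u j go X c) (i : Fin 80)
    (hi : i.val < 72 ∧ i.val ≠ 31 ∧ i.val ≠ 44 ∧ i.val ≠ 47 ∧ i.val ≠ 48 ∧ i.val ≠ 51 ∧
      i.val ≠ 52 ∧ i.val ≠ 53 ∧ i.val ≠ 54) : c i = WT [] 0 :=
  hc.2.2.2.2.2.2.2.2 i hi.1 hi.2.1 hi.2.2.1 hi.2.2.2.1 hi.2.2.2.2.1 hi.2.2.2.2.2.1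
    hi.2.2.2.2.2.2.1 hi.2.2.2.2.2.2.2.1 hi.2.2.2.2.2.2.2.2

/-- Changing the flag of a standing level state. -/
theorem lDownC_flag {ν u j : ℕ} {go : Sym} {X : List Bool} {c : Fin 80 → Tape (Sym ⊕ α)}
    (hc : lDownC ν u j go X c) (go' : Sym) :
    lDownC ν u j go' X (Function.update c 54 (WT [Sum.inl go'] 0)) := by
  obtain ⟨h31, h44, h52, h51, h53, h54, h48, h47, hemp⟩ := hc
  refine ⟨by simp [h31], by simp [h44], by simp [h52], by simp [h51], by simp [h53], by simp,
    by simp [h48], by simp [h47], ?_⟩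
  intro i h1 h2 h3 h4 h5 h6 h7 h8 h9
  rw [Function.update_of_ne (by omega)]
  exact hemp i h1 h2 h3 h4 h5 h6 h7 h8 h9

/-- The standing level state after a successful descent step. -/
theorem lDownC_next {ν u j : ℕ} {go : Sym} {X : List Bool} {c : Fin 80 → Tape (Sym ⊕ α)}
    (hc : lDownC ν u j go X c) (u' j' : ℕ) (go' : Sym) (X' : List Bool) :
    lDownC ν u' j' go' X' (Function.update (Function.update (Function.update (Function.update c
      48 (WT (X'.map bsym) 0)) 51 (ruler u' 0)) 53 (ruler j' 0)) 54 (WT [Sum.inl go'] 0)) := by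
  obtain ⟨h31, h44, h52, h51, h53, h54, h48, h47, hemp⟩ := hc
  refine ⟨by simp [h31], by simp [h44], by simp [h52], by simp, by simp, by simp,
    by simp, by simp [h47], ?_⟩
  intro i h1 h2 h3 h4 h5 h6 h7 h8 h9
  rw [Function.update_of_ne (by omega), Function.update_of_ne (by omega),
    Function.update_of_ne (by omega), Function.update_of_ne (by omega)]
  exact hemp i h1 h2 h3 h4 h5 h6 h7 h8 h9

/-! ## The three tails and the middle block -/

/-- After an aborted first swap. -/
def lDownAbort1 (L : Fin 80 → Fin K) : Prog (Sym ⊕ α) K :=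
  Prog.seq (Prog.seq (clearTape (L 43)) (clearBase L))
    (Prog.wm (L 54) (fun _ => Sum.inl Sym.zero) Dir.S)

/-- After an aborted second swap. -/
def lDownAbort2 (L : Fin 80 → Fin K) : Prog (Sym ⊕ α) K :=
  Prog.seq (Prog.seq (Prog.seq (clearTape (L 43)) (clearBase L)) (lDownMove (L 55) (L 48)))
    (Prog.wm (L 54) (fun _ => Sum.inl Sym.zero) Dir.S)

/-- After two successful swaps. -/
def lDownFin (L : Fin 80 → Fin K) : Prog (Sym ⊕ α) K :=
  Prog.seq (Prog.seq (Prog.seq (Prog.seq (Prog.seq (Prog.seq (Prog.seq (Prog.seq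
    (Prog.seq (clearTape (L 43)) (clearBase L)) (lDownMove (L 49) (L 48))) (clearTape (L 55)))
    (regCopy (L 56) (L 51))) (regHalf (L 56) (L 57))) (regSub (L 51) (L 56)))
    (clearTape (L 56))) (regInc (L 53))) (lDownGo (L 51) (L 54))

/-- Between the two swaps. -/
def lDownMid (L : Fin 80 → Fin K) : Prog (Sym ⊕ α) K :=
  Prog.seq (Prog.seq (Prog.seq (Prog.seq (Prog.seq (clearTape (L 43)) (clearBase L))
    (setBase2 L)) (copyApp (L 48) (L 55))) (rewind (L 55))) (lDownMove (L 49) (L 48))

theorem lDown_abort1 {L : Fin 80 → Fin K} (hL : Function.Injective L) (p : SwapParams) (q : ℕ)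
    (c0 : Fin 80 → Tape (Sym ⊕ α)) (s0 : St (Sym ⊕ α) K) (ν u j : ℕ) (X : List Bool)
    (hc : lDownC ν u j Sym.one X c0) :
    RunLe (lDownAbort1 L)
      (lDownSt L (Function.update (lDownBase p q c0) 43 (WT [Sum.inl Sym.zero] 0)) s0)
      (lDownSt L (Function.update c0 54 (WT [Sum.inl Sym.zero] 0)) s0)
      (10 * (p.R + p.r0 + p.c0 + p.a + p.P + p.E + q) + 113) := by
  have h1 := lDown_cleanup hL p q c0 s0 Sym.zero (by decide) (by decide)
    (lDownC_empty hc 43 (by decide)) (fun i hi => lDownC_empty hc i (by omega))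
  have h2 := lDown_setFlag hL c0 s0 54 Sym.one Sym.zero hc.2.2.2.2.2.1
  exact (h1.seq h2).mono (by omega)

theorem lDown_abort2 {L : Fin 80 → Fin K} (hL : Function.Injective L) (p : SwapParams) (q : ℕ)
    (c0 : Fin 80 → Tape (Sym ⊕ α)) (s0 : St (Sym ⊕ α) K) (ν u j : ℕ) (X Y : List Bool)
    (hc : lDownC ν u j Sym.one X c0) :
    RunLe (lDownAbort2 L)
      (lDownSt L (Function.update (lDownBase p q (Function.update (Function.update c0
        48 (WT (Y.map bsym) 0)) 55 (WT (X.map bsym) 0))) 43 (WT [Sum.inl Sym.zero] 0)) s0)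
      (lDownSt L (Function.update c0 54 (WT [Sum.inl Sym.zero] 0)) s0)
      (10 * (p.R + p.r0 + p.c0 + p.a + p.P + p.E + q) + 11 * X.length + 4 * Y.length + 141) := by
  have e43 := lDownC_empty hc 43 (by decide)
  have e55 := lDownC_empty hc 55 (by decide)
  obtain ⟨h31, h44, h52, h51, h53, h54, h48, h47, hemp⟩ := hc
  have r := lDown_cleanup hL p q (Function.update (Function.update c0
    48 (WT (Y.map bsym) 0)) 55 (WT (X.map bsym) 0)) s0 Sym.zero (by decide) (by decide)
    (by simp [e43]) (by
      intro i hi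
      rw [Function.update_of_ne (by omega), Function.update_of_ne (by omega)]
      exact hemp i (by omega) (by omega) (by omega) (by omega) (by omega) (by omega) (by omega)
        (by omega) (by omega))
  have r := r.seq (lDown_move hL _ s0 55 48 (by decide) (X.map bsym)
    (Y.map bsym) (by simp) (by simp) (lDown_blank_bits X) (lDown_lend_bits X)
    (lDown_blank_bits Y) (lDown_lend_bits Y))
  have r := r.seq (lDown_setFlag hL _ s0 54 Sym.one Sym.zero (by simp [h54]))
  refine r.cast rfl ?_ ?_
  · congr 1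
    funext i
    simp only [Function.update_apply]
    split_ifs <;> first | rfl | omega | (subst_vars; simp only [e55, h48])
  · simp only [List.length_map]
    omega

theorem lDown_fin {L : Fin 80 → Fin K} (hL : Function.Injective L) (p : SwapParams) (q : ℕ)
    (c0 : Fin 80 → Tape (Sym ⊕ α)) (s0 : St (Sym ⊕ α) K) (ν u j : ℕ) (X Y Z : List Bool)
    (hc : lDownC ν u j Sym.one X c0) :
    RunLe (lDownFin L)
      (lDownSt L (Function.update (lDownBase p q (Function.update (Function.update
        (Function.update c0 48 (WT (Y.map bsym) 0)) 55 (WT (X.map bsym) 0))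
        49 (WT (Z.map bsym) 0))) 43 (WT [Sum.inl Sym.one] 0)) s0)
      (lDownSt L (Function.update (Function.update (Function.update (Function.update c0
        48 (WT (Z.map bsym) 0)) 51 (ruler (u - u / 2) 0)) 53 (ruler (j + 1) 0))
        54 (WT [Sum.inl (if 7 ≤ u - u / 2 then Sym.one else Sym.zero)] 0)) s0)
      (10 * (p.R + p.r0 + p.c0 + p.a + p.P + p.E + q) + 11 * Z.length + 4 * Y.length +
        4 * X.length + 100 * u + 6 * j + 400) := by
  have e43 := lDownC_empty hc 43 (by decide)
  have e49 := lDownC_empty hc 49 (by decide)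
  have e55 := lDownC_empty hc 55 (by decide)
  have e56 := lDownC_empty hc 56 (by decide)
  have e57 := lDownC_empty hc 57 (by decide)
  obtain ⟨h31, h44, h52, h51, h53, h54, h48, h47, hemp⟩ := hc
  have r := lDown_cleanup hL p q (Function.update (Function.update
    (Function.update c0 48 (WT (Y.map bsym) 0)) 55 (WT (X.map bsym) 0))
    49 (WT (Z.map bsym) 0)) s0 Sym.one (by decide) (by decide)
    (by simp [e43]) (by
      intro i hi
      rw [Function.update_of_ne (by omega), Function.update_of_ne (by omega),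
        Function.update_of_ne (by omega)]
      exact hemp i (by omega) (by omega) (by omega) (by omega) (by omega) (by omega) (by omega)
        (by omega) (by omega))
  have r := r.seq (lDown_move hL _ s0 49 48 (by decide) (Z.map bsym)
    (Y.map bsym) (by simp) (by simp) (lDown_blank_bits Z) (lDown_lend_bits Z)
    (lDown_blank_bits Y) (lDown_lend_bits Y))
  have r := r.seq (lDown_clear hL _ s0 55 (X.map bsym) 0 (by simp) (lDown_blank_bits X)
    (lDown_lend_bits X) (Nat.zero_le _))
  have r := r.seq (lDown_regCopy hL _ s0 56 51 (by decide) 0 u (by simp [e56]; rfl)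
    (by simp [h51]))
  have r := r.seq (lDown_regHalf hL _ s0 56 57 (by decide) u (by simp) (by simp [e57]))
  have r := r.seq (lDown_regSub hL _ s0 51 56 (by decide) u (u / 2) (by simp [h51]) (by simp))
  have r := r.seq (lDown_clear hL _ s0 56 (List.replicate (u / 2) (Sum.inl Sym.one)) 0
    (by simp [ruler]) (blank_not_mem_replicate_one _) (lend_not_mem_replicate_one _)
    (Nat.zero_le _))
  have r := r.seq (lDown_regInc hL _ s0 53 j (by simp [h53]))
  have r := r.seq (lDown_go hL _ s0 51 54 (by decide) (u - u / 2) Sym.one (by simp)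
    (by simp [h54]))
  refine r.cast rfl ?_ ?_
  · congr 1
    funext i
    simp only [Function.update_apply]
    split_ifs <;> first | rfl | omega | (subst_vars; simp only [e49, e55, e56])
  · simp only [List.length_map, List.length_replicate]
    omega

theorem lDown_mid {L : Fin 80 → Fin K} (hL : Function.Injective L) (p : SwapParams) (q : ℕ)
    (c0 : Fin 80 → Tape (Sym ⊕ α)) (s0 : St (Sym ⊕ α) K) (ν u j : ℕ) (X Y : List Bool)
    (hu : 2 ≤ u) (hν : u ≤ ν) (hc : lDownC ν u j Sym.one X c0) :
    RunLe (lDownMid L)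
      (lDownSt L (Function.update (lDownBase p q (Function.update c0 49 (WT (Y.map bsym) 0)))
        43 (WT [Sum.inl Sym.one] 0)) s0)
      (lDownSt L (lDownBase (swapPar2 ν u) (2 ^ (2 * (u - u / 2) - u / 2))
        (Function.update (Function.update c0 48 (WT (Y.map bsym) 0)) 55 (WT (X.map bsym) 0))) s0)
      (10 * (p.R + p.r0 + p.c0 + p.a + p.P + p.E + q) + 2000 * (4 ^ ν + 1) + 11 * Y.length +
        11 * X.length + 160) := by
  have e43 := lDownC_empty hc 43 (by decide)
  have e49 := lDownC_empty hc 49 (by decide)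
  have e55 := lDownC_empty hc 55 (by decide)
  have hc' := hc
  obtain ⟨h31, h44, h52, h51, h53, h54, h48, h47, hemp⟩ := hc
  have r := lDown_cleanup hL p q (Function.update c0 49 (WT (Y.map bsym) 0)) s0 Sym.one
    (by decide) (by decide) (by simp [e43]) (by
      intro i hi
      rw [Function.update_of_ne (by omega)]
      exact lDownC_empty hc' i (by omega))
  have sb := setBase2_run L hL ν u hu hν (lDownSt L (Function.update c0 49 (WT (Y.map bsym) 0)) s0)
    (by rw [lDownSt_apply hL]; simp [h52]) (by rw [lDownSt_apply hL]; simp [h51]) (by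
      intro i hi
      rw [lDownSt_apply hL, Function.update_of_ne (by omega)]
      exact lDownC_empty hc' i (by omega))
  rw [lDown_withBase hL] at sb
  have r := r.seq sb
  have r := r.seq (lDown_copy hL _ s0 48 55 (by decide) (X.map bsym)
    (by rw [lDownBase_of _ _ _ _ (by decide)]; simp [h48])
    (by rw [lDownBase_of _ _ _ _ (by decide)]; simp [e55])
    (lDown_blank_bits X) (lDown_lend_bits X))
  have r := r.seq (lDown_rewind hL _ s0 55 (X.map bsym) X.length (by simp)
    (lDown_lend_bits X))
  have r := r.seq (lDown_move hL _ s0 49 48 (by decide) (Y.map bsym) (X.map bsym)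
    (by simp [lDownBase_of]) (by simp [lDownBase_of, h48])
    (lDown_blank_bits Y) (lDown_lend_bits Y) (lDown_blank_bits X) (lDown_lend_bits X))
  refine r.cast rfl ?_ ?_
  · congr 1
    rw [Function.update_idem, lDownBase_comm _ _ _ 55 _ (by decide),
      lDownBase_comm _ _ _ 48 _ (by decide), lDownBase_comm _ _ _ 49 _ (by decide)]
    congr 1
    funext i
    simp only [Function.update_apply]
    split_ifs <;> first | rfl | omega | (subst_vars; simp only [e49])
  · simp only [List.length_map]
    omega

end Vale.Agent.H91.MT
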