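import Vale.Agent.H91.MT.PipeCorrect_AlgBase

/-!
# TASK PIPE-ALG: the transposition identity in `Z/(2^m+1)` (pure algebra)
-/

namespace Vale.Agent.H91.MT

open Finset

namespace SwapParams

variable (p : SwapParams)

theorem alg_h_le_m : p.h ≤ p.m := Nat.div_le_self _ _

theorem alg_cast_eta : (p.eta : ZMod p.M) = -(p.h : ZMod p.M) := by
  have e : p.eta + p.h = p.M := by
    have := p.alg_h_le_m
    unfold SwapParams.eta SwapParams.M; omega
  have h := congrArg (Nat.cast : ℕ → ZMod p.M) e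
  push_cast at h
  rw [alg_castM] at h
  exact eq_neg_of_add_eq_zero_left h

theorem alg_cast_kap : (p.kap : ZMod p.M) = -(2 * (p.h : ZMod p.M)) := by
  have e : p.kap + 2 * p.h = p.M := by
    have := p.alg_h_le_m
    unfold SwapParams.kap SwapParams.M; omega
  have h := congrArg (Nat.cast : ℕ → ZMod p.M) e
  push_cast at h
  rw [alg_castM] at h
  exact eq_neg_of_add_eq_zero_left h

theorem alg_cast_neg2a (hp : p.Ok) :
    ((p.M - 2 * p.a : ℕ) : ZMod p.M) = -(2 * (p.a : ZMod p.M)) := by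
  have e : (p.M - 2 * p.a) + 2 * p.a = p.M := by
    have h1 : p.a < 2 ^ p.a := Nat.lt_two_pow_self
    have h2 : p.P ≤ p.E := Nat.le_of_dvd (by have := hp.hE; omega) hp.hPE
    have h3 : p.M = 8 * p.E := by unfold SwapParams.M SwapParams.m; omega
    have h4 : p.P = 2 ^ p.a := rfl
    omega
  have h := congrArg (Nat.cast : ℕ → ZMod p.M) e
  push_cast at h
  rw [alg_castM] at h
  exact eq_neg_of_add_eq_zero_left h

/-- A power of two with a grid exponent, as `algPw` of the exponent polynomial. -/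
theorem alg_two_pow_gridExp (i0 i1 i2 c0 c1 c2 u1 u2 : ℕ) :
    (2 : ZMod (2 ^ p.m + 1)) ^ gridExp p.M i0 i1 i2 c0 c1 c2 u1 u2 =
      p.algPw ((i0 : ZMod p.M) + u1 * i1 + (u1.choose 2 : ℕ) * c0 + u2 * (i2 + u1 * c1) +
        (u2.choose 2 : ℕ) * c2) := by
  unfold gridExp
  rw [← algPw_natCast_mod]
  push_cast
  rfl

theorem alg_pe1_eq (j1 j2 : ℕ) :
    (2 : ZMod (2 ^ p.m + 1)) ^ p.pe1 j1 j2 =
      p.algPw (2 * (p.h : ZMod p.M) * (j1 : ZMod p.M) * (j2 : ZMod p.M)) := by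
  unfold pe1
  rw [alg_two_pow_gridExp]
  congr 1
  simp only [ZMod.natCast_mod]
  push_cast
  ring

theorem alg_pk1_eq (u1 u2 : ℕ) :
    (2 : ZMod (2 ^ p.m + 1)) ^ p.pk1 u1 u2 =
      p.algPw (-(2 * (p.h : ZMod p.M) * ((u1 : ZMod p.M) + 1) * ((u2 : ZMod p.M) + 1))) := by
  unfold pk1
  rw [alg_two_pow_gridExp]
  congr 1
  have hk := p.alg_cast_kap
  push_cast
  linear_combination ((1 + (u1 : ZMod p.M)) * (1 + (u2 : ZMod p.M))) * hk

theorem alg_pe2_eq (k1 k2 : ℕ) :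
    (2 : ZMod (2 ^ p.m + 1)) ^ p.pe2 k1 k2 =
      p.algPw (-((p.h : ZMod p.M) * ((k1 : ZMod p.M) - (k2 : ZMod p.M)) ^ 2)) := by
  unfold pe2
  rw [alg_two_pow_gridExp]
  congr 1
  have he := p.alg_cast_eta
  have c1 := alg_choose_two_cast (R := ZMod p.M) k1
  have c2 := alg_choose_two_cast (R := ZMod p.M) k2
  simp only [ZMod.natCast_mod]
  push_cast
  linear_combination (p.eta : ZMod p.M) * c1 + (p.eta : ZMod p.M) * c2 +
    ((k1 : ZMod p.M) ^ 2 + (k2 : ZMod p.M) ^ 2) * he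

theorem alg_pk2_eq (u1 u2 : ℕ) :
    (2 : ZMod (2 ^ p.m + 1)) ^ p.pk2 u1 u2 =
      p.algPw ((p.h : ZMod p.M) * (((u1 : ZMod p.M) + 1) ^ 2 + ((u2 : ZMod p.M) + 1) ^ 2)) := by
  unfold pk2
  rw [alg_two_pow_gridExp]
  congr 1
  have c1 := alg_choose_two_cast (R := ZMod p.M) u1
  have c2 := alg_choose_two_cast (R := ZMod p.M) u2
  simp only [ZMod.natCast_mod]
  push_cast
  linear_combination (p.h : ZMod p.M) * c1 + (p.h : ZMod p.M) * c2

theorem alg_pe3_eq (hp : p.Ok) (l1 l2 : ℕ) :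
    (2 : ZMod (2 ^ p.m + 1)) ^ p.pe3 l1 l2 =
      p.algPw (-(2 * (p.a : ZMod p.M)) -
        (p.h : ZMod p.M) * ((l1 : ZMod p.M) ^ 2 + (l2 : ZMod p.M) ^ 2)) := by
  unfold pe3
  rw [alg_two_pow_gridExp]
  congr 1
  have he := p.alg_cast_eta
  have hA := p.alg_cast_neg2a hp
  have c1 := alg_choose_two_cast (R := ZMod p.M) l1
  have c2 := alg_choose_two_cast (R := ZMod p.M) l2
  simp only [ZMod.natCast_mod]
  push_cast
  linear_combination hA + (p.eta : ZMod p.M) * c1 + (p.eta : ZMod p.M) * c2 +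
    ((l1 : ZMod p.M) ^ 2 + (l2 : ZMod p.M) ^ 2) * he

theorem alg_cast_shift (k j : ℕ) (hj : j < p.P) :
    ((k + p.P - 1 - j : ℕ) : ZMod p.M) + 1 = (k : ZMod p.M) - (j : ZMod p.M) + (p.P : ZMod p.M) := by
  have e : (k + p.P - 1 - j) + 1 + j = k + p.P := by omega
  have h := congrArg (Nat.cast : ℕ → ZMod p.M) e
  push_cast at h
  linear_combination h

theorem alg_pk1_shift (hp : p.Ok) (k1 k2 j1 j2 : ℕ) (hj1 : j1 < p.P) (hj2 : j2 < p.P) :
    (2 : ZMod (2 ^ p.m + 1)) ^ p.pk1 (k1 + p.P - 1 - j1) (k2 + p.P - 1 - j2) =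
      p.algPw (-(2 * (p.h : ZMod p.M) * ((k1 : ZMod p.M) - (j1 : ZMod p.M)) *
        ((k2 : ZMod p.M) - (j2 : ZMod p.M)))) := by
  rw [alg_pk1_eq, p.alg_cast_shift k1 j1 hj1, p.alg_cast_shift k2 j2 hj2]
  congr 1
  linear_combination (-(((k1 : ZMod p.M) - (j1 : ZMod p.M)) + ((k2 : ZMod p.M) - (j2 : ZMod p.M)) +
    (p.P : ZMod p.M))) * p.alg_F1 hp

theorem alg_pk2_shift (hp : p.Ok) (l1 l2 k1 k2 : ℕ) (hk1 : k1 < p.P) (hk2 : k2 < p.P) :
    (2 : ZMod (2 ^ p.m + 1)) ^ p.pk2 (l1 + p.P - 1 - k1) (l2 + p.P - 1 - k2) =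
      p.algPw ((p.h : ZMod p.M) * (((l1 : ZMod p.M) - (k1 : ZMod p.M)) ^ 2 +
        ((l2 : ZMod p.M) - (k2 : ZMod p.M)) ^ 2)) := by
  rw [alg_pk2_eq, p.alg_cast_shift l1 k1 hk1, p.alg_cast_shift l2 k2 hk2]
  congr 1
  linear_combination ((((l1 : ZMod p.M) - (k1 : ZMod p.M)) + ((l2 : ZMod p.M) - (k2 : ZMod p.M)))) *
    p.alg_F1 hp + 2 * p.alg_F2 hp

/-- One term of the fourfold sum. -/
theorem alg_term (hp : p.Ok) (v : ℕ → ℕ → ℕ) (l1 l2 k1 k2 j1 j2 : ℕ) (hk1 : k1 < p.P)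
    (hk2 : k2 < p.P) (hj1 : j1 < p.P) (hj2 : j2 < p.P) :
    (2 : ZMod (2 ^ p.m + 1)) ^ p.pe3 l1 l2 *
        (2 ^ p.pe2 k1 k2 *
            (2 ^ p.pe1 j1 j2 * (v j1 j2 : ZMod (2 ^ p.m + 1)) *
              2 ^ p.pk1 (k1 + p.P - 1 - j1) (k2 + p.P - 1 - j2)) *
          2 ^ p.pk2 (l1 + p.P - 1 - k1) (l2 + p.P - 1 - k2)) =
      (v j1 j2 : ZMod (2 ^ p.m + 1)) *
        (p.algPw (-(2 * (p.a : ZMod p.M))) *
          (p.algPw (2 * (p.h : ZMod p.M) * (k1 : ZMod p.M) * ((j2 : ZMod p.M) - (l1 : ZMod p.M))) *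
            p.algPw (2 * (p.h : ZMod p.M) * (k2 : ZMod p.M) * ((j1 : ZMod p.M) - (l2 : ZMod p.M))))) := by
  rw [p.alg_pe3_eq hp, p.alg_pe2_eq, p.alg_pe1_eq, p.alg_pk1_shift hp _ _ _ _ hj1 hj2,
    p.alg_pk2_shift hp _ _ _ _ hk1 hk2]
  rw [← p.algPw_add hp, ← p.algPw_add hp]
  have e : ∀ (a b c d e : ZMod p.M) (w : ZMod (2 ^ p.m + 1)),
      p.algPw a * (p.algPw b * (p.algPw c * w * p.algPw d) * p.algPw e) = w * p.algPw (a + b + c + d + e) := by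
    intro a b c d e w
    simp only [p.algPw_add hp]; ring
  rw [e]
  congr 2
  ring

end SwapParams

/-- TASK PIPE-ALG.  After both convolutions and the final shift, the slot with indices
`l1`, `l2` holds the input slot with indices `l2`, `l1`, modulo `2^m + 1`. -/
theorem SwapParams.alg_core (p : SwapParams) (hp : p.Ok) (v : ℕ → ℕ → ℕ) (l1 l2 : ℕ)
    (hl1 : l1 < p.c0) (hl2 : l2 < p.r0) :
    2 ^ p.pe3 l1 l2 * p.py2 v l1 l2 ≡ v l2 l1 [MOD 2 ^ p.m + 1] := by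
  rw [← ZMod.natCast_eq_natCast_iff]
  unfold SwapParams.py2 SwapParams.py1
  push_cast
  have hr := hp.hr
  have hc := hp.hc
  have step1 : (2 : ZMod (2 ^ p.m + 1)) ^ p.pe3 l1 l2 *
      ∑ k1 ∈ range p.P, ∑ k2 ∈ range p.P,
        (2 ^ p.pe2 k1 k2 *
            ∑ j1 ∈ range p.r0, ∑ j2 ∈ range p.c0,
              2 ^ p.pe1 j1 j2 * (v j1 j2 : ZMod (2 ^ p.m + 1)) *
                2 ^ p.pk1 (k1 + p.P - 1 - j1) (k2 + p.P - 1 - j2)) *
          2 ^ p.pk2 (l1 + p.P - 1 - k1) (l2 + p.P - 1 - k2) =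
      ∑ k1 ∈ range p.P, ∑ k2 ∈ range p.P, ∑ j1 ∈ range p.r0, ∑ j2 ∈ range p.c0,
        (v j1 j2 : ZMod (2 ^ p.m + 1)) *
          (p.algPw (-(2 * (p.a : ZMod p.M))) *
            (p.algPw (2 * (p.h : ZMod p.M) * (k1 : ZMod p.M) * ((j2 : ZMod p.M) - (l1 : ZMod p.M))) *
              p.algPw (2 * (p.h : ZMod p.M) * (k2 : ZMod p.M) *
                ((j1 : ZMod p.M) - (l2 : ZMod p.M))))) := by
    rw [Finset.mul_sum]
    refine Finset.sum_congr rfl fun k1 hk1 => ?_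
    rw [Finset.mul_sum]
    refine Finset.sum_congr rfl fun k2 hk2 => ?_
    rw [Finset.mul_sum, Finset.sum_mul, Finset.mul_sum]
    refine Finset.sum_congr rfl fun j1 hj1 => ?_
    rw [Finset.mul_sum, Finset.sum_mul, Finset.mul_sum]
    refine Finset.sum_congr rfl fun j2 hj2 => ?_
    rw [Finset.mem_range] at hk1 hk2 hj1 hj2
    exact p.alg_term hp v l1 l2 k1 k2 j1 j2 hk1 hk2 (by omega) (by omega)
  rw [step1, alg_sum_swap4]
  have step2 : ∀ j1 ∈ range p.r0, ∀ j2 ∈ range p.c0,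
      (v j1 j2 : ZMod (2 ^ p.m + 1)) *
          (p.algPw (-(2 * (p.a : ZMod p.M))) *
            ((∑ k1 ∈ range p.P, p.algPw (2 * (p.h : ZMod p.M) * (k1 : ZMod p.M) *
                ((j2 : ZMod p.M) - (l1 : ZMod p.M)))) *
              ∑ k2 ∈ range p.P, p.algPw (2 * (p.h : ZMod p.M) * (k2 : ZMod p.M) *
                ((j1 : ZMod p.M) - (l2 : ZMod p.M))))) =
        (v j1 j2 : ZMod (2 ^ p.m + 1)) *
          (p.algPw (-(2 * (p.a : ZMod p.M))) *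
            ((if j2 = l1 then (p.P : ZMod (2 ^ p.m + 1)) else 0) *
              if j1 = l2 then (p.P : ZMod (2 ^ p.m + 1)) else 0)) := by
    intro j1 hj1 j2 hj2
    rw [Finset.mem_range] at hj1 hj2
    rw [p.alg_orth hp j2 l1 (by omega) (by omega), p.alg_orth hp j1 l2 (by omega) (by omega)]
  rw [Finset.sum_congr rfl fun j1 hj1 => Finset.sum_congr rfl fun j2 hj2 => step2 j1 hj1 j2 hj2]
  rw [Finset.sum_eq_single_of_mem l2 (Finset.mem_range.mpr hl2)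
    (fun j1 _ hne => Finset.sum_eq_zero fun j2 _ => by rw [if_neg hne]; ring)]
  rw [Finset.sum_eq_single_of_mem l1 (Finset.mem_range.mpr hl1)
    (fun j2 _ hne => by rw [if_neg hne]; ring)]
  rw [if_pos rfl, if_pos rfl]
  have hP : ((p.P : ℕ) : ZMod (2 ^ p.m + 1)) = p.algPw (p.a : ZMod p.M) := by
    rw [p.algPw_natCast]
    unfold SwapParams.P
    push_cast
    rfl
  rw [hP, ← p.algPw_add hp, ← p.algPw_add hp]
  have e0 : -(2 * (p.a : ZMod p.M)) + ((p.a : ZMod p.M) + (p.a : ZMod p.M)) = 0 := by ring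
  rw [e0, p.algPw_zero, mul_one]

end Vale.Agent.H91.MT
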