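import Vale.Agent.H91.MT.Pure

/-!
# TASK PIPE, shared definitions for the sub-tasks (helper96)

Exponent functions of the five grids, the two convolution sums and the chunk function of the
fold.  These are the interfaces between the sub-tasks ALG, FOLD, KRON and the assembly.
-/

namespace Vale.Agent.H91.MT

namespace SwapParams

variable (p : SwapParams)

/-- Exponent of the data slot j1, j2 (grid of `ctl1`). -/
def pe1 (j1 j2 : ℕ) : ℕ := gridExp p.M 0 0 0 0 ((2 * p.h) % p.M) 0 j1 j2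

/-- Exponent of the slot u1, u2 of the first kernel (grid of `ker1`). -/
def pk1 (u1 u2 : ℕ) : ℕ := gridExp p.M p.kap p.kap p.kap 0 p.kap 0 u1 u2

/-- Exponent of the slot k1, k2 between the transforms (grid of `ctl2`). -/
def pe2 (k1 k2 : ℕ) : ℕ :=
  gridExp p.M 0 p.eta p.eta ((2 * p.eta) % p.M) ((2 * p.h) % p.M) ((2 * p.eta) % p.M) k1 k2

/-- Exponent of the slot u1, u2 of the second kernel (grid of `ker2`). -/
def pk2 (u1 u2 : ℕ) : ℕ :=
  gridExp p.M ((2 * p.h) % p.M) ((3 * p.h) % p.M) ((3 * p.h) % p.M) ((2 * p.h) % p.M) 0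
    ((2 * p.h) % p.M) u1 u2

/-- Exponent of the slot l1, l2 after the second transform (grid of `ctl3`). -/
def pe3 (l1 l2 : ℕ) : ℕ :=
  gridExp p.M ((p.M - 2 * p.a) % p.M) p.eta p.eta ((2 * p.eta) % p.M) 0 ((2 * p.eta) % p.M) l1 l2

/-- First convolution: the value of slot k1 + P - 1, k2 + P - 1 of the first product, for
slot values `v j1 j2` of the input array. -/
def py1 (v : ℕ → ℕ → ℕ) (k1 k2 : ℕ) : ℕ :=
  ∑ j1 ∈ Finset.range p.r0, ∑ j2 ∈ Finset.range p.c0,
    2 ^ p.pe1 j1 j2 * v j1 j2 * 2 ^ p.pk1 (k1 + p.P - 1 - j1) (k2 + p.P - 1 - j2)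

/-- Second convolution: the value of slot l1 + P - 1, l2 + P - 1 of the second product. -/
def py2 (v : ℕ → ℕ → ℕ) (l1 l2 : ℕ) : ℕ :=
  ∑ k1 ∈ Finset.range p.P, ∑ k2 ∈ Finset.range p.P,
    2 ^ p.pe2 k1 k2 * p.py1 v k1 k2 * 2 ^ p.pk2 (l1 + p.P - 1 - k1) (l2 + p.P - 1 - k2)

end SwapParams

/-- Chunk `t` (of `m` bits) of `U`, complemented when `t` is odd. -/
def foldChunk (m U t : ℕ) : ℕ :=
  if t % 2 = 0 then U / 2 ^ (m * t) % 2 ^ m else 2 ^ m - 1 - U / 2 ^ (m * t) % 2 ^ m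

/-- A packed two-dimensional array: entry `x j1 j2` sits in slot `Q * j1 + j2` (slot width
`W` bits, row stride `Q` slots), for `j1 < r` and `j2 < c`. -/
def pk2d (W Q r c : ℕ) (x : ℕ → ℕ → ℕ) : ℕ :=
  ∑ j1 ∈ Finset.range r, ∑ j2 ∈ Finset.range c, 2 ^ (W * (Q * j1 + j2)) * x j1 j2

/-- The entry of sub-array `I` at row `i`, column `j`, as a number. -/
def SwapParams.pent (p : SwapParams) (f : ℕ → ℕ → ℕ → ℕ → Bool) (I i j : ℕ) : ℕ :=
  valLE ((List.range p.E).map fun b => f I i j b)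

end Vale.Agent.H91.MT
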