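import Mathlib

/-!
# TASK PIPE-KRON: reading a slot of a Kronecker-packed sum (natural numbers)
-/

namespace Vale.Agent.H91.MT

/-- Slot `s` (width `B`) of a packed sum of `n` values below `2^B` is the value number `s`. -/
theorem slot_of_range (n B s : ℕ) (y : ℕ → ℕ) (hy : ∀ i, i < n → y i < 2 ^ B) :
    (∑ i ∈ Finset.range n, 2 ^ (B * i) * y i) / 2 ^ (B * s) % 2 ^ B =
      if s < n then y s else 0 := by
  induction s generalizing n y with
  | zero =>
    cases n with
    | zero => simp
    | succ n =>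
      have h0 : y 0 < 2 ^ B := hy 0 (Nat.succ_pos n)
      have hsplit : (∑ i ∈ Finset.range (n + 1), 2 ^ (B * i) * y i)
          = 2 ^ B * (∑ i ∈ Finset.range n, 2 ^ (B * i) * y (i + 1)) + y 0 := by
        rw [Finset.sum_range_succ', Finset.mul_sum]
        congr 1
        · refine Finset.sum_congr rfl fun i _ => ?_
          rw [Nat.mul_succ, pow_add]; ring
        · simp
      rw [hsplit]
      simp only [Nat.mul_zero, pow_zero, Nat.div_one]
      rw [Nat.mul_add_mod, Nat.mod_eq_of_lt h0]
      simp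
  | succ s ih =>
    cases n with
    | zero => simp
    | succ n =>
      have h0 : y 0 < 2 ^ B := hy 0 (Nat.succ_pos n)
      have hsplit : (∑ i ∈ Finset.range (n + 1), 2 ^ (B * i) * y i)
          = 2 ^ B * (∑ i ∈ Finset.range n, 2 ^ (B * i) * y (i + 1)) + y 0 := by
        rw [Finset.sum_range_succ', Finset.mul_sum]
        congr 1
        · refine Finset.sum_congr rfl fun i _ => ?_
          rw [Nat.mul_succ, pow_add]; ring
        · simp
      have hdiv : (∑ i ∈ Finset.range (n + 1), 2 ^ (B * i) * y i) / 2 ^ (B * (s + 1))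
          = (∑ i ∈ Finset.range n, 2 ^ (B * i) * y (i + 1)) / 2 ^ (B * s) := by
        rw [hsplit, Nat.mul_succ, pow_add, Nat.mul_comm (2 ^ (B * s)) (2 ^ B),
          ← Nat.div_div_eq_div_mul, Nat.mul_add_div (Nat.two_pow_pos B),
          Nat.div_eq_of_lt h0, Nat.add_zero]
      rw [hdiv, ih n (fun i => y (i + 1)) (fun i hi => hy (i + 1) (Nat.succ_lt_succ hi))]
      simp

/-- TASK PIPE-KRON.  If every fibre sum of `val` over `idx` is below `2^W`, then slot `s`
(width `W`) of the packed sum is the fibre sum over `idx = s`. -/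
theorem slot_of_sum {ι : Type} (T : Finset ι) (idx val : ι → ℕ) (W s : ℕ)
    (hb : ∀ s', (∑ t ∈ T with idx t = s', val t) < 2 ^ W) :
    (∑ t ∈ T, 2 ^ (W * idx t) * val t) / 2 ^ (W * s) % 2 ^ W =
      ∑ t ∈ T with idx t = s, val t := by
  classical
  set n := T.sup idx + 1 with hn
  have hmaps : ∀ t ∈ T, idx t ∈ Finset.range n := by
    intro t ht
    rw [Finset.mem_range, hn]
    exact Nat.lt_succ_of_le (Finset.le_sup ht)
  have hre : (∑ t ∈ T, 2 ^ (W * idx t) * val t)
      = ∑ i ∈ Finset.range n, 2 ^ (W * i) * (∑ t ∈ T with idx t = i, val t) := by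
    rw [← Finset.sum_fiberwise_of_maps_to hmaps]
    refine Finset.sum_congr rfl fun i _ => ?_
    rw [Finset.mul_sum]
    refine Finset.sum_congr rfl fun t ht => ?_
    rw [(Finset.mem_filter.1 ht).2]
  rw [hre, slot_of_range n W s (fun i => ∑ t ∈ T with idx t = i, val t) (fun i _ => hb i)]
  split_ifs with h
  · rfl
  · symm
    apply Finset.sum_eq_zero
    intro t ht
    have h1 := (Finset.mem_filter.1 ht)
    have h2 := Finset.mem_range.1 (hmaps t h1.1)
    omega

end Vale.Agent.H91.MT
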