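import Vale.Agent.H91.MT.PipeCorrect_Num
import Vale.Agent.H91.MT.PipeCorrect_Defs
import Vale.Agent.H91.MT.PipeCorrect_Kron

/-!
# TASK PIPE-DATA: the data lists as packed numbers, flattening of three-level packed sums
-/

namespace Vale.Agent.H91.MT

open Finset

/-- Flattening of a double sum over two ranges (radix `B`). -/
theorem sum_range_range_flat {M : Type*} [AddCommMonoid M] (A B : ℕ) (F : ℕ → ℕ → M) :
    (∑ i ∈ range A, ∑ j ∈ range B, F i j) = ∑ n ∈ range (A * B), F (n / B) (n % B) := by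
  induction A with
  | zero => simp
  | succ A ih =>
    rw [Finset.sum_range_succ, ih, Nat.succ_mul, Finset.sum_range_add]
    congr 1
    refine Finset.sum_congr rfl fun k hk => ?_
    have hk' : k < B := Finset.mem_range.1 hk
    have hB : 0 < B := lt_of_le_of_lt (Nat.zero_le _) hk'
    have h1 : (A * B + k) / B = A := by
      rw [Nat.mul_comm, Nat.mul_add_div hB, Nat.div_eq_of_lt hk', Nat.add_zero]
    have h2 : (A * B + k) % B = k := by
      rw [Nat.mul_comm, Nat.mul_add_mod, Nat.mod_eq_of_lt hk']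
    rw [h1, h2]

/-- Length of a concatenation over a range of pieces of equal length. -/
theorem length_flatMap_range {β : Type} (G : ℕ → List β) (n L : ℕ)
    (h : ∀ i, i < n → (G i).length = L) : ((List.range n).flatMap G).length = n * L := by
  induction n with
  | zero => simp
  | succ n ih =>
    rw [List.range_succ, List.flatMap_append, List.length_append,
      ih (fun i hi => h i (by omega))]
    simp only [List.flatMap_cons, List.flatMap_nil, List.append_nil]
    rw [h n (by omega)]; ring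

/-- TASK PIPE-DATA (1).  A three-level packed sum is a flat packed sum. -/
theorem packed3_flat (A B C L : ℕ) (G : ℕ → ℕ → ℕ → ℕ) :
    (∑ I ∈ range A, 2 ^ (B * C * L * I) * pk2d L C B C (G I)) =
      ∑ n ∈ range (A * B * C), 2 ^ (L * n) * G (n / (B * C)) (n % (B * C) / C) (n % (B * C) % C) := by
  have h1 : ∀ I, 2 ^ (B * C * L * I) * pk2d L C B C (G I)
      = ∑ q ∈ range (B * C), 2 ^ (L * (B * C * I + q)) * G I (q / C) (q % C) := by
    intro I
    rw [pk2d, sum_range_range_flat B C (fun j1 j2 => 2 ^ (L * (C * j1 + j2)) * G I j1 j2),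
      Finset.mul_sum]
    refine Finset.sum_congr rfl fun q _ => ?_
    rw [Nat.div_add_mod, ← Nat.mul_assoc, ← pow_add]
    congr 2
    ring
  simp only [h1]
  rw [sum_range_range_flat A (B * C)
    (fun I q => 2 ^ (L * (B * C * I + q)) * G I (q / C) (q % C)), Nat.mul_assoc]
  refine Finset.sum_congr rfl fun n _ => ?_
  rw [Nat.div_add_mod]

/-- TASK PIPE-DATA (2).  Entries are below `2^E`. -/
theorem SwapParams.pent_lt (p : SwapParams) (f : ℕ → ℕ → ℕ → ℕ → Bool) (I i j : ℕ) :
    p.pent f I i j < 2 ^ p.E := by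
  have h := valLE_lt ((List.range p.E).map fun b => f I i j b)
  rw [List.length_map, List.length_range] at h
  exact h

/-- The value of a three-level concatenation of entries of `E` bits. -/
theorem valLE_flatMap3 (A B C E : ℕ) (e : ℕ → ℕ → ℕ → List Bool)
    (he : ∀ I i j, (e I i j).length = E) :
    valLE ((List.range A).flatMap fun I => (List.range B).flatMap fun i =>
        (List.range C).flatMap fun j => e I i j)
      = ∑ n ∈ range (A * B * C), 2 ^ (E * n) *
          valLE (e (n / (B * C)) (n % (B * C) / C) (n % (B * C) % C)) := by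
  have hl1 : ∀ I i, ((List.range C).flatMap fun j => e I i j).length = C * E := fun I i =>
    length_flatMap_range _ C E (fun j _ => he I i j)
  have hl2 : ∀ I, ((List.range B).flatMap fun i =>
      (List.range C).flatMap fun j => e I i j).length = B * (C * E) := fun I =>
    length_flatMap_range _ B (C * E) (fun i _ => hl1 I i)
  rw [valLE_flatMap_range _ A (B * (C * E)) (fun I _ => hl2 I)]
  have h2 : ∀ I, valLE ((List.range B).flatMap fun i => (List.range C).flatMap fun j => e I i j)
      = pk2d E C B C (fun i j => valLE (e I i j)) := by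
    intro I
    rw [valLE_flatMap_range _ B (C * E) (fun i _ => hl1 I i), pk2d]
    refine Finset.sum_congr rfl fun i _ => ?_
    rw [valLE_flatMap_range _ C E (fun j _ => he I i j), Finset.mul_sum]
    refine Finset.sum_congr rfl fun j _ => ?_
    rw [← Nat.mul_assoc, ← pow_add]
    congr 2
    ring
  simp only [h2]
  rw [← packed3_flat A B C E (fun I i j => valLE (e I i j))]
  refine Finset.sum_congr rfl fun I _ => ?_
  congr 2
  ring

/-- The input data as a flat packed sum. -/
theorem SwapParams.dataIn_val (p : SwapParams) (f : ℕ → ℕ → ℕ → ℕ → Bool) :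
    valLE (p.dataIn f) = ∑ n ∈ range (p.R * p.r0 * p.c0), 2 ^ (p.E * n) *
      p.pent f (n / (p.r0 * p.c0)) (n % (p.r0 * p.c0) / p.c0) (n % (p.r0 * p.c0) % p.c0) :=
  valLE_flatMap3 p.R p.r0 p.c0 p.E (fun I i j => (List.range p.E).map fun b => f I i j b)
    (fun I i j => by rw [List.length_map, List.length_range])

/-- TASK PIPE-DATA (3).  Reading entry `I, j1, j2` out of the input data. -/
theorem SwapParams.dataIn_slot (p : SwapParams) (f : ℕ → ℕ → ℕ → ℕ → Bool) (I j1 j2 : ℕ)
    (hI : I < p.R) (h1 : j1 < p.r0) (h2 : j2 < p.c0) :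
    valLE (p.dataIn f) / 2 ^ (p.E * (p.c0 * (p.r0 * I + j1) + j2)) % 2 ^ p.E =
      p.pent f I j1 j2 := by
  rw [p.dataIn_val f, slot_of_range (p.R * p.r0 * p.c0) p.E (p.c0 * (p.r0 * I + j1) + j2)
    (fun n => p.pent f (n / (p.r0 * p.c0)) (n % (p.r0 * p.c0) / p.c0)
      (n % (p.r0 * p.c0) % p.c0)) (fun n _ => p.pent_lt f _ _ _)]
  have hc0 : 0 < p.c0 := lt_of_le_of_lt (Nat.zero_le _) h2
  have hq : p.c0 * j1 + j2 < p.r0 * p.c0 := by
    have : p.c0 * j1 + p.c0 ≤ p.c0 * p.r0 := by
      rw [← Nat.mul_succ]; exact Nat.mul_le_mul_left _ h1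
    rw [Nat.mul_comm p.r0 p.c0]; omega
  have hs : p.c0 * (p.r0 * I + j1) + j2 = p.r0 * p.c0 * I + (p.c0 * j1 + j2) := by ring
  have hlt : p.c0 * (p.r0 * I + j1) + j2 < p.R * p.r0 * p.c0 := by
    rw [hs]
    have : p.r0 * p.c0 * I + p.r0 * p.c0 ≤ p.r0 * p.c0 * p.R := by
      rw [← Nat.mul_succ]; exact Nat.mul_le_mul_left _ hI
    have e : p.R * p.r0 * p.c0 = p.r0 * p.c0 * p.R := by ring
    rw [e]; omega
  rw [if_pos hlt]
  have hpos : 0 < p.r0 * p.c0 := lt_of_le_of_lt (Nat.zero_le _) hq
  have d1 : (p.c0 * (p.r0 * I + j1) + j2) / (p.r0 * p.c0) = I := by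
    rw [hs, Nat.mul_add_div hpos, Nat.div_eq_of_lt hq, Nat.add_zero]
  have d2 : (p.c0 * (p.r0 * I + j1) + j2) % (p.r0 * p.c0) = p.c0 * j1 + j2 := by
    rw [hs, Nat.mul_add_mod, Nat.mod_eq_of_lt hq]
  have d3 : (p.c0 * j1 + j2) / p.c0 = j1 := by
    rw [Nat.mul_add_div hc0, Nat.div_eq_of_lt h2, Nat.add_zero]
  have d4 : (p.c0 * j1 + j2) % p.c0 = j2 := by
    rw [Nat.mul_add_mod, Nat.mod_eq_of_lt h2]
  simp only [d1, d2, d3, d4]

/-- TASK PIPE-DATA (4).  The transposed data as a flat packed sum. -/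
theorem SwapParams.dataOut_val (p : SwapParams) (f : ℕ → ℕ → ℕ → ℕ → Bool) :
    valLE (p.dataOut f) = ∑ n ∈ range (p.R * p.c0 * p.r0), 2 ^ (p.E * n) *
      p.pent f (n / (p.c0 * p.r0)) (n % (p.c0 * p.r0) % p.r0) (n % (p.c0 * p.r0) / p.r0) :=
  valLE_flatMap3 p.R p.c0 p.r0 p.E (fun I j i => (List.range p.E).map fun b => f I i j b)
    (fun I j i => by rw [List.length_map, List.length_range])

/-- TASK PIPE-DATA (5).  Length of the transposed data. -/
theorem SwapParams.length_dataOut (p : SwapParams) (f : ℕ → ℕ → ℕ → ℕ → Bool) :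
    (p.dataOut f).length = p.R * p.c0 * p.r0 * p.E := by
  have hl1 : ∀ I j, ((List.range p.r0).flatMap fun i =>
      (List.range p.E).map fun b => f I i j b).length = p.r0 * p.E := fun I j =>
    length_flatMap_range _ p.r0 p.E (fun i _ => by rw [List.length_map, List.length_range])
  have hl2 : ∀ I, ((List.range p.c0).flatMap fun j => (List.range p.r0).flatMap fun i =>
      (List.range p.E).map fun b => f I i j b).length = p.c0 * (p.r0 * p.E) := fun I =>
    length_flatMap_range _ p.c0 (p.r0 * p.E) (fun j _ => hl1 I j)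
  rw [SwapParams.dataOut, length_flatMap_range _ p.R (p.c0 * (p.r0 * p.E)) (fun I _ => hl2 I)]
  ring

end Vale.Agent.H91.MT
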