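import Vale.Agent.H91.MT.PipeCorrect_Defs

/-!
# TASK PIPE-FOLD: folding modulo `2^m + 1` without subtraction (natural numbers)
-/

namespace Vale.Agent.H91.MT

/-- Base-`B` digit expansion of a number below `B ^ n`. -/
theorem fold_digits (B : ℕ) (n : ℕ) : ∀ U : ℕ, U < B ^ n →
    U = ∑ t ∈ Finset.range n, (U / B ^ t % B) * B ^ t := by
  induction n with
  | zero =>
    intro U hU
    simp only [pow_zero, Nat.lt_one_iff] at hU
    simp [hU]
  | succ n ih =>
    intro U hU
    rw [Finset.sum_range_succ']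
    have h1 : U / B < B ^ n := by
      apply Nat.div_lt_of_lt_mul
      rw [pow_succ'] at hU
      exact hU
    have h2 := ih (U / B) h1
    have h3 : ∀ t ∈ Finset.range n,
        (U / B ^ (t + 1) % B) * B ^ (t + 1) = B * ((U / B / B ^ t % B) * B ^ t) := by
      intro t _
      rw [Nat.div_div_eq_div_mul, ← pow_succ']
      ring
    rw [Finset.sum_congr rfl h3, ← Finset.mul_sum, ← h2]
    simp only [pow_zero, Nat.div_one, Nat.mul_one]
    exact (Nat.div_add_mod U B).symm

/-- The folded sum of the sixteen base-`B` digits (odd digits complemented) is congruent to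
`U - 16` modulo `B + 1`, and it is at most `16 (B - 1)`. -/
theorem fold_congr (B : ℕ) (hB : 0 < B) (U : ℕ) (hU : U < B ^ 16) :
    (∑ t ∈ Finset.range 16,
      (if t % 2 = 0 then U / B ^ t % B else B - 1 - U / B ^ t % B)) + 16 ≡ U [MOD B + 1] ∧
    (∑ t ∈ Finset.range 16,
      (if t % 2 = 0 then U / B ^ t % B else B - 1 - U / B ^ t % B)) ≤ 16 * (B - 1) := by
  have hclt : ∀ t, U / B ^ t % B < B := fun t => Nat.mod_lt _ hB
  constructor
  · rw [← ZMod.natCast_eq_natCast_iff]
    have hq : ((B : ℕ) : ZMod (B + 1)) = -1 := by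
      have h := ZMod.natCast_self (B + 1)
      push_cast at h
      exact eq_neg_of_add_eq_zero_left h
    have hcast : ∀ t : ℕ,
        (((if t % 2 = 0 then U / B ^ t % B else B - 1 - U / B ^ t % B : ℕ)) : ZMod (B + 1)) =
          ((U / B ^ t % B : ℕ) : ZMod (B + 1)) * (-1) ^ t -
            (if t % 2 = 0 then 0 else 2) := by
      intro t
      split_ifs with h
      · have ht : Even t := Nat.even_iff.2 h
        rw [ht.neg_one_pow]
        ring
      · have ht : Odd t := Nat.odd_iff.2 (by omega)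
        have h1 : U / B ^ t % B ≤ B - 1 := by have := hclt t; omega
        have h2 : 1 ≤ B := hB
        rw [Nat.cast_sub h1, Nat.cast_sub h2, hq, ht.neg_one_pow]
        push_cast
        ring
    have h16 : (∑ t ∈ Finset.range 16, (if t % 2 = 0 then (0 : ZMod (B + 1)) else 2)) = 16 := by
      simp only [Finset.sum_range_succ, Finset.sum_range_zero]
      norm_num
    have hdig := fold_digits B 16 U hU
    have hUc : ((U : ℕ) : ZMod (B + 1)) =
        ∑ t ∈ Finset.range 16, ((U / B ^ t % B : ℕ) : ZMod (B + 1)) * (-1) ^ t := by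
      conv_lhs => rw [hdig]
      rw [Nat.cast_sum]
      refine Finset.sum_congr rfl fun t _ => ?_
      rw [Nat.cast_mul, Nat.cast_pow, hq]
    rw [Nat.cast_add, Nat.cast_sum, Finset.sum_congr rfl (fun t _ => hcast t),
      Finset.sum_sub_distrib, h16, hUc]
    push_cast
    ring
  · calc (∑ t ∈ Finset.range 16,
          (if t % 2 = 0 then U / B ^ t % B else B - 1 - U / B ^ t % B))
        ≤ ∑ _t ∈ Finset.range 16, (B - 1) := by
          refine Finset.sum_le_sum fun t _ => ?_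
          have := hclt t
          split_ifs <;> omega
      _ = 16 * (B - 1) := by simp

/-- The arithmetic end of the fold: read the entry off the folded sum. -/
theorem fold_read (E a S : ℕ) (hE : 16 ≤ E) (ha : a < 2 ^ E)
    (hmod : S + 16 ≡ 2 ^ 7 + 2 ^ 8 * a [MOD 2 ^ (4 * E) + 1])
    (hS : S ≤ 16 * (2 ^ (4 * E) - 1)) : S / 2 ^ 8 % 2 ^ E = a := by
  obtain ⟨X, hX⟩ : ∃ X, X = 2 ^ E := ⟨_, rfl⟩
  obtain ⟨T, hT⟩ : ∃ T, T = 2 ^ (3 * E - 8) := ⟨_, rfl⟩
  have hB : 2 ^ (4 * E) = 256 * X * T := by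
    rw [hX, hT]
    have e : 4 * E = 8 + E + (3 * E - 8) := by omega
    rw [e, pow_add, pow_add]
    norm_num
  have hXpos : 0 < X := by rw [hX]; positivity
  have hTpos : 0 < T := by rw [hT]; positivity
  rw [← hX] at ha ⊢
  rw [hB] at hmod hS
  have hXT : X ≤ X * T := Nat.le_mul_of_pos_right X hTpos
  have hv : 2 ^ 7 + 2 ^ 8 * a < 256 * X * T + 1 := by
    have : 256 * X * T = 256 * (X * T) := by ring
    omega
  have h1 : (S + 16) % (256 * X * T + 1) = 2 ^ 7 + 2 ^ 8 * a := by
    rw [hmod, Nat.mod_eq_of_lt hv]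
  have h2 := Nat.div_add_mod (S + 16) (256 * X * T + 1)
  rw [h1] at h2
  obtain ⟨r, hr⟩ : ∃ r, r = (S + 16) / (256 * X * T + 1) := ⟨_, rfl⟩
  rw [← hr] at h2
  have hr16 : r < 16 := by
    rw [hr]
    apply Nat.div_lt_of_lt_mul
    have : 1 ≤ 256 * X * T := by
      have : 256 * X * T = 256 * (X * T) := by ring
      omega
    omega
  have h3 : (256 * X * T + 1) * r = 256 * (X * (T * r)) + r := by ring
  rw [h3] at h2
  obtain ⟨z, hz⟩ : ∃ z, z = T * r := ⟨_, rfl⟩
  rw [← hz] at h2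
  have h4 : S / 2 ^ 8 = a + X * z := by omega
  rw [h4, Nat.add_mul_mod_self_left, Nat.mod_eq_of_lt ha]

/-- TASK PIPE-FOLD.  If `U < 2^(16 m)` (`m = 4 E`) is congruent to `2^7 + 2^8 a` modulo
`2^m + 1` with `a < 2^E`, then bits `[8, 8 + E)` of the sum of the sixteen chunks of `U`
(odd chunks complemented) are exactly `a`. -/
theorem fold_core (E a U : ℕ) (hE : 16 ≤ E) (ha : a < 2 ^ E) (hU : U < 2 ^ (16 * (4 * E)))
    (hmod : U ≡ 2 ^ 7 + 2 ^ 8 * a [MOD 2 ^ (4 * E) + 1]) :
    (∑ t ∈ Finset.range 16, foldChunk (4 * E) U t) / 2 ^ 8 % 2 ^ E = a := by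
  have hU' : U < (2 ^ (4 * E)) ^ 16 := by
    rw [← pow_mul]
    have e : 4 * E * 16 = 16 * (4 * E) := by ring
    rw [e]
    exact hU
  obtain ⟨h1, h2⟩ := fold_congr (2 ^ (4 * E)) (by positivity) U hU'
  have e : ∀ t, foldChunk (4 * E) U t =
      (if t % 2 = 0 then U / (2 ^ (4 * E)) ^ t % 2 ^ (4 * E)
        else 2 ^ (4 * E) - 1 - U / (2 ^ (4 * E)) ^ t % 2 ^ (4 * E)) := by
    intro t
    simp only [foldChunk, pow_mul]
  rw [Finset.sum_congr rfl (fun t _ => e t)]
  exact fold_read E a _ hE ha (h1.trans hmod) h2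

end Vale.Agent.H91.MT
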