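import Vale.Agent.H91.MT.PipeCorrect_Num
import Vale.Agent.H91.MT.PipeCorrect_Defs
import Vale.Agent.H91.MT.PipeCorrect_Kron

/-!
# TASK PIPE-STAGE4: spreading the chunks, the comb product and the final read-out
-/

namespace Vale.Agent.H91.MT

open Finset

/-- A window of bits below position `c` only depends on the number modulo `2^c`. -/
theorem div_mod_window (X a b c : ℕ) (h : a + b ≤ c) :
    (X % 2 ^ c) / 2 ^ a % 2 ^ b = X / 2 ^ a % 2 ^ b := by
  obtain ⟨d, rfl⟩ : ∃ d, c = a + d := ⟨c - a, by omega⟩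
  rw [pow_add, Nat.mod_mul_right_div_self,
    Nat.mod_mod_of_dvd _ (pow_dvd_pow 2 (by omega : b ≤ d))]

theorem foldChunk_lt (m U t : ℕ) : foldChunk m U t < 2 ^ m := by
  have hpos : 0 < 2 ^ m := Nat.two_pow_pos m
  unfold foldChunk
  split_ifs
  · exact Nat.mod_lt _ hpos
  · omega

/-- The spreading block `C^m Z^m N^m Z^m`. -/
theorem ctlOut_blk3 (m x : ℕ) :
    ctlOut (List.replicate m Ctl.C ++ List.replicate m Ctl.Z ++ List.replicate m Ctl.N ++
      List.replicate m Ctl.Z) x = x % 2 ^ m + 2 ^ (2 * m) * (2 ^ m - 1 - x / 2 ^ m % 2 ^ m) := by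
  simp only [ctlOut_append, olen_append, ctlNeed_append, olen_replicate_C, olen_replicate_Z,
    olen_replicate_N, ctlNeed_replicate_C, ctlNeed_replicate_Z, ctlNeed_replicate_N,
    ctlOut_replicate_C, ctlOut_replicate_Z, ctlOut_replicate_N, Nat.mul_zero, Nat.add_zero]
  rw [two_mul]

theorem olen_blk3 (m : ℕ) :
    olen (List.replicate m Ctl.C ++ List.replicate m Ctl.Z ++ List.replicate m Ctl.N ++
      List.replicate m Ctl.Z) = 4 * m := by
  simp only [olen_append, olen_replicate_C, olen_replicate_Z, olen_replicate_N]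
  omega

theorem ctlNeed_blk3 (m : ℕ) :
    ctlNeed (List.replicate m Ctl.C ++ List.replicate m Ctl.Z ++ List.replicate m Ctl.N ++
      List.replicate m Ctl.Z) = 2 * m := by
  simp only [ctlNeed_append, ctlNeed_replicate_C, ctlNeed_replicate_Z, ctlNeed_replicate_N]
  omega

/-- The read-out block `S^(30m+8) C^E S^(2m-8-E)`. -/
theorem ctlOut_blk4 (m E x : ℕ) :
    ctlOut (List.replicate (30 * m + 8) Ctl.S ++ List.replicate E Ctl.C ++
      List.replicate (2 * m - 8 - E) Ctl.S) x = x / 2 ^ (30 * m + 8) % 2 ^ E := by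
  simp only [ctlOut_append, olen_append, ctlNeed_append, olen_replicate_C, olen_replicate_S,
    ctlNeed_replicate_C, ctlNeed_replicate_S, ctlOut_replicate_C, ctlOut_replicate_S,
    Nat.mul_zero, Nat.add_zero, Nat.zero_add, pow_zero, Nat.one_mul]

theorem olen_blk4 (m E : ℕ) :
    olen (List.replicate (30 * m + 8) Ctl.S ++ List.replicate E Ctl.C ++
      List.replicate (2 * m - 8 - E) Ctl.S) = E := by
  simp only [olen_append, olen_replicate_C, olen_replicate_S]
  omega

theorem ctlNeed_blk4 (m E : ℕ) (hm : 8 + E ≤ 2 * m) :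
    ctlNeed (List.replicate (30 * m + 8) Ctl.S ++ List.replicate E Ctl.C ++
      List.replicate (2 * m - 8 - E) Ctl.S) = 32 * m := by
  simp only [ctlNeed_append, ctlNeed_replicate_C, ctlNeed_replicate_S]
  omega

theorem sum_range_two_mul (f : ℕ → ℕ) (n : ℕ) :
    ∑ j ∈ range (2 * n), f j = ∑ i ∈ range n, (f (2 * i) + f (2 * i + 1)) := by
  induction n with
  | zero => simp
  | succ n ih =>
    rw [show 2 * (n + 1) = 2 * n + 1 + 1 by ring, Finset.sum_range_succ, Finset.sum_range_succ,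
      ih, Finset.sum_range_succ]
    ring

/-- The spread number: chunk `j` of `T` (complemented for odd `j`) in sub-slot `j` of width
`2 m`. -/
theorem ctlOut_spread (m Nv T : ℕ) :
    ctlOut (rep (8 * Nv) (List.replicate m Ctl.C ++ List.replicate m Ctl.Z ++
        List.replicate m Ctl.N ++ List.replicate m Ctl.Z)) T =
      ∑ j ∈ range (16 * Nv), 2 ^ (2 * m * j) * foldChunk m T j := by
  rw [rep_eq_flatMap, ctlOut_flatMap_range _ (8 * Nv) (4 * m) (2 * m) T
    (fun _ _ => olen_blk3 m) (fun _ _ => ctlNeed_blk3 m),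
    show 16 * Nv = 2 * (8 * Nv) by ring, sum_range_two_mul]
  refine Finset.sum_congr rfl fun i _ => ?_
  rw [ctlOut_blk3]
  have h0 : (2 * i) % 2 = 0 := by omega
  have h1 : ¬ (2 * i + 1) % 2 = 0 := by omega
  unfold foldChunk
  rw [if_pos h0, if_neg h1, Nat.div_div_eq_div_mul, ← pow_add,
    show 2 * m * i + m = m * (2 * i + 1) by ring, show 2 * m * i = m * (2 * i) by ring,
    show 2 * m * (2 * i + 1) = 4 * m * i + 2 * m by ring, show 2 * m * (2 * i) = 4 * m * i by ring,
    pow_add]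
  ring

/-- The comb. -/
theorem valLE_comb (m : ℕ) (hm : 1 ≤ m) :
    valLE (rep 16 (true :: List.replicate (2 * m - 1) false)) =
      ∑ t ∈ range 16, 2 ^ (2 * m * t) := by
  rw [rep_eq_flatMap, valLE_flatMap_range _ 16 (2 * m)
    (fun _ _ => by simp only [List.length_cons, List.length_replicate]; omega)]
  refine Finset.sum_congr rfl fun t _ => ?_
  simp [valLE, valLE_replicate_false]

/-- Slot `16 n + 15` (width `2 m`) of the product with the comb is the sum of the sixteen
sub-slots of value `n`. -/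
theorem comb_slot (m Nv : ℕ) (c : ℕ → ℕ) (hm4 : 4 ≤ m) (hc : ∀ j, c j < 2 ^ m) (n : ℕ)
    (hn : n < Nv) :
    ((∑ j ∈ range (16 * Nv), 2 ^ (2 * m * j) * c j) * (∑ t ∈ range 16, 2 ^ (2 * m * t))) /
        2 ^ (2 * m * (16 * n + 15)) % 2 ^ (2 * m) = ∑ τ ∈ range 16, c (16 * n + τ) := by
  have hprod : (∑ j ∈ range (16 * Nv), 2 ^ (2 * m * j) * c j) * (∑ t ∈ range 16, 2 ^ (2 * m * t))
      = ∑ x ∈ range (16 * Nv) ×ˢ range 16, 2 ^ (2 * m * (x.1 + x.2)) * c x.1 := by
    rw [Finset.sum_mul_sum, Finset.sum_product]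
    refine Finset.sum_congr rfl fun j _ => Finset.sum_congr rfl fun t _ => ?_
    rw [Nat.mul_add, pow_add]
    ring
  have hb : ∀ s', (∑ x ∈ range (16 * Nv) ×ˢ range 16 with x.1 + x.2 = s', c x.1) < 2 ^ (2 * m) := by
    intro s'
    have hcard : ((range (16 * Nv) ×ˢ range 16).filter (fun x => x.1 + x.2 = s')).card ≤ 16 := by
      have := Finset.card_le_card_of_injOn (s := (range (16 * Nv) ×ˢ range 16).filter
        (fun x => x.1 + x.2 = s')) (t := range 16) (fun x => x.2)
        (by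
          intro x hx
          have hx' := Finset.mem_filter.1 hx
          exact (Finset.mem_product.1 hx'.1).2)
        (by
          intro x hx y hy hxy
          have hx' := (Finset.mem_filter.1 (Finset.mem_coe.1 hx)).2
          have hy' := (Finset.mem_filter.1 (Finset.mem_coe.1 hy)).2
          simp only at hxy
          exact Prod.ext (by omega) hxy)
      simpa using this
    have hle : (∑ x ∈ range (16 * Nv) ×ˢ range 16 with x.1 + x.2 = s', c x.1)
        ≤ ((range (16 * Nv) ×ˢ range 16).filter (fun x => x.1 + x.2 = s')).card * (2 ^ m - 1) := by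
      rw [← smul_eq_mul]
      refine Finset.sum_le_card_nsmul _ _ _ fun x _ => ?_
      have := hc x.1
      omega
    have h16 : 16 * 2 ^ m ≤ 2 ^ (2 * m) := by
      rw [show 2 * m = 4 + (m - 4) + m by omega, pow_add, pow_add]
      have : 1 ≤ 2 ^ (m - 4) := Nat.one_le_two_pow
      nlinarith [Nat.two_pow_pos m]
    have hpos : 0 < 2 ^ m := Nat.two_pow_pos m
    calc (∑ x ∈ range (16 * Nv) ×ˢ range 16 with x.1 + x.2 = s', c x.1)
        ≤ ((range (16 * Nv) ×ˢ range 16).filter (fun x => x.1 + x.2 = s')).card * (2 ^ m - 1) := hle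
      _ ≤ 16 * (2 ^ m - 1) := Nat.mul_le_mul_right _ hcard
      _ < 2 ^ (2 * m) := by omega
  rw [hprod, slot_of_sum (range (16 * Nv) ×ˢ range 16) (fun x => x.1 + x.2) (fun x => c x.1)
    (2 * m) (16 * n + 15) hb]
  refine Finset.sum_nbij' (fun x => 15 - x.2) (fun τ => (16 * n + τ, 15 - τ)) ?_ ?_ ?_ ?_ ?_
  · intro x hx
    simp only [Finset.mem_range]
    omega
  · intro τ hτ
    have hτ' := Finset.mem_range.1 hτ
    simp only [Finset.mem_filter, Finset.mem_product, Finset.mem_range]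
    omega
  · intro x hx
    have hx' := Finset.mem_filter.1 hx
    have hx2 := Finset.mem_range.1 (Finset.mem_product.1 hx'.1).2
    have hx3 := hx'.2
    exact Prod.ext (by simp only; omega) (by simp only; omega)
  · intro τ hτ
    have hτ' := Finset.mem_range.1 hτ
    show 15 - (15 - τ) = τ
    omega
  · intro x hx
    have hx' := Finset.mem_filter.1 hx
    have hx2 := Finset.mem_range.1 (Finset.mem_product.1 hx'.1).2
    have hx3 := hx'.2
    show c x.1 = c (16 * n + (15 - x.2))
    exact congrArg c (by omega)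

/-- The chunks of a packed number are the chunks of its values. -/
theorem foldChunk_packed (m Nv T : ℕ) (U : ℕ → ℕ)
    (hT : T = ∑ n ∈ range Nv, 2 ^ (16 * m * n) * U n)
    (hU : ∀ n, n < Nv → U n < 2 ^ (16 * m)) (n τ : ℕ) (hn : n < Nv) (hτ : τ < 16) :
    foldChunk m T (16 * n + τ) = foldChunk m (U n) τ := by
  have hslot : T / 2 ^ (16 * m * n) % 2 ^ (16 * m) = U n := by
    rw [hT, slot_of_range Nv (16 * m) n U hU, if_pos hn]
  have hle : m * τ + m ≤ 16 * m := by
    calc m * τ + m = m * (τ + 1) := by ring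
      _ ≤ m * 16 := Nat.mul_le_mul_left m (by omega)
      _ = 16 * m := by ring
  have hwin : T / 2 ^ (m * (16 * n + τ)) % 2 ^ m = U n / 2 ^ (m * τ) % 2 ^ m := by
    have e1 : m * (16 * n + τ) = 16 * m * n + m * τ := by ring
    rw [e1, pow_add, ← Nat.div_div_eq_div_mul]
    rw [← div_mod_window (T / 2 ^ (16 * m * n)) (m * τ) m (16 * m) hle, hslot]
  have hpar : (16 * n + τ) % 2 = τ % 2 := by omega
  unfold foldChunk
  rw [hpar, hwin]

/-- Reading bits `[8, 8 + E)` of slot `16 n + 15` (width `2 m`). -/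
theorem read_slot (m E n Y S : ℕ) (hm : 8 + E ≤ 2 * m)
    (h : Y / 2 ^ (2 * m * (16 * n + 15)) % 2 ^ (2 * m) = S) :
    Y / 2 ^ (32 * m * n) / 2 ^ (30 * m + 8) % 2 ^ E = S / 2 ^ 8 % 2 ^ E := by
  have e1 : 32 * m * n + (30 * m + 8) = 2 * m * (16 * n + 15) + 8 := by ring
  rw [Nat.div_div_eq_div_mul, ← pow_add, e1, pow_add, ← Nat.div_div_eq_div_mul, ← h,
    div_mod_window _ 8 E (2 * m) hm]

/-- TASK PIPE-STAGE4.  If `T` packs `Nv` values `U n < 2^(16 m)` in slots of `16 m` bits, then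
the last three steps of the pipeline (spread the chunks with `ctl3b`, multiply by the comb
`ker3`, read with `ctl4`) produce, packed in slots of `E` bits, bits `[8, 8 + E)` of the sum of
the sixteen chunks of each value (odd chunks complemented). -/
theorem stage4_core (m E Nv k T : ℕ) (U : ℕ → ℕ) (hm : 8 + E ≤ 2 * m) (hm4 : 4 ≤ m)
    (hT : T = ∑ n ∈ range Nv, 2 ^ (16 * m * n) * U n)
    (hU : ∀ n, n < Nv → U n < 2 ^ (16 * m)) (hk : Nv * (32 * m) ≤ 2 * k) :
    ctlOut (rep Nv (List.replicate (30 * m + 8) Ctl.S ++ List.replicate E Ctl.C ++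
        List.replicate (2 * m - 8 - E) Ctl.S))
      ((ctlOut (rep (8 * Nv) (List.replicate m Ctl.C ++ List.replicate m Ctl.Z ++
          List.replicate m Ctl.N ++ List.replicate m Ctl.Z)) T *
        valLE (rep 16 (true :: List.replicate (2 * m - 1) false))) % 2 ^ (2 * k)) =
      ∑ n ∈ range Nv, 2 ^ (E * n) *
        ((∑ t ∈ range 16, foldChunk m (U n) t) / 2 ^ 8 % 2 ^ E) := by
  have hneed : ctlNeed (rep Nv (List.replicate (30 * m + 8) Ctl.S ++ List.replicate E Ctl.C ++
      List.replicate (2 * m - 8 - E) Ctl.S)) ≤ 2 * k := by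
    rw [rep_eq_flatMap, ctlNeed_flatMap_range _ Nv (32 * m) (fun _ _ => ctlNeed_blk4 m E hm)]
    exact hk
  rw [ctlOut_mod _ _ _ hneed, ctlOut_spread, valLE_comb m (by omega)]
  generalize hY : (∑ j ∈ range (16 * Nv), 2 ^ (2 * m * j) * foldChunk m T j) *
    (∑ t ∈ range 16, 2 ^ (2 * m * t)) = Y
  rw [rep_eq_flatMap, ctlOut_flatMap_range _ Nv E (32 * m) Y (fun _ _ => olen_blk4 m E)
      (fun _ _ => ctlNeed_blk4 m E hm)]
  refine Finset.sum_congr rfl fun n hn => ?_
  have hn' := Finset.mem_range.1 hn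
  have hslot : Y / 2 ^ (2 * m * (16 * n + 15)) % 2 ^ (2 * m)
      = ∑ t ∈ range 16, foldChunk m (U n) t := by
    rw [← hY, comb_slot m Nv (foldChunk m T) hm4 (foldChunk_lt m T) n hn']
    exact Finset.sum_congr rfl fun τ hτ =>
      foldChunk_packed m Nv T U hT hU n τ hn' (Finset.mem_range.1 hτ)
  rw [ctlOut_blk4, read_slot m E n Y _ hm hslot]

end Vale.Agent.H91.MT
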