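import Vale.Agent.H91.MT.PipeCorrect_Chain
import Vale.Agent.H91.MT.PipeCorrect_Data
import Vale.Agent.H91.MT.PipeCorrect_Stage4
import Vale.Agent.H91.MT.PipeCorrect_Alg
import Vale.Agent.H91.MT.PipeCorrect_Fold

/-!
# TASK PIPE: correctness of the multiplication pipeline (pure mathematics, no machines)

Assembly (helper96).  Every bit list is identified with its value; the five transducer runs
become packed sums (`PipeCorrect_Num`, `PipeCorrect_Grid`, `PipeCorrect_Stages`), the first two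
products are read slot by slot as convolutions (`PipeCorrect_Conv`, `PipeCorrect_Chain`), the
transposition identity modulo `2^m + 1` is `PipeCorrect_Alg`, and the last product folds the
values modulo `2^m + 1` (`PipeCorrect_Stage4`, `PipeCorrect_Fold`).
-/

namespace Vale.Agent.H91.MT

open Finset

namespace SwapParams

variable (p : SwapParams)

/-- The slot value of an input entry: a guard one below the entry bits. -/
def pv (f : ℕ → ℕ → ℕ → ℕ → Bool) (I j1 j2 : ℕ) : ℕ := 2 ^ 7 + 2 ^ 8 * p.pent f I j1 j2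

theorem pv_lt (f : ℕ → ℕ → ℕ → ℕ → Bool) (I j1 j2 : ℕ) : p.pv f I j1 j2 < 2 ^ (p.E + 8) := by
  have h := p.pent_lt f I j1 j2
  have e : 2 ^ (p.E + 8) = 256 * 2 ^ p.E := by rw [pow_add]; norm_num [Nat.mul_comm]
  unfold SwapParams.pv
  rw [e]
  norm_num
  omega

/-- The value number `n` after stage 3. -/
def pU (f : ℕ → ℕ → ℕ → ℕ → Bool) (n : ℕ) : ℕ :=
  2 ^ p.pe3 (n % (p.c0 * p.r0) / p.r0) (n % (p.c0 * p.r0) % p.r0) *
    p.py2 (p.pv f (n / (p.c0 * p.r0))) (n % (p.c0 * p.r0) / p.r0) (n % (p.c0 * p.r0) % p.r0)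

theorem stage1_val (hp : p.Ok) (f : ℕ → ℕ → ℕ → ℕ → Bool) :
    ctlOut p.ctl1 (valLE (p.dataIn f)) = ∑ I ∈ range p.R, 2 ^ (p.SA * p.W * I) *
      pk2d p.W (2 * p.P) p.r0 p.c0 (fun j1 j2 => 2 ^ p.pe1 j1 j2 * p.pv f I j1 j2) := by
  rw [p.ctl1_eq, ctlOut_flatMap_range _ p.R (p.SA * p.W) (p.r0 * (p.c0 * p.E)) _
    (fun _ _ => p.olen_arr1 hp) (fun _ _ => p.ctlNeed_arr1)]
  refine Finset.sum_congr rfl fun I hI => ?_
  rw [p.ctlOut_arr1 hp]
  congr 1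
  refine pk2d_congr _ _ _ _ _ _ fun j1 j2 h1 h2 => ?_
  rw [Nat.div_div_eq_div_mul, ← pow_add]
  have e : p.r0 * (p.c0 * p.E) * I + p.E * (p.c0 * j1 + j2) =
      p.E * (p.c0 * (p.r0 * I + j1) + j2) := by ring
  rw [e, p.dataIn_slot f I j1 j2 (Finset.mem_range.mp hI) h1 h2]
  rfl

theorem stage2_val (hp : p.Ok) (f : ℕ → ℕ → ℕ → ℕ → Bool) :
    ctlOut p.ctl2 ((ctlOut p.ctl1 (valLE (p.dataIn f)) * valLE p.ker1) % 2 ^ (2 * p.k)) =
      ∑ I ∈ range p.R, 2 ^ (p.SA * p.W * I) *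
        pk2d p.W (2 * p.P) p.P p.P (fun k1 k2 => 2 ^ p.pe2 k1 k2 * p.py1 (p.pv f I) k1 k2) := by
  have hk : p.R * (p.SA * p.W) ≤ 2 * p.k := by
    have := hp.hk
    rw [Nat.mul_assoc] at this
    omega
  rw [p.stage1_val hp, Finset.sum_mul]
  have e : (∑ I ∈ range p.R, 2 ^ (p.SA * p.W * I) *
      pk2d p.W (2 * p.P) p.r0 p.c0 (fun j1 j2 => 2 ^ p.pe1 j1 j2 * p.pv f I j1 j2) *
        valLE p.ker1) =
      ∑ I ∈ range p.R, 2 ^ (p.SA * p.W * I) *
        (pk2d p.W (2 * p.P) p.r0 p.c0 (fun j1 j2 => 2 ^ p.pe1 j1 j2 * p.pv f I j1 j2) *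
          valLE p.ker1) :=
    Finset.sum_congr rfl fun I _ => Nat.mul_assoc _ _ _
  rw [e, p.ctl2_eq, ctlOut_arrays p.arr2 p.R (p.SA * p.W) (p.SA * p.W) p.k _ (p.ctlNeed_arr2 hp)
    (p.olen_arr2 hp) (fun I _ => p.prod1_lt hp _ (fun j1 j2 _ _ => p.pv_lt f I j1 j2)) hk]
  refine Finset.sum_congr rfl fun I _ => ?_
  rw [p.chain2 hp _ (fun j1 j2 _ _ => p.pv_lt f I j1 j2)]

theorem stage3_val (hp : p.Ok) (f : ℕ → ℕ → ℕ → ℕ → Bool) :
    ctlOut p.ctl3 ((ctlOut p.ctl2 ((ctlOut p.ctl1 (valLE (p.dataIn f)) * valLE p.ker1) %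
        2 ^ (2 * p.k)) * valLE p.ker2) % 2 ^ (2 * p.k)) =
      ∑ n ∈ range (p.R * p.c0 * p.r0), 2 ^ (16 * p.m * n) * p.pU f n := by
  have hk : p.R * (p.SA * p.W) ≤ 2 * p.k := by
    have := hp.hk
    rw [Nat.mul_assoc] at this
    omega
  rw [p.stage2_val hp, Finset.sum_mul]
  have e : (∑ I ∈ range p.R, 2 ^ (p.SA * p.W * I) *
      pk2d p.W (2 * p.P) p.P p.P (fun k1 k2 => 2 ^ p.pe2 k1 k2 * p.py1 (p.pv f I) k1 k2) *
        valLE p.ker2) =
      ∑ I ∈ range p.R, 2 ^ (p.SA * p.W * I) *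
        (pk2d p.W (2 * p.P) p.P p.P (fun k1 k2 => 2 ^ p.pe2 k1 k2 * p.py1 (p.pv f I) k1 k2) *
          valLE p.ker2) :=
    Finset.sum_congr rfl fun I _ => Nat.mul_assoc _ _ _
  rw [e, p.ctl3_eq, ctlOut_arrays p.arr3 p.R (p.c0 * p.r0 * p.W) (p.SA * p.W) p.k _
    (p.ctlNeed_arr3 hp) (p.olen_arr3 hp)
    (fun I _ => p.prod2_lt hp _ (fun j1 j2 _ _ => p.pv_lt f I j1 j2)) hk]
  have e2 : (∑ I ∈ range p.R, 2 ^ (p.c0 * p.r0 * p.W * I) * ctlOut p.arr3
      (pk2d p.W (2 * p.P) p.P p.P (fun k1 k2 => 2 ^ p.pe2 k1 k2 * p.py1 (p.pv f I) k1 k2) *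
        valLE p.ker2)) =
      ∑ I ∈ range p.R, 2 ^ (p.c0 * p.r0 * p.W * I) * pk2d p.W p.r0 p.c0 p.r0
        ((fun I l1 l2 => 2 ^ p.pe3 l1 l2 * p.py2 (p.pv f I) l1 l2) I) :=
    Finset.sum_congr rfl fun I _ => by
      rw [p.chain3 hp _ (fun j1 j2 _ _ => p.pv_lt f I j1 j2)]
  rw [e2, packed3_flat]
  rfl

theorem olen_ctl4 : olen p.ctl4 = p.R * p.c0 * p.r0 * p.E := by
  unfold SwapParams.ctl4
  rw [rep_eq_flatMap, olen_flatMap_range _ _ p.E]
  intro i _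
  rw [olen_append, olen_append, olen_replicate_S, olen_replicate_S, olen_replicate_C]
  omega

/-- TASK PIPE.  The pipeline transposes every sub-array. -/
theorem pipe_correct (p : SwapParams) (hp : p.Ok) (f : ℕ → ℕ → ℕ → ℕ → Bool) :
    p.pipe (p.dataIn f) = p.dataOut f := by
  have hE := hp.hE
  apply valLE_inj
  · unfold SwapParams.pipe
    rw [length_applyCtl, p.olen_ctl4, p.length_dataOut]
  · simp only [SwapParams.pipe, valLE_applyCtl, valLE_prodBits, valLE_padTo]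
    have h3 := p.stage3_val hp f
    have hk : p.R * p.c0 * p.r0 * (32 * p.m) ≤ 2 * p.k := by
      have h1 := hp.hk
      have hr := hp.hr
      have hc := hp.hc
      have h2 : p.R * p.c0 * p.r0 * (32 * p.m) ≤ p.R * p.SA * p.W := by
        rw [p.SA_eq]
        unfold SwapParams.W
        have h5 : p.c0 * p.r0 ≤ p.P * p.P := Nat.mul_le_mul hc hr
        have h6 : p.R * p.c0 * p.r0 * (32 * p.m) = 32 * (p.R * (p.c0 * p.r0) * p.m) := by ring
        have h7 : p.R * (8 * p.P * p.P) * (16 * p.m) = 128 * (p.R * (p.P * p.P) * p.m) := by ring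
        have h8 : p.R * (p.c0 * p.r0) * p.m ≤ p.R * (p.P * p.P) * p.m :=
          Nat.mul_le_mul_right _ (Nat.mul_le_mul_left _ h5)
        omega
      omega
    have h4 := stage4_core p.m p.E (p.R * p.c0 * p.r0) p.k _ (p.pU f)
      (by rw [p.m_eq]; omega) (by rw [p.m_eq]; omega) h3
      (fun n _ => p.val3_lt hp _ (fun j1 j2 _ _ => p.pv_lt f _ j1 j2) _ _) hk
    have h5 : ctlOut p.ctl4 ((ctlOut p.ctl3b (ctlOut p.ctl3
        ((ctlOut p.ctl2 ((ctlOut p.ctl1 (valLE (p.dataIn f)) * valLE p.ker1) % 2 ^ (2 * p.k)) *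
          valLE p.ker2) % 2 ^ (2 * p.k))) * valLE p.ker3) % 2 ^ (2 * p.k)) =
        ∑ n ∈ range (p.R * p.c0 * p.r0), 2 ^ (p.E * n) *
          ((∑ t ∈ range 16, foldChunk p.m (p.pU f n) t) / 2 ^ 8 % 2 ^ p.E) := h4
    rw [h5, p.dataOut_val]
    refine Finset.sum_congr rfl fun n hn => ?_
    congr 1
    have hn' := Finset.mem_range.mp hn
    have hpos : 0 < p.R * p.c0 * p.r0 := by omega
    have hr0 : 0 < p.r0 := by
      rcases Nat.eq_zero_or_pos p.r0 with h0 | h0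
      · rw [h0] at hpos; simp at hpos
      · exact h0
    have hc0 : 0 < p.c0 := by
      rcases Nat.eq_zero_or_pos p.c0 with h0 | h0
      · rw [h0] at hpos; simp at hpos
      · exact h0
    have hl1 : n % (p.c0 * p.r0) / p.r0 < p.c0 :=
      (Nat.div_lt_iff_lt_mul hr0).mpr (Nat.mod_lt _ (Nat.mul_pos hc0 hr0))
    have hl2 : n % (p.c0 * p.r0) % p.r0 < p.r0 := Nat.mod_lt _ hr0
    have halg := p.alg_core hp (p.pv f (n / (p.c0 * p.r0))) _ _ hl1 hl2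
    exact fold_core p.E _ (p.pU f n) hE (p.pent_lt f _ _ _)
      (p.val3_lt hp _ (fun j1 j2 _ _ => p.pv_lt f _ j1 j2) _ _) halg

end SwapParams

end Vale.Agent.H91.MT
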