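import Vale.Agent.H91.MT.Swap_Stages

/-!
# TASK SWAP: one multiplication-based swap on the machine (assembly of black boxes)

Tape layout (an injective `S : Fin 52 → Fin K`, jointly injective with the simulated tapes):
`S 0 .. S 39` generator layout (`S 0` = CT, the control-list tape; `S 24 .. S 30` base registers
`R, r0, c0, a, P, E, q`; `S 31` = RK, a ruler of length `k`);
`S 40` XA, `S 41` YB (operands), `S 42` PR (product), `S 43` FL (flag), `S 44` CLK (clock),
`S 45`, `S 46` scratch of the call, `S 47` ST (state tape of the call, raw blank),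
`S 48` D (data in), `S 49` OUT (data out), `S 50` TT (intermediate stream),
`S 51` CLK2 (second clock ruler; the clock allows `c1 * c2` steps per call).

Program (this is `SwapParams.pipe` step by step; generators for kernels are run with the layout
`swT' S` whose tape 0 is YB; `load K` stands for
`padStream XA RK zero; K (onto YB); padStream YB RK zero; mulCall`, see `loadCall`):
```
prepA:  genCtl1; utrans CT D XA; rewind D; clear CT
load genKer1
if FL = one:
  prepB:  clear XA, YB, FL; genCtl2; utrans CT PR XA; clear CT, PR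
  load genKer2
  if FL = one:
    prepC:  clear XA, YB, FL; genCtl3; utrans CT PR TT; clear CT, PR; rewind TT
            genCtl3b; utrans CT TT XA; clear CT, TT
    load genKer3
    if FL = one:
      finE:  clear XA, YB; genCtl4; utrans CT PR OUT; clear CT, PR; rewind OUT
    else clear XA, YB
  else clear XA, YB
else clear XA, YB
```
The proof is in the files `Swap_State` (the eight working tapes as a record), `Swap_Steps` (the
black boxes as steps on the record), `Swap_Phases` (sizes; `prepA`, `prepB`, `prepC`, `finE`)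
and `Swap_Stages` (the three calls with their branches).
-/

namespace Vale.Agent.H91.MT

/-- The tapes of the calls made by a swap. -/
def swapCallTapes (A : Machine) {K : ℕ} (S : Fin 52 → Fin K) (sim : Fin (A.k + 1) → Fin K)
    (h : Function.Injective (Sum.elim sim S)) : CallTapes A K where
  sim := sim
  st := S 47
  clk := S 44
  clk2 := S 51
  x := S 40
  y := S 41
  o := S 42
  fl := S 43
  w1 := S 45
  w2 := S 46
  inj := by
    have hσ : Function.Injective (![47, 44, 51, 40, 41, 42, 43, 45, 46] : Fin 9 → Fin 52) := by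
      decide
    have e : (Sum.elim sim (fun i : Fin 9 =>
        ![S 47, S 44, S 51, S 40, S 41, S 42, S 43, S 45, S 46] i)) =
        (Sum.elim sim S) ∘ (Sum.map id ![47, 44, 51, 40, 41, 42, 43, 45, 46]) := by
      funext x
      rcases x with j | i
      · rfl
      · fin_cases i <;> rfl
    rw [e]
    exact h.comp (Function.Injective.sumMap Function.injective_id hσ)

theorem swapCallTapes_layout (A : Machine) {K : ℕ} (S : Fin 52 → Fin K)
    (sim : Fin (A.k + 1) → Fin K) (h : Function.Injective (Sum.elim sim S)) :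
    CallLayout A (swapCallTapes A S sim h) S sim :=
  ⟨rfl, rfl, rfl, rfl, rfl, rfl, rfl, rfl, rfl, rfl⟩

/-- One multiplication-based swap. -/
noncomputable def swapProg (A : Machine) {K : ℕ} (S : Fin 52 → Fin K)
    (sim : Fin (A.k + 1) → Fin K) (h : Function.Injective (Sum.elim sim S)) : Prog (ΓB A) K :=
  Prog.seq (prepA S) (stage1 S (swapCallTapes A S sim h))

/-- TASK SWAP.  With the base registers holding the parameters of `p`, a ruler of length `p.k`,
clock rulers of lengths `c1 ≥ 1` and `c2` (budget `c1 * c2` per call), the data `D` on tape `S 48` and all other tapes of the layout empty (the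
state tape and the simulated tapes completely blank), the swap ends either with `p.pipe D` on
tape `S 49` and flag `one`, or (only if the clock is too short) with flag `zero` and nothing else
changed; it takes time `O(min (mulTime A p.k) (c1 * c2) + c1 + p.k)`. -/
theorem swapProg_spec (A : Machine) (hA : Multiplies A) :
    ∃ C : ℕ, ∀ (K : ℕ) (S : Fin 52 → Fin K) (sim : Fin (A.k + 1) → Fin K)
      (h : Function.Injective (Sum.elim sim S)) (p : SwapParams) (q c1 c2 : ℕ) (D : List Bool),
      p.Ok → p.E = q * p.P → 1 ≤ p.r0 → 1 ≤ p.c0 → 1 ≤ p.R → 1 ≤ c1 →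
      D.length = p.R * p.r0 * p.c0 * p.E → ∀ s : St (ΓB A) K,
      BaseRegs (fun i : Fin 40 => S (Fin.castLE (by omega) i)) p q s →
      s (S 31) = ruler p.k 0 → s (S 44) = ruler c1 0 → s (S 51) = ruler c2 0 →
      s (S 48) = WT (D.map bsym) 0 →
      (∀ i : Fin 52, (i.val < 24 ∨ (32 ≤ i.val ∧ i.val ≠ 44 ∧ i.val ≠ 47 ∧ i.val ≠ 48 ∧ i.val ≠ 51)) →
        s (S i) = WT [] 0) →
      s (S 47) = Tape.ofList (Sum.inl Sym.blank) [] →
      (∀ j, s (sim j) = Tape.ofList (Sum.inl Sym.blank) []) →
      ∃ s', RunLe (swapProg A S sim h) s s'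
          (C * (min (mulTime A p.k) (c1 * c2) + c1 + p.k + 1)) ∧
        (s' = Function.update (Function.update s (S 49) (WT ((p.pipe D).map bsym) 0))
                (S 43) (WT [Sum.inl Sym.one] 0) ∨
         (c1 * c2 < mulTime A p.k ∧
           s' = Function.update s (S 43) (WT [Sum.inl Sym.zero] 0))) := by
  obtain ⟨CA, hC⟩ := callSpec_exists A hA
  obtain ⟨G, hG⟩ := gens_exist ((A.Γ × Bool) ⊕ A.Q)
  refine ⟨3 * CA + 8 * G + 500, ?_⟩
  intro K S sim h p q c1 c2 D hp hq hr0 hc0 hR hc1 hD s hbase hrk hclk hclk2 hDt hempty hst hsim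
  have hI : SwapInit S sim p q c1 c2 s := ⟨h, hbase, hrk, hclk, hclk2, hempty, hst, hsim⟩
  have hstart := hI.start
  rw [hDt] at hstart
  have hA1 : RunLe (prepA S) (st8 s S (WT [] 0) (WT [] 0) (WT [] 0) (WT [] 0) (WT [] 0)
      (WT (D.map bsym) 0) (WT [] 0) (WT [] 0)) _ _ := prepA_run hG hI hp hq hr0 hc0 hR hD
  obtain ⟨s', hr, hs'⟩ := stage1_run hC (swapCallTapes_layout A S sim h) hG hI hp hq hr0 hc0 hR
    hc1 (le_refl _) (p.sz_x1 hp D) (WT (D.map bsym) 0)
  refine ⟨s', ?_, ?_⟩
  · have hrun := hA1.seq hr
    rw [← hstart] at hrun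
    refine hrun.mono ?_
    generalize min (mulTime A p.k) (c1 * c2) = μ
    have hGX : G * (p.k + 1) ≤ G * (μ + c1 + p.k + 1) := Nat.mul_le_mul_left _ (by omega)
    have e : (3 * CA + 8 * G + 500) * (μ + c1 + p.k + 1) =
        3 * (CA * (μ + c1 + p.k + 1)) + 8 * (G * (μ + c1 + p.k + 1)) +
          500 * (μ + c1 + p.k + 1) := by ring
    rw [e]
    omega
  · rw [p.pipe_eq]
    rcases hs' with hs' | ⟨hlt, hs'⟩
    · left
      rw [hs', hI.final_ok, hDt]
    · right
      refine ⟨hlt, ?_⟩
      rw [hs', hI.final_fail, hDt]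

end Vale.Agent.H91.MT
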