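import Vale.Agent.H91.MT.SetBase
import Vale.Agent.H91.MT.Swap
import Vale.Agent.H91.MT.PipeCorrect
import Vale.Agent.H91.MT.LDown_Core

/-!
# TASK LDOWN: one descent step of the recursion (assembly of black boxes)

Layout `L : Fin 80 → Fin K` as in `LevelSt` (Level.lean); the swap layout is `L` restricted to
`Fin 52`; `L 55` is the backup data tape BK.  Program (`setBase2` is run before the backup copy
because it needs the scratch tapes `L 55 .. L 71` empty):
```
setBase1; swapProg            (data L 48 -> L 49, clock rulers L 44 and L 51, flag L 43)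
if FL = one:
  clear FL; clearBase; setBase2; copy L 48 to BK; clear L 48; copy L 49 to L 48; clear L 49
  swapProg
  if FL = one:
    clear FL; clearBase; clear L 48; copy L 49 to L 48; clear L 49; clear BK
    u := u - u / 2 (register L 51, scratch L 56 and L 57);  j := j + 1 (register L 53)
    GO (L 54) := one if 7 <= u else zero
  else:
    clear FL; clearBase; clear L 48; copy BK to L 48; clear BK;  GO := zero
else:
  clear FL; clearBase;  GO := zero
```
The proof is in layout form (LDown_Ext, LDown_Blocks, LDown_Swap, LDown_Core): a state is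
`lDownSt L c s`, and every step changes the contents function `c` at literal indices.
-/

namespace Vale.Agent.H91.MT

/-- One descent step. -/
noncomputable def levelDown (A : Machine) {K : ℕ} (L : Fin 80 → Fin K)
    (sim : Fin (A.k + 1) → Fin K) (h : Function.Injective (Sum.elim sim L)) : Prog (ΓB A) K :=
  Prog.seq (Prog.seq (setBase1 L) (swapProg A (lDownS L) sim (lDownS_inj h)))
    (Prog.ite (isSym (L 43) Sym.one)
      (Prog.seq (Prog.seq (lDownMid L) (swapProg A (lDownS L) sim (lDownS_inj h)))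
        (Prog.ite (isSym (L 43) Sym.one) (lDownFin L) (lDownAbort2 L)))
      (lDownAbort1 L))

theorem lDown_arith (C0 m N T : ℕ) (hT : T ≤ 20000 * (N + 1)) :
    2 * (C0 * (m + N + 1024 * N + 1)) + T ≤ (2050 * C0 + 20000) * (m + N + 1) := by
  have e1 : C0 * (m + N + 1024 * N + 1) = C0 * m + 1025 * (C0 * N) + C0 := by ring
  have e2 : (2050 * C0 + 20000) * (m + N + 1) =
      2050 * (C0 * m) + 2050 * (C0 * N) + 2050 * C0 + 20000 * m + 20000 * N + 20000 := by ring
  rw [e1, e2]
  generalize C0 * m = a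
  generalize C0 * N = b
  omega

/-- The descent step in layout form. -/
theorem lDown_core (A : Machine) (hA : Multiplies A) :
    ∃ C : ℕ, ∀ (K : ℕ) (L : Fin 80 → Fin K) (sim : Fin (A.k + 1) → Fin K)
      (h : Function.Injective (Sum.elim sim L)) (ν u j : ℕ) (X : List Bool),
      7 ≤ u → u ≤ ν → j ≤ ν → X.length = 4 ^ ν →
      ∀ (c0 : Fin 80 → Tape (ΓB A)) (s0 : St (ΓB A) K),
      lDownC ν u j Sym.one X c0 → (∀ t, s0 (sim t) = Tape.ofList (Sum.inl Sym.blank) []) →
      ∃ c' : Fin 80 → Tape (ΓB A),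
        RunLe (levelDown A L sim h) (lDownSt L c0 s0) (lDownSt L c' s0)
          (C * (min (mulTime A (1024 * 4 ^ ν)) (4 ^ ν * u) + 4 ^ ν + 1)) ∧
        (∀ i : Fin 80, 72 ≤ i.val → c' i = c0 i) ∧
        (lDownC ν (u - u / 2) (j + 1) (if 7 ≤ u - u / 2 then Sym.one else Sym.zero)
            ((swapPar2 ν u).arr ((swapPar1 ν u).arr X)) c' ∨
         (4 ^ ν * u < mulTime A (1024 * 4 ^ ν) ∧ lDownC ν u j Sym.zero X c')) := by
  obtain ⟨C0, hC0⟩ := lDown_swap A hA
  refine ⟨2050 * C0 + 20000, ?_⟩
  intro K L sim h ν u j X hu hν hj hX c0 s0 hc hsim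
  have hL : Function.Injective L := lDown_inj h
  -- the parameters of the two swaps
  have ok1 := swapPar1_ok ν u hu hν
  have ok2 := swapPar2_ok ν u hu hν
  have q1 := swapPar1_q ν u
  have q2 := swapPar2_q ν u
  have len1 := swapPar1_len ν u hν
  have len2 := swapPar2_len ν u hν
  have r1 : 1 ≤ (swapPar1 ν u).r0 := Nat.one_le_two_pow
  have cc1 : 1 ≤ (swapPar1 ν u).c0 := Nat.one_le_two_pow
  have R1 : 1 ≤ (swapPar1 ν u).R := Nat.mul_pos (Nat.pow_pos (by norm_num)) Nat.one_le_two_pow
  have r2 : 1 ≤ (swapPar2 ν u).r0 := Nat.one_le_two_pow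
  have cc2 : 1 ≤ (swapPar2 ν u).c0 := Nat.one_le_two_pow
  have R2 : 1 ≤ (swapPar2 ν u).R := Nat.pow_pos (by norm_num)
  have sz1 := lDown_size (swapPar1 ν u) 1 (4 ^ ν) ok1 q1 r1 cc1 R1 len1
  have sz2 := lDown_size (swapPar2 ν u) _ (4 ^ ν) ok2 q2 r2 cc2 R2 len2
  have hk1 : (swapPar1 ν u).k = 1024 * 4 ^ ν := rfl
  have hk2 : (swapPar2 ν u).k = 1024 * 4 ^ ν := rfl
  have hN : ν < 4 ^ ν := Nat.lt_pow_self (by norm_num)
  have hN1 : 1 ≤ 4 ^ ν := Nat.pow_pos (by norm_num)
  have hY : ((swapPar1 ν u).arr X).length = 4 ^ ν := by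
    rw [arr_length, Nat.mul_right_comm (swapPar1 ν u).R, len1]
  have hZ : ((swapPar2 ν u).arr ((swapPar1 ν u).arr X)).length = 4 ^ ν := by
    rw [arr_length, Nat.mul_right_comm (swapPar2 ν u).R, len2]
  have hc' := hc
  obtain ⟨h31, h44, h52, h51, h53, h54, h48, h47, hemp⟩ := hc
  -- first swap
  have sb := setBase1_run L hL ν u (by omega) hν (lDownSt L c0 s0)
    (by rw [lDownSt_apply hL, h52]) (by rw [lDownSt_apply hL, h51]) (by
      intro i hi
      rw [lDownSt_apply hL]
      exact lDownC_empty hc' i (by omega))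
  rw [lDown_withBase hL] at sb
  obtain ⟨c1, run1, hc1⟩ := hC0 K L sim h (swapPar1 ν u) 1 (4 ^ ν) u X c0 s0 ok1 q1 r1 cc1 R1
    hN1 (hX.trans len1.symm) h31 h44 h51 h48 h47
    (fun i _ _ _ _ _ _ => lDownC_empty hc' i (by omega)) hsim
  rw [hk1] at run1 hc1
  have run1 := sb.seq run1
  rcases hc1 with rfl | ⟨hlt, rfl⟩
  · -- the first swap succeeded
    have t1 : isSym (L 43) Sym.one (St.heads (lDownSt L (Function.update (lDownBase
        (swapPar1 ν u) 1 (Function.update c0 49 (WT (((swapPar1 ν u).arr X).map bsym) 0))) 43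
        (WT [Sum.inl Sym.one] 0)) s0)) = true := by
      apply isSym_true
      rw [lDownSt_apply hL, Function.update_self]
      rfl
    have mid := lDown_mid hL (swapPar1 ν u) 1 c0 s0 ν u j X ((swapPar1 ν u).arr X) (by omega) hν
      hc'
    obtain ⟨c2, run2, hc2⟩ := hC0 K L sim h (swapPar2 ν u) (2 ^ (2 * (u - u / 2) - u / 2))
      (4 ^ ν) u ((swapPar1 ν u).arr X)
      (Function.update (Function.update c0 48 (WT (((swapPar1 ν u).arr X).map bsym) 0)) 55
        (WT (X.map bsym) 0)) s0 ok2 q2 r2 cc2 R2 hN1 (hY.trans len2.symm)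
      (by simp [h31]; rfl) (by simp [h44]) (by simp [h51]) (by simp) (by simp [h47])
      (fun i _ _ _ _ _ _ => by
        rw [Function.update_of_ne (by omega), Function.update_of_ne (by omega)]
        exact lDownC_empty hc' i (by omega)) hsim
    rw [hk2] at run2 hc2
    have run2 := mid.seq run2
    rcases hc2 with rfl | ⟨hlt, rfl⟩
    · -- the second swap succeeded
      have t2 : isSym (L 43) Sym.one (St.heads (lDownSt L (Function.update (lDownBase
          (swapPar2 ν u) (2 ^ (2 * (u - u / 2) - u / 2)) (Function.update (Function.update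
          (Function.update c0 48 (WT (((swapPar1 ν u).arr X).map bsym) 0)) 55
          (WT (X.map bsym) 0)) 49
          (WT (((swapPar2 ν u).arr ((swapPar1 ν u).arr X)).map bsym) 0))) 43
          (WT [Sum.inl Sym.one] 0)) s0)) = true := by
        apply isSym_true
        rw [lDownSt_apply hL, Function.update_self]
        rfl
      have fin := lDown_fin hL (swapPar2 ν u) (2 ^ (2 * (u - u / 2) - u / 2)) c0 s0 ν u j X
        ((swapPar1 ν u).arr X) ((swapPar2 ν u).arr ((swapPar1 ν u).arr X)) hc'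
      refine ⟨_, ?_, ?_, Or.inl (lDownC_next hc' _ _ _ _)⟩
      · refine (run1.seq (RunLe.ite_true t1 (run2.seq (RunLe.ite_true t2 fin)))).mono ?_
        refine le_trans ?_ (lDown_arith C0 (min (mulTime A (1024 * 4 ^ ν)) (4 ^ ν * u)) (4 ^ ν)
          (4300 * 4 ^ ν + 5000) (by omega))
        rw [hY, hZ, hX]
        omega
      · intro i hi
        rw [Function.update_of_ne (by omega), Function.update_of_ne (by omega),
          Function.update_of_ne (by omega), Function.update_of_ne (by omega)]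
    · -- the second swap was aborted
      have t2 : isSym (L 43) Sym.one (St.heads (lDownSt L (Function.update (lDownBase
          (swapPar2 ν u) (2 ^ (2 * (u - u / 2) - u / 2)) (Function.update
          (Function.update c0 48 (WT (((swapPar1 ν u).arr X).map bsym) 0)) 55
          (WT (X.map bsym) 0))) 43 (WT [Sum.inl Sym.zero] 0)) s0)) = false := by
        apply isSym_false
        rw [lDownSt_apply hL, Function.update_self]
        simp
      have ab := lDown_abort2 hL (swapPar2 ν u) (2 ^ (2 * (u - u / 2) - u / 2)) c0 s0 ν u j X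
        ((swapPar1 ν u).arr X) hc'
      refine ⟨_, ?_, ?_, Or.inr ⟨hlt, lDownC_flag hc' Sym.zero⟩⟩
      · refine (run1.seq (RunLe.ite_true t1 (run2.seq (RunLe.ite_false t2 ab)))).mono ?_
        refine le_trans ?_ (lDown_arith C0 (min (mulTime A (1024 * 4 ^ ν)) (4 ^ ν * u)) (4 ^ ν)
          (4300 * 4 ^ ν + 5000) (by omega))
        rw [hY, hX]
        omega
      · intro i hi
        rw [Function.update_of_ne (by omega)]
  · -- the first swap was aborted
    have t1 : isSym (L 43) Sym.one (St.heads (lDownSt L (Function.update (lDownBase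
        (swapPar1 ν u) 1 c0) 43 (WT [Sum.inl Sym.zero] 0)) s0)) = false := by
      apply isSym_false
      rw [lDownSt_apply hL, Function.update_self]
      simp
    have ab := lDown_abort1 hL (swapPar1 ν u) 1 c0 s0 ν u j X hc'
    refine ⟨_, ?_, ?_, Or.inr ⟨hlt, lDownC_flag hc' Sym.zero⟩⟩
    · refine (run1.seq (RunLe.ite_false t1 ab)).mono ?_
      refine le_trans ?_ (lDown_arith C0 (min (mulTime A (1024 * 4 ^ ν)) (4 ^ ν * u)) (4 ^ ν)
        (4300 * 4 ^ ν + 5000) (by omega))
      omega
    · intro i hi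
      rw [Function.update_of_ne (by omega)]

/-- TASK LDOWN. -/
theorem levelDown_spec (A : Machine) (hA : Multiplies A) :
    ∃ C : ℕ, ∀ (K : ℕ) (L : Fin 80 → Fin K) (sim : Fin (A.k + 1) → Fin K)
      (h : Function.Injective (Sum.elim sim L)) (ν u j : ℕ) (X : List Bool),
      7 ≤ u → u ≤ ν → j ≤ ν → X.length = 4 ^ ν → ∀ s : St (ΓB A) K,
      LevelSt A L sim ν u j Sym.one X s →
      ∃ s', RunLe (levelDown A L sim h) s s'
          (C * (min (mulTime A (1024 * 4 ^ ν)) (4 ^ ν * u) + 4 ^ ν + 1)) ∧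
        LevelFrame A L sim s s' ∧
        (LevelSt A L sim ν (u - u / 2) (j + 1) (if 7 ≤ u - u / 2 then Sym.one else Sym.zero)
            ((swapPar2 ν u).arr ((swapPar1 ν u).arr X)) s' ∨
         (4 ^ ν * u < mulTime A (1024 * 4 ^ ν) ∧ LevelSt A L sim ν u j Sym.zero X s')) := by
  obtain ⟨C, hC⟩ := lDown_core A hA
  refine ⟨C, ?_⟩
  intro K L sim h ν u j X hu hν hj hX s hs
  have hL : Function.Injective L := lDown_inj h
  obtain ⟨h31, h44, h52, h51, h53, h54, h48, h47, hsim, hemp⟩ := hs
  obtain ⟨c', hrun, hfr, hres⟩ := hC K L sim h ν u j X hu hν hj hX (fun i => s (L i)) s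
    ⟨h31, h44, h52, h51, h53, h54, h48, h47, hemp⟩ hsim
  rw [lDownSt_self hL] at hrun
  refine ⟨lDownSt L c' s, hrun, lDown_frame A sim hL c' s hfr, ?_⟩
  rcases hres with hres | ⟨hlt, hres⟩
  · exact Or.inl (lDown_levelSt A h _ _ _ _ _ c' s hres hsim)
  · exact Or.inr ⟨hlt, lDown_levelSt A h _ _ _ _ _ c' s hres hsim⟩

end Vale.Agent.H91.MT
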