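import Vale.Agent.H91.MT.LDown_Ext

/-!
# TASK LDOWN, part 2: the building blocks in layout form
-/

namespace Vale.Agent.H91.MT

variable {α : Type} {K : ℕ}

theorem lDown_clear {L : Fin 80 → Fin K} (hL : Function.Injective L)
    (c : Fin 80 → Tape (Sym ⊕ α)) (s0 : St (Sym ⊕ α) K) (i : Fin 80) (l : List (Sym ⊕ α)) (p : ℕ)
    (hi : c i = WT l p) (hb : Sum.inl Sym.blank ∉ l) (hl : Sum.inl Sym.lend ∉ l)
    (hp : p ≤ l.length) :
    RunLe (clearTape (L i)) (lDownSt L c s0) (lDownSt L (Function.update c i (WT [] 0)) s0)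
      (4 * l.length + 8) := by
  have h := clearTape_run (L i) l hb hl p hp (lDownSt L c s0) (by rw [lDownSt_apply hL, hi])
  rwa [lDownSt_update hL] at h

theorem lDown_copy {L : Fin 80 → Fin K} (hL : Function.Injective L)
    (c : Fin 80 → Tape (Sym ⊕ α)) (s0 : St (Sym ⊕ α) K) (a b : Fin 80) (hab : a ≠ b)
    (l : List (Sym ⊕ α)) (ha : c a = WT l 0) (hb : c b = WT [] 0)
    (hlb : Sum.inl Sym.blank ∉ l) (hll : Sum.inl Sym.lend ∉ l) :
    RunLe (copyApp (L a) (L b)) (lDownSt L c s0)
      (lDownSt L (Function.update c b (WT l l.length)) s0) (5 * l.length + 8) := by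
  have h := copyApp_run (L a) (L b) (hL.ne hab) l [] hlb hll (lDownSt L c s0)
    (by rw [lDownSt_apply hL, ha]) (by rw [lDownSt_apply hL, hb]; rfl)
  rw [lDownSt_update hL] at h
  simpa using h

theorem lDown_rewind {L : Fin 80 → Fin K} (hL : Function.Injective L)
    (c : Fin 80 → Tape (Sym ⊕ α)) (s0 : St (Sym ⊕ α) K) (a : Fin 80) (l : List (Sym ⊕ α))
    (p : ℕ) (ha : c a = WT l p) (hll : Sum.inl Sym.lend ∉ l) :
    RunLe (rewind (L a)) (lDownSt L c s0) (lDownSt L (Function.update c a (WT l 0)) s0)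
      (2 * p + 4) := by
  have h := (rewind_run (L a) l hll p (lDownSt L c s0) (by rw [lDownSt_apply hL, ha])).le
  rwa [lDownSt_update hL] at h

/-- Replace the content of tape `b` by the content of tape `a` and clear `a`. -/
def lDownMove (a b : Fin K) : Prog (Sym ⊕ α) K :=
  Prog.seq (clearTape b) (Prog.seq (copyApp a b) (Prog.seq (rewind b) (clearTape a)))

theorem lDown_move {L : Fin 80 → Fin K} (hL : Function.Injective L)
    (c : Fin 80 → Tape (Sym ⊕ α)) (s0 : St (Sym ⊕ α) K) (a b : Fin 80) (hab : a ≠ b)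
    (l l' : List (Sym ⊕ α)) (ha : c a = WT l 0) (hb : c b = WT l' 0)
    (hlb : Sum.inl Sym.blank ∉ l) (hll : Sum.inl Sym.lend ∉ l)
    (hlb' : Sum.inl Sym.blank ∉ l') (hll' : Sum.inl Sym.lend ∉ l') :
    RunLe (lDownMove (L a) (L b)) (lDownSt L c s0)
      (lDownSt L (Function.update (Function.update c b (WT l 0)) a (WT [] 0)) s0)
      (11 * l.length + 4 * l'.length + 28) := by
  have h1 := lDown_clear hL c s0 b l' 0 hb hlb' hll' (Nat.zero_le _)
  have h2 := lDown_copy hL (Function.update c b (WT [] 0)) s0 a b hab l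
    (by rw [Function.update_of_ne hab, ha]) (by rw [Function.update_self]) hlb hll
  rw [Function.update_idem] at h2
  have h3 := lDown_rewind hL (Function.update c b (WT l l.length)) s0 b l l.length
    (by rw [Function.update_self]) hll
  rw [Function.update_idem] at h3
  have h4 := lDown_clear hL (Function.update c b (WT l 0)) s0 a l 0
    (by rw [Function.update_of_ne hab, ha]) hlb hll (Nat.zero_le _)
  exact (h1.seq (h2.seq (h3.seq h4))).mono (by omega)

theorem lDown_regCopy {L : Fin 80 → Fin K} (hL : Function.Injective L)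
    (c : Fin 80 → Tape (Sym ⊕ α)) (s0 : St (Sym ⊕ α) K) (r a : Fin 80) (hra : r ≠ a) (v w : ℕ)
    (hr : c r = ruler v 0) (ha : c a = ruler w 0) :
    RunLe (regCopy (L r) (L a)) (lDownSt L c s0)
      (lDownSt L (Function.update c r (ruler w 0)) s0) (10 * (v + w) + 30) := by
  have h := regCopy_run (L r) (L a) (hL.ne hra) v w (lDownSt L c s0)
    (by rw [lDownSt_apply hL, hr]) (by rw [lDownSt_apply hL, ha])
  rwa [lDownSt_update hL] at h

theorem lDown_regHalf {L : Fin 80 → Fin K} (hL : Function.Injective L)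
    (c : Fin 80 → Tape (Sym ⊕ α)) (s0 : St (Sym ⊕ α) K) (r t : Fin 80) (hrt : r ≠ t) (v : ℕ)
    (hr : c r = ruler v 0) (ht : c t = WT [] 0) :
    RunLe (regHalf (L r) (L t)) (lDownSt L c s0)
      (lDownSt L (Function.update c r (ruler (v / 2) 0)) s0) (40 * v + 60) := by
  have h := regHalf_run (L r) (L t) (hL.ne hrt) v (lDownSt L c s0)
    (by rw [lDownSt_apply hL, hr]) (by rw [lDownSt_apply hL, ht]; rfl)
  rwa [lDownSt_update hL] at h

theorem lDown_regSub {L : Fin 80 → Fin K} (hL : Function.Injective L)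
    (c : Fin 80 → Tape (Sym ⊕ α)) (s0 : St (Sym ⊕ α) K) (r a : Fin 80) (hra : r ≠ a) (v x : ℕ)
    (hr : c r = ruler v 0) (ha : c a = ruler x 0) :
    RunLe (regSub (L r) (L a)) (lDownSt L c s0)
      (lDownSt L (Function.update c r (ruler (v - x) 0)) s0) (10 * (v + x) + 40) := by
  have h := regSub_run (L r) (L a) (hL.ne hra) v x (lDownSt L c s0)
    (by rw [lDownSt_apply hL, hr]) (by rw [lDownSt_apply hL, ha])
  rwa [lDownSt_update hL] at h

theorem lDown_regInc {L : Fin 80 → Fin K} (hL : Function.Injective L)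
    (c : Fin 80 → Tape (Sym ⊕ α)) (s0 : St (Sym ⊕ α) K) (r : Fin 80) (v : ℕ)
    (hr : c r = ruler v 0) :
    RunLe (regInc (L r)) (lDownSt L c s0)
      (lDownSt L (Function.update c r (ruler (v + 1) 0)) s0) (6 * v + 20) := by
  have h := regInc_run (L r) v (lDownSt L c s0) (by rw [lDownSt_apply hL, hr])
  rwa [lDownSt_update hL] at h

theorem lDown_setFlag {L : Fin 80 → Fin K} (hL : Function.Injective L)
    (c : Fin 80 → Tape (Sym ⊕ α)) (s0 : St (Sym ⊕ α) K) (g : Fin 80) (x y : Sym)
    (hg : c g = WT [Sum.inl x] 0) :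
    RunLe (Prog.wm (L g) (fun _ => Sum.inl y) Dir.S) (lDownSt L c s0)
      (lDownSt L (Function.update c g (WT [Sum.inl y] 0)) s0) 1 := by
  have h := Run.wm (L g) (fun _ => (Sum.inl y : Sym ⊕ α)) Dir.S (lDownSt L c s0)
  rw [lDownSt_apply hL, hg, WT_write_lt _ _ _ (by simp), WT_move_S, lDownSt_update hL] at h
  simpa using h.le

/-! ## The continuation flag -/

/-- Set the flag on tape `g` to `one` if the register `r` holds at least 7, else to `zero`. -/
def lDownGo (r g : Fin K) : Prog (Sym ⊕ α) K :=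
  Prog.seq (Prog.mv r Dir.R) (Prog.seq (Prog.mv r Dir.R) (Prog.seq (Prog.mv r Dir.R)
    (Prog.seq (Prog.mv r Dir.R) (Prog.seq (Prog.mv r Dir.R) (Prog.seq (Prog.mv r Dir.R)
      (Prog.seq (Prog.ite (isSym r Sym.one) (Prog.wm g (fun _ => Sum.inl Sym.one) Dir.S)
        (Prog.wm g (fun _ => Sum.inl Sym.zero) Dir.S)) (rewind r)))))))

theorem lDown_mvR (r : Fin K) (n p : ℕ) (s : St (Sym ⊕ α) K) :
    Run (Prog.mv r Dir.R) (Function.update s r (ruler n p))
      (Function.update s r (ruler n (p + 1))) 1 := by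
  have h := Run.mv r Dir.R (Function.update s r (ruler n p))
  rwa [Function.update_self, ruler_move_R, Function.update_idem] at h

theorem lDownGo_run (r g : Fin K) (hrg : r ≠ g) (n : ℕ) (x : Sym) (s : St (Sym ⊕ α) K)
    (hr : s r = ruler n 0) (hg : s g = WT [Sum.inl x] 0) :
    RunLe (lDownGo r g) s
      (Function.update s g (WT [Sum.inl (if 7 ≤ n then Sym.one else Sym.zero)] 0)) 24 := by
  have e0 : s = Function.update s r (ruler n 0) := by rw [← hr, Function.update_eq_self]
  have m1 := lDown_mvR r n 0 s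
  rw [← e0] at m1
  have m2 := lDown_mvR r n 1 s
  have m3 := lDown_mvR r n 2 s
  have m4 := lDown_mvR r n 3 s
  have m5 := lDown_mvR r n 4 s
  have m6 := lDown_mvR r n 5 s
  have hgr : g ≠ r := Ne.symm hrg
  have hw : ∀ y : Sym, Run (Prog.wm g (fun _ => (Sum.inl y : Sym ⊕ α)) Dir.S)
      (Function.update s r (ruler n 6))
      (Function.update (Function.update s r (ruler n 6)) g (WT [Sum.inl y] 0)) 1 := by
    intro y
    have h := Run.wm g (fun _ => (Sum.inl y : Sym ⊕ α)) Dir.S (Function.update s r (ruler n 6))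
    rw [Function.update_of_ne hgr, hg, WT_write_lt _ _ _ (by simp), WT_move_S] at h
    simpa using h
  have hrw : ∀ y : Sym, RunLe (rewind r)
      (Function.update (Function.update s r (ruler n 6)) g (WT [Sum.inl y] 0))
      (Function.update s g (WT [Sum.inl y] 0)) 16 := by
    intro y
    have h := rewind_ruler r n 6
      (Function.update (Function.update s r (ruler n 6)) g (WT [Sum.inl y] 0))
      (by rw [Function.update_of_ne hrg, Function.update_self])
    refine h.cast rfl ?_ (by norm_num)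
    funext k
    by_cases hk : k = r
    · subst hk
      rw [Function.update_self, Function.update_of_ne hrg, hr]
    · rw [Function.update_of_ne hk]
      by_cases hk2 : k = g
      · subst hk2
        rw [Function.update_self, Function.update_self]
      · rw [Function.update_of_ne hk2, Function.update_of_ne hk, Function.update_of_ne hk2]
  have hite : RunLe (Prog.ite (isSym r Sym.one) (Prog.wm g (fun _ => Sum.inl Sym.one) Dir.S)
        (Prog.wm g (fun _ => Sum.inl Sym.zero) Dir.S)) (Function.update s r (ruler n 6))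
      (Function.update (Function.update s r (ruler n 6)) g
        (WT [Sum.inl (if 7 ≤ n then Sym.one else Sym.zero)] 0)) 2 := by
    by_cases h7 : 7 ≤ n
    · rw [if_pos h7]
      refine RunLe.ite_true ?_ (hw Sym.one).le
      apply isSym_true
      rw [Function.update_self, ruler_read_lt (by omega)]
    · rw [if_neg h7]
      refine RunLe.ite_false ?_ (hw Sym.zero).le
      apply isSym_false
      rw [Function.update_self, ruler_read_ge (by omega)]
      simp
  exact (m1.le.seq (m2.le.seq (m3.le.seq (m4.le.seq (m5.le.seq (m6.le.seq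
    (hite.seq (hrw _)))))))).mono (by norm_num)

theorem lDown_go {L : Fin 80 → Fin K} (hL : Function.Injective L)
    (c : Fin 80 → Tape (Sym ⊕ α)) (s0 : St (Sym ⊕ α) K) (r g : Fin 80) (hrg : r ≠ g) (n : ℕ)
    (x : Sym) (hr : c r = ruler n 0) (hg : c g = WT [Sum.inl x] 0) :
    RunLe (lDownGo (L r) (L g)) (lDownSt L c s0)
      (lDownSt L (Function.update c g
        (WT [Sum.inl (if 7 ≤ n then Sym.one else Sym.zero)] 0)) s0) 24 := by
  have h := lDownGo_run (L r) (L g) (hL.ne hrg) n x (lDownSt L c s0)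
    (by rw [lDownSt_apply hL, hr]) (by rw [lDownSt_apply hL, hg])
  rwa [lDownSt_update hL] at h

/-! ## Cleaning up after a swap -/

theorem lDown_cleanup {L : Fin 80 → Fin K} (hL : Function.Injective L) (p : SwapParams) (q : ℕ)
    (c : Fin 80 → Tape (Sym ⊕ α)) (s0 : St (Sym ⊕ α) K) (x : Sym) (hxb : x ≠ Sym.blank)
    (hxl : x ≠ Sym.lend) (h43 : c 43 = WT [] 0)
    (hbase : ∀ i : Fin 80, 24 ≤ i.val ∧ i.val ≤ 30 → c i = WT [] 0) :
    RunLe (Prog.seq (clearTape (L 43)) (clearBase L))
      (lDownSt L (Function.update (lDownBase p q c) 43 (WT [Sum.inl x] 0)) s0) (lDownSt L c s0)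
      (10 * (p.R + p.r0 + p.c0 + p.a + p.P + p.E + q) + 112) := by
  have h1 := lDown_clear hL (Function.update (lDownBase p q c) 43 (WT [Sum.inl x] 0)) s0 43
    [Sum.inl x] 0 (by rw [Function.update_self]) (by simpa using hxb.symm)
    (by simpa using hxl.symm) (Nat.zero_le _)
  have e : Function.update (Function.update (lDownBase p q c) 43 (WT [Sum.inl x] 0)) 43
      (WT [] 0) = lDownBase p q c := by
    rw [Function.update_idem, Function.update_eq_self_iff, lDownBase_of _ _ _ _ (by decide), h43]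
  rw [e] at h1
  have h2 := clearBase_run L hL p q (lDownSt L c s0) (by
    intro i hi
    rw [lDownSt_apply hL, hbase i hi])
  rw [lDown_withBase hL] at h2
  exact (h1.seq h2).mono (by simp only [List.length_singleton]; omega)

end Vale.Agent.H91.MT
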