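import Vale.Agent.H91.MT.SetBase
import Vale.Agent.H91.MT.Swap
import Vale.Agent.H91.MT.PipeCorrect

/-!
# TASK LDOWN, part 1: states seen through the level layout, and the building blocks

A state of the level machinery is written `lDownSt L c s`: tape `L i` holds `c i` and all other
tapes are as in `s`.  Every program step then only changes the contents function
`c : Fin 80 → Tape`, with literal indices.
-/

namespace Vale.Agent.H91.MT

variable {Γ : Type} {α : Type} {K : ℕ}

/-- The state holding `c i` on tape `L i` and agreeing with `s` on all other tapes. -/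
noncomputable def lDownSt (L : Fin 80 → Fin K) (c : Fin 80 → Tape Γ) (s : St Γ K) : St Γ K :=
  Function.extend L c s

theorem lDownSt_apply {L : Fin 80 → Fin K} (hL : Function.Injective L) (c : Fin 80 → Tape Γ)
    (s : St Γ K) (i : Fin 80) : lDownSt L c s (L i) = c i :=
  hL.extend_apply c s i

theorem lDownSt_other (L : Fin 80 → Fin K) (c : Fin 80 → Tape Γ) (s : St Γ K) (t : Fin K)
    (ht : ∀ i, t ≠ L i) : lDownSt L c s t = s t :=
  Function.extend_apply' c s t (by rintro ⟨i, hi⟩; exact ht i hi.symm)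

theorem lDownSt_update {L : Fin 80 → Fin K} (hL : Function.Injective L) (c : Fin 80 → Tape Γ)
    (s : St Γ K) (i : Fin 80) (v : Tape Γ) :
    Function.update (lDownSt L c s) (L i) v = lDownSt L (Function.update c i v) s := by
  funext t
  by_cases ht : ∃ j, L j = t
  · obtain ⟨j, rfl⟩ := ht
    rw [lDownSt_apply hL, Function.update_apply, Function.update_apply, lDownSt_apply hL]
    simp only [hL.eq_iff]
  · have ht' : ∀ j, t ≠ L j := fun j e => ht ⟨j, e.symm⟩
    rw [Function.update_of_ne (ht' i), lDownSt_other L _ s t ht', lDownSt_other L _ s t ht']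

theorem lDownSt_self {L : Fin 80 → Fin K} (hL : Function.Injective L) (s : St Γ K) :
    lDownSt L (fun i => s (L i)) s = s := by
  funext t
  by_cases ht : ∃ j, L j = t
  · obtain ⟨j, rfl⟩ := ht
    rw [lDownSt_apply hL]
  · exact lDownSt_other L _ s t (fun j e => ht ⟨j, e.symm⟩)

theorem lDown_inj {β : Type} {L : Fin 80 → Fin K} {sim : β → Fin K}
    (h : Function.Injective (Sum.elim sim L)) : Function.Injective L :=
  fun a b e => Sum.inr.inj (h (a₁ := Sum.inr a) (a₂ := Sum.inr b) e)

theorem lDown_sim_ne {β : Type} {L : Fin 80 → Fin K} {sim : β → Fin K}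
    (h : Function.Injective (Sum.elim sim L)) (t : β) (i : Fin 80) : sim t ≠ L i := by
  intro e
  have := h (a₁ := Sum.inl t) (a₂ := Sum.inr i) e
  cases this

/-- The swap layout inside the level layout. -/
def lDownS (L : Fin 80 → Fin K) : Fin 52 → Fin K := fun i => L (Fin.castLE (by norm_num) i)

theorem lDownS_inj {β : Type} {L : Fin 80 → Fin K} {sim : β → Fin K}
    (h : Function.Injective (Sum.elim sim L)) : Function.Injective (Sum.elim sim (lDownS L)) := by
  intro x y e
  rcases x with x | x <;> rcases y with y | y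
  · have := h (a₁ := Sum.inl x) (a₂ := Sum.inl y) e
    rw [Sum.inl.inj this]
  · exact absurd e (lDown_sim_ne h x _)
  · exact absurd e.symm (lDown_sim_ne h y _)
  · have h1 := Sum.inr.inj (h (a₁ := Sum.inr (Fin.castLE (by norm_num) x))
      (a₂ := Sum.inr (Fin.castLE (by norm_num) y)) e)
    have h2 := congrArg Fin.val h1
    simp only [Fin.val_castLE] at h2
    rw [Fin.ext h2]

/-! ## Base registers -/

/-- The contents `c` with the base registers loaded with the parameters of `p` and `q`. -/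
def lDownBase (p : SwapParams) (q : ℕ) (c : Fin 80 → Tape (Sym ⊕ α)) :
    Fin 80 → Tape (Sym ⊕ α) :=
  Function.update (Function.update (Function.update (Function.update (Function.update
    (Function.update (Function.update c
      24 (ruler p.R 0)) 25 (ruler p.r0 0)) 26 (ruler p.c0 0)) 27 (ruler p.a 0))
      28 (ruler p.P 0)) 29 (ruler p.E 0)) 30 (ruler q 0)

theorem lDown_withBase {L : Fin 80 → Fin K} (hL : Function.Injective L) (p : SwapParams) (q : ℕ)
    (c : Fin 80 → Tape (Sym ⊕ α)) (s : St (Sym ⊕ α) K) :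
    withBase L p q (lDownSt L c s) = lDownSt L (lDownBase p q c) s := by
  simp only [withBase, lDownBase, lDownSt_update hL]

theorem lDownBase_of (p : SwapParams) (q : ℕ) (c : Fin 80 → Tape (Sym ⊕ α)) (i : Fin 80)
    (h : i.val < 24 ∨ 30 < i.val) : lDownBase p q c i = c i := by
  unfold lDownBase
  rw [Function.update_of_ne (by omega), Function.update_of_ne (by omega),
    Function.update_of_ne (by omega), Function.update_of_ne (by omega),
    Function.update_of_ne (by omega), Function.update_of_ne (by omega),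
    Function.update_of_ne (by omega)]

theorem lDownBase_comm (p : SwapParams) (q : ℕ) (c : Fin 80 → Tape (Sym ⊕ α)) (i : Fin 80)
    (v : Tape (Sym ⊕ α)) (h : i.val < 24 ∨ 30 < i.val) :
    Function.update (lDownBase p q c) i v = lDownBase p q (Function.update c i v) := by
  funext k
  unfold lDownBase
  simp only [Function.update_apply]
  split_ifs <;> first | rfl | omega

theorem lDownBase_regs (p : SwapParams) (q : ℕ) (c : Fin 80 → Tape (Sym ⊕ α)) :
    lDownBase p q c 24 = ruler p.R 0 ∧ lDownBase p q c 25 = ruler p.r0 0 ∧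
    lDownBase p q c 26 = ruler p.c0 0 ∧ lDownBase p q c 27 = ruler p.a 0 ∧
    lDownBase p q c 28 = ruler p.P 0 ∧ lDownBase p q c 29 = ruler p.E 0 ∧
    lDownBase p q c 30 = ruler q 0 := by
  simp [lDownBase]

/-! ## The contents of a standing level state -/

/-- The layout contents of a standing level state (the tape-content part of `LevelSt`). -/
def lDownC (ν u j : ℕ) (go : Sym) (X : List Bool) (c : Fin 80 → Tape (Sym ⊕ α)) : Prop :=
  c 31 = ruler (1024 * 4 ^ ν) 0 ∧ c 44 = ruler (4 ^ ν) 0 ∧ c 52 = ruler ν 0 ∧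
  c 51 = ruler u 0 ∧ c 53 = ruler j 0 ∧ c 54 = WT [Sum.inl go] 0 ∧
  c 48 = WT (X.map bsym) 0 ∧
  c 47 = Tape.ofList (Sum.inl Sym.blank) [] ∧
  (∀ i : Fin 80, i.val < 72 → i.val ≠ 31 → i.val ≠ 44 → i.val ≠ 47 → i.val ≠ 48 →
    i.val ≠ 51 → i.val ≠ 52 → i.val ≠ 53 → i.val ≠ 54 → c i = WT [] 0)

theorem lDown_levelSt (A : Machine) {L : Fin 80 → Fin K} {sim : Fin (A.k + 1) → Fin K}
    (h : Function.Injective (Sum.elim sim L)) (ν u j : ℕ) (go : Sym) (X : List Bool)
    (c : Fin 80 → Tape (ΓB A)) (s0 : St (ΓB A) K) (hc : lDownC ν u j go X c)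
    (hsim : ∀ t, s0 (sim t) = Tape.ofList (Sum.inl Sym.blank) []) :
    LevelSt A L sim ν u j go X (lDownSt L c s0) := by
  have hL := lDown_inj h
  obtain ⟨h31, h44, h52, h51, h53, h54, h48, h47, hemp⟩ := hc
  refine ⟨?_, ?_, ?_, ?_, ?_, ?_, ?_, ?_, ?_, ?_⟩
  · rw [lDownSt_apply hL, h31]
  · rw [lDownSt_apply hL, h44]
  · rw [lDownSt_apply hL, h52]
  · rw [lDownSt_apply hL, h51]
  · rw [lDownSt_apply hL, h53]
  · rw [lDownSt_apply hL, h54]
  · rw [lDownSt_apply hL, h48]
  · rw [lDownSt_apply hL, h47]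
  · intro t
    rw [lDownSt_other L c s0 (sim t) (lDown_sim_ne h t), hsim t]
  · intro i h1 h2 h3 h4 h5 h6 h7 h8 h9
    rw [lDownSt_apply hL, hemp i h1 h2 h3 h4 h5 h6 h7 h8 h9]

theorem lDown_frame (A : Machine) {L : Fin 80 → Fin K} (sim : Fin (A.k + 1) → Fin K)
    (hL : Function.Injective L) (c : Fin 80 → Tape (ΓB A)) (s : St (ΓB A) K)
    (hc : ∀ i : Fin 80, 72 ≤ i.val → c i = s (L i)) : LevelFrame A L sim s (lDownSt L c s) := by
  intro t ht _
  by_cases hex : ∃ i, L i = t
  · obtain ⟨i, rfl⟩ := hex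
    have hi : 72 ≤ i.val := by
      by_contra hlt
      exact ht i (by omega) rfl
    rw [lDownSt_apply hL, hc i hi]
  · exact lDownSt_other L c s t (fun i e => hex ⟨i, e.symm⟩)

/-! ## Small facts -/

theorem lDown_blank_bits (X : List Bool) :
    (Sum.inl Sym.blank : Sym ⊕ α) ∉ X.map bsym := by
  intro h
  obtain ⟨b, -, hb⟩ := List.mem_map.1 h
  cases b <;> simp [bsym] at hb

theorem lDown_lend_bits (X : List Bool) :
    (Sum.inl Sym.lend : Sym ⊕ α) ∉ X.map bsym := by
  intro h
  obtain ⟨b, -, hb⟩ := List.mem_map.1 h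
  cases b <;> simp [bsym] at hb

/-- On lists of the right length the pipeline is the array transposition. -/
theorem lDown_pipe (p : SwapParams) (hp : p.Ok) (D : List Bool)
    (hD : D.length = p.R * p.r0 * p.c0 * p.E) : p.pipe D = p.arr D := by
  have h1 := p.dataIn_getD D hD
  have h2 := p.pipe_correct hp
    (fun I i j b => D.getD (((I * p.r0 + i) * p.c0 + j) * p.E + b) false)
  have h3 := swapArr_dataIn p
    (fun I i j b => D.getD (((I * p.r0 + i) * p.c0 + j) * p.E + b) false)
  rw [h1] at h2 h3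
  rw [h2, SwapParams.arr, h3]

/-- The parameters of a swap are bounded by the data size. -/
theorem lDown_size (p : SwapParams) (q N : ℕ) (hp : p.Ok) (hq : p.E = q * p.P) (hr0 : 1 ≤ p.r0)
    (hc0 : 1 ≤ p.c0) (hR : 1 ≤ p.R) (hN : p.R * p.r0 * p.c0 * p.E = N) :
    p.R + p.r0 + p.c0 + p.a + p.P + p.E + q ≤ 7 * N := by
  have hE : 1 ≤ p.E := le_trans (by norm_num) hp.hE
  have hRr : 1 ≤ p.R * p.r0 := Nat.mul_pos hR hr0
  have hRrc : 1 ≤ p.R * p.r0 * p.c0 := Nat.mul_pos hRr hc0
  have h1 : p.E ≤ N := hN ▸ Nat.le_mul_of_pos_left p.E hRrc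
  have h2 : p.R * p.r0 * p.c0 ≤ N := hN ▸ Nat.le_mul_of_pos_right _ hE
  have h3 : p.c0 ≤ N := le_trans (Nat.le_mul_of_pos_left p.c0 hRr) h2
  have h4 : p.R * p.r0 ≤ N := le_trans (Nat.le_mul_of_pos_right _ hc0) h2
  have h5 : p.r0 ≤ N := le_trans (Nat.le_mul_of_pos_left p.r0 hR) h4
  have h6 : p.R ≤ N := le_trans (Nat.le_mul_of_pos_right _ hr0) h4
  have hP : 1 ≤ p.P := Nat.one_le_two_pow
  have h7 : p.P ≤ p.E := Nat.le_of_dvd hE hp.hPE
  have h8 : p.a ≤ p.P := (Nat.lt_two_pow_self).le
  have h9 : q ≤ p.E := hq ▸ Nat.le_mul_of_pos_right q hP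
  omega

end Vale.Agent.H91.MT
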