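import Vale.Agent.H91.MT.LDown_Blocks

/-!
# TASK LDOWN, part 3: the swap in layout form
-/

namespace Vale.Agent.H91.MT

/-- `swapProg_spec` on the level layout, with the pipeline already identified with the array
transposition. -/
theorem lDown_swap (A : Machine) (hA : Multiplies A) :
    ∃ C : ℕ, ∀ (K : ℕ) (L : Fin 80 → Fin K) (sim : Fin (A.k + 1) → Fin K)
      (h : Function.Injective (Sum.elim sim L)) (p : SwapParams) (q c1 c2 : ℕ) (D : List Bool)
      (c : Fin 80 → Tape (ΓB A)) (s0 : St (ΓB A) K),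
      p.Ok → p.E = q * p.P → 1 ≤ p.r0 → 1 ≤ p.c0 → 1 ≤ p.R → 1 ≤ c1 →
      D.length = p.R * p.r0 * p.c0 * p.E →
      c 31 = ruler p.k 0 → c 44 = ruler c1 0 → c 51 = ruler c2 0 → c 48 = WT (D.map bsym) 0 →
      c 47 = Tape.ofList (Sum.inl Sym.blank) [] →
      (∀ i : Fin 80, i.val < 52 → i.val ≠ 31 → i.val ≠ 44 → i.val ≠ 47 → i.val ≠ 48 →
        i.val ≠ 51 → c i = WT [] 0) →
      (∀ t, s0 (sim t) = Tape.ofList (Sum.inl Sym.blank) []) →
      ∃ c' : Fin 80 → Tape (ΓB A),
        RunLe (swapProg A (lDownS L) sim (lDownS_inj h)) (lDownSt L (lDownBase p q c) s0)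
          (lDownSt L c' s0) (C * (min (mulTime A p.k) (c1 * c2) + c1 + p.k + 1)) ∧
        (c' = Function.update (lDownBase p q
              (Function.update c 49 (WT ((p.arr D).map bsym) 0))) 43 (WT [Sum.inl Sym.one] 0) ∨
         (c1 * c2 < mulTime A p.k ∧
           c' = Function.update (lDownBase p q c) 43 (WT [Sum.inl Sym.zero] 0))) := by
  obtain ⟨C, hC⟩ := swapProg_spec A hA
  refine ⟨C, ?_⟩
  intro K L sim h p q c1 c2 D c s0 hp hq hr0 hc0 hR hc1 hD h31 h44 h51 h48 h47 hemp hsim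
  have hL : Function.Injective L := lDown_inj h
  obtain ⟨b24, b25, b26, b27, b28, b29, b30⟩ := lDownBase_regs p q c
  have hbase : BaseRegs (fun i : Fin 40 => lDownS L (Fin.castLE (by omega) i)) p q
      (lDownSt L (lDownBase p q c) s0) := by
    refine ⟨?_, ?_, ?_, ?_, ?_, ?_, ?_⟩
    · show lDownSt L (lDownBase p q c) s0 (L 24) = _
      rw [lDownSt_apply hL, b24]
    · show lDownSt L (lDownBase p q c) s0 (L 25) = _
      rw [lDownSt_apply hL, b25]
    · show lDownSt L (lDownBase p q c) s0 (L 26) = _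
      rw [lDownSt_apply hL, b26]
    · show lDownSt L (lDownBase p q c) s0 (L 27) = _
      rw [lDownSt_apply hL, b27]
    · show lDownSt L (lDownBase p q c) s0 (L 28) = _
      rw [lDownSt_apply hL, b28]
    · show lDownSt L (lDownBase p q c) s0 (L 29) = _
      rw [lDownSt_apply hL, b29]
    · show lDownSt L (lDownBase p q c) s0 (L 30) = _
      rw [lDownSt_apply hL, b30]
  have g31 : lDownSt L (lDownBase p q c) s0 (lDownS L 31) = ruler p.k 0 := by
    show lDownSt L (lDownBase p q c) s0 (L 31) = _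
    rw [lDownSt_apply hL, lDownBase_of _ _ _ _ (by decide), h31]
  have g44 : lDownSt L (lDownBase p q c) s0 (lDownS L 44) = ruler c1 0 := by
    show lDownSt L (lDownBase p q c) s0 (L 44) = _
    rw [lDownSt_apply hL, lDownBase_of _ _ _ _ (by decide), h44]
  have g51 : lDownSt L (lDownBase p q c) s0 (lDownS L 51) = ruler c2 0 := by
    show lDownSt L (lDownBase p q c) s0 (L 51) = _
    rw [lDownSt_apply hL, lDownBase_of _ _ _ _ (by decide), h51]
  have g48 : lDownSt L (lDownBase p q c) s0 (lDownS L 48) = WT (D.map bsym) 0 := by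
    show lDownSt L (lDownBase p q c) s0 (L 48) = _
    rw [lDownSt_apply hL, lDownBase_of _ _ _ _ (by decide), h48]
  have g47 : lDownSt L (lDownBase p q c) s0 (lDownS L 47) =
      Tape.ofList (Sum.inl Sym.blank) [] := by
    show lDownSt L (lDownBase p q c) s0 (L 47) = _
    rw [lDownSt_apply hL, lDownBase_of _ _ _ _ (by decide), h47]
  have gemp : ∀ i : Fin 52, (i.val < 24 ∨ (32 ≤ i.val ∧ i.val ≠ 44 ∧ i.val ≠ 47 ∧ i.val ≠ 48 ∧
      i.val ≠ 51)) → lDownSt L (lDownBase p q c) s0 (lDownS L i) = WT [] 0 := by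
    intro i hi
    show lDownSt L (lDownBase p q c) s0 (L (Fin.castLE (by norm_num) i)) = _
    have hv : (Fin.castLE (by norm_num : 52 ≤ 80) i).val = i.val := rfl
    rw [lDownSt_apply hL, lDownBase_of _ _ _ _ (by rw [hv]; omega)]
    exact hemp _ (by rw [hv]; omega) (by rw [hv]; omega) (by rw [hv]; omega) (by rw [hv]; omega)
      (by rw [hv]; omega) (by rw [hv]; omega)
  have gsim : ∀ t, lDownSt L (lDownBase p q c) s0 (sim t) =
      Tape.ofList (Sum.inl Sym.blank) [] := by
    intro t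
    rw [lDownSt_other L _ s0 (sim t) (lDown_sim_ne h t), hsim t]
  obtain ⟨s', hrun, hs'⟩ := hC K (lDownS L) sim (lDownS_inj h) p q c1 c2 D hp hq hr0 hc0 hR hc1
    hD (lDownSt L (lDownBase p q c) s0) hbase g31 g44 g51 g48 gemp g47 gsim
  have e49 : lDownS L 49 = L 49 := rfl
  have e43 : lDownS L 43 = L 43 := rfl
  rw [e49, e43, lDownSt_update hL, lDownSt_update hL, lDownSt_update hL, lDown_pipe p hp D hD,
    lDownBase_comm _ _ _ 49 _ (by decide)] at hs'
  rcases hs' with hs' | ⟨hlt, hs'⟩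
  · exact ⟨_, hs' ▸ hrun, Or.inl rfl⟩
  · exact ⟨_, hs' ▸ hrun, Or.inr ⟨hlt, rfl⟩⟩

end Vale.Agent.H91.MT
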