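import Vale.Agent.H91.MT.Level
import Vale.Agent.H91.MT.RegC

/-!
# TASK SETBASE: loading the base registers of the three swaps of a level

Layout `L : Fin 80 → Fin K` (see `LevelSt` in Level.lean): `L 52` holds `ν`, `L 51` holds `u`,
the base registers are `L 24 .. L 30` (`R, r0, c0, a, P, E, q`), scratch registers are
`L 55 .. L 71` (empty before and after).  Compute exponents in unary (`u / 2` by `regHalf`,
differences by `regSub`, ...) and powers by `regPow2`; statements of RegA / RegB / RegC may be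
used as black boxes.  Numeric constants in the time bounds may be changed.

Implementation: `sbPrep` puts `u / 2`, `u - u / 2`, `2 * (ν - u)` into the scratch registers
`L 55`, `L 57`, `L 58` (`L 56` is the temporary of `regHalf` / `regDouble` / `regPow2`); the
three loaders then fill `L 24 .. L 30` and clear the scratch registers again.
-/

set_option linter.unusedSimpArgs false

namespace Vale.Agent.H91.MT

variable {α : Type} {K : ℕ}

/-- The state `s` with the base registers holding the parameters of `p` and `q`. -/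
def withBase (L : Fin 80 → Fin K) (p : SwapParams) (q : ℕ) (s : St (Sym ⊕ α) K) :
    St (Sym ⊕ α) K :=
  Function.update (Function.update (Function.update (Function.update (Function.update
    (Function.update (Function.update s
      (L 24) (ruler p.R 0)) (L 25) (ruler p.r0 0)) (L 26) (ruler p.c0 0)) (L 27) (ruler p.a 0))
      (L 28) (ruler p.P 0)) (L 29) (ruler p.E 0)) (L 30) (ruler q 0)

/-- The empty register. -/
theorem sb_ruler_zero : (ruler 0 0 : Tape (Sym ⊕ α)) = WT [] 0 := rfl

/-- Clearing a register. -/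
theorem sb_clear_run (r : Fin K) (v : ℕ) (s : St (Sym ⊕ α) K) (hr : s r = ruler v 0) :
    RunLe (clearTape r) s (Function.update s r (WT [] 0)) (4 * v + 8) := by
  have h := clearTape_run r (List.replicate v (Sum.inl Sym.one)) (blank_not_mem_replicate_one v)
    (lend_not_mem_replicate_one v) 0 (Nat.zero_le _) s hr
  rwa [List.length_replicate] at h

theorem sb_pow_le (x ν : ℕ) (h : x ≤ 2 * ν) : 2 ^ x ≤ 4 ^ ν := by
  calc 2 ^ x ≤ 2 ^ (2 * ν) := Nat.pow_le_pow_right (by norm_num) h
    _ = 4 ^ ν := by rw [pow_mul]; norm_num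

/-- Scratch: `L 55 := u / 2`, `L 57 := u - u / 2`, `L 58 := 2 * (ν - u)`. -/
def sbPrep (L : Fin 80 → Fin K) : Prog (Sym ⊕ α) K :=
  Prog.seq (Prog.seq (Prog.seq (Prog.seq (Prog.seq (Prog.seq
    (regCopy (L 55) (L 51)) (regHalf (L 55) (L 56))) (regCopy (L 57) (L 51)))
    (regSub (L 57) (L 55))) (regCopy (L 58) (L 52))) (regSub (L 58) (L 51)))
    (regDouble (L 58) (L 56))

theorem sbPrep_run (L : Fin 80 → Fin K) (hL : Function.Injective L) (ν u : ℕ)
    (s : St (Sym ⊕ α) K) (hnu : s (L 52) = ruler ν 0) (hU : s (L 51) = ruler u 0)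
    (h55 : s (L 55) = WT [] 0) (h56 : s (L 56) = WT [] 0) (h57 : s (L 57) = WT [] 0)
    (h58 : s (L 58) = WT [] 0) :
    RunLe (sbPrep L) s
      (Function.update (Function.update (Function.update s (L 55) (ruler (u / 2) 0))
        (L 57) (ruler (u - u / 2) 0)) (L 58) (ruler (2 * (ν - u)) 0))
      (100 * (ν + u) + 300) := by
  have h1 := regCopy_run (L 55) (L 51) (hL.ne (by decide)) 0 u s h55 hU
  have h2 := h1.seq (regHalf_run (L 55) (L 56) (hL.ne (by decide)) u _
    (by simp [Function.update_apply, hL.eq_iff, sb_ruler_zero, hU, hnu, h56])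
    (by simp [Function.update_apply, hL.eq_iff, sb_ruler_zero, hU, hnu, h56]))
  have h3 := h2.seq (regCopy_run (L 57) (L 51) (hL.ne (by decide)) 0 u _
    (by simp [Function.update_apply, hL.eq_iff, sb_ruler_zero, hU, hnu, h56, h57])
    (by simp [Function.update_apply, hL.eq_iff, sb_ruler_zero, hU, hnu, h56]))
  have h4 := h3.seq (regSub_run (L 57) (L 55) (hL.ne (by decide)) u (u / 2) _
    (by simp [Function.update_apply, hL.eq_iff, sb_ruler_zero, hU, hnu, h56])
    (by simp [Function.update_apply, hL.eq_iff, sb_ruler_zero, hU, hnu, h56]))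
  have h5 := h4.seq (regCopy_run (L 58) (L 52) (hL.ne (by decide)) 0 ν _
    (by simp [Function.update_apply, hL.eq_iff, sb_ruler_zero, hU, hnu, h56, h58])
    (by simp [Function.update_apply, hL.eq_iff, sb_ruler_zero, hU, hnu, h56]))
  have h6 := h5.seq (regSub_run (L 58) (L 51) (hL.ne (by decide)) ν u _
    (by simp [Function.update_apply, hL.eq_iff, sb_ruler_zero, hU, hnu, h56])
    (by simp [Function.update_apply, hL.eq_iff, sb_ruler_zero, hU, hnu, h56]))
  have h7 := h6.seq (regDouble_run (L 58) (L 56) (hL.ne (by decide)) (ν - u) _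
    (by simp [Function.update_apply, hL.eq_iff, sb_ruler_zero, hU, hnu, h56])
    (by simp [Function.update_apply, hL.eq_iff, sb_ruler_zero, hU, hnu, h56]))
  refine h7.cast rfl ?_ (by omega)
  clear h1 h2 h3 h4 h5 h6 h7
  funext j
  simp only [Function.update_apply]
  split_ifs <;> simp_all [hL.eq_iff]

/-- Load the base registers for the swap `i ↔ J`. -/
def setBase1 (L : Fin 80 → Fin K) : Prog (Sym ⊕ α) K :=
  Prog.seq (Prog.seq (Prog.seq (Prog.seq (Prog.seq (Prog.seq (Prog.seq (Prog.seq (Prog.seq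
    (Prog.seq (Prog.seq (sbPrep L)
    (regAdd (L 58) (L 55))) (regPow2 (L 24) (L 58) (L 56))) (regPow2 (L 25) (L 57) (L 56)))
    (regPow2 (L 26) (L 55) (L 56))) (regCopy (L 27) (L 57))) (regPow2 (L 28) (L 57) (L 56)))
    (regPow2 (L 29) (L 57) (L 56))) (regConst (L 30) 1)) (clearTape (L 55)))
    (clearTape (L 57))) (clearTape (L 58))

/-- Load the base registers for the swap `I ↔ J`. -/
def setBase2 (L : Fin 80 → Fin K) : Prog (Sym ⊕ α) K :=
  Prog.seq (Prog.seq (Prog.seq (Prog.seq (Prog.seq (Prog.seq (Prog.seq (Prog.seq (Prog.seq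
    (Prog.seq (Prog.seq (Prog.seq (sbPrep L)
    (regPow2 (L 24) (L 58) (L 56))) (regPow2 (L 25) (L 55) (L 56)))
    (regPow2 (L 26) (L 55) (L 56))) (regCopy (L 27) (L 55))) (regPow2 (L 28) (L 55) (L 56)))
    (regDouble (L 57) (L 56))) (regPow2 (L 29) (L 57) (L 56))) (regSub (L 57) (L 55)))
    (regPow2 (L 30) (L 57) (L 56))) (clearTape (L 55))) (clearTape (L 57))) (clearTape (L 58))

/-- Load the base registers for the swap `I ↔ j`. -/
def setBase3 (L : Fin 80 → Fin K) : Prog (Sym ⊕ α) K :=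
  Prog.seq (Prog.seq (Prog.seq (Prog.seq (Prog.seq (Prog.seq (Prog.seq (Prog.seq (Prog.seq
    (Prog.seq (Prog.seq (sbPrep L)
    (regAdd (L 58) (L 55))) (regPow2 (L 24) (L 58) (L 56))) (regPow2 (L 25) (L 55) (L 56)))
    (regPow2 (L 26) (L 57) (L 56))) (regCopy (L 27) (L 57))) (regPow2 (L 28) (L 57) (L 56)))
    (regPow2 (L 29) (L 57) (L 56))) (regConst (L 30) 1)) (clearTape (L 55)))
    (clearTape (L 57))) (clearTape (L 58))

/-- Clear the base registers. -/
def clearBase (L : Fin 80 → Fin K) : Prog (Sym ⊕ α) K :=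
  Prog.seq (Prog.seq (Prog.seq (Prog.seq (Prog.seq (Prog.seq
    (clearTape (L 24)) (clearTape (L 25))) (clearTape (L 26))) (clearTape (L 27)))
    (clearTape (L 28))) (clearTape (L 29))) (clearTape (L 30))

theorem setBase1_run (L : Fin 80 → Fin K) (hL : Function.Injective L) (ν u : ℕ) (hu : 2 ≤ u)
    (hν : u ≤ ν) (s : St (Sym ⊕ α) K) (hnu : s (L 52) = ruler ν 0) (hU : s (L 51) = ruler u 0)
    (hempty : ∀ i : Fin 80, (24 ≤ i.val ∧ i.val ≤ 30) ∨ (55 ≤ i.val ∧ i.val < 72) →
      s (L i) = WT [] 0) :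
    RunLe (setBase1 L) s (withBase L (swapPar1 ν u) 1 s) (2000 * (4 ^ ν + 1)) := by
  have h24 : s (L 24) = WT [] 0 := hempty 24 (by decide)
  have h25 : s (L 25) = WT [] 0 := hempty 25 (by decide)
  have h26 : s (L 26) = WT [] 0 := hempty 26 (by decide)
  have h27 : s (L 27) = WT [] 0 := hempty 27 (by decide)
  have h28 : s (L 28) = WT [] 0 := hempty 28 (by decide)
  have h29 : s (L 29) = WT [] 0 := hempty 29 (by decide)
  have h30 : s (L 30) = WT [] 0 := hempty 30 (by decide)
  have h55 : s (L 55) = WT [] 0 := hempty 55 (by decide)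
  have h56 : s (L 56) = WT [] 0 := hempty 56 (by decide)
  have h57 : s (L 57) = WT [] 0 := hempty 57 (by decide)
  have h58 : s (L 58) = WT [] 0 := hempty 58 (by decide)
  have e1 : 2 ^ (2 * (ν - u) + u / 2) = 4 ^ (ν - u) * 2 ^ (u / 2) := by
    rw [pow_add, pow_mul]; norm_num
  have hν4 : ν < 4 ^ ν := Nat.lt_pow_self (by norm_num)
  have hp1 : 2 ^ (2 * (ν - u) + u / 2) ≤ 4 ^ ν := sb_pow_le _ _ (by omega)
  have hp2 : 2 ^ (u - u / 2) ≤ 4 ^ ν := sb_pow_le _ _ (by omega)
  have hp3 : 2 ^ (u / 2) ≤ 4 ^ ν := sb_pow_le _ _ (by omega)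
  have k0 := sbPrep_run L hL ν u s hnu hU h55 h56 h57 h58
  have k1 := k0.seq (regAdd_run (L 58) (L 55) (hL.ne (by decide)) (2 * (ν - u)) (u / 2) _
    (by simp [Function.update_apply, hL.eq_iff, sb_ruler_zero, hU, hnu, h56])
    (by simp [Function.update_apply, hL.eq_iff, sb_ruler_zero, hU, hnu, h56]))
  have k2 := k1.seq (regPow2_run (L 24) (L 58) (L 56) (hL.ne (by decide)) (hL.ne (by decide))
    (hL.ne (by decide)) 0 (2 * (ν - u) + u / 2) _
    (by simp [Function.update_apply, hL.eq_iff, sb_ruler_zero, hU, hnu, h56, h24])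
    (by simp [Function.update_apply, hL.eq_iff, sb_ruler_zero, hU, hnu, h56])
    (by simp [Function.update_apply, hL.eq_iff, sb_ruler_zero, hU, hnu, h56]))
  have k3 := k2.seq (regPow2_run (L 25) (L 57) (L 56) (hL.ne (by decide)) (hL.ne (by decide))
    (hL.ne (by decide)) 0 (u - u / 2) _
    (by simp [Function.update_apply, hL.eq_iff, sb_ruler_zero, hU, hnu, h56, h25])
    (by simp [Function.update_apply, hL.eq_iff, sb_ruler_zero, hU, hnu, h56])
    (by simp [Function.update_apply, hL.eq_iff, sb_ruler_zero, hU, hnu, h56]))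
  have k4 := k3.seq (regPow2_run (L 26) (L 55) (L 56) (hL.ne (by decide)) (hL.ne (by decide))
    (hL.ne (by decide)) 0 (u / 2) _
    (by simp [Function.update_apply, hL.eq_iff, sb_ruler_zero, hU, hnu, h56, h26])
    (by simp [Function.update_apply, hL.eq_iff, sb_ruler_zero, hU, hnu, h56])
    (by simp [Function.update_apply, hL.eq_iff, sb_ruler_zero, hU, hnu, h56]))
  have k5 := k4.seq (regCopy_run (L 27) (L 57) (hL.ne (by decide)) 0 (u - u / 2) _
    (by simp [Function.update_apply, hL.eq_iff, sb_ruler_zero, hU, hnu, h56, h27])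
    (by simp [Function.update_apply, hL.eq_iff, sb_ruler_zero, hU, hnu, h56]))
  have k6 := k5.seq (regPow2_run (L 28) (L 57) (L 56) (hL.ne (by decide)) (hL.ne (by decide))
    (hL.ne (by decide)) 0 (u - u / 2) _
    (by simp [Function.update_apply, hL.eq_iff, sb_ruler_zero, hU, hnu, h56, h28])
    (by simp [Function.update_apply, hL.eq_iff, sb_ruler_zero, hU, hnu, h56])
    (by simp [Function.update_apply, hL.eq_iff, sb_ruler_zero, hU, hnu, h56]))
  have k7 := k6.seq (regPow2_run (L 29) (L 57) (L 56) (hL.ne (by decide)) (hL.ne (by decide))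
    (hL.ne (by decide)) 0 (u - u / 2) _
    (by simp [Function.update_apply, hL.eq_iff, sb_ruler_zero, hU, hnu, h56, h29])
    (by simp [Function.update_apply, hL.eq_iff, sb_ruler_zero, hU, hnu, h56])
    (by simp [Function.update_apply, hL.eq_iff, sb_ruler_zero, hU, hnu, h56]))
  have k8 := k7.seq (regConst_run (L 30) 1 0 _
    (by simp [Function.update_apply, hL.eq_iff, sb_ruler_zero, hU, hnu, h56, h30]))
  have k9 := k8.seq (sb_clear_run (L 55) (u / 2) _
    (by simp [Function.update_apply, hL.eq_iff, sb_ruler_zero, hU, hnu, h56]))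
  have k10 := k9.seq (sb_clear_run (L 57) (u - u / 2) _
    (by simp [Function.update_apply, hL.eq_iff, sb_ruler_zero, hU, hnu, h56]))
  have k11 := k10.seq (sb_clear_run (L 58) (2 * (ν - u) + u / 2) _
    (by simp [Function.update_apply, hL.eq_iff, sb_ruler_zero, hU, hnu, h56]))
  refine k11.cast rfl ?_ ?_
  · clear k0 k1 k2 k3 k4 k5 k6 k7 k8 k9 k10 k11 hp1 hp2 hp3 hν4
    rw [e1]
    clear e1
    funext j
    simp only [withBase, swapPar1, SwapParams.P, Function.update_apply]
    by_cases c58 : j = L 58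
    · subst c58; simp [hL.eq_iff, h58]
    by_cases c57 : j = L 57
    · subst c57; simp [hL.eq_iff, h57]
    by_cases c55 : j = L 55
    · subst c55; simp [hL.eq_iff, h55]
    by_cases c30 : j = L 30
    · subst c30; simp [hL.eq_iff]
    by_cases c29 : j = L 29
    · subst c29; simp [hL.eq_iff]
    by_cases c28 : j = L 28
    · subst c28; simp [hL.eq_iff]
    by_cases c27 : j = L 27
    · subst c27; simp [hL.eq_iff]
    by_cases c26 : j = L 26
    · subst c26; simp [hL.eq_iff]
    by_cases c25 : j = L 25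
    · subst c25; simp [hL.eq_iff]
    by_cases c24 : j = L 24
    · subst c24; simp [hL.eq_iff]
    simp [c58, c57, c55, c30, c29, c28, c27, c26, c25, c24]
  · clear k0 k1 k2 k3 k4 k5 k6 k7 k8 k9 k10 k11
    omega

theorem setBase2_run (L : Fin 80 → Fin K) (hL : Function.Injective L) (ν u : ℕ) (hu : 2 ≤ u)
    (hν : u ≤ ν) (s : St (Sym ⊕ α) K) (hnu : s (L 52) = ruler ν 0) (hU : s (L 51) = ruler u 0)
    (hempty : ∀ i : Fin 80, (24 ≤ i.val ∧ i.val ≤ 30) ∨ (55 ≤ i.val ∧ i.val < 72) →
      s (L i) = WT [] 0) :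
    RunLe (setBase2 L) s (withBase L (swapPar2 ν u) (2 ^ (2 * (u - u / 2) - u / 2)) s)
      (2000 * (4 ^ ν + 1)) := by
  have h24 : s (L 24) = WT [] 0 := hempty 24 (by decide)
  have h25 : s (L 25) = WT [] 0 := hempty 25 (by decide)
  have h26 : s (L 26) = WT [] 0 := hempty 26 (by decide)
  have h27 : s (L 27) = WT [] 0 := hempty 27 (by decide)
  have h28 : s (L 28) = WT [] 0 := hempty 28 (by decide)
  have h29 : s (L 29) = WT [] 0 := hempty 29 (by decide)
  have h30 : s (L 30) = WT [] 0 := hempty 30 (by decide)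
  have h55 : s (L 55) = WT [] 0 := hempty 55 (by decide)
  have h56 : s (L 56) = WT [] 0 := hempty 56 (by decide)
  have h57 : s (L 57) = WT [] 0 := hempty 57 (by decide)
  have h58 : s (L 58) = WT [] 0 := hempty 58 (by decide)
  have hν4 : ν < 4 ^ ν := Nat.lt_pow_self (by norm_num)
  have e1 : 2 ^ (2 * (ν - u)) = 4 ^ (ν - u) := by
    rw [pow_mul]; norm_num
  have e2 : 2 ^ (2 * (u - u / 2)) = 4 ^ (u - u / 2) := by
    rw [pow_mul]; norm_num
  have hp1 : 2 ^ (2 * (ν - u)) ≤ 4 ^ ν := sb_pow_le _ _ (by omega)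
  have hp2 : 2 ^ (2 * (u - u / 2)) ≤ 4 ^ ν := sb_pow_le _ _ (by omega)
  have hp3 : 2 ^ (u / 2) ≤ 4 ^ ν := sb_pow_le _ _ (by omega)
  have hp4 : 2 ^ (2 * (u - u / 2) - u / 2) ≤ 4 ^ ν := sb_pow_le _ _ (by omega)
  have k0 := sbPrep_run L hL ν u s hnu hU h55 h56 h57 h58
  have k1 := k0.seq (regPow2_run (L 24) (L 58) (L 56) (hL.ne (by decide)) (hL.ne (by decide))
    (hL.ne (by decide)) 0 (2 * (ν - u)) _
    (by simp [Function.update_apply, hL.eq_iff, sb_ruler_zero, hU, hnu, h56, h24])
    (by simp [Function.update_apply, hL.eq_iff, sb_ruler_zero, hU, hnu, h56])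
    (by simp [Function.update_apply, hL.eq_iff, sb_ruler_zero, hU, hnu, h56]))
  have k2 := k1.seq (regPow2_run (L 25) (L 55) (L 56) (hL.ne (by decide)) (hL.ne (by decide))
    (hL.ne (by decide)) 0 (u / 2) _
    (by simp [Function.update_apply, hL.eq_iff, sb_ruler_zero, hU, hnu, h56, h25])
    (by simp [Function.update_apply, hL.eq_iff, sb_ruler_zero, hU, hnu, h56])
    (by simp [Function.update_apply, hL.eq_iff, sb_ruler_zero, hU, hnu, h56]))
  have k3 := k2.seq (regPow2_run (L 26) (L 55) (L 56) (hL.ne (by decide)) (hL.ne (by decide))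
    (hL.ne (by decide)) 0 (u / 2) _
    (by simp [Function.update_apply, hL.eq_iff, sb_ruler_zero, hU, hnu, h56, h26])
    (by simp [Function.update_apply, hL.eq_iff, sb_ruler_zero, hU, hnu, h56])
    (by simp [Function.update_apply, hL.eq_iff, sb_ruler_zero, hU, hnu, h56]))
  have k4 := k3.seq (regCopy_run (L 27) (L 55) (hL.ne (by decide)) 0 (u / 2) _
    (by simp [Function.update_apply, hL.eq_iff, sb_ruler_zero, hU, hnu, h56, h27])
    (by simp [Function.update_apply, hL.eq_iff, sb_ruler_zero, hU, hnu, h56]))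
  have k5 := k4.seq (regPow2_run (L 28) (L 55) (L 56) (hL.ne (by decide)) (hL.ne (by decide))
    (hL.ne (by decide)) 0 (u / 2) _
    (by simp [Function.update_apply, hL.eq_iff, sb_ruler_zero, hU, hnu, h56, h28])
    (by simp [Function.update_apply, hL.eq_iff, sb_ruler_zero, hU, hnu, h56])
    (by simp [Function.update_apply, hL.eq_iff, sb_ruler_zero, hU, hnu, h56]))
  have k6 := k5.seq (regDouble_run (L 57) (L 56) (hL.ne (by decide)) (u - u / 2) _
    (by simp [Function.update_apply, hL.eq_iff, sb_ruler_zero, hU, hnu, h56])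
    (by simp [Function.update_apply, hL.eq_iff, sb_ruler_zero, hU, hnu, h56]))
  have k7 := k6.seq (regPow2_run (L 29) (L 57) (L 56) (hL.ne (by decide)) (hL.ne (by decide))
    (hL.ne (by decide)) 0 (2 * (u - u / 2)) _
    (by simp [Function.update_apply, hL.eq_iff, sb_ruler_zero, hU, hnu, h56, h29])
    (by simp [Function.update_apply, hL.eq_iff, sb_ruler_zero, hU, hnu, h56])
    (by simp [Function.update_apply, hL.eq_iff, sb_ruler_zero, hU, hnu, h56]))
  have k8 := k7.seq (regSub_run (L 57) (L 55) (hL.ne (by decide)) (2 * (u - u / 2)) (u / 2) _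
    (by simp [Function.update_apply, hL.eq_iff, sb_ruler_zero, hU, hnu, h56])
    (by simp [Function.update_apply, hL.eq_iff, sb_ruler_zero, hU, hnu, h56]))
  have k9 := k8.seq (regPow2_run (L 30) (L 57) (L 56) (hL.ne (by decide)) (hL.ne (by decide))
    (hL.ne (by decide)) 0 (2 * (u - u / 2) - u / 2) _
    (by simp [Function.update_apply, hL.eq_iff, sb_ruler_zero, hU, hnu, h56, h30])
    (by simp [Function.update_apply, hL.eq_iff, sb_ruler_zero, hU, hnu, h56])
    (by simp [Function.update_apply, hL.eq_iff, sb_ruler_zero, hU, hnu, h56]))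
  have k10 := k9.seq (sb_clear_run (L 55) (u / 2) _
    (by simp [Function.update_apply, hL.eq_iff, sb_ruler_zero, hU, hnu, h56]))
  have k11 := k10.seq (sb_clear_run (L 57) (2 * (u - u / 2) - u / 2) _
    (by simp [Function.update_apply, hL.eq_iff, sb_ruler_zero, hU, hnu, h56]))
  have k12 := k11.seq (sb_clear_run (L 58) (2 * (ν - u)) _
    (by simp [Function.update_apply, hL.eq_iff, sb_ruler_zero, hU, hnu, h56]))
  refine k12.cast rfl ?_ ?_
  · clear k0 k1 k2 k3 k4 k5 k6 k7 k8 k9 k10 k11 k12 hp1 hp2 hp3 hp4 hν4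
    rw [e1, e2]
    clear e1 e2
    funext j
    simp only [withBase, swapPar2, SwapParams.P, Function.update_apply]
    by_cases c58 : j = L 58
    · subst c58; simp [hL.eq_iff, h58]
    by_cases c57 : j = L 57
    · subst c57; simp [hL.eq_iff, h57]
    by_cases c55 : j = L 55
    · subst c55; simp [hL.eq_iff, h55]
    by_cases c30 : j = L 30
    · subst c30; simp [hL.eq_iff]
    by_cases c29 : j = L 29
    · subst c29; simp [hL.eq_iff]
    by_cases c28 : j = L 28
    · subst c28; simp [hL.eq_iff]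
    by_cases c27 : j = L 27
    · subst c27; simp [hL.eq_iff]
    by_cases c26 : j = L 26
    · subst c26; simp [hL.eq_iff]
    by_cases c25 : j = L 25
    · subst c25; simp [hL.eq_iff]
    by_cases c24 : j = L 24
    · subst c24; simp [hL.eq_iff]
    simp [c58, c57, c55, c30, c29, c28, c27, c26, c25, c24]
  · clear k0 k1 k2 k3 k4 k5 k6 k7 k8 k9 k10 k11 k12
    omega

theorem setBase3_run (L : Fin 80 → Fin K) (hL : Function.Injective L) (ν u : ℕ) (hu : 2 ≤ u)
    (hν : u ≤ ν) (s : St (Sym ⊕ α) K) (hnu : s (L 52) = ruler ν 0) (hU : s (L 51) = ruler u 0)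
    (hempty : ∀ i : Fin 80, (24 ≤ i.val ∧ i.val ≤ 30) ∨ (55 ≤ i.val ∧ i.val < 72) →
      s (L i) = WT [] 0) :
    RunLe (setBase3 L) s (withBase L (swapPar3 ν u) 1 s) (2000 * (4 ^ ν + 1)) := by
  have h24 : s (L 24) = WT [] 0 := hempty 24 (by decide)
  have h25 : s (L 25) = WT [] 0 := hempty 25 (by decide)
  have h26 : s (L 26) = WT [] 0 := hempty 26 (by decide)
  have h27 : s (L 27) = WT [] 0 := hempty 27 (by decide)
  have h28 : s (L 28) = WT [] 0 := hempty 28 (by decide)
  have h29 : s (L 29) = WT [] 0 := hempty 29 (by decide)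
  have h30 : s (L 30) = WT [] 0 := hempty 30 (by decide)
  have h55 : s (L 55) = WT [] 0 := hempty 55 (by decide)
  have h56 : s (L 56) = WT [] 0 := hempty 56 (by decide)
  have h57 : s (L 57) = WT [] 0 := hempty 57 (by decide)
  have h58 : s (L 58) = WT [] 0 := hempty 58 (by decide)
  have hν4 : ν < 4 ^ ν := Nat.lt_pow_self (by norm_num)
  have e1 : 2 ^ (2 * (ν - u) + u / 2) = 4 ^ (ν - u) * 2 ^ (u / 2) := by
    rw [pow_add, pow_mul]; norm_num
  have hp1 : 2 ^ (2 * (ν - u) + u / 2) ≤ 4 ^ ν := sb_pow_le _ _ (by omega)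
  have hp2 : 2 ^ (u - u / 2) ≤ 4 ^ ν := sb_pow_le _ _ (by omega)
  have hp3 : 2 ^ (u / 2) ≤ 4 ^ ν := sb_pow_le _ _ (by omega)
  have k0 := sbPrep_run L hL ν u s hnu hU h55 h56 h57 h58
  have k1 := k0.seq (regAdd_run (L 58) (L 55) (hL.ne (by decide)) (2 * (ν - u)) (u / 2) _
    (by simp [Function.update_apply, hL.eq_iff, sb_ruler_zero, hU, hnu, h56])
    (by simp [Function.update_apply, hL.eq_iff, sb_ruler_zero, hU, hnu, h56]))
  have k2 := k1.seq (regPow2_run (L 24) (L 58) (L 56) (hL.ne (by decide)) (hL.ne (by decide))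
    (hL.ne (by decide)) 0 (2 * (ν - u) + u / 2) _
    (by simp [Function.update_apply, hL.eq_iff, sb_ruler_zero, hU, hnu, h56, h24])
    (by simp [Function.update_apply, hL.eq_iff, sb_ruler_zero, hU, hnu, h56])
    (by simp [Function.update_apply, hL.eq_iff, sb_ruler_zero, hU, hnu, h56]))
  have k3 := k2.seq (regPow2_run (L 25) (L 55) (L 56) (hL.ne (by decide)) (hL.ne (by decide))
    (hL.ne (by decide)) 0 (u / 2) _
    (by simp [Function.update_apply, hL.eq_iff, sb_ruler_zero, hU, hnu, h56, h25])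
    (by simp [Function.update_apply, hL.eq_iff, sb_ruler_zero, hU, hnu, h56])
    (by simp [Function.update_apply, hL.eq_iff, sb_ruler_zero, hU, hnu, h56]))
  have k4 := k3.seq (regPow2_run (L 26) (L 57) (L 56) (hL.ne (by decide)) (hL.ne (by decide))
    (hL.ne (by decide)) 0 (u - u / 2) _
    (by simp [Function.update_apply, hL.eq_iff, sb_ruler_zero, hU, hnu, h56, h26])
    (by simp [Function.update_apply, hL.eq_iff, sb_ruler_zero, hU, hnu, h56])
    (by simp [Function.update_apply, hL.eq_iff, sb_ruler_zero, hU, hnu, h56]))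
  have k5 := k4.seq (regCopy_run (L 27) (L 57) (hL.ne (by decide)) 0 (u - u / 2) _
    (by simp [Function.update_apply, hL.eq_iff, sb_ruler_zero, hU, hnu, h56, h27])
    (by simp [Function.update_apply, hL.eq_iff, sb_ruler_zero, hU, hnu, h56]))
  have k6 := k5.seq (regPow2_run (L 28) (L 57) (L 56) (hL.ne (by decide)) (hL.ne (by decide))
    (hL.ne (by decide)) 0 (u - u / 2) _
    (by simp [Function.update_apply, hL.eq_iff, sb_ruler_zero, hU, hnu, h56, h28])
    (by simp [Function.update_apply, hL.eq_iff, sb_ruler_zero, hU, hnu, h56])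
    (by simp [Function.update_apply, hL.eq_iff, sb_ruler_zero, hU, hnu, h56]))
  have k7 := k6.seq (regPow2_run (L 29) (L 57) (L 56) (hL.ne (by decide)) (hL.ne (by decide))
    (hL.ne (by decide)) 0 (u - u / 2) _
    (by simp [Function.update_apply, hL.eq_iff, sb_ruler_zero, hU, hnu, h56, h29])
    (by simp [Function.update_apply, hL.eq_iff, sb_ruler_zero, hU, hnu, h56])
    (by simp [Function.update_apply, hL.eq_iff, sb_ruler_zero, hU, hnu, h56]))
  have k8 := k7.seq (regConst_run (L 30) 1 0 _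
    (by simp [Function.update_apply, hL.eq_iff, sb_ruler_zero, hU, hnu, h56, h30]))
  have k9 := k8.seq (sb_clear_run (L 55) (u / 2) _
    (by simp [Function.update_apply, hL.eq_iff, sb_ruler_zero, hU, hnu, h56]))
  have k10 := k9.seq (sb_clear_run (L 57) (u - u / 2) _
    (by simp [Function.update_apply, hL.eq_iff, sb_ruler_zero, hU, hnu, h56]))
  have k11 := k10.seq (sb_clear_run (L 58) (2 * (ν - u) + u / 2) _
    (by simp [Function.update_apply, hL.eq_iff, sb_ruler_zero, hU, hnu, h56]))
  refine k11.cast rfl ?_ ?_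
  · clear k0 k1 k2 k3 k4 k5 k6 k7 k8 k9 k10 k11 hp1 hp2 hp3 hν4
    rw [e1]
    clear e1
    funext j
    simp only [withBase, swapPar3, SwapParams.P, Function.update_apply]
    by_cases c58 : j = L 58
    · subst c58; simp [hL.eq_iff, h58]
    by_cases c57 : j = L 57
    · subst c57; simp [hL.eq_iff, h57]
    by_cases c55 : j = L 55
    · subst c55; simp [hL.eq_iff, h55]
    by_cases c30 : j = L 30
    · subst c30; simp [hL.eq_iff]
    by_cases c29 : j = L 29
    · subst c29; simp [hL.eq_iff]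
    by_cases c28 : j = L 28
    · subst c28; simp [hL.eq_iff]
    by_cases c27 : j = L 27
    · subst c27; simp [hL.eq_iff]
    by_cases c26 : j = L 26
    · subst c26; simp [hL.eq_iff]
    by_cases c25 : j = L 25
    · subst c25; simp [hL.eq_iff]
    by_cases c24 : j = L 24
    · subst c24; simp [hL.eq_iff]
    simp [c58, c57, c55, c30, c29, c28, c27, c26, c25, c24]
  · clear k0 k1 k2 k3 k4 k5 k6 k7 k8 k9 k10 k11
    omega

theorem clearBase_run (L : Fin 80 → Fin K) (hL : Function.Injective L) (p : SwapParams) (q : ℕ)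
    (s : St (Sym ⊕ α) K)
    (hempty : ∀ i : Fin 80, 24 ≤ i.val ∧ i.val ≤ 30 → s (L i) = WT [] 0) :
    RunLe (clearBase L) (withBase L p q s) s
      (10 * (p.R + p.r0 + p.c0 + p.a + p.P + p.E + q) + 100) := by
  have h24 : s (L 24) = WT [] 0 := hempty 24 (by decide)
  have h25 : s (L 25) = WT [] 0 := hempty 25 (by decide)
  have h26 : s (L 26) = WT [] 0 := hempty 26 (by decide)
  have h27 : s (L 27) = WT [] 0 := hempty 27 (by decide)
  have h28 : s (L 28) = WT [] 0 := hempty 28 (by decide)
  have h29 : s (L 29) = WT [] 0 := hempty 29 (by decide)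
  have h30 : s (L 30) = WT [] 0 := hempty 30 (by decide)
  have k1 := sb_clear_run (L 24) p.R (withBase L p q s) (by simp [withBase, Function.update_apply, hL.eq_iff])
  have k2 := k1.seq (sb_clear_run (L 25) p.r0 _
    (by simp [withBase, Function.update_apply, hL.eq_iff]))
  have k3 := k2.seq (sb_clear_run (L 26) p.c0 _
    (by simp [withBase, Function.update_apply, hL.eq_iff]))
  have k4 := k3.seq (sb_clear_run (L 27) p.a _
    (by simp [withBase, Function.update_apply, hL.eq_iff]))
  have k5 := k4.seq (sb_clear_run (L 28) p.P _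
    (by simp [withBase, Function.update_apply, hL.eq_iff]))
  have k6 := k5.seq (sb_clear_run (L 29) p.E _
    (by simp [withBase, Function.update_apply, hL.eq_iff]))
  have k7 := k6.seq (sb_clear_run (L 30) q _
    (by simp [withBase, Function.update_apply, hL.eq_iff]))
  refine k7.cast rfl ?_ (by omega)
  clear k1 k2 k3 k4 k5 k6 k7
  funext j
  simp only [withBase, Function.update_apply]
  by_cases c30 : j = L 30
  · subst c30; simp [hL.eq_iff, h30]
  by_cases c29 : j = L 29
  · subst c29; simp [hL.eq_iff, h29]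
  by_cases c28 : j = L 28
  · subst c28; simp [hL.eq_iff, h28]
  by_cases c27 : j = L 27
  · subst c27; simp [hL.eq_iff, h27]
  by_cases c26 : j = L 26
  · subst c26; simp [hL.eq_iff, h26]
  by_cases c25 : j = L 25
  · subst c25; simp [hL.eq_iff, h25]
  by_cases c24 : j = L 24
  · subst c24; simp [hL.eq_iff, h24]
  simp [c30, c29, c28, c27, c26, c25, c24]

end Vale.Agent.H91.MT
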