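import Vale.Agent.H91.MT.LUp_Class
import Vale.Agent.H91.MT.SetBase

/-!
# TASK LUP, part 3: the pieces of the ascent step around the swap

Layout lemmas for `withBase`, the first part (registers and base registers), and the two branches
after the swap.
-/

namespace Vale.Agent.H91.MT.LUp

variable {α : Type} {K : ℕ}

theorem L_ne_of_val {L : Fin 80 → Fin K} (hL : Function.Injective L) {i k : Fin 80}
    (h : i.val ≠ k.val) : L i ≠ L k :=
  fun e => h (congrArg Fin.val (hL e))

theorem withBase_apply_L {L : Fin 80 → Fin K} (hL : Function.Injective L) (p : SwapParams)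
    (q : ℕ) (s : St (Sym ⊕ α) K) (i : Fin 80) (hi : i.val < 24 ∨ 30 < i.val) :
    withBase L p q s (L i) = s (L i) := by
  unfold withBase
  rw [Function.update_of_ne (L_ne_of_val hL (show i.val ≠ 30 by omega)),
    Function.update_of_ne (L_ne_of_val hL (show i.val ≠ 29 by omega)),
    Function.update_of_ne (L_ne_of_val hL (show i.val ≠ 28 by omega)),
    Function.update_of_ne (L_ne_of_val hL (show i.val ≠ 27 by omega)),
    Function.update_of_ne (L_ne_of_val hL (show i.val ≠ 26 by omega)),
    Function.update_of_ne (L_ne_of_val hL (show i.val ≠ 25 by omega)),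
    Function.update_of_ne (L_ne_of_val hL (show i.val ≠ 24 by omega))]

theorem withBase_apply_other {L : Fin 80 → Fin K} (p : SwapParams) (q : ℕ)
    (s : St (Sym ⊕ α) K) (t : Fin K) (ht : ∀ i : Fin 80, t ≠ L i) :
    withBase L p q s t = s t := by
  unfold withBase
  rw [Function.update_of_ne (ht 30), Function.update_of_ne (ht 29),
    Function.update_of_ne (ht 28), Function.update_of_ne (ht 27), Function.update_of_ne (ht 26),
    Function.update_of_ne (ht 25), Function.update_of_ne (ht 24)]

theorem withBase_base {L : Fin 80 → Fin K} (hL : Function.Injective L) (p : SwapParams)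
    (q : ℕ) (s : St (Sym ⊕ α) K) :
    withBase L p q s (L 24) = ruler p.R 0 ∧ withBase L p q s (L 25) = ruler p.r0 0 ∧
    withBase L p q s (L 26) = ruler p.c0 0 ∧ withBase L p q s (L 27) = ruler p.a 0 ∧
    withBase L p q s (L 28) = ruler p.P 0 ∧ withBase L p q s (L 29) = ruler p.E 0 ∧
    withBase L p q s (L 30) = ruler q 0 := by
  unfold withBase
  refine ⟨?_, ?_, ?_, ?_, ?_, ?_, ?_⟩ <;> simp [hL.eq_iff]

theorem withBase_update_comm {L : Fin 80 → Fin K} (hL : Function.Injective L)
    (p : SwapParams) (q : ℕ) (s : St (Sym ⊕ α) K) (i : Fin 80) (hi : i.val < 24 ∨ 30 < i.val)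
    (X : Tape (Sym ⊕ α)) :
    Function.update (withBase L p q s) (L i) X = withBase L p q (Function.update s (L i) X) := by
  funext k
  by_cases hk : k = L i
  · subst hk
    rw [Function.update_self, withBase_apply_L hL _ _ _ i hi, Function.update_self]
  · rw [Function.update_of_ne hk]
    unfold withBase
    simp only [Function.update_apply, hk, if_false]

/-- Registers and base registers before the swap. -/
theorem levelUp_head (L : Fin 80 → Fin K) (hL : Function.Injective L) (ν u' j : ℕ)
    (s : St (Sym ⊕ α) K) (h51 : s (L 51) = ruler u' 0) (h52 : s (L 52) = ruler ν 0)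
    (h53 : s (L 53) = ruler (j + 1) 0)
    (hE : ∀ i : Fin 80, (24 ≤ i.val ∧ i.val ≤ 30) ∨ (55 ≤ i.val ∧ i.val < 72) →
      s (L i) = WT [] 0)
    (hu2 : 2 ≤ lvlU ν j) :
    RunLe (Prog.seq (regDec (L 53) (L 55)) (Prog.seq (lvlReg (L 51) (L 52) (L 53) (L 55) (L 56))
        (setBase3 L))) s
      (withBase L (swapPar3 ν (lvlU ν j)) 1
        (Function.update (Function.update s (L 53) (ruler j 0)) (L 51) (ruler (lvlU ν j) 0)))
      (10 * u' + 10 * ν + j * (80 * ν + 164) + 2000 * (4 ^ ν + 1) + 200) := by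
  have e55 : s (L 55) = WT [] 0 := hE 55 (Or.inr (by decide))
  have e56 : s (L 56) = WT [] 0 := hE 56 (Or.inr (by decide))
  have h1 := regDec_run (L 53) (L 55) (hL.ne (by decide)) (j + 1) s h53 e55
  rw [Nat.add_sub_cancel] at h1
  have hT5 : Function.Injective (fun i : Fin 5 => L (![51, 52, 53, 55, 56] i)) :=
    hL.comp (by decide)
  have h2 := lvlReg_run (fun i : Fin 5 => L (![51, 52, 53, 55, 56] i)) hT5 ν j u'
    (Function.update s (L 53) (ruler j 0))
    (by simp [hL.eq_iff, h51]) (by simp [hL.eq_iff, h52]) (by simp)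
    (by simp [hL.eq_iff, e55]) (by simp [hL.eq_iff, e56])
  have h3 := setBase3_run L hL ν (lvlU ν j) hu2 (lvlU_le_self ν j)
    (Function.update (Function.update s (L 53) (ruler j 0)) (L 51) (ruler (lvlU ν j) 0))
    (by simp [hL.eq_iff, h52]) (by simp)
    (by
      intro i hi
      rw [Function.update_of_ne (L_ne_of_val hL (show i.val ≠ 51 by omega)),
        Function.update_of_ne (L_ne_of_val hL (show i.val ≠ 53 by omega))]
      exact hE i hi)
  refine (h1.seq (h2.seq h3)).mono ?_
  have e : j * (80 * ν + 164) = j * (80 * ν + 154) + 10 * j := by ring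
  omega

/-- The branch after a successful swap. -/
theorem levelUp_branch_one (L : Fin 80 → Fin K) (hL : Function.Injective L) (p : SwapParams)
    (X out : List Bool) (Q : Prog (Sym ⊕ α) K) (s2 : St (Sym ⊕ α) K)
    (h43 : s2 (L 43) = WT [] 0) (h48 : s2 (L 48) = WT (X.map bsym) 0)
    (h49 : s2 (L 49) = WT [] 0)
    (hbase : ∀ i : Fin 80, 24 ≤ i.val ∧ i.val ≤ 30 → s2 (L i) = WT [] 0) :
    RunLe (Prog.ite (isSym (L 43) Sym.one)
        (Prog.seq (clearTape (L 43)) (Prog.seq (clearBase L) (moveOut (L 48) (L 49)))) Q)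
      (Function.update (Function.update (withBase L p 1 s2) (L 49) (WT (out.map bsym) 0))
        (L 43) (WT [Sum.inl Sym.one] 0))
      (Function.update s2 (L 48) (WT (out.map bsym) 0))
      (10 * (p.R + p.r0 + p.c0 + p.a + p.P + p.E + 1) + 4 * X.length + 11 * out.length + 150)
      := by
  have hc : isSym (L 43) Sym.one (St.heads (Function.update (Function.update
      (withBase L p 1 s2) (L 49) (WT (out.map bsym) 0)) (L 43) (WT [Sum.inl Sym.one] 0)))
      = true := by
    apply isSym_true
    rw [Function.update_self]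
    rfl
  have e5 : Function.update (Function.update (Function.update (withBase L p 1 s2) (L 49)
      (WT (out.map bsym) 0)) (L 43) (WT [Sum.inl Sym.one] 0)) (L 43) (WT [] 0) =
      withBase L p 1 (Function.update s2 (L 49) (WT (out.map bsym) 0)) := by
    rw [Function.update_idem, withBase_update_comm hL p 1 s2 49 (Or.inr (by decide)),
      Function.update_eq_self_iff, withBase_apply_L hL _ _ _ 43 (Or.inr (by decide)),
      Function.update_of_ne (hL.ne (by decide)), h43]
  have h1 := clearTape_run (L 43) [(Sum.inl Sym.one : Sym ⊕ α)] (by simp) (by simp) 0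
    (Nat.zero_le _) (Function.update (Function.update (withBase L p 1 s2) (L 49)
      (WT (out.map bsym) 0)) (L 43) (WT [Sum.inl Sym.one] 0)) (by rw [Function.update_self])
  rw [e5] at h1
  have h2 := clearBase_run L hL p 1 (Function.update s2 (L 49) (WT (out.map bsym) 0))
    (by
      intro i hi
      rw [Function.update_of_ne (L_ne_of_val hL (show i.val ≠ 49 by omega))]
      exact hbase i hi)
  have h3 := moveOut_run (L 48) (L 49) (hL.ne (by decide)) (X.map bsym) (out.map bsym)
    (Unshuf.blank_not_mem_map_bsym X) (Unshuf.lend_not_mem_map_bsym X) (Unshuf.blank_not_mem_map_bsym out)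
    (Unshuf.lend_not_mem_map_bsym out) (Function.update s2 (L 49) (WT (out.map bsym) 0))
    (by simp [hL.eq_iff, h48]) (by simp)
  refine (RunLe.ite_true hc (h1.seq (h2.seq h3))).cast rfl ?_ ?_
  · funext k
    simp only [Function.update_apply]
    split_ifs <;> simp_all [hL.eq_iff]
  · simp only [List.length_map, List.length_singleton]
    omega

theorem lup_four_pow_split (ν u : ℕ) (hu : 1 ≤ u) (hν : u ≤ ν) :
    4 ^ ν = 2 ^ (2 * ν - (2 * u - u / 2)) * (2 * 2 ^ (u - 1) * 2 ^ (u - u / 2)) := by
  have e4 : (4 : ℕ) = 2 ^ 2 := by norm_num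
  have e2 : 2 * 2 ^ (u - 1) = 2 ^ (1 + (u - 1)) := by rw [pow_add, pow_one]
  rw [e4, ← pow_mul, e2, ← pow_add, ← pow_add]
  congr 1
  omega

/-- The branch after an aborted swap: the classical passes. -/
theorem levelUp_branch_zero (L : Fin 80 → Fin K) (hL : Function.Injective L) (ν u : ℕ)
    (hu : 1 ≤ u) (hν : u ≤ ν) (X : List Bool) (hX : X.length = 4 ^ ν)
    (P : Prog (Sym ⊕ α) K) (s2 : St (Sym ⊕ α) K)
    (h43 : s2 (L 43) = WT [] 0) (h48 : s2 (L 48) = WT (X.map bsym) 0)
    (h51 : s2 (L 51) = ruler u 0)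
    (hE : ∀ i : Fin 80, (24 ≤ i.val ∧ i.val ≤ 30) ∨ (55 ≤ i.val ∧ i.val < 72) →
      s2 (L i) = WT [] 0) :
    RunLe (Prog.ite (isSym (L 43) Sym.one) P
        (Prog.seq (clearTape (L 43)) (Prog.seq (clearBase L)
          (classical3 (fun i : Fin 11 => L (![48, 51, 55, 56, 57, 58, 59, 60, 61, 62, 63] i))))))
      (Function.update (withBase L (swapPar3 ν u) 1 s2) (L 43) (WT [Sum.inl Sym.zero] 0))
      (Function.update s2 (L 48) (WT (((swapPar3 ν u).arr X).map bsym) 0))
      (10 * ((swapPar3 ν u).R + (swapPar3 ν u).r0 + (swapPar3 ν u).c0 + (swapPar3 ν u).a +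
          (swapPar3 ν u).P + (swapPar3 ν u).E + 1) +
        (u - u / 2) * (100 * (4 ^ ν + 1) + 4) + 120 * u + 210 * 2 ^ (u - u / 2) +
        210 * 2 ^ (u - 1) + 850) := by
  have hc : isSym (L 43) Sym.one (St.heads (Function.update (withBase L (swapPar3 ν u) 1 s2)
      (L 43) (WT [Sum.inl Sym.zero] 0))) = false := by
    apply isSym_false
    rw [Function.update_self]
    simp
  have e5 : Function.update (Function.update (withBase L (swapPar3 ν u) 1 s2) (L 43)
      (WT [Sum.inl Sym.zero] 0)) (L 43) (WT [] 0) = withBase L (swapPar3 ν u) 1 s2 := by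
    rw [Function.update_idem, Function.update_eq_self_iff,
      withBase_apply_L hL _ _ _ 43 (Or.inr (by decide)), h43]
  have h1 := clearTape_run (L 43) [(Sum.inl Sym.zero : Sym ⊕ α)] (by simp) (by simp) 0
    (Nat.zero_le _) (Function.update (withBase L (swapPar3 ν u) 1 s2) (L 43)
      (WT [Sum.inl Sym.zero] 0)) (by rw [Function.update_self])
  rw [e5] at h1
  have h2 := clearBase_run L hL (swapPar3 ν u) 1 s2 (fun i hi => hE i (Or.inl hi))
  have hT : Function.Injective
      (fun i : Fin 11 => L (![48, 51, 55, 56, 57, 58, 59, 60, 61, 62, 63] i)) :=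
    hL.comp (by decide)
  have hidx : ∀ i : Fin 11, 2 ≤ i.val →
      55 ≤ ((![48, 51, 55, 56, 57, 58, 59, 60, 61, 62, 63] : Fin 11 → Fin 80) i).val ∧
      ((![48, 51, 55, 56, 57, 58, 59, 60, 61, 62, 63] : Fin 11 → Fin 80) i).val < 72 := by
    decide
  have h3 := classical3_run (fun i : Fin 11 => L (![48, 51, 55, 56, 57, 58, 59, 60, 61, 62, 63] i))
    hT u (2 ^ (2 * ν - (2 * u - u / 2))) X (by rw [hX]; exact lup_four_pow_split ν u hu hν) s2
    h48 h51 (fun i hi => hE _ (Or.inr (hidx i hi)))
  rw [← swapPar3_unshuf ν u hu hν X hX, hX] at h3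
  refine (RunLe.ite_false hc (h1.seq (h2.seq h3))).cast rfl rfl ?_
  simp only [List.length_singleton]
  omega

end Vale.Agent.H91.MT.LUp
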