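import Vale.Agent.H91.MT.SetBase
import Vale.Agent.H91.MT.Swap
import Vale.Agent.H91.MT.PipeCorrect
import Vale.Agent.H91.MT.Unshuffle
import Vale.Agent.H91.MT.LUp_Top

/-!
# TASK LUP: one ascent step of the recursion (assembly of black boxes)

Layout `L : Fin 80 → Fin K` as in `LevelSt` (Level.lean).  The counter register `L 53` holds
`j + 1`.  Program:
```
j := j - 1 (register L 53);  u := lvlU ν j (register L 51: copy ν, then j times u := u - u/2)
setBase3; swapProg            (data L 48 -> L 49, clock rulers L 44 and L 51, flag L 43)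
if FL = one:  clear FL; clearBase; clear L 48; copy L 49 to L 48; clear L 49
else:         clear FL; clearBase;
              w = u - u/2 unshuffle passes on L 48 with item ruler 2^w and half-period ruler
              2^(u-1) (scratch tapes among L 55 .. L 71)      [swapPar3_unshuf]
```
Both branches produce the same data, so the statement has no alternative.  In the abort branch
`4^ν * u < mulTime`, so the `O(4^ν * u)` classical passes fit the bound.
-/

namespace Vale.Agent.H91.MT

open LUp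

/-- The swap layout (the first 52 tapes of the level layout) is jointly injective with the
simulated tapes. -/
theorem lup_swap_inj {A : Machine} {K : ℕ} (L : Fin 80 → Fin K) (sim : Fin (A.k + 1) → Fin K)
    (h : Function.Injective (Sum.elim sim L)) :
    Function.Injective (Sum.elim sim (fun i : Fin 52 => L (Fin.castLE (by omega) i))) := by
  have e : Sum.elim sim (fun i : Fin 52 => L (Fin.castLE (by omega) i)) =
      Sum.elim sim L ∘ Sum.map id (Fin.castLE (by omega)) := by
    funext x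
    cases x <;> rfl
  rw [e]
  exact h.comp (Function.Injective.sumMap Function.injective_id (Fin.castLE_injective _))

/-- One ascent step. -/
noncomputable def levelUp (A : Machine) {K : ℕ} (L : Fin 80 → Fin K)
    (sim : Fin (A.k + 1) → Fin K) (h : Function.Injective (Sum.elim sim L)) : Prog (ΓB A) K :=
  Prog.seq
    (Prog.seq (regDec (L 53) (L 55)) (Prog.seq (lvlReg (L 51) (L 52) (L 53) (L 55) (L 56))
      (setBase3 L)))
    (Prog.seq
      (swapProg A (fun i : Fin 52 => L (Fin.castLE (by omega) i)) sim (lup_swap_inj L sim h))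
      (Prog.ite (isSym (L 43) Sym.one)
        (Prog.seq (clearTape (L 43)) (Prog.seq (clearBase L) (moveOut (L 48) (L 49))))
        (Prog.seq (clearTape (L 43)) (Prog.seq (clearBase L)
          (classical3
            (fun i : Fin 11 => L (![48, 51, 55, 56, 57, 58, 59, 60, 61, 62, 63] i)))))))

/-- On lists of the right length the pipeline is the list-level swap. -/
theorem lup_pipe_eq_arr (p : SwapParams) (hp : p.Ok) (X : List Bool)
    (hX : X.length = p.R * p.r0 * p.c0 * p.E) : p.pipe X = p.arr X := by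
  have e := p.dataIn_getD X hX
  have h1 := p.pipe_correct hp
    (fun I i j b => X.getD (((I * p.r0 + i) * p.c0 + j) * p.E + b) false)
  have h2 := swapArr_dataIn p
    (fun I i j b => X.getD (((I * p.r0 + i) * p.c0 + j) * p.E + b) false)
  rw [e] at h1 h2
  rw [h1, ← h2]
  rfl

theorem lup_sq_le (n : ℕ) : n * n ≤ 4 ^ n ∧ n ≤ 4 ^ n := by
  induction n with
  | zero => simp
  | succ n ih =>
    obtain ⟨h1, h2⟩ := ih
    have e : 4 ^ (n + 1) = 4 * 4 ^ n := by ring
    have e2 : (n + 1) * (n + 1) = n * n + 2 * n + 1 := by ring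
    have h3 : 1 ≤ 4 ^ n := Nat.one_le_pow _ _ (by norm_num)
    rw [e, e2]
    constructor <;> omega

theorem lup_two_pow_le (a ν : ℕ) (h : a ≤ ν) : 2 ^ a ≤ 4 ^ ν :=
  (Nat.pow_le_pow_right (by norm_num) h).trans (Nat.pow_le_pow_left (by norm_num) ν)

theorem lup_fields_le (ν u : ℕ) (hν : u ≤ ν) :
    (swapPar3 ν u).R ≤ 4 ^ ν ∧ (swapPar3 ν u).r0 ≤ 4 ^ ν ∧ (swapPar3 ν u).c0 ≤ 4 ^ ν ∧
    (swapPar3 ν u).a ≤ 4 ^ ν ∧ (swapPar3 ν u).P ≤ 4 ^ ν ∧ (swapPar3 ν u).E ≤ 4 ^ ν := by
  have hR : 4 ^ (ν - u) * 2 ^ (u / 2) ≤ 4 ^ ν := by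
    calc 4 ^ (ν - u) * 2 ^ (u / 2) ≤ 4 ^ (ν - u) * 4 ^ u :=
          Nat.mul_le_mul_left _ (lup_two_pow_le _ _ (Nat.div_le_self u 2))
      _ = 4 ^ ν := by rw [← pow_add]; congr 1; omega
  refine ⟨hR, lup_two_pow_le (u / 2) ν (by omega), lup_two_pow_le (u - u / 2) ν (by omega), ?_,
    lup_two_pow_le (u - u / 2) ν (by omega), lup_two_pow_le (u - u / 2) ν (by omega)⟩
  have := (lup_sq_le ν).2
  show u - u / 2 ≤ 4 ^ ν
  omega

theorem lup_bound_one (C0 m N u' ν j R r0 c0 a P E : ℕ) (hu' : u' ≤ ν) (hj : j ≤ ν)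
    (hνν : ν * ν ≤ N) (hν : ν ≤ N) (hR : R ≤ N) (hr0 : r0 ≤ N) (hc0 : c0 ≤ N) (ha : a ≤ N)
    (hP : P ≤ N) (hE : E ≤ N) :
    (10 * u' + 10 * ν + j * (80 * ν + 164) + 2000 * (N + 1) + 200) +
      (C0 * (m + N + 1024 * N + 1) +
        (10 * (R + r0 + c0 + a + P + E + 1) + 4 * N + 11 * N + 150)) ≤
      (1025 * C0 + 4000) * (m + N + 1) := by
  have h1 : j * (80 * ν + 164) ≤ 244 * N := by
    calc j * (80 * ν + 164) ≤ ν * (80 * ν + 164) := Nat.mul_le_mul_right _ hj
      _ = 80 * (ν * ν) + 164 * ν := by ring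
      _ ≤ 244 * N := by omega
  have h2 : C0 * (m + N + 1024 * N + 1) ≤ 1025 * (C0 * (m + N + 1)) := by
    calc C0 * (m + N + 1024 * N + 1) ≤ C0 * (1025 * (m + N + 1)) :=
          Nat.mul_le_mul_left _ (by omega)
      _ = 1025 * (C0 * (m + N + 1)) := by ring
  have h3 : (1025 * C0 + 4000) * (m + N + 1) =
      1025 * (C0 * (m + N + 1)) + 4000 * (m + N + 1) := by ring
  rw [h3]
  omega

theorem lup_bound_zero (C0 N u' ν j u w R r0 c0 a P E e2 h2 : ℕ) (hu' : u' ≤ ν) (hj : j ≤ ν)
    (hνν : ν * ν ≤ N) (hν : ν ≤ N) (hR : R ≤ N) (hr0 : r0 ≤ N) (hc0 : c0 ≤ N) (ha : a ≤ N)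
    (hP : P ≤ N) (hE : E ≤ N) (hw : w ≤ u) (huN : u ≤ N) (he2 : e2 ≤ N) (hh2 : h2 ≤ N)
    (hN : 1 ≤ N) :
    (10 * u' + 10 * ν + j * (80 * ν + 164) + 2000 * (N + 1) + 200) +
      (C0 * (N * u + N + 1024 * N + 1) +
        (10 * (R + r0 + c0 + a + P + E + 1) + w * (100 * (N + 1) + 4) + 120 * u + 210 * e2 +
          210 * h2 + 850)) ≤
      (1025 * C0 + 4000) * (N * u + N + 1) := by
  have h1 : j * (80 * ν + 164) ≤ 244 * N := by
    calc j * (80 * ν + 164) ≤ ν * (80 * ν + 164) := Nat.mul_le_mul_right _ hj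
      _ = 80 * (ν * ν) + 164 * ν := by ring
      _ ≤ 244 * N := by omega
  have h2' : C0 * (N * u + N + 1024 * N + 1) ≤ 1025 * (C0 * (N * u + N + 1)) := by
    calc C0 * (N * u + N + 1024 * N + 1) ≤ C0 * (1025 * (N * u + N + 1)) :=
          Nat.mul_le_mul_left _ (by omega)
      _ = 1025 * (C0 * (N * u + N + 1)) := by ring
  have h3 : (1025 * C0 + 4000) * (N * u + N + 1) =
      1025 * (C0 * (N * u + N + 1)) + 4000 * (N * u + N + 1) := by ring
  have h4 : w * (100 * (N + 1) + 4) ≤ 204 * (N * u) := by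
    calc w * (100 * (N + 1) + 4) ≤ u * (204 * N) := Nat.mul_le_mul hw (by omega)
      _ = 204 * (N * u) := by ring
  rw [h3]
  omega

/-- TASK LUP. -/
theorem levelUp_spec (A : Machine) (hA : Multiplies A) :
    ∃ C : ℕ, ∀ (K : ℕ) (L : Fin 80 → Fin K) (sim : Fin (A.k + 1) → Fin K)
      (h : Function.Injective (Sum.elim sim L)) (ν u' j : ℕ) (go : Sym) (X : List Bool),
      7 ≤ lvlU ν j → u' ≤ ν → X.length = 4 ^ ν → ∀ s : St (ΓB A) K,
      LevelSt A L sim ν u' (j + 1) go X s →
      ∃ s', RunLe (levelUp A L sim h) s s'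
          (C * (min (mulTime A (1024 * 4 ^ ν)) (4 ^ ν * lvlU ν j) + 4 ^ ν + 1)) ∧
        LevelFrame A L sim s s' ∧
        LevelSt A L sim ν (lvlU ν j) j go ((swapPar3 ν (lvlU ν j)).arr X) s' := by
  obtain ⟨C0, hC0⟩ := swapProg_spec A hA
  refine ⟨1025 * C0 + 4000, ?_⟩
  intro K L sim h ν u' j go X hu7 hu' hX s hs
  obtain ⟨h31, h44, h52, h51, h53, h54, h48, h47, hsim, hrest⟩ := hs
  have hL : Function.Injective L := fun a b e =>
    Sum.inr_injective (h (a₁ := Sum.inr a) (a₂ := Sum.inr b) e)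
  have hsimL : ∀ (t : Fin (A.k + 1)) (i : Fin 80), sim t ≠ L i := fun t i e =>
    Sum.inl_ne_inr (h (a₁ := Sum.inl t) (a₂ := Sum.inr i) e)
  obtain ⟨u, hu⟩ : ∃ u, u = lvlU ν j := ⟨_, rfl⟩
  rw [← hu] at hu7 ⊢
  have hule : u ≤ ν := by rw [hu]; exact lvlU_le_self ν j
  have hjν : j ≤ ν := (lvl_count ν j (by rw [← hu]; exact hu7)).trans (Nat.log_le_self 2 ν)
  have hp : (swapPar3 ν u).Ok := swapPar3_ok ν u hu7 hule
  have hlen : (swapPar3 ν u).R * (swapPar3 ν u).r0 * (swapPar3 ν u).c0 * (swapPar3 ν u).E =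
      4 ^ ν := swapPar3_len ν u hule
  -- registers and base registers
  have hpre := levelUp_head L hL ν u' j s h51 h52 h53
    (fun i hi => hrest i (by omega) (by omega) (by omega) (by omega) (by omega) (by omega)
      (by omega) (by omega) (by omega))
    (by rw [← hu]; omega)
  rw [← hu] at hpre
  obtain ⟨s2, hs2⟩ : ∃ s2 : St (ΓB A) K, s2 =
      Function.update (Function.update s (L 53) (ruler j 0)) (L 51) (ruler u 0) := ⟨_, rfl⟩
  rw [← hs2] at hpre
  have hs2L : ∀ i : Fin 80, i.val ≠ 51 → i.val ≠ 53 → s2 (L i) = s (L i) := by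
    intro i h1 h2
    rw [hs2, Function.update_of_ne (L_ne_of_val hL h1), Function.update_of_ne (L_ne_of_val hL h2)]
  have hs2sim : ∀ t, s2 (sim t) = s (sim t) := by
    intro t
    rw [hs2, Function.update_of_ne (hsimL t 51), Function.update_of_ne (hsimL t 53)]
  have hs2_51 : s2 (L 51) = ruler u 0 := by rw [hs2, Function.update_self]
  have hs2E : ∀ i : Fin 80, i.val < 72 → i.val ≠ 31 → i.val ≠ 44 → i.val ≠ 47 → i.val ≠ 48 →
      i.val ≠ 51 → i.val ≠ 52 → i.val ≠ 53 → i.val ≠ 54 → s2 (L i) = WT [] 0 := by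
    intro i a1 a2 a3 a4 a5 a6 a7 a8 a9
    rw [hs2L i a6 a8]
    exact hrest i a1 a2 a3 a4 a5 a6 a7 a8 a9
  -- the final state
  have hfin : LevelFrame A L sim s
        (Function.update s2 (L 48) (WT (((swapPar3 ν u).arr X).map bsym) 0)) ∧
      LevelSt A L sim ν u j go ((swapPar3 ν u).arr X)
        (Function.update s2 (L 48) (WT (((swapPar3 ν u).arr X).map bsym) 0)) := by
    constructor
    · intro t ht _
      rw [Function.update_of_ne (ht 48 (by decide)), hs2,
        Function.update_of_ne (ht 51 (by decide)), Function.update_of_ne (ht 53 (by decide))]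
    · refine ⟨?_, ?_, ?_, ?_, ?_, ?_, ?_, ?_, ?_, ?_⟩
      · rw [Function.update_of_ne (hL.ne (by decide)), hs2L 31 (by decide) (by decide), h31]
      · rw [Function.update_of_ne (hL.ne (by decide)), hs2L 44 (by decide) (by decide), h44]
      · rw [Function.update_of_ne (hL.ne (by decide)), hs2L 52 (by decide) (by decide), h52]
      · rw [Function.update_of_ne (hL.ne (by decide)), hs2_51]
      · rw [Function.update_of_ne (hL.ne (by decide)), hs2,
          Function.update_of_ne (hL.ne (by decide)), Function.update_self]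
      · rw [Function.update_of_ne (hL.ne (by decide)), hs2L 54 (by decide) (by decide), h54]
      · rw [Function.update_self]
      · rw [Function.update_of_ne (hL.ne (by decide)), hs2L 47 (by decide) (by decide), h47]
      · intro t
        rw [Function.update_of_ne (hsimL t 48), hs2sim t, hsim t]
      · intro i a1 a2 a3 a4 a5 a6 a7 a8 a9
        rw [Function.update_of_ne (L_ne_of_val hL (show i.val ≠ 48 from a5))]
        exact hs2E i a1 a2 a3 a4 a5 a6 a7 a8 a9
  -- the swap
  obtain ⟨s4, hrun4, hs4⟩ := hC0 K (fun i : Fin 52 => L (Fin.castLE (by omega) i)) sim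
    (lup_swap_inj L sim h) (swapPar3 ν u) 1 (4 ^ ν) u X hp (swapPar3_q ν u)
    Nat.one_le_two_pow Nat.one_le_two_pow
    (Nat.mul_pos (Nat.one_le_pow _ _ (by norm_num)) Nat.one_le_two_pow)
    (Nat.one_le_pow _ _ (by norm_num)) (by rw [hlen, hX])
    (withBase L (swapPar3 ν u) 1 s2)
    (withBase_base hL (swapPar3 ν u) 1 s2)
    (by
      show withBase L (swapPar3 ν u) 1 s2 (L 31) = ruler (1024 * 4 ^ ν) 0
      rw [withBase_apply_L hL _ _ _ 31 (Or.inr (by decide)), hs2L 31 (by decide) (by decide),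
        h31])
    (by
      show withBase L (swapPar3 ν u) 1 s2 (L 44) = ruler (4 ^ ν) 0
      rw [withBase_apply_L hL _ _ _ 44 (Or.inr (by decide)), hs2L 44 (by decide) (by decide),
        h44])
    (by
      show withBase L (swapPar3 ν u) 1 s2 (L 51) = ruler u 0
      rw [withBase_apply_L hL _ _ _ 51 (Or.inr (by decide)), hs2_51])
    (by
      show withBase L (swapPar3 ν u) 1 s2 (L 48) = WT (X.map bsym) 0
      rw [withBase_apply_L hL _ _ _ 48 (Or.inr (by decide)), hs2L 48 (by decide) (by decide),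
        h48])
    (by
      intro i hi
      have hv : (Fin.castLE (by omega : 52 ≤ 80) i).val = i.val := rfl
      have hi52 : i.val < 52 := i.isLt
      show withBase L (swapPar3 ν u) 1 s2 (L (Fin.castLE (by omega) i)) = WT [] 0
      rw [withBase_apply_L hL _ _ _ _ (by omega)]
      exact hs2E _ (by omega) (by omega) (by omega) (by omega) (by omega) (by omega) (by omega)
        (by omega) (by omega))
    (by
      show withBase L (swapPar3 ν u) 1 s2 (L 47) = _
      rw [withBase_apply_L hL _ _ _ 47 (Or.inr (by decide)), hs2L 47 (by decide) (by decide),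
        h47])
    (by
      intro t
      rw [withBase_apply_other _ _ _ _ (hsimL t), hs2sim t, hsim t])
  have hflds := lup_fields_le ν u hule
  have hsq := lup_sq_le ν
  have hN1 : 1 ≤ 4 ^ ν := Nat.one_le_pow _ _ (by norm_num)
  refine ⟨Function.update s2 (L 48) (WT (((swapPar3 ν u).arr X).map bsym) 0), ?_, hfin.1,
    hfin.2⟩
  rcases hs4 with hs4 | ⟨hlt, hs4⟩
  · -- the swap succeeded
    have hout : (swapPar3 ν u).pipe X = (swapPar3 ν u).arr X :=
      lup_pipe_eq_arr (swapPar3 ν u) hp X (by rw [hlen, hX])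
    have holen : ((swapPar3 ν u).arr X).length = 4 ^ ν := by
      rw [arr_length, ← hlen]
      ring
    have hb := levelUp_branch_one L hL (swapPar3 ν u) X ((swapPar3 ν u).arr X)
      (Prog.seq (clearTape (L 43)) (Prog.seq (clearBase L)
        (classical3
          (fun i : Fin 11 => L (![48, 51, 55, 56, 57, 58, 59, 60, 61, 62, 63] i)))))
      s2
      (hs2E 43 (by decide) (by decide) (by decide) (by decide) (by decide) (by decide)
        (by decide) (by decide) (by decide))
      (by rw [hs2L 48 (by decide) (by decide), h48])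
      (hs2E 49 (by decide) (by decide) (by decide) (by decide) (by decide) (by decide)
        (by decide) (by decide) (by decide))
      (fun i hi => hs2E i (by omega) (by omega) (by omega) (by omega) (by omega) (by omega)
        (by omega) (by omega) (by omega))
    rw [hout] at hs4
    rw [hs4] at hrun4
    rw [holen, hX] at hb
    refine (hpre.seq (hrun4.seq hb)).mono ?_
    exact lup_bound_one C0 (min (mulTime A (1024 * 4 ^ ν)) (4 ^ ν * u)) (4 ^ ν) u' ν j _ _ _ _ _ _
      hu' hjν hsq.1 hsq.2 hflds.1 hflds.2.1 hflds.2.2.1 hflds.2.2.2.1 hflds.2.2.2.2.1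
      hflds.2.2.2.2.2
  · -- the clock ran out: classical passes
    have hb := levelUp_branch_zero L hL ν u (by omega) hule X hX
      (Prog.seq (clearTape (L 43)) (Prog.seq (clearBase L) (moveOut (L 48) (L 49))))
      s2
      (hs2E 43 (by decide) (by decide) (by decide) (by decide) (by decide) (by decide)
        (by decide) (by decide) (by decide))
      (by rw [hs2L 48 (by decide) (by decide), h48])
      hs2_51
      (fun i hi => hs2E i (by omega) (by omega) (by omega) (by omega) (by omega) (by omega)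
        (by omega) (by omega) (by omega))
    rw [hs4] at hrun4
    have hmin : min (mulTime A (1024 * 4 ^ ν)) (4 ^ ν * u) = 4 ^ ν * u :=
      Nat.min_eq_right (Nat.le_of_lt hlt)
    refine (hpre.seq (hrun4.seq hb)).mono ?_
    rw [hmin]
    have hmin' : min (mulTime A (swapPar3 ν u).k) (4 ^ ν * u) = 4 ^ ν * u :=
      Nat.min_eq_right (Nat.le_of_lt hlt)
    rw [hmin']
    exact lup_bound_zero C0 (4 ^ ν) u' ν j u (u - u / 2) _ _ _ _ _ _ (2 ^ (u - u / 2))
      (2 ^ (u - 1)) hu' hjν hsq.1 hsq.2 hflds.1 hflds.2.1 hflds.2.2.1 hflds.2.2.2.1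
      hflds.2.2.2.2.1 hflds.2.2.2.2.2 (Nat.sub_le _ _) (hule.trans hsq.2)
      (lup_two_pow_le _ _ (by omega)) (lup_two_pow_le _ _ (by omega)) hN1

end Vale.Agent.H91.MT
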