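import Vale.Agent.H91.MT.LUp_Regs
import Vale.Agent.H91.MT.Unshuffle

/-!
# TASK LUP, part 2: the classical version of the third swap on the machine

Tapes `T : Fin 11 → Fin K`: `T 0` data, `T 1` the register `u`, `T 2 .. T 10` empty scratch
tapes (`T 4` holds `w = u - u / 2`, `T 5` the item ruler `2^w`, `T 7` the half-period ruler
`2^(u-1)` during the passes).
-/

namespace Vale.Agent.H91.MT.LUp

variable {α : Type} {K : ℕ}

theorem ruler_zero_eq : (ruler 0 0 : Tape (Sym ⊕ α)) = WT [] 0 := rfl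

/-- Build the registers `w`, `2^w`, `1`, `2^(u-1)` (and `u - 1`). -/
def classRegs (T : Fin 11 → Fin K) : Prog (Sym ⊕ α) K :=
  Prog.seq (regCopy (T 2) (T 1)) (Prog.seq (regHalf (T 2) (T 3)) (Prog.seq (regCopy (T 4) (T 1))
    (Prog.seq (regSub (T 4) (T 2)) (Prog.seq (regPow2 (T 5) (T 4) (T 3))
      (Prog.seq (regCopy (T 2) (T 1)) (Prog.seq (regConst (T 6) 1) (Prog.seq (regSub (T 2) (T 6))
        (regPow2 (T 7) (T 2) (T 3)))))))))

theorem classRegs_run (T : Fin 11 → Fin K) (hT : Function.Injective T) (u : ℕ)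
    (s : St (Sym ⊕ α) K) (hureg : s (T 1) = ruler u 0)
    (hemp : ∀ i : Fin 11, 2 ≤ i.val → s (T i) = WT [] 0) :
    RunLe (classRegs T) s
      (Function.update (Function.update (Function.update (Function.update (Function.update s
        (T 2) (ruler (u - 1) 0)) (T 4) (ruler (u - u / 2) 0)) (T 5) (ruler (2 ^ (u - u / 2)) 0))
        (T 6) (ruler 1 0)) (T 7) (ruler (2 ^ (u - 1)) 0))
      (100 * u + 200 * 2 ^ (u - u / 2) + 200 * 2 ^ (u - 1) + 500) := by
  have e2 : s (T 2) = WT [] 0 := hemp 2 (by decide)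
  have e3 : s (T 3) = WT [] 0 := hemp 3 (by decide)
  have e4 : s (T 4) = WT [] 0 := hemp 4 (by decide)
  have e5 : s (T 5) = WT [] 0 := hemp 5 (by decide)
  have e6 : s (T 6) = WT [] 0 := hemp 6 (by decide)
  have e7 : s (T 7) = WT [] 0 := hemp 7 (by decide)
  refine ((regCopy_run (T 2) (T 1) (hT.ne (by decide)) 0 u s e2 hureg).seq
    ((regHalf_run (T 2) (T 3) (hT.ne (by decide)) u _ ?_ ?_).seq
    ((regCopy_run (T 4) (T 1) (hT.ne (by decide)) 0 u _ ?_ ?_).seq
    ((regSub_run (T 4) (T 2) (hT.ne (by decide)) u (u / 2) _ ?_ ?_).seq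
    ((regPow2_run (T 5) (T 4) (T 3) (hT.ne (by decide)) (hT.ne (by decide))
      (hT.ne (by decide)) 0 (u - u / 2) _ ?_ ?_ ?_).seq
    ((regCopy_run (T 2) (T 1) (hT.ne (by decide)) (u / 2) u _ ?_ ?_).seq
    ((regConst_run (T 6) 1 0 _ ?_).seq
    ((regSub_run (T 2) (T 6) (hT.ne (by decide)) u 1 _ ?_ ?_).seq
    (regPow2_run (T 7) (T 2) (T 3) (hT.ne (by decide)) (hT.ne (by decide))
      (hT.ne (by decide)) 0 (u - 1) _ ?_ ?_ ?_))))))))).cast rfl ?_ ?_
  any_goals
    (simp [hT.eq_iff, hureg, e3, e4, e5, e6, e7, ruler_zero_eq]; done)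
  · funext k
    simp only [Function.update_apply]
    split_ifs <;> simp_all [hT.eq_iff]
  · omega

theorem unshuf_iterate_length (e h : ℕ) (l : List Bool) (i : ℕ) :
    ((unshuf e h)^[i] l).length = l.length := by
  induction i with
  | zero => rfl
  | succ i ih => rw [Function.iterate_succ_apply', unshuf_length, ih]

/-- The passes: one unshuffle pass for every cell of the register `T 4`. -/
def classLoop (T : Fin 11 → Fin K) : Prog (Sym ⊕ α) K :=
  forRuler (T 4) (unshufPass (T 0) (T 8) (T 9) (T 10) (T 5) (T 7))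

theorem classLoop_run (T : Fin 11 → Fin K) (hT : Function.Injective T) (w e h q : ℕ)
    (he : 1 ≤ e) (hh : 1 ≤ h) (X : List Bool) (hX : X.length = q * (2 * h * e))
    (s : St (Sym ⊕ α) K) (hsrc : s (T 0) = WT (X.map bsym) 0) (hw : s (T 4) = ruler w 0)
    (hre : s (T 5) = ruler e 0) (hrh : s (T 7) = ruler h 0) (hd1 : s (T 8) = WT [] 0)
    (hd2 : s (T 9) = WT [] 0) (hdst : s (T 10) = WT [] 0) :
    RunLe (classLoop T) s
      (Function.update s (T 0) (WT (((unshuf e h)^[w] X).map bsym) 0))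
      (w * (100 * (X.length + 1) + 4) + 5) := by
  have hT' : Function.Injective (fun i : Fin 6 => T (![0, 8, 9, 10, 5, 7] i)) :=
    hT.comp (by decide)
  have h2 := forRuler_run (T 4) (unshufPass (T 0) (T 8) (T 9) (T 10) (T 5) (T 7)) w
    (fun i => Function.update (Function.update s (T 0)
      (WT (((unshuf e h)^[i] X).map bsym) 0)) (T 4) (ruler w i))
    (fun _ => 100 * (X.length + 1)) (by intro i _; simp) (by
      intro i _
      have hlen : ((unshuf e h)^[i] X).length = q * (2 * h * e) := by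
        rw [unshuf_iterate_length, hX]
      have hp := unshufPass_run (fun i : Fin 6 => T (![0, 8, 9, 10, 5, 7] i)) hT' e h q he hh
        ((unshuf e h)^[i] X) hlen
        (Function.update (Function.update s (T 0)
          (WT (((unshuf e h)^[i] X).map bsym) 0)) (T 4) (ruler w i))
        (by simp [hT.eq_iff]) (by simp [hT.eq_iff, hd1]) (by simp [hT.eq_iff, hd2])
        (by simp [hT.eq_iff, hdst]) (by simp [hT.eq_iff, hre]) (by simp [hT.eq_iff, hrh])
      rw [unshuf_iterate_length] at hp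
      refine hp.cast rfl ?_ le_rfl
      rw [Function.iterate_succ_apply']
      funext k
      simp only [Function.update_apply, Matrix.cons_val_zero]
      split_ifs <;> simp_all [hT.eq_iff])
  refine h2.cast ?_ ?_ ?_
  · funext k
    simp only [Function.update_apply, Function.iterate_zero, id_eq]
    split_ifs <;> simp_all [hT.eq_iff]
  · funext k
    simp only [Function.update_apply]
    split_ifs <;> simp_all [hT.eq_iff]
  · simp only [Finset.sum_const, Finset.card_range, smul_eq_mul]
    have e1 : w * (100 * (X.length + 1) + 4) = w * (100 * (X.length + 1) + 2) + 2 * w := by ring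
    omega

/-- Clear the registers built by `classRegs`. -/
def classClean (T : Fin 11 → Fin K) : Prog (Sym ⊕ α) K :=
  Prog.seq (regConst (T 2) 0) (Prog.seq (regConst (T 4) 0) (Prog.seq (regConst (T 5) 0)
    (Prog.seq (regConst (T 6) 0) (regConst (T 7) 0))))

theorem classClean_run (T : Fin 11 → Fin K) (hT : Function.Injective T) (a b c d e : ℕ)
    (s : St (Sym ⊕ α) K) (h2 : s (T 2) = ruler a 0) (h4 : s (T 4) = ruler b 0)
    (h5 : s (T 5) = ruler c 0) (h6 : s (T 6) = ruler d 0) (h7 : s (T 7) = ruler e 0) :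
    RunLe (classClean T) s
      (Function.update (Function.update (Function.update (Function.update (Function.update s
        (T 2) (WT [] 0)) (T 4) (WT [] 0)) (T 5) (WT [] 0)) (T 6) (WT [] 0)) (T 7) (WT [] 0))
      (10 * (a + b + c + d + e) + 100) := by
  refine ((regConst_run (T 2) 0 a s h2).seq
    ((regConst_run (T 4) 0 b _ ?_).seq
    ((regConst_run (T 5) 0 c _ ?_).seq
    ((regConst_run (T 6) 0 d _ ?_).seq
    (regConst_run (T 7) 0 e _ ?_))))).cast rfl rfl ?_
  any_goals simp [hT.eq_iff, h4, h5, h6, h7]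
  omega

/-- The classical version of the third swap: `u - u / 2` unshuffle passes with items of
`2^(u - u/2)` cells and half-period `2^(u-1)` items. -/
def classical3 (T : Fin 11 → Fin K) : Prog (Sym ⊕ α) K :=
  Prog.seq (classRegs T) (Prog.seq (classLoop T) (classClean T))

set_option linter.unusedTactic false in
theorem classical3_run (T : Fin 11 → Fin K) (hT : Function.Injective T) (u q : ℕ)
    (X : List Bool) (hX : X.length = q * (2 * 2 ^ (u - 1) * 2 ^ (u - u / 2)))
    (s : St (Sym ⊕ α) K) (hsrc : s (T 0) = WT (X.map bsym) 0) (hureg : s (T 1) = ruler u 0)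
    (hemp : ∀ i : Fin 11, 2 ≤ i.val → s (T i) = WT [] 0) :
    RunLe (classical3 T) s
      (Function.update s (T 0)
        (WT (((unshuf (2 ^ (u - u / 2)) (2 ^ (u - 1)))^[u - u / 2] X).map bsym) 0))
      ((u - u / 2) * (100 * (X.length + 1) + 4) + 120 * u + 210 * 2 ^ (u - u / 2) +
        210 * 2 ^ (u - 1) + 700) := by
  have e2 : s (T 2) = WT [] 0 := hemp 2 (by decide)
  have e4 : s (T 4) = WT [] 0 := hemp 4 (by decide)
  have e5 : s (T 5) = WT [] 0 := hemp 5 (by decide)
  have e6 : s (T 6) = WT [] 0 := hemp 6 (by decide)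
  have e7 : s (T 7) = WT [] 0 := hemp 7 (by decide)
  have e8 : s (T 8) = WT [] 0 := hemp 8 (by decide)
  have e9 : s (T 9) = WT [] 0 := hemp 9 (by decide)
  have e10 : s (T 10) = WT [] 0 := hemp 10 (by decide)
  refine ((classRegs_run T hT u s hureg hemp).seq
    ((classLoop_run T hT (u - u / 2) (2 ^ (u - u / 2)) (2 ^ (u - 1)) q Nat.one_le_two_pow
      Nat.one_le_two_pow X hX _ ?_ ?_ ?_ ?_ ?_ ?_ ?_).seq
    (classClean_run T hT (u - 1) (u - u / 2) (2 ^ (u - u / 2)) 1 (2 ^ (u - 1)) _
      ?_ ?_ ?_ ?_ ?_))).cast rfl ?_ ?_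
  any_goals (simp [hT.eq_iff, hsrc, e8, e9, e10]; done)
  · funext k
    simp only [Function.update_apply]
    split_ifs <;> simp_all [hT.eq_iff]
  · omega

end Vale.Agent.H91.MT.LUp
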