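import Vale.Agent.H91.MT.Level
import Vale.Agent.H91.MT.RegC

/-!
# TASK LUP, part 1: small register programs used by the ascent step

`regDec` (decrement), `lvlStep` (`u := u - u / 2`), `lvlReg` (`u := lvlU ν j`) and `moveOut`
(replace the content of one stream tape by that of another and erase the latter).
-/

namespace Vale.Agent.H91.MT.LUp

variable {α : Type} {K : ℕ}

/-- `r := r - 1` (`t` is an empty scratch register). -/
def regDec (r t : Fin K) : Prog (Sym ⊕ α) K :=
  Prog.seq (regConst t 1) (Prog.seq (regSub r t) (regConst t 0))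

theorem regDec_run (r t : Fin K) (hrt : r ≠ t) (v : ℕ) (s : St (Sym ⊕ α) K)
    (hr : s r = ruler v 0) (ht : s t = WT [] 0) :
    RunLe (regDec r t) s (Function.update s r (ruler (v - 1) 0)) (10 * v + 120) := by
  have htr : t ≠ r := Ne.symm hrt
  have h1 := regConst_run t 1 0 s ht
  have h2 := regSub_run r t hrt v 1 (Function.update s t (ruler 1 0))
    (by rw [Function.update_of_ne hrt, hr]) (by rw [Function.update_self])
  have h3 := regConst_run t 0 1
    (Function.update (Function.update s t (ruler 1 0)) r (ruler (v - 1) 0))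
    (by rw [Function.update_of_ne htr, Function.update_self])
  refine (h1.seq (h2.seq h3)).cast rfl ?_ (by omega)
  have ht' : s t = ruler 0 0 := ht
  funext j
  simp only [Function.update_apply]
  split_ifs <;> simp_all

/-- `u := u - u / 2` (`t`, `t2` are empty scratch registers). -/
def lvlStep (u t t2 : Fin K) : Prog (Sym ⊕ α) K :=
  Prog.seq (regCopy t u) (Prog.seq (regHalf t t2) (Prog.seq (regSub u t) (regConst t 0)))

theorem lvlStep_run (u t t2 : Fin K) (hut : u ≠ t) (htt2 : t ≠ t2) (v : ℕ)
    (s : St (Sym ⊕ α) K) (hu : s u = ruler v 0) (ht : s t = WT [] 0) (ht2 : s t2 = WT [] 0) :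
    RunLe (lvlStep u t t2) s (Function.update s u (ruler (v - v / 2) 0)) (80 * v + 150) := by
  have htu : t ≠ u := Ne.symm hut
  have h1 := regCopy_run t u htu 0 v s ht hu
  have h2 := regHalf_run t t2 htt2 v (Function.update s t (ruler v 0))
    (by rw [Function.update_self])
    (by rw [Function.update_of_ne (Ne.symm htt2), ht2]; rfl)
  have h3 := regSub_run u t hut v (v / 2)
    (Function.update (Function.update s t (ruler v 0)) t (ruler (v / 2) 0))
    (by rw [Function.update_of_ne hut, Function.update_of_ne hut, hu])
    (by rw [Function.update_self])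
  have h4 := regConst_run t 0 (v / 2)
    (Function.update (Function.update (Function.update s t (ruler v 0)) t (ruler (v / 2) 0))
      u (ruler (v - v / 2) 0))
    (by rw [Function.update_of_ne htu, Function.update_self])
  refine (h1.seq (h2.seq (h3.seq h4))).cast rfl ?_ (by omega)
  have ht' : s t = ruler 0 0 := ht
  funext j
  simp only [Function.update_apply]
  split_ifs <;> simp_all

/-- `u := lvlU ν j` where `nu` holds `ν` and `jr` holds `j`. -/
def lvlReg (u nu jr t t2 : Fin K) : Prog (Sym ⊕ α) K :=
  Prog.seq (regCopy u nu) (forRuler jr (lvlStep u t t2))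

theorem lvlReg_run (T : Fin 5 → Fin K) (hT : Function.Injective T) (ν j u' : ℕ)
    (s : St (Sym ⊕ α) K) (hu : s (T 0) = ruler u' 0) (hnu : s (T 1) = ruler ν 0)
    (hj : s (T 2) = ruler j 0) (ht : s (T 3) = WT [] 0) (ht2 : s (T 4) = WT [] 0) :
    RunLe (lvlReg (T 0) (T 1) (T 2) (T 3) (T 4)) s
      (Function.update s (T 0) (ruler (lvlU ν j) 0))
      (10 * u' + 10 * ν + j * (80 * ν + 154) + 40) := by
  have h01 : T 0 ≠ T 1 := hT.ne (by decide)
  have h02 : T 0 ≠ T 2 := hT.ne (by decide)
  have h03 : T 0 ≠ T 3 := hT.ne (by decide)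
  have h04 : T 0 ≠ T 4 := hT.ne (by decide)
  have h23 : T 2 ≠ T 3 := hT.ne (by decide)
  have h24 : T 2 ≠ T 4 := hT.ne (by decide)
  have h34 : T 3 ≠ T 4 := hT.ne (by decide)
  have h1 := regCopy_run (T 0) (T 1) h01 u' ν s hu hnu
  have h2 := forRuler_run (T 2) (lvlStep (T 0) (T 3) (T 4)) j
    (fun i => Function.update (Function.update s (T 0) (ruler (lvlU ν i) 0)) (T 2) (ruler j i))
    (fun _ => 80 * ν + 150) (by intro i _; simp) (by
      intro i _
      have h := lvlStep_run (T 0) (T 3) (T 4) h03 h34 (lvlU ν i)
        (Function.update (Function.update s (T 0) (ruler (lvlU ν i) 0)) (T 2) (ruler j i))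
        (by rw [Function.update_of_ne h02, Function.update_self])
        (by rw [Function.update_of_ne h23.symm, Function.update_of_ne h03.symm, ht])
        (by rw [Function.update_of_ne h24.symm, Function.update_of_ne h04.symm, ht2])
      have hle : lvlU ν i ≤ ν := lvlU_le_self ν i
      refine h.cast rfl ?_ (by omega)
      funext k
      simp only [Function.update_apply, lvlU]
      split_ifs <;> simp_all)
  refine (h1.seq (h2.cast ?_ rfl le_rfl)).cast rfl ?_ ?_
  · funext k
    simp only [Function.update_apply, lvlU]
    split_ifs <;> simp_all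
  · funext k
    simp only [Function.update_apply]
    split_ifs <;> simp_all
  · simp only [Finset.sum_const, Finset.card_range, smul_eq_mul]
    have e : j * (80 * ν + 150 + 2) = j * (80 * ν + 154) - 2 * j := by
      have : j * (80 * ν + 154) = j * (80 * ν + 150 + 2) + 2 * j := by ring
      omega
    have e2 : 2 * j ≤ j * (80 * ν + 154) := by nlinarith
    omega

/-- Replace the content of the stream tape `d` by that of `o` and erase `o` (both heads end at
home). -/
def moveOut (d o : Fin K) : Prog (Sym ⊕ α) K :=
  Prog.seq (clearTape d) (Prog.seq (copyApp o d) (Prog.seq (rewind d) (clearTape o)))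

theorem moveOut_run (d o : Fin K) (hdo : d ≠ o) (l l' : List (Sym ⊕ α))
    (hb : Sum.inl Sym.blank ∉ l) (hl : Sum.inl Sym.lend ∉ l)
    (hb' : Sum.inl Sym.blank ∉ l') (hl' : Sum.inl Sym.lend ∉ l')
    (s : St (Sym ⊕ α) K) (hd : s d = WT l 0) (ho : s o = WT l' 0) :
    RunLe (moveOut d o) s
      (Function.update (Function.update s d (WT l' 0)) o (WT [] 0))
      (4 * l.length + 11 * l'.length + 30) := by
  have hod : o ≠ d := Ne.symm hdo
  have h1 := clearTape_run d l hb hl 0 (Nat.zero_le _) s hd
  have h2 := copyApp_run o d hod l' [] hb' hl' (Function.update s d (WT [] 0))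
    (by rw [Function.update_of_ne hod, ho]) (by rw [Function.update_self]; rfl)
  rw [Function.update_idem] at h2
  have h3 := (rewind_run d ([] ++ l') (by simpa using hl')
    (([] : List (Sym ⊕ α)).length + l'.length)
    (Function.update s d (WT ([] ++ l') (([] : List (Sym ⊕ α)).length + l'.length)))
    (by rw [Function.update_self])).le
  rw [Function.update_idem] at h3
  have h4 := clearTape_run o l' hb' hl' 0 (Nat.zero_le _)
    (Function.update s d (WT ([] ++ l') 0))
    (by rw [Function.update_of_ne hod, ho])
  refine (h1.seq (h2.seq (h3.seq h4))).cast rfl ?_ ?_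
  · rw [List.nil_append]
  · simp only [List.length_nil]
    omega

end Vale.Agent.H91.MT.LUp
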