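import Vale.Agent.H91.MT.Addr
import Vale.Agent.H91.MT.ACall

/-!
# The recursion levels: definitions, and TASK LVLPURE (pure lemmas about them)

Level with block exponent `u` of a `2^ν × 2^ν` matrix: `p = u / 2`, `w = u - u / 2`, the address
inside a `2^u × 2^u` block is `(I, i, J, j)` of widths `(p, w, p, w)`; `swapPar1/2/3 ν u` are the
parameters of the three swaps (`i ↔ J`, `I ↔ J`, `I ↔ j`).  All use operand length
`1024 * 4^ν`.
-/

namespace Vale.Agent.H91.MT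

/-- The block exponent at recursion depth `j`: `u ↦ u - u / 2` iterated `j` times from `ν`. -/
def lvlU (ν : ℕ) : ℕ → ℕ
  | 0 => ν
  | j + 1 => lvlU ν j - lvlU ν j / 2

/-- Swap `i ↔ J` (entries `j`). -/
def swapPar1 (ν u : ℕ) : SwapParams :=
  ⟨4 ^ (ν - u) * 2 ^ (u / 2), 2 ^ (u - u / 2), 2 ^ (u / 2), u - u / 2, 2 ^ (u - u / 2),
    1024 * 4 ^ ν⟩

/-- Swap `I ↔ J` (entries `(i, j)`). -/
def swapPar2 (ν u : ℕ) : SwapParams :=
  ⟨4 ^ (ν - u), 2 ^ (u / 2), 2 ^ (u / 2), u / 2, 4 ^ (u - u / 2), 1024 * 4 ^ ν⟩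

/-- Swap `I ↔ j` (entries `i`). -/
def swapPar3 (ν u : ℕ) : SwapParams :=
  ⟨4 ^ (ν - u) * 2 ^ (u / 2), 2 ^ (u / 2), 2 ^ (u - u / 2), u - u / 2, 2 ^ (u - u / 2),
    1024 * 4 ^ ν⟩

/-- The list-level effect of a swap with parameters `p`. -/
def SwapParams.arr (p : SwapParams) (X : List Bool) : List Bool := swapArr p.R p.r0 p.c0 p.E X

/-- Standing state of the level machinery.  Layout `L : Fin 80 → Fin K`:
`L 0 .. L 51` the swap layout (`L 31` ruler of length `1024 * 4^ν`, `L 44` ruler of length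
`4^ν`, `L 47` raw blank state tape, `L 48` the data, `L 51` the register `u`);
`L 52` register `ν`; `L 53` level counter `j`; `L 54` flag; `L 55 .. L 71` scratch (empty);
`L 72 .. L 79` are not touched by the level machinery. -/
def LevelSt (A : Machine) {K : ℕ} (L : Fin 80 → Fin K) (sim : Fin (A.k + 1) → Fin K)
    (ν u j : ℕ) (go : Sym) (X : List Bool) (s : St (ΓB A) K) : Prop :=
  s (L 31) = ruler (1024 * 4 ^ ν) 0 ∧ s (L 44) = ruler (4 ^ ν) 0 ∧ s (L 52) = ruler ν 0 ∧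
  s (L 51) = ruler u 0 ∧ s (L 53) = ruler j 0 ∧ s (L 54) = WT [Sum.inl go] 0 ∧
  s (L 48) = WT (X.map bsym) 0 ∧
  s (L 47) = Tape.ofList (Sum.inl Sym.blank) [] ∧
  (∀ t, s (sim t) = Tape.ofList (Sum.inl Sym.blank) []) ∧
  (∀ i : Fin 80, i.val < 72 → i.val ≠ 31 → i.val ≠ 44 → i.val ≠ 47 → i.val ≠ 48 →
    i.val ≠ 51 → i.val ≠ 52 → i.val ≠ 53 → i.val ≠ 54 → s (L i) = WT [] 0)

/-- Tapes outside the level machinery are unchanged. -/
def LevelFrame (A : Machine) {K : ℕ} (L : Fin 80 → Fin K) (sim : Fin (A.k + 1) → Fin K)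
    (s s' : St (ΓB A) K) : Prop :=
  ∀ t : Fin K, (∀ i : Fin 80, i.val < 72 → t ≠ L i) → (∀ j, t ≠ sim j) → s' t = s t

/-! ## TASK LVLPURE -/

/-- `4^ν` split along a block exponent `u ≤ ν` and its two halves. -/
theorem four_pow_split (ν u : ℕ) (hν : u ≤ ν) :
    4 ^ ν = 4 ^ (ν - u) * (2 ^ (u / 2) * 2 ^ (u / 2) * 2 ^ (u - u / 2) * 2 ^ (u - u / 2)) := by
  have h1 : ν = (ν - u) + u := by omega
  have h2 : (4 : ℕ) ^ u = 2 ^ (u / 2) * 2 ^ (u / 2) * 2 ^ (u - u / 2) * 2 ^ (u - u / 2) := by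
    rw [← pow_add, ← pow_add, ← pow_add]
    have h4 : (4 : ℕ) = 2 ^ 2 := by norm_num
    rw [h4, ← pow_mul]
    congr 1
    omega
  calc 4 ^ ν = 4 ^ ((ν - u) + u) := by rw [← h1]
    _ = 4 ^ (ν - u) * 4 ^ u := pow_add _ _ _
    _ = _ := by rw [h2]

theorem four_pow_half (w : ℕ) : (4 : ℕ) ^ w = 2 ^ w * 2 ^ w := by
  rw [← Nat.mul_pow]

theorem two_pow_half_le (u : ℕ) : 2 ^ (u / 2) ≤ 2 ^ (u - u / 2) :=
  Nat.pow_le_pow_right (by norm_num) (by omega)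

theorem two_pow_half_ge (u : ℕ) : 2 ^ (u - u / 2) ≤ 2 * 2 ^ (u / 2) := by
  rw [← pow_succ']
  exact Nat.pow_le_pow_right (by norm_num) (by omega)

theorem sixteen_le_two_pow (u : ℕ) (hu : 7 ≤ u) : 16 ≤ 2 ^ (u - u / 2) :=
  calc 16 = 2 ^ 4 := by norm_num
    _ ≤ 2 ^ (u - u / 2) := Nat.pow_le_pow_right (by norm_num) (by omega)

theorem swapPar1_ok (ν u : ℕ) (hu : 7 ≤ u) (hν : u ≤ ν) : (swapPar1 ν u).Ok := by
  refine ⟨?_, ?_, ?_, ?_, ?_, ?_⟩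
  · show 1 ≤ u - u / 2
    omega
  · show 2 ^ (u - u / 2) ≤ 2 ^ (u - u / 2)
    exact le_refl _
  · show 2 ^ (u / 2) ≤ 2 ^ (u - u / 2)
    exact two_pow_half_le u
  · show 16 ≤ 2 ^ (u - u / 2)
    exact sixteen_le_two_pow u hu
  · show 2 ^ (u - u / 2) ∣ 2 ^ (u - u / 2)
    exact dvd_refl _
  · show 4 ^ (ν - u) * 2 ^ (u / 2) * (8 * 2 ^ (u - u / 2) * 2 ^ (u - u / 2)) *
      (16 * (4 * 2 ^ (u - u / 2))) ≤ 1024 * 4 ^ ν
    rw [four_pow_split ν u hν]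
    have h := two_pow_half_ge u
    generalize 4 ^ (ν - u) = B
    generalize 2 ^ (u / 2) = P at h ⊢
    generalize 2 ^ (u - u / 2) = W at h ⊢
    calc B * P * (8 * W * W) * (16 * (4 * W)) = 512 * (B * P * W * W) * W := by ring
      _ ≤ 512 * (B * P * W * W) * (2 * P) := Nat.mul_le_mul_left _ h
      _ = 1024 * (B * (P * P * W * W)) := by ring

theorem swapPar2_ok (ν u : ℕ) (hu : 7 ≤ u) (hν : u ≤ ν) : (swapPar2 ν u).Ok := by
  refine ⟨?_, ?_, ?_, ?_, ?_, ?_⟩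
  · show 1 ≤ u / 2
    omega
  · show 2 ^ (u / 2) ≤ 2 ^ (u / 2)
    exact le_refl _
  · show 2 ^ (u / 2) ≤ 2 ^ (u / 2)
    exact le_refl _
  · show 16 ≤ 4 ^ (u - u / 2)
    calc 16 = 4 ^ 2 := by norm_num
      _ ≤ 4 ^ (u - u / 2) := Nat.pow_le_pow_right (by norm_num) (by omega)
  · show 2 ^ (u / 2) ∣ 4 ^ (u - u / 2)
    rw [four_pow_half]
    exact Dvd.dvd.mul_right (pow_dvd_pow 2 (by omega)) _
  · show 4 ^ (ν - u) * (8 * 2 ^ (u / 2) * 2 ^ (u / 2)) * (16 * (4 * 4 ^ (u - u / 2))) ≤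
      1024 * 4 ^ ν
    rw [four_pow_split ν u hν, four_pow_half (u - u / 2)]
    generalize 4 ^ (ν - u) = B
    generalize 2 ^ (u / 2) = P
    generalize 2 ^ (u - u / 2) = W
    calc B * (8 * P * P) * (16 * (4 * (W * W))) = 512 * (B * (P * P * W * W)) := by ring
      _ ≤ 1024 * (B * (P * P * W * W)) := Nat.mul_le_mul_right _ (by norm_num)

theorem swapPar3_ok (ν u : ℕ) (hu : 7 ≤ u) (hν : u ≤ ν) : (swapPar3 ν u).Ok := by
  refine ⟨?_, ?_, ?_, ?_, ?_, ?_⟩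
  · show 1 ≤ u - u / 2
    omega
  · show 2 ^ (u / 2) ≤ 2 ^ (u - u / 2)
    exact two_pow_half_le u
  · show 2 ^ (u - u / 2) ≤ 2 ^ (u - u / 2)
    exact le_refl _
  · show 16 ≤ 2 ^ (u - u / 2)
    exact sixteen_le_two_pow u hu
  · show 2 ^ (u - u / 2) ∣ 2 ^ (u - u / 2)
    exact dvd_refl _
  · show 4 ^ (ν - u) * 2 ^ (u / 2) * (8 * 2 ^ (u - u / 2) * 2 ^ (u - u / 2)) *
      (16 * (4 * 2 ^ (u - u / 2))) ≤ 1024 * 4 ^ ν
    rw [four_pow_split ν u hν]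
    have h := two_pow_half_ge u
    generalize 4 ^ (ν - u) = B
    generalize 2 ^ (u / 2) = P at h ⊢
    generalize 2 ^ (u - u / 2) = W at h ⊢
    calc B * P * (8 * W * W) * (16 * (4 * W)) = 512 * (B * P * W * W) * W := by ring
      _ ≤ 512 * (B * P * W * W) * (2 * P) := Nat.mul_le_mul_left _ h
      _ = 1024 * (B * (P * P * W * W)) := by ring

theorem swapPar1_q (ν u : ℕ) : (swapPar1 ν u).E = 1 * (swapPar1 ν u).P := by
  show 2 ^ (u - u / 2) = 1 * 2 ^ (u - u / 2)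
  rw [Nat.one_mul]

theorem swapPar2_q (ν u : ℕ) :
    (swapPar2 ν u).E = 2 ^ (2 * (u - u / 2) - u / 2) * (swapPar2 ν u).P := by
  show 4 ^ (u - u / 2) = 2 ^ (2 * (u - u / 2) - u / 2) * 2 ^ (u / 2)
  rw [← pow_add]
  have h4 : (4 : ℕ) = 2 ^ 2 := by norm_num
  rw [h4, ← pow_mul]
  congr 1
  omega

theorem swapPar3_q (ν u : ℕ) : (swapPar3 ν u).E = 1 * (swapPar3 ν u).P := by
  show 2 ^ (u - u / 2) = 1 * 2 ^ (u - u / 2)
  rw [Nat.one_mul]

theorem swapPar1_len (ν u : ℕ) (hν : u ≤ ν) :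
    (swapPar1 ν u).R * (swapPar1 ν u).r0 * (swapPar1 ν u).c0 * (swapPar1 ν u).E = 4 ^ ν := by
  show 4 ^ (ν - u) * 2 ^ (u / 2) * 2 ^ (u - u / 2) * 2 ^ (u / 2) * 2 ^ (u - u / 2) = 4 ^ ν
  rw [four_pow_split ν u hν]
  ring

theorem swapPar2_len (ν u : ℕ) (hν : u ≤ ν) :
    (swapPar2 ν u).R * (swapPar2 ν u).r0 * (swapPar2 ν u).c0 * (swapPar2 ν u).E = 4 ^ ν := by
  show 4 ^ (ν - u) * 2 ^ (u / 2) * 2 ^ (u / 2) * 4 ^ (u - u / 2) = 4 ^ ν
  rw [four_pow_split ν u hν, four_pow_half (u - u / 2)]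
  ring

theorem swapPar3_len (ν u : ℕ) (hν : u ≤ ν) :
    (swapPar3 ν u).R * (swapPar3 ν u).r0 * (swapPar3 ν u).c0 * (swapPar3 ν u).E = 4 ^ ν := by
  show 4 ^ (ν - u) * 2 ^ (u / 2) * 2 ^ (u / 2) * 2 ^ (u - u / 2) * 2 ^ (u - u / 2) = 4 ^ ν
  rw [four_pow_split ν u hν]
  ring

theorem arr_length (p : SwapParams) (X : List Bool) :
    (p.arr X).length = p.R * p.c0 * p.r0 * p.E :=
  swapArr_length_aux _ _ _ _ _

/-- One level of the recursion, in terms of the three swaps. -/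
theorem level_identity (ν u : ℕ) (hν : u ≤ ν) (X : List Bool) (hX : X.length = 4 ^ ν) :
    swapArr (4 ^ (ν - u)) (2 ^ u) (2 ^ u) 1 X =
      (swapPar3 ν u).arr
        (swapArr (4 ^ (ν - (u - u / 2))) (2 ^ (u - u / 2)) (2 ^ (u - u / 2)) 1
          ((swapPar2 ν u).arr ((swapPar1 ν u).arr X))) := by
  have hu : u / 2 + (u - u / 2) = u := by omega
  have hlen : X.length = 4 ^ (ν - u) * 4 ^ (u / 2 + (u - u / 2)) := by
    rw [hX, hu, ← pow_add]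
    congr 1
    omega
  have hmid : 4 ^ (ν - (u - u / 2)) = 4 ^ (ν - u) * 4 ^ (u / 2) := by
    rw [← pow_add]
    congr 1
    omega
  have key := swapArr_level (4 ^ (ν - u)) (u / 2) (u - u / 2) X hlen
  rw [hu] at key
  rw [key, hmid]
  rfl

/-- The classical version of the third swap: `w` unshuffle passes. -/
theorem swapPar3_unshuf (ν u : ℕ) (hu : 1 ≤ u) (hν : u ≤ ν) (X : List Bool)
    (hX : X.length = 4 ^ ν) :
    (swapPar3 ν u).arr X = (unshuf (2 ^ (u - u / 2)) (2 ^ (u - 1)))^[u - u / 2] X := by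
  have hu' : u / 2 + (u - u / 2) = u := by omega
  have hlen : X.length =
      4 ^ (ν - u) * 2 ^ (u / 2) * 2 ^ (u / 2) * 2 ^ (u - u / 2) * 2 ^ (u - u / 2) := by
    rw [hX, four_pow_split ν u hν]
    ring
  have key := swapArr_unshuf (4 ^ (ν - u) * 2 ^ (u / 2)) (u / 2) (u - u / 2) (2 ^ (u - u / 2))
    (by omega) X hlen
  rw [hu'] at key
  exact key

/-- The classical block transposition: `u` unshuffle passes. -/
theorem block_unshuf (ν u : ℕ) (hu : 1 ≤ u) (hν : u ≤ ν) (X : List Bool)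
    (hX : X.length = 4 ^ ν) :
    swapArr (4 ^ (ν - u)) (2 ^ u) (2 ^ u) 1 X = (unshuf 1 (2 ^ (2 * u - 1)))^[u] X := by
  have hlen : X.length = 4 ^ (ν - u) * 2 ^ u * 2 ^ u * 1 := by
    rw [hX, Nat.mul_one, Nat.mul_assoc, ← four_pow_half, ← pow_add]
    congr 1
    omega
  have key := swapArr_unshuf (4 ^ (ν - u)) u u 1 (by omega) X hlen
  have h2 : u + u = 2 * u := by omega
  rw [h2] at key
  exact key

theorem lvlU_le_self (ν j : ℕ) : lvlU ν j ≤ ν := by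
  induction j with
  | zero => exact le_refl _
  | succ j ih =>
    show lvlU ν j - lvlU ν j / 2 ≤ ν
    omega

theorem lvlU_le (ν j : ℕ) : lvlU ν j ≤ ν / 2 ^ j + 1 := by
  induction j with
  | zero =>
    show ν ≤ ν / 2 ^ 0 + 1
    rw [pow_zero, Nat.div_one]
    exact Nat.le_succ ν
  | succ j ih =>
    show lvlU ν j - lvlU ν j / 2 ≤ ν / 2 ^ (j + 1) + 1
    have h : ν / 2 ^ (j + 1) = ν / 2 ^ j / 2 := by
      rw [pow_succ, Nat.div_div_eq_div_mul]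
    rw [h]
    omega

theorem lvl_count (ν j : ℕ) (h : 7 ≤ lvlU ν j) : j ≤ Nat.log 2 ν := by
  have h1 := lvlU_le ν j
  have h2 : 1 ≤ ν / 2 ^ j := by omega
  have h3 : 2 ^ j ≤ ν := by
    by_contra hlt
    rw [Nat.div_eq_of_lt (Nat.lt_of_not_le hlt)] at h2
    omega
  exact Nat.le_log_of_pow_le (by norm_num) h3

end Vale.Agent.H91.MT
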