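import Vale.Agent.H91.MT.LDown
import Vale.Agent.H91.MT.LUp
import Vale.Agent.H91.MT.LClass

/-!
# The recursion: descent loop, classical block transposition, ascent loop
-/

namespace Vale.Agent.H91.MT

/-- The whole recursion on a `2^ν × 2^ν` matrix. -/
noncomputable def levelsProg (A : Machine) {K : ℕ} (L : Fin 80 → Fin K)
    (sim : Fin (A.k + 1) → Fin K) (h : Function.Injective (Sum.elim sim L)) : Prog (ΓB A) K :=
  Prog.seq (Prog.loop (isSym (L 54) Sym.one) (levelDown A L sim h))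
    (Prog.seq (classicalBlock L) (Prog.loop (isSym (L 53) Sym.one) (levelUp A L sim h)))

/-- The data after `j` successful descent steps. -/
def descData (ν : ℕ) (X : List Bool) : ℕ → List Bool
  | 0 => X
  | j + 1 => (swapPar2 ν (lvlU ν j)).arr ((swapPar1 ν (lvlU ν j)).arr (descData ν X j))

/-- The data at depth `j` with all blocks of that depth transposed. -/
def ascData (ν : ℕ) (X : List Bool) (j : ℕ) : List Bool :=
  swapArr (4 ^ (ν - lvlU ν j)) (2 ^ lvlU ν j) (2 ^ lvlU ν j) 1 (descData ν X j)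

theorem descData_length (ν : ℕ) (X : List Bool) (hX : X.length = 4 ^ ν) (j : ℕ) :
    (descData ν X j).length = 4 ^ ν := by
  induction j with
  | zero => exact hX
  | succ j ih =>
    have hle := lvlU_le_self ν j
    have h1 : ((swapPar1 ν (lvlU ν j)).arr (descData ν X j)).length = 4 ^ ν := by
      rw [arr_length, ← swapPar1_len ν (lvlU ν j) hle]
      ring
    show ((swapPar2 ν (lvlU ν j)).arr _).length = 4 ^ ν
    rw [arr_length, ← swapPar2_len ν (lvlU ν j) hle]
    ring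

theorem ascData_step (ν : ℕ) (X : List Bool) (hX : X.length = 4 ^ ν) (j : ℕ) :
    (swapPar3 ν (lvlU ν j)).arr (ascData ν X (j + 1)) = ascData ν X j := by
  have h := level_identity ν (lvlU ν j) (lvlU_le_self ν j) (descData ν X j)
    (descData_length ν X hX j)
  exact h.symm

theorem ascData_zero (ν : ℕ) (X : List Bool) :
    ascData ν X 0 = swapArr 1 (2 ^ ν) (2 ^ ν) 1 X := by
  simp [ascData, lvlU, descData]

theorem lvlU_pos (ν : ℕ) (hν : 1 ≤ ν) (j : ℕ) : 1 ≤ lvlU ν j := by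
  induction j with
  | zero => exact hν
  | succ j ih =>
    show 1 ≤ lvlU ν j - lvlU ν j / 2
    omega

theorem lvl_count2 (ν j : ℕ) (h : 7 ≤ lvlU ν j) : j + 2 ≤ Nat.log 2 ν := by
  have h1 := lvlU_le ν j
  have h2 : 6 ≤ ν / 2 ^ j := by omega
  have h3 : 6 * 2 ^ j ≤ ν := (Nat.le_div_iff_mul_le (by positivity)).mp h2
  have h4 : 2 ^ (j + 2) ≤ ν := by
    have : 2 ^ (j + 2) = 4 * 2 ^ j := by ring
    omega
  exact Nat.le_log_of_pow_le (by norm_num) h4

theorem blockLen (ν u : ℕ) (hu : u ≤ ν) : 4 ^ (ν - u) * 2 ^ u * 2 ^ u * 1 = 4 ^ ν := by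
  have h4 : (4 : ℕ) ^ u = 2 ^ u * 2 ^ u := by
    rw [← mul_pow]; norm_num
  calc 4 ^ (ν - u) * 2 ^ u * 2 ^ u * 1 = 4 ^ (ν - u) * 4 ^ u := by rw [h4]; ring
    _ = 4 ^ ν := by rw [← pow_add, Nat.sub_add_cancel hu]

/-- Cost of level `i`. -/
def lvlCost (θ ν i : ℕ) : ℕ := min θ (4 ^ ν * lvlU ν i) + 4 ^ ν + 1

/-- The descent loop. -/
theorem descent_run (A : Machine) (Cd : ℕ)
    (hd : ∀ (K : ℕ) (L : Fin 80 → Fin K) (sim : Fin (A.k + 1) → Fin K)
      (h : Function.Injective (Sum.elim sim L)) (ν u j : ℕ) (X : List Bool),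
      7 ≤ u → u ≤ ν → j ≤ ν → X.length = 4 ^ ν → ∀ s : St (ΓB A) K,
      LevelSt A L sim ν u j Sym.one X s →
      ∃ s', RunLe (levelDown A L sim h) s s'
          (Cd * (min (mulTime A (1024 * 4 ^ ν)) (4 ^ ν * u) + 4 ^ ν + 1)) ∧
        LevelFrame A L sim s s' ∧
        (LevelSt A L sim ν (u - u / 2) (j + 1) (if 7 ≤ u - u / 2 then Sym.one else Sym.zero)
            ((swapPar2 ν u).arr ((swapPar1 ν u).arr X)) s' ∨
         (4 ^ ν * u < mulTime A (1024 * 4 ^ ν) ∧ LevelSt A L sim ν u j Sym.zero X s')))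
    {K : ℕ} (L : Fin 80 → Fin K) (sim : Fin (A.k + 1) → Fin K)
    (h : Function.Injective (Sum.elim sim L)) (ν : ℕ) (X : List Bool) (hX : X.length = 4 ^ ν)
    (n : ℕ) : ∀ (j : ℕ) (g : Sym) (s : St (ΓB A) K), lvlU ν j ≤ n →
      (g = Sym.one ∧ 7 ≤ lvlU ν j ∨ g = Sym.zero ∧
        (lvlU ν j < 7 ∨ 4 ^ ν * lvlU ν j < mulTime A (1024 * 4 ^ ν))) →
      LevelSt A L sim ν (lvlU ν j) j g (descData ν X j) s →
      ∃ (J : ℕ) (s' : St (ΓB A) K), j ≤ J ∧
        RunLe (Prog.loop (isSym (L 54) Sym.one) (levelDown A L sim h)) s s'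
          ((∑ i ∈ Finset.Ico j (J + 1), (Cd * lvlCost (mulTime A (1024 * 4 ^ ν)) ν i + 2))) ∧
        LevelFrame A L sim s s' ∧
        LevelSt A L sim ν (lvlU ν J) J Sym.zero (descData ν X J) s' ∧
        (∀ i, j ≤ i → i < J → 7 ≤ lvlU ν i) ∧
        (lvlU ν J < 7 ∨ 4 ^ ν * lvlU ν J < mulTime A (1024 * 4 ^ ν)) := by
  induction n with
  | zero =>
    intro j g s hn hg hs
    have hz : g = Sym.zero := by
      rcases hg with ⟨_, h7⟩ | ⟨hz, _⟩
      · omega
      · exact hz
    have hexit : isSym (L 54) Sym.one s.heads = false := by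
      apply isSym_false
      rw [hs.2.2.2.2.2.1, hz]
      simp
    refine ⟨j, s, le_rfl, ?_, fun t _ _ => rfl, hz ▸ hs, fun i h1 h2 => by omega, ?_⟩
    · refine (RunLe.loop_false hexit).mono ?_
      simp
    · rcases hg with ⟨h1, _⟩ | ⟨_, h2⟩
      · rw [hz] at h1; cases h1
      · exact h2
  | succ n ih =>
    intro j g s hn hg hs
    rcases hg with ⟨hone, h7⟩ | ⟨hz, hlt⟩
    · -- one more descent step
      subst hone
      have htest : isSym (L 54) Sym.one s.heads = true := by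
        apply isSym_true
        rw [hs.2.2.2.2.2.1]
        simp
      obtain ⟨s1, hrun1, hfr1, hcase⟩ := hd K L sim h ν (lvlU ν j) j (descData ν X j) h7
        (lvlU_le_self ν j) ((lvl_count ν j h7).trans (Nat.log_le_self 2 ν))
        (descData_length ν X hX j) s hs
      rcases hcase with hsucc | ⟨habort, hst⟩
      · -- success: continue with depth j + 1
        have hn' : lvlU ν (j + 1) ≤ n := by
          show lvlU ν j - lvlU ν j / 2 ≤ n
          omega
        have hg' : ((if 7 ≤ lvlU ν j - lvlU ν j / 2 then Sym.one else Sym.zero) = Sym.one ∧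
            7 ≤ lvlU ν (j + 1)) ∨
            ((if 7 ≤ lvlU ν j - lvlU ν j / 2 then Sym.one else Sym.zero) = Sym.zero ∧
            (lvlU ν (j + 1) < 7 ∨
              4 ^ ν * lvlU ν (j + 1) < mulTime A (1024 * 4 ^ ν))) := by
          by_cases h7' : 7 ≤ lvlU ν j - lvlU ν j / 2
          · left; exact ⟨by simp [h7'], h7'⟩
          · right
            refine ⟨by simp [h7'], Or.inl ?_⟩
            show lvlU ν j - lvlU ν j / 2 < 7
            omega
        obtain ⟨J, s2, hjJ, hrun2, hfr2, hst2, hall, hfin⟩ :=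
          ih (j + 1) _ s1 hn' hg' hsucc
        refine ⟨J, s2, by omega, ?_, ?_, hst2, ?_, hfin⟩
        · refine (RunLe.loop_true htest hrun1 hrun2).mono ?_
          have e : Finset.Ico j (J + 1) = insert j (Finset.Ico (j + 1) (J + 1)) := by
            ext x
            simp only [Finset.mem_Ico, Finset.mem_insert]
            omega
          rw [e, Finset.sum_insert (by simp)]
          unfold lvlCost
          omega
        · intro t ht1 ht2
          rw [hfr2 t ht1 ht2, hfr1 t ht1 ht2]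
        · intro i hi1 hi2
          rcases Nat.eq_or_lt_of_le hi1 with e | hlt
          · rw [← e]; exact h7
          · exact hall i hlt hi2
      · -- abort at depth j
        have hexit : isSym (L 54) Sym.one s1.heads = false := by
          apply isSym_false
          rw [hst.2.2.2.2.2.1]
          simp
        refine ⟨j, s1, le_rfl, ?_, hfr1, hst, fun i h1 h2 => by omega, Or.inr habort⟩
        refine (RunLe.loop_true htest hrun1 (RunLe.loop_false hexit)).mono ?_
        have e : Finset.Ico j (j + 1) = {j} := by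
          ext x
          simp only [Finset.mem_Ico, Finset.mem_singleton]
          omega
        rw [e, Finset.sum_singleton]
        unfold lvlCost
        omega
    · -- the flag is already zero
      subst hz
      have hexit : isSym (L 54) Sym.one s.heads = false := by
        apply isSym_false
        rw [hs.2.2.2.2.2.1]
        simp
      refine ⟨j, s, le_rfl, ?_, fun t _ _ => rfl, hs, fun i h1 h2 => by omega, hlt⟩
      refine (RunLe.loop_false hexit).mono ?_
      have e : Finset.Ico j (j + 1) = {j} := by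
        ext x
        simp only [Finset.mem_Ico, Finset.mem_singleton]
        omega
      rw [e, Finset.sum_singleton]
      omega

/-- The ascent loop. -/
theorem ascent_run (A : Machine) (Cu : ℕ)
    (hu : ∀ (K : ℕ) (L : Fin 80 → Fin K) (sim : Fin (A.k + 1) → Fin K)
      (h : Function.Injective (Sum.elim sim L)) (ν u' j : ℕ) (go : Sym) (X : List Bool),
      7 ≤ lvlU ν j → u' ≤ ν → X.length = 4 ^ ν → ∀ s : St (ΓB A) K,
      LevelSt A L sim ν u' (j + 1) go X s →
      ∃ s', RunLe (levelUp A L sim h) s s'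
          (Cu * (min (mulTime A (1024 * 4 ^ ν)) (4 ^ ν * lvlU ν j) + 4 ^ ν + 1)) ∧
        LevelFrame A L sim s s' ∧
        LevelSt A L sim ν (lvlU ν j) j go ((swapPar3 ν (lvlU ν j)).arr X) s')
    {K : ℕ} (L : Fin 80 → Fin K) (sim : Fin (A.k + 1) → Fin K)
    (h : Function.Injective (Sum.elim sim L)) (ν : ℕ) (X : List Bool) (hX : X.length = 4 ^ ν)
    (go : Sym) : ∀ (j u' : ℕ) (s : St (ΓB A) K), (∀ i, i < j → 7 ≤ lvlU ν i) → u' ≤ ν →
      LevelSt A L sim ν u' j go (ascData ν X j) s →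
      ∃ (u'' : ℕ) (s' : St (ΓB A) K),
        RunLe (Prog.loop (isSym (L 53) Sym.one) (levelUp A L sim h)) s s'
          ((∑ i ∈ Finset.range j, (Cu * lvlCost (mulTime A (1024 * 4 ^ ν)) ν i + 1)) + 1) ∧
        LevelFrame A L sim s s' ∧
        LevelSt A L sim ν u'' 0 go (ascData ν X 0) s' := by
  intro j
  induction j with
  | zero =>
    intro u' s _ _ hs
    have hexit : isSym (L 53) Sym.one s.heads = false := by
      apply isSym_false
      rw [hs.2.2.2.2.1, ruler_read_ge le_rfl]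
      simp
    exact ⟨u', s, (RunLe.loop_false hexit).mono (by simp), fun t _ _ => rfl, hs⟩
  | succ j ih =>
    intro u' s hall hu' hs
    have htest : isSym (L 53) Sym.one s.heads = true := by
      apply isSym_true
      rw [hs.2.2.2.2.1, ruler_read_lt (Nat.succ_pos j)]
    have hlen : (ascData ν X (j + 1)).length = 4 ^ ν := by
      unfold ascData
      rw [swapArr_length]
      exact blockLen ν (lvlU ν (j + 1)) (lvlU_le_self ν (j + 1))
    obtain ⟨s1, hrun1, hfr1, hst1⟩ := hu K L sim h ν u' j go (ascData ν X (j + 1))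
      (hall j (Nat.lt_succ_self j)) hu' hlen s hs
    rw [ascData_step ν X hX j] at hst1
    obtain ⟨u'', s2, hrun2, hfr2, hst2⟩ := ih (lvlU ν j) s1
      (fun i hi => hall i (Nat.lt_succ_of_lt hi)) (lvlU_le_self ν j) hst1
    refine ⟨u'', s2, ?_, ?_, hst2⟩
    · refine (RunLe.loop_true htest hrun1 hrun2).mono ?_
      rw [Finset.sum_range_succ]
      unfold lvlCost
      omega
    · intro t ht1 ht2
      rw [hfr2 t ht1 ht2, hfr1 t ht1 ht2]

end Vale.Agent.H91.MT

namespace Vale.Agent.H91.MT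

/-- The term of the final bound for level `i`. -/
def lvlTerm (θ ν i : ℕ) : ℕ := min θ (4 ^ ν * (ν / 2 ^ i + 1))

theorem lvlCost_le (θ ν i : ℕ) : lvlCost θ ν i ≤ lvlTerm θ ν i + 4 ^ ν + 1 := by
  unfold lvlCost lvlTerm
  have h1 := lvlU_le ν i
  have h2 : 4 ^ ν * lvlU ν i ≤ 4 ^ ν * (ν / 2 ^ i + 1) := Nat.mul_le_mul_left _ h1
  have h3 : min θ (4 ^ ν * lvlU ν i) ≤ min θ (4 ^ ν * (ν / 2 ^ i + 1)) :=
    min_le_min le_rfl h2
  omega

theorem sum_lvlCost_le (θ ν C c : ℕ) (J Lg : ℕ) (hJ : J ≤ Lg + 1) :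
    (∑ i ∈ Finset.range J, (C * lvlCost θ ν i + c)) ≤
      C * (∑ i ∈ Finset.range (Lg + 1), lvlTerm θ ν i) + (Lg + 1) * (C * (4 ^ ν + 1) + c) := by
  have h1 : (∑ i ∈ Finset.range J, (C * lvlCost θ ν i + c)) ≤
      ∑ i ∈ Finset.range J, (C * lvlTerm θ ν i + (C * (4 ^ ν + 1) + c)) := by
    apply Finset.sum_le_sum
    intro i _
    have := lvlCost_le θ ν i
    have h2 : C * lvlCost θ ν i ≤ C * (lvlTerm θ ν i + 4 ^ ν + 1) := Nat.mul_le_mul_left _ this
    have h3 : C * (lvlTerm θ ν i + 4 ^ ν + 1) = C * lvlTerm θ ν i + C * (4 ^ ν + 1) := by ring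
    omega
  have h2 : (∑ i ∈ Finset.range J, (C * lvlTerm θ ν i + (C * (4 ^ ν + 1) + c))) =
      C * (∑ i ∈ Finset.range J, lvlTerm θ ν i) + J * (C * (4 ^ ν + 1) + c) := by
    rw [Finset.sum_add_distrib, Finset.mul_sum, Finset.sum_const, Finset.card_range,
      smul_eq_mul]
  have h3 : (∑ i ∈ Finset.range J, lvlTerm θ ν i) ≤ ∑ i ∈ Finset.range (Lg + 1), lvlTerm θ ν i :=
    Finset.sum_le_sum_of_subset (by
      intro x hx
      simp only [Finset.mem_range] at hx ⊢
      omega)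
  have h4 : C * (∑ i ∈ Finset.range J, lvlTerm θ ν i) ≤
      C * (∑ i ∈ Finset.range (Lg + 1), lvlTerm θ ν i) := Nat.mul_le_mul_left _ h3
  have h5 : J * (C * (4 ^ ν + 1) + c) ≤ (Lg + 1) * (C * (4 ^ ν + 1) + c) :=
    Nat.mul_le_mul_right _ hJ
  omega

/-- The recursion transposes the matrix within the recursion time bound. -/
theorem levelsProg_spec (A : Machine) (hA : Multiplies A) :
    ∃ C : ℕ, ∀ (K : ℕ) (L : Fin 80 → Fin K) (sim : Fin (A.k + 1) → Fin K)
      (h : Function.Injective (Sum.elim sim L)) (ν : ℕ) (X : List Bool),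
      7 ≤ ν → X.length = 4 ^ ν → ∀ s : St (ΓB A) K,
      LevelSt A L sim ν ν 0 Sym.one X s →
      ∃ (s' : St (ΓB A) K) (u : ℕ),
        RunLe (levelsProg A L sim h) s s'
          (C * 4 ^ ν * (Nat.log 2 ν + 2) +
            C * ∑ j ∈ Finset.range (Nat.log 2 ν + 1),
              min (mulTime A (1024 * 4 ^ ν)) (4 ^ ν * (ν / 2 ^ j + 1))) ∧
        LevelFrame A L sim s s' ∧
        LevelSt A L sim ν u 0 Sym.zero (swapArr 1 (2 ^ ν) (2 ^ ν) 1 X) s' := by
  obtain ⟨Cd, hd⟩ := levelDown_spec A hA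
  obtain ⟨Cu, hu⟩ := levelUp_spec A hA
  refine ⟨2 * (Cd + Cu) + 20000, ?_⟩
  intro K L sim h ν X hν hX s hs
  set θ := mulTime A (1024 * 4 ^ ν) with hθ
  -- descent
  obtain ⟨J, s1, -, hrun1, hfr1, hst1, hall, hfin⟩ :=
    descent_run A Cd hd L sim h ν X hX ν 0 Sym.one s le_rfl (Or.inl ⟨rfl, hν⟩) hs
  -- classical block transposition
  obtain ⟨s2, hrun2, hfr2, hst2⟩ := classicalBlock_spec A L sim h ν (lvlU ν J) J Sym.zero
    (descData ν X J) (lvlU_pos ν (by omega) J) (lvlU_le_self ν J) (descData_length ν X hX J)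
    s1 hst1
  -- ascent
  obtain ⟨u'', s3, hrun3, hfr3, hst3⟩ := ascent_run A Cu hu L sim h ν X hX Sym.zero J
    (lvlU ν J) s2 (fun i hi => hall i (Nat.zero_le i) hi) (lvlU_le_self ν J) hst2
  rw [ascData_zero] at hst3
  refine ⟨s3, u'', ?_, ?_, hst3⟩
  · have hrun := RunLe.seq hrun1 (RunLe.seq hrun2 hrun3)
    refine hrun.mono ?_
    -- the time bound
    have hJ : J ≤ Nat.log 2 ν := by
      rcases Nat.eq_zero_or_pos J with h0 | hpos
      · omega
      · have := lvl_count2 ν (J - 1) (hall (J - 1) (Nat.zero_le _) (by omega))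
        omega
    have e1 : Finset.Ico 0 (J + 1) = Finset.range (J + 1) := by
      rw [Finset.range_eq_Ico]
    rw [e1]
    have hA1 := sum_lvlCost_le θ ν Cd 2 (J + 1) (Nat.log 2 ν) (by omega)
    have hA3 := sum_lvlCost_le θ ν Cu 1 J (Nat.log 2 ν) (by omega)
    -- the classical step
    have hcl : 2000 * (4 ^ ν * (lvlU ν J + 1)) ≤
        2000 * (∑ i ∈ Finset.range (Nat.log 2 ν + 1), lvlTerm θ ν i) + 14000 * 4 ^ ν := by
      rcases hfin with h7 | hab
      · have : 4 ^ ν * (lvlU ν J + 1) ≤ 4 ^ ν * 7 := Nat.mul_le_mul_left _ (by omega)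
        omega
      · have hterm : 4 ^ ν * lvlU ν J ≤ lvlTerm θ ν J := by
          unfold lvlTerm
          have h1 := lvlU_le ν J
          have h2 : 4 ^ ν * lvlU ν J ≤ 4 ^ ν * (ν / 2 ^ J + 1) := Nat.mul_le_mul_left _ h1
          exact le_min (le_of_lt hab) h2
        have hmem : lvlTerm θ ν J ≤ ∑ i ∈ Finset.range (Nat.log 2 ν + 1), lvlTerm θ ν i :=
          Finset.single_le_sum (f := fun i => lvlTerm θ ν i) (fun i _ => Nat.zero_le _)
            (Finset.mem_range.mpr (by omega))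
        have e : 4 ^ ν * (lvlU ν J + 1) = 4 ^ ν * lvlU ν J + 4 ^ ν := by ring
        omega
    have hN : 1 ≤ 4 ^ ν := Nat.one_le_pow _ _ (by norm_num)
    show (∑ i ∈ Finset.range (J + 1), (Cd * lvlCost θ ν i + 2)) +
        (2000 * (4 ^ ν * (lvlU ν J + 1)) +
          ((∑ i ∈ Finset.range J, (Cu * lvlCost θ ν i + 1)) + 1)) ≤
      (2 * (Cd + Cu) + 20000) * 4 ^ ν * (Nat.log 2 ν + 2) +
        (2 * (Cd + Cu) + 20000) * ∑ j ∈ Finset.range (Nat.log 2 ν + 1), lvlTerm θ ν j
    generalize (∑ i ∈ Finset.range (Nat.log 2 ν + 1), lvlTerm θ ν i) = Sg at *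
    generalize (∑ i ∈ Finset.range (J + 1), (Cd * lvlCost θ ν i + 2)) = S1 at *
    generalize (∑ i ∈ Finset.range J, (Cu * lvlCost θ ν i + 1)) = S3 at *
    generalize Nat.log 2 ν = Lg at *
    generalize 4 ^ ν = N at *
    generalize 2000 * (N * (lvlU ν J + 1)) = Cl at *
    nlinarith [Nat.zero_le (Cd * Sg), Nat.zero_le (Cu * Sg), Nat.zero_le (Cd * N * Lg),
      Nat.zero_le (Cu * N * Lg), Nat.zero_le (N * Lg), Nat.zero_le (Cd * N), Nat.zero_le (Cu * N),
      Nat.mul_le_mul_left Cd hN, Nat.mul_le_mul_left Cu hN, Nat.mul_le_mul_left Lg hN,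
      Nat.mul_le_mul_left (Cd * Lg) hN, Nat.mul_le_mul_left (Cu * Lg) hN]
  · intro t ht1 ht2
    rw [hfr3 t ht1 ht2, hfr2 t ht1 ht2, hfr1 t ht1 ht2]

end Vale.Agent.H91.MT
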