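import Vale.Agent.H91.MT.Pre_Base

/-!
# TASK PRE, input and output

Copying the raw input tape to a work tape, writing a work tape to the raw output tape.
-/

namespace Vale.Agent.H91.MT.Pre

variable {α : Type} {K : ℕ}

theorem inj_pair {a b : Fin K} (hab : a ≠ b) : Function.Injective ![a, b] := by
  intro i j h
  fin_cases i <;> fin_cases j <;> simp_all

/-- A state given by two tapes, as a nested update. -/
theorem stN_pair {Γ : Type} {a b : Fin K} (hab : a ≠ b) (s : St Γ K) (A B : Tape Γ) :
    stN s ![a, b] ![A, B] = Function.update (Function.update s a A) b B := by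
  have hT := inj_pair hab
  have h1 := stN_upd hT s (fun k => s (![a, b] k)) 0 A
  have h2 := stN_upd hT s (Function.update (fun k => s (![a, b] k)) 0 A) 1 B
  rw [stN_self hT] at h1
  rw [← h1] at h2
  have e : Function.update (Function.update (fun k => s (![a, b] k)) 0 A) 1 B = ![A, B] := by
    funext k
    fin_cases k <;> rfl
  rw [e] at h2
  exact h2.symm

theorem WT_take_write (w : List Bool) {j : ℕ} (hj : j < w.length) :
    ((WT ((w.take j).map bsym) j : Tape (Sym ⊕ α)).write
      ((w.map bsym).getD j (Sum.inl Sym.blank))).move Dir.R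
      = WT ((w.take (j + 1)).map bsym) (j + 1) := by
  have hlen : ((w.take j).map (bsym (α := α))).length = j := by
    rw [List.length_map, List.length_take]
    omega
  have h := WT_write_end ((w.take j).map (bsym (α := α)))
    ((w.map bsym).getD j (Sum.inl Sym.blank))
  rw [hlen] at h
  rw [h, WT_move_R]
  congr 1
  rw [List.take_succ_eq_append_getElem hj, List.map_append, List.map_singleton,
    List.getD_eq_getElem _ _ (by simpa using hj), List.getElem_map]

theorem getD_update_append {Γ : Type} (l : List Γ) (b x : Γ) :
    Function.update (fun i => l.getD i b) l.length x = fun i => (l ++ [x]).getD i b := by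
  funext i
  by_cases hi : i = l.length
  · subst hi
    simp
  · rw [Function.update_of_ne hi]
    rcases Nat.lt_or_gt_of_ne hi with h | h
    · simp [List.getD_eq_getElem?_getD, List.getElem?_append_left h]
    · rw [List.getD_eq_default _ _ (by omega), List.getD_eq_default _ _ (by simp; omega)]

theorem ofList_take_write (w : List Bool) {j : ℕ} (hj : j < w.length) :
    Function.update (Tape.ofList (Sum.inl Sym.blank : Sym ⊕ α) ((w.take j).map bsym)).cells j
      ((w.map bsym).getD j (Sum.inl Sym.blank))
      = (Tape.ofList (Sum.inl Sym.blank : Sym ⊕ α) ((w.take (j + 1)).map bsym)).cells := by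
  have hlen : ((w.take j).map (bsym (α := α))).length = j := by
    rw [List.length_map, List.length_take]
    omega
  have h := getD_update_append ((w.take j).map (bsym (α := α))) (Sum.inl Sym.blank)
    ((w.map bsym).getD j (Sum.inl Sym.blank))
  rw [hlen] at h
  simp only [Tape.ofList]
  rw [h, List.take_succ_eq_append_getElem hj, List.map_append, List.map_singleton,
    List.getD_eq_getElem _ _ (by simpa using hj), List.getElem_map]

/-- Copy the raw input tape `i` to the empty work tape `d`; `d` is rewound. -/
def copyInP (i d : Fin K) : Prog (Sym ⊕ α) K :=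
  Prog.seq (Prog.loop (notSym i Sym.blank) (Prog.cp i d (fun h => h i))) (rewind d)

theorem copyInP_run (i d : Fin K) (hid : i ≠ d) (w : List Bool) (s : St (Sym ⊕ α) K)
    (hi : s i = Tape.ofList (Sum.inl Sym.blank) (w.map bsym)) (hd : s d = WT [] 0) :
    RunLe (copyInP i d) s
      (Function.update (Function.update s i
        ⟨w.length, (Tape.ofList (Sum.inl Sym.blank) (w.map bsym)).cells⟩)
        d (WT (w.map bsym) 0)) (6 * w.length + 10) := by
  have hT := inj_pair hid
  have hloop := loop_count (notSym i Sym.blank) (Prog.cp i d (fun h => h i)) w.length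
    (fun j => stN s ![i, d]
      ![⟨j, (Tape.ofList (Sum.inl Sym.blank) (w.map bsym)).cells⟩, WT ((w.take j).map bsym) j]) 1
    (by
      intro j hj
      apply stN_notSym_true hT s _ 0
      exact getD_map_bsym_lt w hj)
    (by
      intro j hj
      refine (stN_cpy hT s _ _ 0 1 (by decide) ?_).le
      rw [← WT_take_write w hj]
      funext k
      fin_cases k <;> rfl)
    (by
      apply stN_notSym_false hT s _ 0
      exact getD_map_bsym_ge w le_rfl)
  have e0 : stN s ![i, d]
      ![⟨0, (Tape.ofList (Sum.inl Sym.blank) (w.map bsym)).cells⟩, WT ((w.take 0).map bsym) 0]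
      = s := by
    rw [stN_pair hid]
    have h1 : (⟨0, (Tape.ofList (Sum.inl Sym.blank) (w.map bsym)).cells⟩ : Tape (Sym ⊕ α))
        = s i := hi.symm
    have h2 : (WT ((w.take 0).map bsym) 0 : Tape (Sym ⊕ α)) = s d := hd.symm
    rw [h1, Function.update_eq_self, h2, Function.update_eq_self]
  have hrew := stN_rewind hT s
    ![⟨w.length, (Tape.ofList (Sum.inl Sym.blank) (w.map bsym)).cells⟩,
      WT ((w.take w.length).map bsym) w.length]
    ![⟨w.length, (Tape.ofList (Sum.inl Sym.blank) (w.map bsym)).cells⟩, WT (w.map bsym) 0]
    1 (w.map bsym) (lend_not_mem_map_bsym w) w.length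
    (by
      show WT ((w.take w.length).map bsym) w.length = _
      rw [List.take_length])
    (by
      funext k
      fin_cases k <;> rfl)
  have h := RunLe.seq hloop hrew.le
  refine h.cast e0 (stN_pair hid s _ _) ?_
  omega

/-- Write the content of the work tape `d` on the raw blank tape `o`. -/
def writeOutP (d o : Fin K) : Prog (Sym ⊕ α) K :=
  Prog.loop (notSym d Sym.blank) (Prog.cp d o (fun h => h d))

theorem writeOutP_run (d o : Fin K) (hdo : d ≠ o) (w : List Bool) (s : St (Sym ⊕ α) K)
    (hd : s d = WT (w.map bsym) 0) (ho : s o = Tape.ofList (Sum.inl Sym.blank) []) :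
    RunLe (writeOutP d o) s
      (Function.update (Function.update s d (WT (w.map bsym) w.length))
        o ⟨w.length, (Tape.ofList (Sum.inl Sym.blank) (w.map bsym)).cells⟩)
      (3 * w.length + 3) := by
  have hT := inj_pair hdo
  have hloop := loop_count (notSym d Sym.blank) (Prog.cp d o (fun h => h d)) w.length
    (fun j => stN s ![d, o]
      ![WT (w.map bsym) j, ⟨j, (Tape.ofList (Sum.inl Sym.blank) ((w.take j).map bsym)).cells⟩]) 1
    (by
      intro j hj
      apply stN_notSym_true hT s _ 0
      exact getD_map_bsym_lt w hj)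
    (by
      intro j hj
      refine (stN_cpy hT s _ _ 0 1 (by decide) ?_).le
      rw [← ofList_take_write w hj]
      funext k
      fin_cases k <;> rfl)
    (by
      apply stN_notSym_false hT s _ 0
      exact getD_map_bsym_ge w le_rfl)
  have e0 : stN s ![d, o]
      ![WT (w.map bsym) 0, ⟨0, (Tape.ofList (Sum.inl Sym.blank) ((w.take 0).map bsym)).cells⟩]
      = s := by
    rw [stN_pair hdo]
    have h1 : (WT (w.map bsym) 0 : Tape (Sym ⊕ α)) = s d := hd.symm
    have h2 : (⟨0, (Tape.ofList (Sum.inl Sym.blank) ((w.take 0).map bsym)).cells⟩ :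
        Tape (Sym ⊕ α)) = s o := ho.symm
    rw [h1, Function.update_eq_self, h2, Function.update_eq_self]
  have e1 : stN s ![d, o]
      ![WT (w.map bsym) w.length,
        ⟨w.length, (Tape.ofList (Sum.inl Sym.blank) ((w.take w.length).map bsym)).cells⟩]
      = Function.update (Function.update s d (WT (w.map bsym) w.length))
        o ⟨w.length, (Tape.ofList (Sum.inl Sym.blank) (w.map bsym)).cells⟩ := by
    rw [stN_pair hdo, List.take_length]
  refine hloop.cast e0 e1 ?_
  omega

/-- Turning a blank raw tape into an empty work tape. -/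
theorem initWorkP_run (a : Fin K) (s : St (Sym ⊕ α) K)
    (ha : s a = Tape.ofList (Sum.inl Sym.blank) []) :
    Run (Prog.wm a (fun _ => (Sum.inl Sym.lend : Sym ⊕ α)) Dir.R) s
      (Function.update s a (WT [] 0)) 1 := by
  have h := Run.wm a (fun _ => (Sum.inl Sym.lend : Sym ⊕ α)) Dir.R s
  have e : ((s a).write (Sum.inl Sym.lend)).move Dir.R = WT [] 0 := by
    rw [ha]
    simp only [Tape.ofList, Tape.write, Tape.move, WT]
    congr 1
    funext c
    rcases c with _ | j
    · simp [wcells]
    · simp [wcells]
  rw [e] at h
  exact h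

end Vale.Agent.H91.MT.Pre
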