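import Vale.Agent.H91.MT.RegB
import Vale.Agent.H91.MT.Pre_IO
import Vale.Agent.H91.MT.Compile

/-!
# Non-vacuity, base layer

Reachability without time bounds, an explicit description of the nine tapes of the
schoolbook multiplier, and the raw input word.
-/

namespace Vale.Agent.H91.MT.NV

open Vale.Agent.H91.MT

/-- The alphabet of the multiplier: work symbols only. -/
abbrev ΓM : Type := Sym ⊕ Empty

section Generic

variable {Γ : Type} {K : ℕ}

/-- `p` takes `s` to `s'` (in some number of steps). -/
def Reach (p : Prog Γ K) (s s' : St Γ K) : Prop := ∃ t, Run p s s' t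

theorem Reach.of_runLe {p : Prog Γ K} {s s' : St Γ K} {b : ℕ} (h : RunLe p s s' b) :
    Reach p s s' := by
  obtain ⟨t, -, h⟩ := h
  exact ⟨t, h⟩

theorem Reach.of_run {p : Prog Γ K} {s s' : St Γ K} {t : ℕ} (h : Run p s s' t) :
    Reach p s s' := ⟨t, h⟩

theorem Reach.cast {p : Prog Γ K} {s₁ s₁' s s' : St Γ K} (h : Reach p s₁ s₁')
    (hs : s₁ = s) (hs' : s₁' = s') : Reach p s s' := by
  subst hs hs'
  exact h

theorem Reach.seq {p q : Prog Γ K} {s s' s'' : St Γ K} (h : Reach p s s')
    (h' : Reach q s' s'') : Reach (Prog.seq p q) s s'' := by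
  obtain ⟨t, h⟩ := h
  obtain ⟨t', h'⟩ := h'
  exact ⟨_, Run.seq h h'⟩

theorem Reach.ite_true {c : (Fin K → Γ) → Bool} {p q : Prog Γ K} {s s' : St Γ K}
    (hc : c s.heads = true) (h : Reach p s s') : Reach (Prog.ite c p q) s s' := by
  obtain ⟨t, h⟩ := h
  exact ⟨_, Run.ite_true hc h⟩

theorem Reach.ite_false {c : (Fin K → Γ) → Bool} {p q : Prog Γ K} {s s' : St Γ K}
    (hc : c s.heads = false) (h : Reach q s s') : Reach (Prog.ite c p q) s s' := by
  obtain ⟨t, h⟩ := h
  exact ⟨_, Run.ite_false hc h⟩

/-- Loop rule with a counter: `S j` is the state at the start of round `j`. -/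
theorem Reach.loop (c : (Fin K → Γ) → Bool) (body : Prog Γ K) (n : ℕ) (S : ℕ → St Γ K)
    (hc : ∀ j, j < n → c (S j).heads = true)
    (hbody : ∀ j, j < n → Reach body (S j) (S (j + 1)))
    (hend : c (S n).heads = false) :
    Reach (Prog.loop c body) (S 0) (S n) := by
  have key : ∀ j, j ≤ n → Reach (Prog.loop c body) (S (n - j)) (S n) := by
    intro j
    induction j with
    | zero =>
      intro _
      exact ⟨1, Run.loop_false hend⟩
    | succ j ih =>
      intro hj
      have hlt : n - (j + 1) < n := by omega
      obtain ⟨t, h2⟩ := hbody _ hlt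
      have e : n - (j + 1) + 1 = n - j := by omega
      rw [e] at h2
      obtain ⟨t', h3⟩ := ih (by omega)
      exact ⟨_, Run.loop_true (hc _ hlt) h2 h3⟩
  have h := key n le_rfl
  rw [Nat.sub_self] at h
  exact h

/-- Copy the symbol under head `a` to tape `b`; head `a` moves left, head `b` moves right. -/
def rcp (a b : Fin K) : Prog Γ K :=
  Prog.step fun h i => if i = b then (h a, Dir.R) else if i = a then (h i, Dir.L) else (h i, Dir.S)

theorem rcp_run (a b : Fin K) (hab : a ≠ b) (s : St Γ K) :
    Run (rcp a b) s
      (Function.update (Function.update s a ((s a).move Dir.L)) b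
        (((s b).write (s a).read).move Dir.R)) 1 := by
  have h := Run.step
    (fun h i => if i = b then (h a, Dir.R) else if i = a then (h i, Dir.L) else (h i, Dir.S)) s
  have e : s.act ((fun h i => if i = b then (h a, Dir.R) else if i = a then (h i, Dir.L)
      else (h i, Dir.S)) s.heads) =
      Function.update (Function.update s a ((s a).move Dir.L)) b
        (((s b).write (s a).read).move Dir.R) := by
    funext i
    by_cases hi : i = b
    · subst hi
      simp [St.act, St.heads]
    · by_cases hi' : i = a
      · subst hi'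
        simp [St.act, St.heads, hi, Tape.write_read]
      · simp [St.act, St.heads, hi, hi', Tape.write_read, Tape.move]
  rw [e] at h
  exact h

end Generic

/-- Loop rule for `forRuler` without time bounds. -/
theorem Reach.forRuler {α : Type} {K : ℕ} (r : Fin K) (body : Prog (Sym ⊕ α) K) (n : ℕ)
    (S : ℕ → St (Sym ⊕ α) K) (hr : ∀ i, i ≤ n → S i r = ruler n i)
    (hbody : ∀ i, i < n → Reach body (S i) (Function.update (S (i + 1)) r (ruler n i))) :
    Reach (forRuler r body) (S 0) (Function.update (S n) r (ruler n 0)) := by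
  choose! t ht using hbody
  exact Reach.of_runLe (forRuler_run r body n S t hr (fun i hi => (ht i hi).le))

/-! ## The nine tapes -/

/-- The nine tapes: input, output, registers `X`, `Y`, `P`, `H`, a scratch register, the
counter, and the bit stream. -/
def mk (i o x y p h t n w : Tape ΓM) : St ΓM 9 := ![i, o, x, y, p, h, t, n, w]

theorem mk_upd0 (i o x y p h t n w z : Tape ΓM) :
    Function.update (mk i o x y p h t n w) 0 z = mk z o x y p h t n w := by
  funext k
  fin_cases k <;> rfl

theorem mk_upd1 (i o x y p h t n w z : Tape ΓM) :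
    Function.update (mk i o x y p h t n w) 1 z = mk i z x y p h t n w := by
  funext k
  fin_cases k <;> rfl

theorem mk_upd2 (i o x y p h t n w z : Tape ΓM) :
    Function.update (mk i o x y p h t n w) 2 z = mk i o z y p h t n w := by
  funext k
  fin_cases k <;> rfl

theorem mk_upd3 (i o x y p h t n w z : Tape ΓM) :
    Function.update (mk i o x y p h t n w) 3 z = mk i o x z p h t n w := by
  funext k
  fin_cases k <;> rfl

theorem mk_upd4 (i o x y p h t n w z : Tape ΓM) :
    Function.update (mk i o x y p h t n w) 4 z = mk i o x y z h t n w := by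
  funext k
  fin_cases k <;> rfl

theorem mk_upd5 (i o x y p h t n w z : Tape ΓM) :
    Function.update (mk i o x y p h t n w) 5 z = mk i o x y p z t n w := by
  funext k
  fin_cases k <;> rfl

theorem mk_upd6 (i o x y p h t n w z : Tape ΓM) :
    Function.update (mk i o x y p h t n w) 6 z = mk i o x y p h z n w := by
  funext k
  fin_cases k <;> rfl

theorem mk_upd7 (i o x y p h t n w z : Tape ΓM) :
    Function.update (mk i o x y p h t n w) 7 z = mk i o x y p h t z w := by
  funext k
  fin_cases k <;> rfl

theorem mk_upd8 (i o x y p h t n w z : Tape ΓM) :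
    Function.update (mk i o x y p h t n w) 8 z = mk i o x y p h t n z := by
  funext k
  fin_cases k <;> rfl

/-! ## The raw input tape -/

/-- The raw input tape holding `w`, head on cell `j`. -/
def inT (w : List ΓM) (j : ℕ) : Tape ΓM := ⟨j, (Tape.ofList (Sum.inl Sym.blank) w).cells⟩

theorem inT_read (w : List ΓM) (j : ℕ) : (inT w j).read = w.getD j (Sum.inl Sym.blank) := rfl

/-- The input word `x # y`. -/
def inW (x y : List Bool) : List ΓM := x.map bsym ++ [Sum.inl Sym.sep] ++ y.map bsym

theorem inW_getD_x (x y : List Bool) {j : ℕ} (hj : j < x.length) :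
    (inW x y).getD j (Sum.inl Sym.blank) = bsym x[j] := by
  have h1 : j < (x.map (bsym (α := Empty))).length := by simpa using hj
  simp only [inW, List.append_assoc, List.getD_eq_getElem?_getD, List.getElem?_append_left h1]
  simp [hj]

theorem inW_getD_sep (x y : List Bool) :
    (inW x y).getD x.length (Sum.inl Sym.blank) = Sum.inl Sym.sep := by
  simp [inW, List.getD_eq_getElem?_getD]

theorem inW_getD_y (x y : List Bool) {j : ℕ} (hj : j < y.length) :
    (inW x y).getD (x.length + 1 + j) (Sum.inl Sym.blank) = bsym y[j] := by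
  have h1 : (x.map (bsym (α := Empty)) ++ [Sum.inl Sym.sep]).length = x.length + 1 := by simp
  have h2 : (x.map (bsym (α := Empty)) ++ [Sum.inl Sym.sep]).length ≤ x.length + 1 + j := by
    rw [h1]
    omega
  simp only [inW, List.getD_eq_getElem?_getD, List.getElem?_append_right h2, h1]
  simp [hj]

theorem inW_getD_end (x y : List Bool) :
    (inW x y).getD (x.length + 1 + y.length) (Sum.inl Sym.blank) = Sum.inl Sym.blank := by
  rw [List.getD_eq_default]
  simp only [inW, List.length_append, List.length_map, List.length_singleton]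
  omega

theorem bsym_ne_sep (b : Bool) : (bsym b : ΓM) ≠ Sum.inl Sym.sep := by
  cases b <;> simp [bsym]

theorem val_take_succ (x : List Bool) {j : ℕ} (hj : j < x.length) :
    val (x.take (j + 1)) = 2 * val (x.take j) + (x[j]).toNat := by
  unfold val
  rw [List.take_succ_eq_append_getElem hj, List.foldl_append]
  rfl

end Vale.Agent.H91.MT.NV
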