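import Vale.Agent.H91.MT.NonVac_Out

/-!
# Non-vacuity: a machine that multiplies

The schoolbook multiplier: read `x` and `y` into unary registers, form the product in unary,
convert it to `2n` binary digits (least significant first) and write them to the output tape in
reverse order.  Speed is irrelevant here; the point is that `Multiplies` is satisfiable.
-/

namespace Vale.Agent.H91.MT.NV

open Vale.Agent.H91.MT

/-- The multiplier program on nine tapes (tape `0` input, tape `1` output). -/
def progM : Prog ΓM 9 :=
  Prog.seq initP <|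
  Prog.seq parseX <|
  Prog.seq (Prog.mv 0 Dir.R) <|
  Prog.seq parseY <|
  Prog.seq (regMulAdd 4 2 3) <|
  Prog.seq (regCopy 5 4) <|
  Prog.seq (forRuler 7 bitRound) revOut

theorem progM_run (x y : List Bool) :
    ∃ s' : St ΓM 9, Reach progM
      (fun i : Fin 9 => if i = 0 then Tape.ofList (Sum.inl Sym.blank) (inW x y)
        else Tape.ofList (Sum.inl Sym.blank) []) s' ∧
      ∀ i : ℕ, i < 2 * x.length →
        (s' 1).cells i = bsym ((val x * val y).testBit (2 * x.length - 1 - i)) := by
  have h0 := initP_run (inT (inW x y) 0) blankT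
  have h1 := parseX_run x y blankT
  have h2 := Reach.of_run (Run.mv (0 : Fin 9) Dir.R
    (mk (inT (inW x y) x.length) blankT (ruler (val x) 0) (ruler 0 0) (ruler 0 0) (ruler 0 0)
      (ruler 0 0) (ruler (2 * x.length) 0) (WT [] 0)))
  rw [mk_upd0] at h2
  have h3 := parseY_run x y blankT (ruler (val x) 0) (ruler (2 * x.length) 0)
  have h4 := Reach.of_runLe (regMulAdd_run (4 : Fin 9) 2 3 (by decide) (by decide) (by decide)
    0 (val x) (val y)
    (mk (inT (inW x y) (x.length + 1 + y.length)) blankT (ruler (val x) 0) (ruler (val y) 0)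
      (ruler 0 0) (ruler 0 0) (ruler 0 0) (ruler (2 * x.length) 0) (WT [] 0)) rfl rfl rfl)
  rw [mk_upd4, Nat.zero_add] at h4
  have h5 := Reach.of_runLe (regCopy_run (5 : Fin 9) 4 (by decide) 0 (val x * val y)
    (mk (inT (inW x y) (x.length + 1 + y.length)) blankT (ruler (val x) 0) (ruler (val y) 0)
      (ruler (val x * val y) 0) (ruler 0 0) (ruler 0 0) (ruler (2 * x.length) 0) (WT [] 0))
    rfl rfl)
  rw [mk_upd5] at h5
  have h6 := rounds_run (val x * val y) (2 * x.length)
    (inT (inW x y) (x.length + 1 + y.length)) blankT (ruler (val x) 0) (ruler (val y) 0)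
  have h7 := revOut_run (bitsL (val x * val y) (2 * x.length)) (lend_not_mem_bitsL _ _)
    (2 * x.length) (bitsL_length _ _).symm
    (inT (inW x y) (x.length + 1 + y.length)) (ruler (val x) 0) (ruler (val y) 0)
    (ruler (val x * val y / 2 ^ (2 * x.length)) 0) (ruler (val x * val y / 2 ^ (2 * x.length)) 0)
    (ruler 0 0) (ruler (2 * x.length) 0)
  have hr := h0.seq (h1.seq (h2.seq (h3.seq (h4.seq (h5.seq (h6.seq h7))))))
  rw [← init_state] at hr
  refine ⟨_, hr, ?_⟩
  intro i hi
  have hlen := bitsL_length (val x * val y) (2 * x.length)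
  have hi' : i < (bitsL (val x * val y) (2 * x.length)).length := by
    rw [hlen]
    exact hi
  show (outT (bitsL (val x * val y) (2 * x.length))
    (bitsL (val x * val y) (2 * x.length)).length).cells i = _
  rw [outT_cells _ hi']
  simp only [bitsL, List.getElem_map, List.getElem_range, List.length_map, List.length_range]

/-- The four distinguished symbols are distinct. -/
theorem nodupM :
    [(Sum.inl Sym.blank : ΓM), Sum.inl Sym.zero, Sum.inl Sym.one, Sum.inl Sym.sep].Nodup := by
  simp

/-- The schoolbook multiplier as a machine. -/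
@[reducible] noncomputable def machM : Machine :=
  Prog.toMachine (k := 8) progM (Sum.inl Sym.blank) (Sum.inl Sym.zero) (Sum.inl Sym.one)
    (Sum.inl Sym.sep) nodupM 1

theorem machM_bit (b : Bool) : machM.bit b = (bsym b : ΓM) := by
  cases b <;> rfl

theorem machM_input (x y : List Bool) : mulInput machM x y = inW x y := by
  have e : (machM.bit : Bool → ΓM) = bsym := funext machM_bit
  show x.map machM.bit ++ [Sum.inl Sym.sep] ++ y.map machM.bit = _
  rw [e]
  rfl

theorem machM_multiplies : Multiplies machM := by
  intro n _ x y hx hy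
  obtain ⟨s', ⟨t, hrun⟩, hcells⟩ := progM_run x y
  obtain ⟨c', hhalt, htape⟩ := Prog.toMachine_halts (k := 8) progM (Sum.inl Sym.blank)
    (Sum.inl Sym.zero) (Sum.inl Sym.one) (Sum.inl Sym.sep) nodupM 1 (inW x y) s' t hrun
  refine ⟨t, c', ?_, ?_⟩
  · rw [machM_input]
    exact hhalt
  · intro i hi
    have h := hcells i (by rw [hx]; exact hi)
    rw [hx] at h
    have e : c'.tape machM.out = s' 1 := by rw [htape]
    rw [e, h, machM_bit]

end Vale.Agent.H91.MT.NV
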