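import Vale.Agent.H91.MT.NonVac_Parse

/-!
# Non-vacuity: the schoolbook multiplier, output phase

The product (a unary register) is converted to binary, least significant bit first, on a work
tape, which is then written to the output tape in reverse order.
-/

namespace Vale.Agent.H91.MT.NV

open Vale.Agent.H91.MT

/-- Append the bit `P mod 2` to the stream (tape `8`) when the parity is in register `4`. -/
def emitBit : Prog ΓM 9 :=
  Prog.ite (isSym 4 Sym.one) (Prog.wm 8 (fun _ => Sum.inl Sym.one) Dir.R)
    (Prog.wm 8 (fun _ => Sum.inl Sym.zero) Dir.R)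

/-- One round: emit the lowest bit of `P` (register `4`), halve `P`; on entry and on exit
register `5` is a copy of `P`. -/
def bitRound : Prog ΓM 9 :=
  Prog.seq (regHalf 5 6) (Prog.seq (regSub 4 5) (Prog.seq (regSub 4 5)
    (Prog.seq emitBit (regCopy 4 5))))

/-- Write the stream (tape `8`) on the output tape (tape `1`) in reverse order. -/
def revOut : Prog ΓM 9 :=
  Prog.seq (Prog.mv 8 Dir.L) (Prog.loop (notSym 8 Sym.lend) (rcp 8 1))

/-- The low `j` bits of `v`, least significant first, as tape symbols. -/
def bitsL (v j : ℕ) : List ΓM := (List.range j).map fun i => bsym (v.testBit i)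

theorem bitsL_length (v j : ℕ) : (bitsL v j).length = j := by
  simp [bitsL]

theorem bitsL_succ (v j : ℕ) : bitsL v (j + 1) = bitsL v j ++ [bsym (v.testBit j)] := by
  simp [bitsL, List.range_succ]

theorem lend_not_mem_bitsL (v j : ℕ) : (Sum.inl Sym.lend : ΓM) ∉ bitsL v j := by
  intro h
  obtain ⟨i, -, hi⟩ := List.mem_map.mp h
  exact Pre.bsym_ne_lend _ hi

theorem emitBit_run (c : ℕ) (b : Bool) (hc : c = b.toNat) (l : List ΓM) (q : ℕ)
    (hq : q = l.length) (I o X Y H T N : Tape ΓM) :
    Reach emitBit (mk I o X Y (ruler c 0) H T N (WT l q))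
      (mk I o X Y (ruler c 0) H T N (WT (l ++ [bsym b]) (q + 1))) := by
  subst hc hq
  cases b with
  | true =>
    have hc : isSym 4 Sym.one
        (mk I o X Y (ruler true.toNat 0) H T N (WT l l.length)).heads = true := by
      apply isSym_true
      show (ruler 1 0 : Tape ΓM).read = _
      exact ruler_read_lt (by decide)
    have h := Reach.of_run (Run.wm (8 : Fin 9) (fun _ => (Sum.inl Sym.one : ΓM)) Dir.R
      (mk I o X Y (ruler true.toNat 0) H T N (WT l l.length)))
    rw [mk_upd8] at h
    have e : ((mk I o X Y (ruler true.toNat 0) H T N (WT l l.length) 8).write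
        (Sum.inl Sym.one)).move Dir.R = WT (l ++ [bsym true]) (l.length + 1) := by
      show ((WT l l.length).write (Sum.inl Sym.one)).move Dir.R = _
      rw [WT_write_end]
      rfl
    rw [e] at h
    exact Reach.ite_true hc h
  | false =>
    have hc : isSym 4 Sym.one
        (mk I o X Y (ruler false.toNat 0) H T N (WT l l.length)).heads = false := by
      apply isSym_false
      show (ruler 0 0 : Tape ΓM).read ≠ _
      rw [ruler_read_ge (le_refl 0)]
      simp
    have h := Reach.of_run (Run.wm (8 : Fin 9) (fun _ => (Sum.inl Sym.zero : ΓM)) Dir.R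
      (mk I o X Y (ruler false.toNat 0) H T N (WT l l.length)))
    rw [mk_upd8] at h
    have e : ((mk I o X Y (ruler false.toNat 0) H T N (WT l l.length) 8).write
        (Sum.inl Sym.zero)).move Dir.R = WT (l ++ [bsym false]) (l.length + 1) := by
      show ((WT l l.length).write (Sum.inl Sym.zero)).move Dir.R = _
      rw [WT_write_end]
      rfl
    rw [e] at h
    exact Reach.ite_false hc h

theorem bitRound_run (u : ℕ) (b : Bool) (hb : u % 2 = b.toNat) (l : List ΓM) (q : ℕ)
    (hq : q = l.length) (I o X Y N : Tape ΓM) :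
    Reach bitRound (mk I o X Y (ruler u 0) (ruler u 0) (ruler 0 0) N (WT l q))
      (mk I o X Y (ruler (u / 2) 0) (ruler (u / 2) 0) (ruler 0 0) N
        (WT (l ++ [bsym b]) (q + 1))) := by
  have g1 := Reach.of_runLe (regHalf_run (5 : Fin 9) 6 (by decide) u
    (mk I o X Y (ruler u 0) (ruler u 0) (ruler 0 0) N (WT l q)) rfl rfl)
  rw [mk_upd5] at g1
  have g2 := Reach.of_runLe (regSub_run (4 : Fin 9) 5 (by decide) u (u / 2)
    (mk I o X Y (ruler u 0) (ruler (u / 2) 0) (ruler 0 0) N (WT l q)) rfl rfl)
  rw [mk_upd4] at g2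
  have g3 := Reach.of_runLe (regSub_run (4 : Fin 9) 5 (by decide) (u - u / 2) (u / 2)
    (mk I o X Y (ruler (u - u / 2) 0) (ruler (u / 2) 0) (ruler 0 0) N (WT l q)) rfl rfl)
  rw [mk_upd4] at g3
  have g4 := emitBit_run (u - u / 2 - u / 2) b (by omega) l q hq I o X Y (ruler (u / 2) 0)
    (ruler 0 0) N
  have g5 := Reach.of_runLe (regCopy_run (4 : Fin 9) 5 (by decide) (u - u / 2 - u / 2) (u / 2)
    (mk I o X Y (ruler (u - u / 2 - u / 2) 0) (ruler (u / 2) 0) (ruler 0 0) N
      (WT (l ++ [bsym b]) (q + 1))) rfl rfl)
  rw [mk_upd4] at g5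
  exact g1.seq (g2.seq (g3.seq (g4.seq g5)))

theorem rounds_run (v m : ℕ) (I o X Y : Tape ΓM) :
    Reach (forRuler 7 bitRound)
      (mk I o X Y (ruler v 0) (ruler v 0) (ruler 0 0) (ruler m 0) (WT [] 0))
      (mk I o X Y (ruler (v / 2 ^ m) 0) (ruler (v / 2 ^ m) 0) (ruler 0 0) (ruler m 0)
        (WT (bitsL v m) m)) := by
  have h := Reach.forRuler (7 : Fin 9) bitRound m
    (fun j => mk I o X Y (ruler (v / 2 ^ j) 0) (ruler (v / 2 ^ j) 0) (ruler 0 0) (ruler m j)
      (WT (bitsL v j) j))
    (fun i _ => rfl)
    (by
      intro i _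
      have hb : v / 2 ^ i % 2 = (v.testBit i).toNat := by
        rw [Nat.testBit_eq_decide_div_mod_eq]
        rcases Nat.mod_two_eq_zero_or_one (v / 2 ^ i) with h0 | h1
        · simp [h0]
        · simp [h1]
      have g := bitRound_run (v / 2 ^ i) (v.testBit i) hb (bitsL v i) i (bitsL_length v i).symm
        I o X Y (ruler m i)
      have e : v / 2 ^ i / 2 = v / 2 ^ (i + 1) := by
        rw [Nat.div_div_eq_div_mul, pow_succ]
      rw [e, ← bitsL_succ] at g
      rw [mk_upd7]
      exact g)
  rw [mk_upd7] at h
  refine h.cast ?_ rfl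
  show mk I o X Y (ruler (v / 2 ^ 0) 0) (ruler (v / 2 ^ 0) 0) (ruler 0 0) (ruler m 0)
      (WT (bitsL v 0) 0) = _
  rw [pow_zero, Nat.div_one]
  rfl

/-- The output tape after `j` symbols of the reversed stream have been written. -/
def outT (l : List ΓM) (j : ℕ) : Tape ΓM :=
  ⟨j, (Tape.ofList (Sum.inl Sym.blank) (l.reverse.take j)).cells⟩

/-- The stream tape with its head on raw cell `c`. -/
def strT (l : List ΓM) (c : ℕ) : Tape ΓM := ⟨c, wcells l⟩

theorem strT_read (l : List ΓM) {j : ℕ} (hj : j < l.length) :
    (strT l (l.length - j)).read = l.reverse[j]'(by simpa using hj) := by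
  obtain ⟨k, hk⟩ : ∃ k, l.length - j = k + 1 := ⟨l.length - j - 1, by omega⟩
  have hk' : k < l.length := by omega
  simp only [strT, Tape.read, hk, wcells]
  rw [List.getD_eq_getElem _ _ hk', List.getElem_reverse]
  congr 1
  omega

theorem outT_step (l : List ΓM) {j : ℕ} (hj : j < l.length) :
    ((outT l j).write (l.reverse[j]'(by simpa using hj))).move Dir.R = outT l (j + 1) := by
  have hj' : j < l.reverse.length := by simpa using hj
  have hlen : (l.reverse.take j).length = j := by
    rw [List.length_take]
    omega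
  have h := Pre.getD_update_append (l.reverse.take j) (Sum.inl Sym.blank : ΓM) (l.reverse[j])
  rw [hlen] at h
  simp only [outT, Tape.write, Tape.move, Tape.ofList]
  rw [h, List.take_succ_eq_append_getElem hj']

theorem revOut_run (l : List ΓM) (hl : Sum.inl Sym.lend ∉ l) (q : ℕ) (hq : q = l.length)
    (I X Y P H T N : Tape ΓM) :
    Reach revOut (mk I blankT X Y P H T N (WT l q))
      (mk I (outT l l.length) X Y P H T N (strT l 0)) := by
  subst hq
  have h1 := Reach.of_run (Run.mv (8 : Fin 9) Dir.L (mk I blankT X Y P H T N (WT l l.length)))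
  rw [mk_upd8] at h1
  have h2 := Reach.loop (notSym 8 Sym.lend) (rcp (8 : Fin 9) 1) l.length
    (fun j => mk I (outT l j) X Y P H T N (strT l (l.length - j)))
    (by
      intro j hj
      apply notSym_true
      show (strT l (l.length - j)).read ≠ _
      rw [strT_read l hj]
      intro h
      exact hl (List.mem_reverse.mp (h ▸ List.getElem_mem _)))
    (by
      intro j hj
      have g := Reach.of_run (rcp_run (8 : Fin 9) 1 (by decide)
        (mk I (outT l j) X Y P H T N (strT l (l.length - j))))
      rw [mk_upd8, mk_upd1] at g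
      have e1 : ((mk I (outT l j) X Y P H T N (strT l (l.length - j)) 1).write
          (mk I (outT l j) X Y P H T N (strT l (l.length - j)) 8).read).move Dir.R =
          outT l (j + 1) := by
        show ((outT l j).write (strT l (l.length - j)).read).move Dir.R = _
        rw [strT_read l hj, outT_step l hj]
      rw [e1] at g
      exact g)
    (by
      apply notSym_false
      show (strT l (l.length - l.length)).read = _
      rw [Nat.sub_self]
      rfl)
  rw [Nat.sub_self] at h2
  exact h1.seq h2

theorem outT_cells (l : List ΓM) {i : ℕ} (hi : i < l.length) :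
    (outT l l.length).cells i = l[l.length - 1 - i] := by
  have hi' : i < l.reverse.length := by simpa using hi
  have e : l.reverse.take l.length = l.reverse := by
    rw [List.take_of_length_le]
    simp
  simp only [outT, Tape.ofList, e]
  rw [List.getD_eq_getElem _ _ hi', List.getElem_reverse]

end Vale.Agent.H91.MT.NV
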