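import Vale.Agent.H91.MT.NonVac_Base

/-!
# Non-vacuity: the schoolbook multiplier, input phase

The program converts `x` and `y` to unary registers while reading the input tape.
-/

namespace Vale.Agent.H91.MT.NV

open Vale.Agent.H91.MT

/-- Turn the seven blank work tapes into empty work tapes. -/
def initP : Prog ΓM 9 :=
  Prog.seq (Prog.wm 2 (fun _ => Sum.inl Sym.lend) Dir.R) <|
  Prog.seq (Prog.wm 3 (fun _ => Sum.inl Sym.lend) Dir.R) <|
  Prog.seq (Prog.wm 4 (fun _ => Sum.inl Sym.lend) Dir.R) <|
  Prog.seq (Prog.wm 5 (fun _ => Sum.inl Sym.lend) Dir.R) <|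
  Prog.seq (Prog.wm 6 (fun _ => Sum.inl Sym.lend) Dir.R) <|
  Prog.seq (Prog.wm 7 (fun _ => Sum.inl Sym.lend) Dir.R)
    (Prog.wm 8 (fun _ => Sum.inl Sym.lend) Dir.R)

/-- `r := 2 * r + (the bit under the input head)`; tape `6` is an empty scratch register. -/
def readBit (r : Fin 9) : Prog ΓM 9 :=
  Prog.seq (regDouble r 6) (Prog.ite (isSym 0 Sym.one) (regInc r) (Prog.mv 0 Dir.S))

/-- Read `x` into register `2` (unary), counting two per bit in register `7`. -/
def parseX : Prog ΓM 9 :=
  Prog.loop (notSym 0 Sym.sep)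
    (Prog.seq (readBit 2) (Prog.seq (regInc 7) (Prog.seq (regInc 7) (Prog.mv 0 Dir.R))))

/-- Read `y` into register `3` (unary). -/
def parseY : Prog ΓM 9 :=
  Prog.loop (notSym 0 Sym.blank) (Prog.seq (readBit 3) (Prog.mv 0 Dir.R))

/-- A blank raw tape. -/
def blankT : Tape ΓM := Tape.ofList (Sum.inl Sym.blank) []

theorem init_state (w : List ΓM) :
    (fun i : Fin 9 => if i = 0 then Tape.ofList (Sum.inl Sym.blank) w
      else Tape.ofList (Sum.inl Sym.blank) []) =
    mk (inT w 0) blankT blankT blankT blankT blankT blankT blankT blankT := by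
  funext k
  fin_cases k <;> rfl

theorem initP_run (i o : Tape ΓM) :
    Reach initP (mk i o blankT blankT blankT blankT blankT blankT blankT)
      (mk i o (ruler 0 0) (ruler 0 0) (ruler 0 0) (ruler 0 0) (ruler 0 0) (ruler 0 0)
        (WT [] 0)) := by
  have h2 := Reach.of_run (Pre.initWorkP_run (2 : Fin 9)
    (mk i o blankT blankT blankT blankT blankT blankT blankT) rfl)
  rw [mk_upd2] at h2
  have h3 := Reach.of_run (Pre.initWorkP_run (3 : Fin 9)
    (mk i o (WT [] 0) blankT blankT blankT blankT blankT blankT) rfl)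
  rw [mk_upd3] at h3
  have h4 := Reach.of_run (Pre.initWorkP_run (4 : Fin 9)
    (mk i o (WT [] 0) (WT [] 0) blankT blankT blankT blankT blankT) rfl)
  rw [mk_upd4] at h4
  have h5 := Reach.of_run (Pre.initWorkP_run (5 : Fin 9)
    (mk i o (WT [] 0) (WT [] 0) (WT [] 0) blankT blankT blankT blankT) rfl)
  rw [mk_upd5] at h5
  have h6 := Reach.of_run (Pre.initWorkP_run (6 : Fin 9)
    (mk i o (WT [] 0) (WT [] 0) (WT [] 0) (WT [] 0) blankT blankT blankT) rfl)
  rw [mk_upd6] at h6
  have h7 := Reach.of_run (Pre.initWorkP_run (7 : Fin 9)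
    (mk i o (WT [] 0) (WT [] 0) (WT [] 0) (WT [] 0) (WT [] 0) blankT blankT) rfl)
  rw [mk_upd7] at h7
  have h8 := Reach.of_run (Pre.initWorkP_run (8 : Fin 9)
    (mk i o (WT [] 0) (WT [] 0) (WT [] 0) (WT [] 0) (WT [] 0) (WT [] 0) blankT) rfl)
  rw [mk_upd8] at h8
  exact h2.seq (h3.seq (h4.seq (h5.seq (h6.seq (h7.seq h8)))))

theorem readBit_run (r : Fin 9) (hr6 : r ≠ 6) (hr0 : r ≠ 0) (v : ℕ) (b : Bool) (s : St ΓM 9)
    (hr : s r = ruler v 0) (ht : s 6 = ruler 0 0) (hb : (s 0).read = bsym b) :
    Reach (readBit r) s (Function.update s r (ruler (2 * v + b.toNat) 0)) := by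
  have h1 := Reach.of_runLe (regDouble_run r 6 hr6 v s hr ht)
  have e0 : (Function.update s r (ruler (2 * v) 0)) 0 = s 0 :=
    Function.update_of_ne (Ne.symm hr0) _ _
  cases b with
  | true =>
    have hc : isSym 0 Sym.one (St.heads (Function.update s r (ruler (2 * v) 0))) = true := by
      apply isSym_true
      rw [e0, hb]
      rfl
    have h2 := Reach.of_runLe (regInc_run r (2 * v) (Function.update s r (ruler (2 * v) 0))
      (Function.update_self _ _ _))
    rw [Function.update_idem] at h2
    exact h1.seq (Reach.ite_true hc h2)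
  | false =>
    have hc : isSym 0 Sym.one (St.heads (Function.update s r (ruler (2 * v) 0))) = false := by
      apply isSym_false
      rw [e0, hb]
      simp [bsym]
    have h2 := Reach.of_run (Run.mv (0 : Fin 9) Dir.S (Function.update s r (ruler (2 * v) 0)))
    have e : Function.update (Function.update s r (ruler (2 * v) 0)) 0
        (((Function.update s r (ruler (2 * v) 0)) 0).move Dir.S) =
        Function.update s r (ruler (2 * v) 0) := Function.update_eq_self _ _
    rw [e] at h2
    exact h1.seq (Reach.ite_false hc h2)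

theorem parseX_run (x y : List Bool) (o : Tape ΓM) :
    Reach parseX
      (mk (inT (inW x y) 0) o (ruler 0 0) (ruler 0 0) (ruler 0 0) (ruler 0 0) (ruler 0 0)
        (ruler 0 0) (WT [] 0))
      (mk (inT (inW x y) x.length) o (ruler (val x) 0) (ruler 0 0) (ruler 0 0) (ruler 0 0)
        (ruler 0 0) (ruler (2 * x.length) 0) (WT [] 0)) := by
  have h := Reach.loop (notSym 0 Sym.sep)
    (Prog.seq (readBit 2) (Prog.seq (regInc 7) (Prog.seq (regInc 7) (Prog.mv 0 Dir.R))))
    x.length
    (fun j => mk (inT (inW x y) j) o (ruler (val (x.take j)) 0) (ruler 0 0) (ruler 0 0)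
      (ruler 0 0) (ruler 0 0) (ruler (2 * j) 0) (WT [] 0))
    (by
      intro j hj
      apply notSym_true
      show (inT (inW x y) j).read ≠ Sum.inl Sym.sep
      rw [inT_read, inW_getD_x x y hj]
      exact bsym_ne_sep _)
    (by
      intro j hj
      have h1 := readBit_run 2 (by decide) (by decide) (val (x.take j)) x[j]
        (mk (inT (inW x y) j) o (ruler (val (x.take j)) 0) (ruler 0 0) (ruler 0 0)
          (ruler 0 0) (ruler 0 0) (ruler (2 * j) 0) (WT [] 0)) rfl rfl
        (by
          show (inT (inW x y) j).read = _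
          rw [inT_read, inW_getD_x x y hj])
      rw [mk_upd2, ← val_take_succ x hj] at h1
      have h2 := Reach.of_runLe (regInc_run (7 : Fin 9) (2 * j)
        (mk (inT (inW x y) j) o (ruler (val (x.take (j + 1))) 0) (ruler 0 0) (ruler 0 0)
          (ruler 0 0) (ruler 0 0) (ruler (2 * j) 0) (WT [] 0)) rfl)
      rw [mk_upd7] at h2
      have h3 := Reach.of_runLe (regInc_run (7 : Fin 9) (2 * j + 1)
        (mk (inT (inW x y) j) o (ruler (val (x.take (j + 1))) 0) (ruler 0 0) (ruler 0 0)
          (ruler 0 0) (ruler 0 0) (ruler (2 * j + 1) 0) (WT [] 0)) rfl)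
      rw [mk_upd7] at h3
      have h4 := Reach.of_run (Run.mv (0 : Fin 9) Dir.R
        (mk (inT (inW x y) j) o (ruler (val (x.take (j + 1))) 0) (ruler 0 0) (ruler 0 0)
          (ruler 0 0) (ruler 0 0) (ruler (2 * j + 1 + 1) 0) (WT [] 0)))
      rw [mk_upd0] at h4
      exact h1.seq (h2.seq (h3.seq h4)))
    (by
      apply notSym_false
      show (inT (inW x y) x.length).read = Sum.inl Sym.sep
      rw [inT_read, inW_getD_sep])
  refine h.cast rfl ?_
  show mk (inT (inW x y) x.length) o (ruler (val (x.take x.length)) 0) (ruler 0 0) (ruler 0 0)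
      (ruler 0 0) (ruler 0 0) (ruler (2 * x.length) 0) (WT [] 0) = _
  rw [List.take_length]

theorem parseY_run (x y : List Bool) (o X N : Tape ΓM) :
    Reach parseY
      (mk (inT (inW x y) (x.length + 1)) o X (ruler 0 0) (ruler 0 0) (ruler 0 0) (ruler 0 0)
        N (WT [] 0))
      (mk (inT (inW x y) (x.length + 1 + y.length)) o X (ruler (val y) 0) (ruler 0 0)
        (ruler 0 0) (ruler 0 0) N (WT [] 0)) := by
  have h := Reach.loop (notSym 0 Sym.blank) (Prog.seq (readBit 3) (Prog.mv 0 Dir.R)) y.length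
    (fun j => mk (inT (inW x y) (x.length + 1 + j)) o X (ruler (val (y.take j)) 0) (ruler 0 0)
      (ruler 0 0) (ruler 0 0) N (WT [] 0))
    (by
      intro j hj
      apply notSym_true
      show (inT (inW x y) (x.length + 1 + j)).read ≠ Sum.inl Sym.blank
      rw [inT_read, inW_getD_y x y hj]
      exact Pre.bsym_ne_blank _)
    (by
      intro j hj
      have h1 := readBit_run 3 (by decide) (by decide) (val (y.take j)) y[j]
        (mk (inT (inW x y) (x.length + 1 + j)) o X (ruler (val (y.take j)) 0) (ruler 0 0)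
          (ruler 0 0) (ruler 0 0) N (WT [] 0)) rfl rfl
        (by
          show (inT (inW x y) (x.length + 1 + j)).read = _
          rw [inT_read, inW_getD_y x y hj])
      rw [mk_upd3, ← val_take_succ y hj] at h1
      have h4 := Reach.of_run (Run.mv (0 : Fin 9) Dir.R
        (mk (inT (inW x y) (x.length + 1 + j)) o X (ruler (val (y.take (j + 1))) 0) (ruler 0 0)
          (ruler 0 0) (ruler 0 0) N (WT [] 0)))
      rw [mk_upd0] at h4
      exact h1.seq h4)
    (by
      apply notSym_false
      show (inT (inW x y) (x.length + 1 + y.length)).read = Sum.inl Sym.blank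
      rw [inT_read, inW_getD_end])
  refine h.cast rfl ?_
  show mk (inT (inW x y) (x.length + 1 + y.length)) o X (ruler (val (y.take y.length)) 0)
      (ruler 0 0) (ruler 0 0) (ruler 0 0) N (WT [] 0) = _
  rw [List.take_length]

end Vale.Agent.H91.MT.NV
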