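import Vale.Agent.H91.MT.Tapes

/-!
# TASK REGB, auxiliary file: facts about rulers and the elementary loops of the register programs
-/

namespace Vale.Agent.H91.MT

variable {α : Type} {K : ℕ}

/-! ## Auxiliary facts about rulers -/

theorem wcells_append_blank (l : List (Sym ⊕ α)) :
    wcells (l ++ [Sum.inl Sym.blank]) = wcells l := by
  funext i
  rcases i with _ | j
  · rfl
  · simp only [wcells, List.getD_eq_getElem?_getD]
    rcases Nat.lt_or_ge j l.length with h | h
    · rw [List.getElem?_append_left h]
    · rw [List.getElem?_eq_none (l := l) h, List.getElem?_append_right h]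
      rcases Nat.eq_zero_or_pos (j - l.length) with h0 | h0
      · rw [h0]; rfl
      · rw [List.getElem?_eq_none (by simp; omega)]

theorem WT_append_blank (l : List (Sym ⊕ α)) (p : ℕ) :
    WT (l ++ [Sum.inl Sym.blank]) p = WT l p := by
  simp only [WT, wcells_append_blank]

theorem ruler_def (n p : ℕ) :
    (ruler n p : Tape (Sym ⊕ α)) = WT (List.replicate n (Sum.inl Sym.one)) p := rfl

theorem ruler_move_R (n p : ℕ) : (ruler n p : Tape (Sym ⊕ α)).move Dir.R = ruler n (p + 1) := rfl

theorem blank_not_mem_replicate_one (n : ℕ) :
    (Sum.inl Sym.blank : Sym ⊕ α) ∉ List.replicate n (Sum.inl Sym.one) := by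
  intro h
  have := List.eq_of_mem_replicate h
  cases this

/-- Erasing the last cell of a ruler. -/
theorem ruler_write_blank (n : ℕ) :
    (ruler (n + 1) n : Tape (Sym ⊕ α)).write (Sum.inl Sym.blank) = ruler n n := by
  rw [ruler_def, WT_write_lt _ _ _ (by simp)]
  have e : (List.replicate (n + 1) (Sum.inl Sym.one : Sym ⊕ α)).set n (Sum.inl Sym.blank)
      = List.replicate n (Sum.inl Sym.one) ++ [Sum.inl Sym.blank] := by
    rw [List.replicate_succ', List.set_append_right _ _ (by simp)]
    simp
  rw [e, WT_append_blank]
  rfl

/-- Appending a one to a ruler at its end. -/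
theorem ruler_write_one (n : ℕ) :
    (ruler n n : Tape (Sym ⊕ α)).write (Sum.inl Sym.one) = ruler (n + 1) n := by
  have h := WT_write_end (List.replicate n (Sum.inl Sym.one : Sym ⊕ α)) (Sum.inl Sym.one)
  rw [List.length_replicate, ← List.replicate_succ'] at h
  exact h

theorem rewind_ruler (a : Fin K) (n p : ℕ) (s : St (Sym ⊕ α) K) (hs : s a = ruler n p) :
    RunLe (rewind a) s (Function.update s a (ruler n 0)) (2 * p + 4) :=
  (rewind_run a (List.replicate n (Sum.inl Sym.one)) (lend_not_mem_replicate_one n) p s hs).le

/-! ## Loops -/

/-- For every two cells of `r` (from its head), append a one to `t`; `r` ends on its end. -/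
def halfLoop (r t : Fin K) : Prog (Sym ⊕ α) K :=
  Prog.loop (isSym r Sym.one) (Prog.seq (Prog.mv r Dir.R)
    (Prog.ite (isSym r Sym.one)
      (Prog.seq (Prog.wm t (fun _ => Sum.inl Sym.one) Dir.R) (Prog.mv r Dir.R))
      (Prog.mv r Dir.S)))

theorem halfLoop_run (r t : Fin K) (hrt : r ≠ t) (v : ℕ) :
    ∀ (n j : ℕ) (s : St (Sym ⊕ α) K), v - 2 * j = n → 2 * j ≤ v →
      s r = ruler v (2 * j) → s t = ruler j j →
      RunLe (halfLoop r t) s
        (Function.update (Function.update s r (ruler v v)) t (ruler (v / 2) (v / 2)))
        (5 * (v / 2 - j) + 5) := by
  intro n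
  induction n using Nat.strong_induction_on with
  | _ n ih =>
    intro j s hn hj hr ht
    have htr : t ≠ r := Ne.symm hrt
    rcases Nat.lt_or_ge (2 * j) v with hlt | hge
    · -- the head of `r` reads a one
      have hc1 : isSym r Sym.one s.heads = true := by
        apply isSym_true
        rw [hr, ruler_read_lt hlt]
      have hm1 := Run.mv r Dir.R s
      rw [hr, ruler_move_R] at hm1
      rcases Nat.lt_or_ge (2 * j + 1) v with hlt2 | hge2
      · -- a full pair
        have hc2 : isSym r Sym.one (St.heads (Function.update s r
            (ruler v (2 * j + 1) : Tape (Sym ⊕ α)))) = true := by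
          apply isSym_true
          rw [Function.update_self, ruler_read_lt hlt2]
        have hw := Run.wm t (fun _ => (Sum.inl Sym.one : Sym ⊕ α)) Dir.R
          (Function.update s r (ruler v (2 * j + 1)))
        rw [Function.update_of_ne htr, ht, ruler_write_one, ruler_move_R] at hw
        have hm2 := Run.mv r Dir.R (Function.update (Function.update s r (ruler v (2 * j + 1))) t
          (ruler (j + 1) (j + 1)))
        rw [Function.update_of_ne hrt, Function.update_self, ruler_move_R] at hm2
        have hbody := Run.seq hm1 (Run.ite_true (q := Prog.mv r Dir.S) hc2 (Run.seq hw hm2))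
        have hrec := ih (v - 2 * (j + 1)) (by omega) (j + 1)
          (Function.update (Function.update (Function.update s r (ruler v (2 * j + 1))) t
            (ruler (j + 1) (j + 1))) r (ruler v (2 * j + 1 + 1))) rfl (by omega)
          (by rw [Function.update_self]; congr 1)
          (by rw [Function.update_of_ne htr, Function.update_self])
        have h := RunLe.loop_true hc1 hbody.le hrec
        refine h.cast rfl ?_ (by omega)
        funext i
        simp only [Function.update_apply]
        split_ifs <;> simp_all
      · -- a single last cell
        have hv : v = 2 * j + 1 := by omega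
        have hc2 : isSym r Sym.one (St.heads (Function.update s r
            (ruler v (2 * j + 1) : Tape (Sym ⊕ α)))) = false := by
          apply isSym_false
          rw [Function.update_self, ruler_read_ge hge2]
          simp
        have hm2 := Run.mv r Dir.S (Function.update s r (ruler v (2 * j + 1)))
        rw [Function.update_self, Function.update_idem] at hm2
        have e : ((ruler v (2 * j + 1) : Tape (Sym ⊕ α)).move Dir.S) = ruler v (2 * j + 1) := rfl
        rw [e] at hm2
        have hbody := Run.seq hm1 (Run.ite_false
          (p := Prog.seq (Prog.wm t (fun _ => (Sum.inl Sym.one : Sym ⊕ α)) Dir.R) (Prog.mv r Dir.R))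
          hc2 hm2)
        have hc3 : isSym r Sym.one (St.heads (Function.update s r
            (ruler v (2 * j + 1) : Tape (Sym ⊕ α)))) = false := hc2
        have h := RunLe.loop_true hc1 hbody.le (RunLe.loop_false hc3)
        refine h.cast rfl ?_ (by omega)
        have hq : v / 2 = j := by omega
        rw [hq, ← hv]
        funext i
        simp only [Function.update_apply]
        split_ifs with h1 h2 h2
        · exact absurd (h1.symm.trans h2) hrt
        · rfl
        · rw [h2, ht]
        · rfl
    · -- the head of `r` reads a blank
      have hv : v = 2 * j := by omega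
      have hc1 : isSym r Sym.one s.heads = false := by
        apply isSym_false
        rw [hr, ruler_read_ge hge]
        simp
      have h : RunLe (halfLoop r t) s s 1 := RunLe.loop_false hc1
      refine h.cast rfl ?_ (by omega)
      have hq : v / 2 = j := by omega
      rw [hq]
      funext i
      simp only [Function.update_apply]
      split_ifs with h1 h2
      · rw [h1, ht]
      · rw [h2, hr, ← hv]
      · rfl

/-- Move the heads of `r` and `m` right together, to the end of `r`. -/
def walkBoth (r m : Fin K) : Prog (Sym ⊕ α) K :=
  Prog.loop (isSym r Sym.one) (Prog.seq (Prog.mv r Dir.R) (Prog.mv m Dir.R))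

theorem walkBoth_run (r m : Fin K) (hrm : r ≠ m) (v M : ℕ) :
    ∀ (n p : ℕ) (s : St (Sym ⊕ α) K), v - p = n → p ≤ v →
      s r = ruler v p → s m = ruler M p →
      RunLe (walkBoth r m) s
        (Function.update (Function.update s r (ruler v v)) m (ruler M v)) (3 * (v - p) + 1) := by
  intro n
  induction n with
  | zero =>
    intro p s hn hp hr hm
    have hv : p = v := by omega
    subst hv
    have hc : isSym r Sym.one s.heads = false := by
      apply isSym_false
      rw [hr, ruler_read_ge le_rfl]
      simp
    have h : RunLe (walkBoth r m) s s 1 := RunLe.loop_false hc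
    refine h.cast rfl ?_ (by omega)
    funext i
    simp only [Function.update_apply]
    split_ifs with h1 h2
    · rw [h1, hm]
    · rw [h2, hr]
    · rfl
  | succ n ih =>
    intro p s hn hp hr hm
    have hlt : p < v := by omega
    have hc : isSym r Sym.one s.heads = true := by
      apply isSym_true
      rw [hr, ruler_read_lt hlt]
    have h1 := Run.mv r Dir.R s
    rw [hr, ruler_move_R] at h1
    have h2 := Run.mv m Dir.R (Function.update s r (ruler v (p + 1)))
    rw [Function.update_of_ne (Ne.symm hrm), hm, ruler_move_R] at h2
    have hrec := ih (p + 1)
      (Function.update (Function.update s r (ruler v (p + 1))) m (ruler M (p + 1)))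
      (by omega) (by omega)
      (by rw [Function.update_of_ne hrm, Function.update_self]) (by rw [Function.update_self])
    have h := RunLe.loop_true hc (Run.seq h1 h2).le hrec
    refine h.cast rfl ?_ (by omega)
    funext i
    simp only [Function.update_apply]
    split_ifs <;> simp_all

/-- While `a` and `m` both read a one: append a one to `r` and advance `a` and `m`. -/
def addLoop (r a m : Fin K) : Prog (Sym ⊕ α) K :=
  Prog.loop (fun h => isSym a Sym.one h && isSym m Sym.one h)
    (Prog.seq (Prog.wm r (fun _ => Sum.inl Sym.one) Dir.R)
      (Prog.seq (Prog.mv a Dir.R) (Prog.mv m Dir.R)))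

theorem addLoop_run (r a m : Fin K) (hra : r ≠ a) (hrm : r ≠ m) (ham : a ≠ m) (x M : ℕ) :
    ∀ (d i c : ℕ) (s : St (Sym ⊕ α) K), i + d ≤ x → c + d ≤ M → (i + d = x ∨ c + d = M) →
      s r = ruler c c → s a = ruler x i → s m = ruler M c →
      RunLe (addLoop r a m) s
        (Function.update (Function.update (Function.update s r (ruler (c + d) (c + d)))
          a (ruler x (i + d))) m (ruler M (c + d))) (4 * d + 1) := by
  intro d
  induction d with
  | zero =>
    intro i c s hi hc hor hr ha hm
    have hcond : (fun h => isSym a Sym.one h && isSym m Sym.one h) s.heads = false := by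
      show (isSym a Sym.one s.heads && isSym m Sym.one s.heads) = false
      rcases hor with h | h
      · have : isSym a Sym.one s.heads = false := by
          apply isSym_false
          rw [ha, ruler_read_ge (by omega)]
          simp
        rw [this, Bool.false_and]
      · have : isSym m Sym.one s.heads = false := by
          apply isSym_false
          rw [hm, ruler_read_ge (by omega)]
          simp
        rw [this, Bool.and_false]
    have h : RunLe (addLoop r a m) s s 1 := RunLe.loop_false hcond
    refine h.cast rfl ?_ (by omega)
    funext j
    simp only [Function.update_apply, Nat.add_zero]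
    split_ifs with h1 h2 h3
    · rw [h1, hm]
    · rw [h2, ha]
    · rw [h3, hr]
    · rfl
  | succ d ih =>
    intro i c s hi hc hor hr ha hm
    have hcond : (fun h => isSym a Sym.one h && isSym m Sym.one h) s.heads = true := by
      show (isSym a Sym.one s.heads && isSym m Sym.one s.heads) = true
      have h1 : isSym a Sym.one s.heads = true := by
        apply isSym_true
        rw [ha, ruler_read_lt (by omega)]
      have h2 : isSym m Sym.one s.heads = true := by
        apply isSym_true
        rw [hm, ruler_read_lt (by omega)]
      rw [h1, h2, Bool.and_self]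
    have h1 := Run.wm r (fun _ => (Sum.inl Sym.one : Sym ⊕ α)) Dir.R s
    rw [hr, ruler_write_one, ruler_move_R] at h1
    have h2 := Run.mv a Dir.R (Function.update s r (ruler (c + 1) (c + 1)))
    rw [Function.update_of_ne (Ne.symm hra), ha, ruler_move_R] at h2
    have h3 := Run.mv m Dir.R (Function.update (Function.update s r (ruler (c + 1) (c + 1)))
      a (ruler x (i + 1)))
    rw [Function.update_of_ne (Ne.symm ham), Function.update_of_ne (Ne.symm hrm), hm,
      ruler_move_R] at h3
    have hrec := ih (i + 1) (c + 1)
      (Function.update (Function.update (Function.update s r (ruler (c + 1) (c + 1)))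
        a (ruler x (i + 1))) m (ruler M (c + 1)))
      (by omega) (by omega) (by omega)
      (by rw [Function.update_of_ne hrm, Function.update_of_ne hra, Function.update_self])
      (by rw [Function.update_of_ne ham, Function.update_self])
      (by rw [Function.update_self])
    have h := RunLe.loop_true hcond (Run.seq h1 (Run.seq h2 h3)).le hrec
    refine h.cast rfl ?_ (by omega)
    have e1 : c + 1 + d = c + (d + 1) := by omega
    have e2 : i + 1 + d = i + (d + 1) := by omega
    rw [e1, e2]
    funext j
    simp only [Function.update_apply]
    split_ifs <;> simp_all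

/-- While `a` reads a one: append a one to `r` and advance `a`. -/
def appLoop (r a : Fin K) : Prog (Sym ⊕ α) K :=
  Prog.loop (isSym a Sym.one)
    (Prog.seq (Prog.wm r (fun _ => Sum.inl Sym.one) Dir.R) (Prog.mv a Dir.R))

theorem appLoop_run (r a : Fin K) (hra : r ≠ a) (x : ℕ) :
    ∀ (d i c : ℕ) (s : St (Sym ⊕ α) K), i + d = x →
      s r = ruler c c → s a = ruler x i →
      RunLe (appLoop r a) s
        (Function.update (Function.update s r (ruler (c + d) (c + d))) a (ruler x x))
        (3 * d + 1) := by
  intro d
  induction d with
  | zero =>
    intro i c s hi hr ha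
    have hcond : isSym a Sym.one s.heads = false := by
      apply isSym_false
      rw [ha, ruler_read_ge (by omega)]
      simp
    have h : RunLe (appLoop r a) s s 1 := RunLe.loop_false hcond
    refine h.cast rfl ?_ (by omega)
    have e : i = x := by omega
    subst e
    funext j
    simp only [Function.update_apply, Nat.add_zero]
    split_ifs with h1 h2
    · rw [h1, ha]
    · rw [h2, hr]
    · rfl
  | succ d ih =>
    intro i c s hi hr ha
    have hcond : isSym a Sym.one s.heads = true := by
      apply isSym_true
      rw [ha, ruler_read_lt (by omega)]
    have h1 := Run.wm r (fun _ => (Sum.inl Sym.one : Sym ⊕ α)) Dir.R s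
    rw [hr, ruler_write_one, ruler_move_R] at h1
    have h2 := Run.mv a Dir.R (Function.update s r (ruler (c + 1) (c + 1)))
    rw [Function.update_of_ne (Ne.symm hra), ha, ruler_move_R] at h2
    have hrec := ih (i + 1) (c + 1)
      (Function.update (Function.update s r (ruler (c + 1) (c + 1))) a (ruler x (i + 1)))
      (by omega)
      (by rw [Function.update_of_ne hra, Function.update_self])
      (by rw [Function.update_self])
    have h := RunLe.loop_true hcond (Run.seq h1 h2).le hrec
    refine h.cast rfl ?_ (by omega)
    have e1 : c + 1 + d = c + (d + 1) := by omega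
    rw [e1]
    funext j
    simp only [Function.update_apply]
    split_ifs <;> simp_all

end Vale.Agent.H91.MT
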