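import Vale.Agent.H91.MT.RegA
import Vale.Agent.H91.MT.RegB_Loops

/-!
# TASK REGB: register arithmetic

A register holding `v` is the tape `ruler v 0`.  Numeric constants in the time bounds may be
changed (keep them absolute constants and keep the shape).
-/

namespace Vale.Agent.H91.MT

variable {α : Type} {K : ℕ}

/-! ## Subtraction -/

/-- `r := r - a` (truncated subtraction). -/
def regSub (r a : Fin K) : Prog (Sym ⊕ α) K :=
  Prog.seq (toEnd r) (Prog.seq
    (forRuler a (Prog.seq (Prog.mv r Dir.L)
      (Prog.ite (isSym r Sym.one) (Prog.wm r (fun _ => Sum.inl Sym.blank) Dir.S)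
        (Prog.mv r Dir.R))))
    (rewind r))

theorem regSub_body (r : Fin K) (k : ℕ) (s : St (Sym ⊕ α) K) (hr : s r = ruler k k) :
    RunLe (Prog.seq (Prog.mv r Dir.L)
      (Prog.ite (isSym r Sym.one) (Prog.wm r (fun _ => Sum.inl Sym.blank) Dir.S)
        (Prog.mv r Dir.R))) s (Function.update s r (ruler (k - 1) (k - 1))) 3 := by
  rcases k with _ | k
  · -- empty register: bounce off the left end
    have h1 := Run.mv r Dir.L s
    rw [hr, ruler_def, WT_move_L_zero] at h1
    have h2 : isSym r Sym.one (St.heads (Function.update s r
        (WT0 (List.replicate 0 (Sum.inl Sym.one : Sym ⊕ α))))) = false := by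
      apply isSym_false
      simp
    have h3 := Run.mv r Dir.R (Function.update s r
      (WT0 (List.replicate 0 (Sum.inl Sym.one : Sym ⊕ α))))
    simp only [Function.update_self, WT0_move_R, Function.update_idem] at h3
    exact (Run.seq h1 (Run.ite_false h2 h3)).le.cast rfl rfl (by norm_num)
  · have h1 := Run.mv r Dir.L s
    rw [hr, ruler_def, WT_move_L_succ, ← ruler_def] at h1
    have h2 : isSym r Sym.one (St.heads (Function.update s r
        (ruler (k + 1) k : Tape (Sym ⊕ α)))) = true := by
      apply isSym_true
      rw [Function.update_self, ruler_read_lt (Nat.lt_succ_self k)]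
    have h3 := Run.wm r (fun _ => (Sum.inl Sym.blank : Sym ⊕ α)) Dir.S
      (Function.update s r (ruler (k + 1) k))
    simp only [Function.update_self, Function.update_idem, ruler_write_blank] at h3
    have h4 : ((ruler k k : Tape (Sym ⊕ α)).move Dir.S) = ruler k k := rfl
    rw [h4] at h3
    exact (Run.seq h1 (Run.ite_true h2 h3)).le.cast rfl rfl (by norm_num)

theorem regSub_run (r a : Fin K) (hra : r ≠ a) (v x : ℕ) (s : St (Sym ⊕ α) K)
    (hr : s r = ruler v 0) (ha : s a = ruler x 0) :
    RunLe (regSub r a) s (Function.update s r (ruler (v - x) 0)) (10 * (v + x) + 40) := by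
  have h1 := toEnd_run r (List.replicate v (Sum.inl Sym.one)) (blank_not_mem_replicate_one v) 0
    (Nat.zero_le _) s hr
  rw [List.length_replicate, ← ruler_def] at h1
  have h2 := forRuler_run a (Prog.seq (Prog.mv r Dir.L)
      (Prog.ite (isSym r Sym.one) (Prog.wm r (fun _ => Sum.inl Sym.blank) Dir.S)
        (Prog.mv r Dir.R))) x
    (fun i => Function.update (Function.update s r (ruler (v - i) (v - i))) a (ruler x i))
    (fun _ => 3) (by intro i _; simp) (by
      intro i _
      have h := regSub_body r (v - i)
        (Function.update (Function.update s r (ruler (v - i) (v - i))) a (ruler x i))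
        (by rw [Function.update_of_ne hra, Function.update_self])
      refine h.cast rfl ?_ le_rfl
      have e : v - i - 1 = v - (i + 1) := by omega
      rw [e]
      funext j
      simp only [Function.update_apply]
      split_ifs <;> simp_all)
  have h3 := (rewind_run r (List.replicate (v - x) (Sum.inl Sym.one))
    (lend_not_mem_replicate_one (v - x)) (v - x)
    (Function.update (Function.update (Function.update s r (ruler (v - x) (v - x))) a (ruler x x))
      a (ruler x 0))
    (by rw [Function.update_of_ne hra, Function.update_of_ne hra, Function.update_self]; rfl)).le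
  have h4 := RunLe.seq h1 (RunLe.seq (h2.cast (by
    funext j
    simp only [Function.update_apply, Nat.sub_zero]
    split_ifs <;> simp_all) rfl le_rfl) h3)
  refine h4.cast rfl ?_ ?_
  · funext j
    simp only [Function.update_apply]
    split_ifs <;> simp_all [ruler_def]
  · simp only [Finset.sum_const, Finset.card_range, smul_eq_mul]
    omega

/-! ## Multiply-add -/

/-- `r := r + a * b`. -/
def regMulAdd (r a b : Fin K) : Prog (Sym ⊕ α) K :=
  Prog.seq (toEnd r) (Prog.seq (forRuler a (emitRep r b Sym.one)) (rewind r))

theorem regMulAdd_run (r a b : Fin K) (hra : r ≠ a) (hrb : r ≠ b) (hab : a ≠ b) (v x y : ℕ)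
    (s : St (Sym ⊕ α) K) (hr : s r = ruler v 0) (ha : s a = ruler x 0) (hb : s b = ruler y 0) :
    RunLe (regMulAdd r a b) s (Function.update s r (ruler (v + x * y) 0))
      (10 * (v + x * y + x + y) + 40) := by
  have h1 := toEnd_run r (List.replicate v (Sum.inl Sym.one)) (blank_not_mem_replicate_one v) 0
    (Nat.zero_le _) s hr
  rw [List.length_replicate, ← ruler_def] at h1
  have h2 := forRuler_run a (emitRep r b Sym.one) x
    (fun i => Function.update (Function.update s r (ruler (v + i * y) (v + i * y))) a
      (ruler x i))
    (fun _ => 5 * y + 5) (by intro i _; simp) (by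
      intro i _
      have h := emitRep_run r b hrb Sym.one (List.replicate (v + i * y) (Sum.inl Sym.one)) y
        (Function.update (Function.update s r (ruler (v + i * y) (v + i * y))) a (ruler x i))
        (by rw [Function.update_of_ne hra, Function.update_self, List.length_replicate]; rfl)
        (by rw [Function.update_of_ne (Ne.symm hab), Function.update_of_ne (Ne.symm hrb), hb])
      rw [List.length_replicate, ← List.replicate_add, ← ruler_def] at h
      refine h.cast rfl ?_ le_rfl
      have e : v + i * y + y = v + (i + 1) * y := by ring
      rw [e]
      funext j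
      simp only [Function.update_apply]
      split_ifs <;> simp_all)
  have h3 := (rewind_run r (List.replicate (v + x * y) (Sum.inl Sym.one))
    (lend_not_mem_replicate_one (v + x * y)) (v + x * y)
    (Function.update (Function.update (Function.update s r (ruler (v + x * y) (v + x * y))) a
      (ruler x x)) a (ruler x 0))
    (by rw [Function.update_of_ne hra, Function.update_of_ne hra, Function.update_self]; rfl)).le
  have h4 := RunLe.seq h1 (RunLe.seq (h2.cast (by
    funext j
    simp only [Function.update_apply, Nat.zero_mul, Nat.add_zero]
    split_ifs <;> simp_all) rfl le_rfl) h3)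
  refine h4.cast rfl ?_ ?_
  · funext j
    simp only [Function.update_apply]
    split_ifs <;> simp_all [ruler_def]
  · simp only [Finset.sum_const, Finset.card_range, smul_eq_mul]
    have e : x * (5 * y + 5 + 2) = 5 * (x * y) + 7 * x := by ring
    rw [e]
    omega

/-! ## Doubling -/

/-- `r := 2 * r` (`t` is an empty scratch register). -/
def regDouble (r t : Fin K) : Prog (Sym ⊕ α) K :=
  Prog.seq (copyApp r t) (Prog.seq (rewind t) (Prog.seq (toEnd r)
    (Prog.seq (emitRep r t Sym.one) (Prog.seq (rewind r) (clearTape t)))))

theorem regDouble_run (r t : Fin K) (hrt : r ≠ t) (v : ℕ) (s : St (Sym ⊕ α) K)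
    (hr : s r = ruler v 0) (ht : s t = ruler 0 0) :
    RunLe (regDouble r t) s (Function.update s r (ruler (2 * v) 0)) (40 * v + 60) := by
  have htr : t ≠ r := Ne.symm hrt
  -- 1. copy `r` to `t`
  have h1 : RunLe (copyApp r t) s (Function.update s t (ruler v v)) (5 * v + 8) := by
    have h := copyApp_run r t hrt (List.replicate v (Sum.inl Sym.one)) []
      (blank_not_mem_replicate_one v) (lend_not_mem_replicate_one v) s hr ht
    simp only [List.nil_append, List.length_nil, List.length_replicate, Nat.zero_add] at h
    exact h
  -- 2. rewind `t`
  have h2 : RunLe (rewind t) (Function.update s t (ruler v v)) (Function.update s t (ruler v 0))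
      (2 * v + 4) := by
    have h := (rewind_run t (List.replicate v (Sum.inl Sym.one)) (lend_not_mem_replicate_one v) v
      (Function.update s t (ruler v v)) (by rw [Function.update_self]; rfl)).le
    rw [Function.update_idem] at h
    exact h
  -- 3. move the head of `r` to its end
  have h3 : RunLe (toEnd r) (Function.update s t (ruler v 0))
      (Function.update (Function.update s t (ruler v 0)) r (ruler v v)) (2 * v + 2) := by
    have h := toEnd_run r (List.replicate v (Sum.inl Sym.one)) (blank_not_mem_replicate_one v) 0
      (Nat.zero_le _) (Function.update s t (ruler v 0))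
      (by rw [Function.update_of_ne hrt, hr]; rfl)
    rw [List.length_replicate] at h
    exact h
  -- 4. append `t` to `r`
  have h4 : RunLe (emitRep r t Sym.one)
      (Function.update (Function.update s t (ruler v 0)) r (ruler v v))
      (Function.update (Function.update s t (ruler v 0)) r (ruler (v + v) (v + v)))
      (5 * v + 5) := by
    have h := emitRep_run r t hrt Sym.one (List.replicate v (Sum.inl Sym.one)) v
      (Function.update (Function.update s t (ruler v 0)) r (ruler v v))
      (by rw [Function.update_self, List.length_replicate]; rfl)
      (by rw [Function.update_of_ne htr, Function.update_self])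
    rw [List.length_replicate, ← List.replicate_add, Function.update_idem] at h
    exact h
  -- 5. rewind `r`
  have h5 : RunLe (rewind r)
      (Function.update (Function.update s t (ruler v 0)) r (ruler (v + v) (v + v)))
      (Function.update (Function.update s t (ruler v 0)) r (ruler (v + v) 0))
      (2 * (v + v) + 4) := by
    have h := (rewind_run r (List.replicate (v + v) (Sum.inl Sym.one))
      (lend_not_mem_replicate_one (v + v)) (v + v)
      (Function.update (Function.update s t (ruler v 0)) r (ruler (v + v) (v + v)))
      (by rw [Function.update_self]; rfl)).le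
    rw [Function.update_idem] at h
    exact h
  -- 6. clear `t`
  have h6 : RunLe (clearTape t)
      (Function.update (Function.update s t (ruler v 0)) r (ruler (v + v) 0))
      (Function.update s r (ruler (2 * v) 0)) (4 * v + 8) := by
    have h := clearTape_run t (List.replicate v (Sum.inl Sym.one)) (blank_not_mem_replicate_one v)
      (lend_not_mem_replicate_one v) 0 (Nat.zero_le _)
      (Function.update (Function.update s t (ruler v 0)) r (ruler (v + v) 0))
      (by rw [Function.update_of_ne htr, Function.update_self]; rfl)
    rw [List.length_replicate] at h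
    refine h.cast rfl ?_ le_rfl
    have e : v + v = 2 * v := by ring
    rw [e]
    funext j
    simp only [Function.update_apply]
    split_ifs with h1 h2 h2
    · exact absurd (h1.symm.trans h2) htr
    · rw [h1, ht]; rfl
    · rfl
    · rfl
  exact (h1.seq (h2.seq (h3.seq (h4.seq (h5.seq h6))))).mono (by omega)

/-! ## Powers of two -/

/-- `r := 2 ^ a` (`t` is an empty scratch register; the old value of `r` is discarded). -/
def regPow2 (r a t : Fin K) : Prog (Sym ⊕ α) K :=
  Prog.seq (clearTape r) (Prog.seq (Prog.wm r (fun _ => Sum.inl Sym.one) Dir.S)
    (forRuler a (regDouble r t)))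

theorem regPow2_sum (x : ℕ) :
    (∑ i ∈ Finset.range x, (40 * 2 ^ i + 60 + 2)) + 2 * x + 64 ≤ 104 * 2 ^ x := by
  induction x with
  | zero => simp
  | succ x ih =>
    rw [Finset.sum_range_succ, pow_succ]
    have h1 : 1 ≤ 2 ^ x := Nat.one_le_two_pow
    omega

theorem regPow2_run (r a t : Fin K) (hra : r ≠ a) (hrt : r ≠ t) (hat : a ≠ t) (v x : ℕ)
    (s : St (Sym ⊕ α) K) (hr : s r = ruler v 0) (ha : s a = ruler x 0) (ht : s t = ruler 0 0) :
    RunLe (regPow2 r a t) s (Function.update s r (ruler (2 ^ x) 0))
      (10 * v + 200 * 2 ^ x + 100) := by
  -- 1. clear `r`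
  have h1 : RunLe (clearTape r) s (Function.update s r (ruler 0 0)) (4 * v + 8) := by
    have h := clearTape_run r (List.replicate v (Sum.inl Sym.one)) (blank_not_mem_replicate_one v)
      (lend_not_mem_replicate_one v) 0 (Nat.zero_le _) s hr
    rw [List.length_replicate] at h
    exact h
  -- 2. `r := 1`
  have h2 : RunLe (Prog.wm r (fun _ => (Sum.inl Sym.one : Sym ⊕ α)) Dir.S)
      (Function.update s r (ruler 0 0)) (Function.update s r (ruler 1 0)) 1 := by
    have h := Run.wm r (fun _ => (Sum.inl Sym.one : Sym ⊕ α)) Dir.S
      (Function.update s r (ruler 0 0))
    simp only [Function.update_self, Function.update_idem, ruler_write_one] at h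
    exact h.le
  -- 3. double `x` times
  have h3 := forRuler_run a (regDouble r t) x
    (fun i => Function.update (Function.update s r (ruler (2 ^ i) 0)) a (ruler x i))
    (fun i => 40 * 2 ^ i + 60) (by intro i _; simp) (by
      intro i _
      have h := regDouble_run r t hrt (2 ^ i)
        (Function.update (Function.update s r (ruler (2 ^ i) 0)) a (ruler x i))
        (by rw [Function.update_of_ne hra, Function.update_self])
        (by rw [Function.update_of_ne (Ne.symm hat), Function.update_of_ne (Ne.symm hrt), ht])
      refine h.cast rfl ?_ le_rfl
      have e : 2 * 2 ^ i = 2 ^ (i + 1) := by ring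
      rw [e]
      funext j
      simp only [Function.update_apply]
      split_ifs <;> simp_all)
  have h4 := h1.seq (h2.seq (h3.cast (by
    funext j
    simp only [Function.update_apply, pow_zero]
    split_ifs <;> simp_all) rfl le_rfl))
  refine h4.cast rfl ?_ ?_
  · funext j
    simp only [Function.update_apply]
    split_ifs <;> simp_all
  · have := regPow2_sum x
    omega

/-! ## Halving -/

/-- `r := r / 2` (`t` is an empty scratch register). -/
def regHalf (r t : Fin K) : Prog (Sym ⊕ α) K :=
  Prog.seq (halfLoop r t) (Prog.seq (clearTape r) (Prog.seq (rewind t)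
    (Prog.seq (emitRep r t Sym.one) (Prog.seq (rewind r) (clearTape t)))))

theorem regHalf_run (r t : Fin K) (hrt : r ≠ t) (v : ℕ) (s : St (Sym ⊕ α) K)
    (hr : s r = ruler v 0) (ht : s t = ruler 0 0) :
    RunLe (regHalf r t) s (Function.update s r (ruler (v / 2) 0)) (40 * v + 60) := by
  have htr : t ≠ r := Ne.symm hrt
  -- 1. count the pairs
  have h1 : RunLe (halfLoop r t) s
      (Function.update (Function.update s r (ruler v v)) t (ruler (v / 2) (v / 2)))
      (5 * (v / 2) + 5) :=
    (halfLoop_run r t hrt v (v - 2 * 0) 0 s rfl (Nat.zero_le _) hr ht).mono (by omega)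
  -- 2. clear `r`
  have h2 : RunLe (clearTape r)
      (Function.update (Function.update s r (ruler v v)) t (ruler (v / 2) (v / 2)))
      (Function.update (Function.update s r (ruler 0 0)) t (ruler (v / 2) (v / 2)))
      (4 * v + 8) := by
    have h := clearTape_run r (List.replicate v (Sum.inl Sym.one)) (blank_not_mem_replicate_one v)
      (lend_not_mem_replicate_one v) v (by simp)
      (Function.update (Function.update s r (ruler v v)) t (ruler (v / 2) (v / 2)))
      (by rw [Function.update_of_ne hrt, Function.update_self]; rfl)
    rw [List.length_replicate] at h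
    refine h.cast rfl ?_ le_rfl
    funext i
    simp only [Function.update_apply]
    split_ifs <;> simp_all [ruler_def]
  -- 3. rewind `t`
  have h3 : RunLe (rewind t)
      (Function.update (Function.update s r (ruler 0 0)) t (ruler (v / 2) (v / 2)))
      (Function.update (Function.update s r (ruler 0 0)) t (ruler (v / 2) 0))
      (2 * (v / 2) + 4) := by
    have h := (rewind_run t (List.replicate (v / 2) (Sum.inl Sym.one))
      (lend_not_mem_replicate_one (v / 2)) (v / 2)
      (Function.update (Function.update s r (ruler 0 0)) t (ruler (v / 2) (v / 2)))
      (by rw [Function.update_self]; rfl)).le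
    rw [Function.update_idem] at h
    exact h
  -- 4. copy `t` to `r`
  have h4 : RunLe (emitRep r t Sym.one)
      (Function.update (Function.update s r (ruler 0 0)) t (ruler (v / 2) 0))
      (Function.update (Function.update s r (ruler (v / 2) (v / 2))) t (ruler (v / 2) 0))
      (5 * (v / 2) + 5) := by
    have h := emitRep_run r t hrt Sym.one [] (v / 2)
      (Function.update (Function.update s r (ruler 0 0)) t (ruler (v / 2) 0))
      (by rw [Function.update_of_ne hrt, Function.update_self]; rfl)
      (by rw [Function.update_self])
    simp only [List.nil_append, List.length_nil, Nat.zero_add] at h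
    refine h.cast rfl ?_ le_rfl
    funext i
    simp only [Function.update_apply]
    split_ifs <;> simp_all [ruler_def]
  -- 5. rewind `r`
  have h5 : RunLe (rewind r)
      (Function.update (Function.update s r (ruler (v / 2) (v / 2))) t (ruler (v / 2) 0))
      (Function.update (Function.update s r (ruler (v / 2) 0)) t (ruler (v / 2) 0))
      (2 * (v / 2) + 4) := by
    have h := (rewind_run r (List.replicate (v / 2) (Sum.inl Sym.one))
      (lend_not_mem_replicate_one (v / 2)) (v / 2)
      (Function.update (Function.update s r (ruler (v / 2) (v / 2))) t (ruler (v / 2) 0))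
      (by rw [Function.update_of_ne hrt, Function.update_self]; rfl)).le
    refine h.cast rfl ?_ le_rfl
    funext i
    simp only [Function.update_apply]
    split_ifs <;> simp_all [ruler_def]
  -- 6. clear `t`
  have h6 : RunLe (clearTape t)
      (Function.update (Function.update s r (ruler (v / 2) 0)) t (ruler (v / 2) 0))
      (Function.update s r (ruler (v / 2) 0)) (4 * (v / 2) + 8) := by
    have h := clearTape_run t (List.replicate (v / 2) (Sum.inl Sym.one))
      (blank_not_mem_replicate_one (v / 2)) (lend_not_mem_replicate_one (v / 2)) 0 (Nat.zero_le _)
      (Function.update (Function.update s r (ruler (v / 2) 0)) t (ruler (v / 2) 0))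
      (by rw [Function.update_self]; rfl)
    rw [List.length_replicate] at h
    refine h.cast rfl ?_ le_rfl
    funext i
    simp only [Function.update_apply]
    split_ifs with h1 h2 h2
    · exact absurd (h1.symm.trans h2) htr
    · rw [h1, ht]; rfl
    · rfl
    · rfl
  exact (h1.seq (h2.seq (h3.seq (h4.seq (h5.seq h6))))).mono (by omega)

/-! ## Addition modulo `M` -/

/-- `r := (r + a) % M`, for `r < M` and `a ≤ M` (`m` is the register holding `M`). -/
def regAddMod (r a m : Fin K) : Prog (Sym ⊕ α) K :=
  Prog.seq (walkBoth r m) (Prog.seq (addLoop r a m)
    (Prog.seq (Prog.ite (isSym m Sym.one) (Prog.mv r Dir.S)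
        (Prog.seq (clearTape r) (appLoop r a)))
      (Prog.seq (rewind a) (Prog.seq (rewind m) (rewind r)))))

theorem regAddMod_tail (r a m : Fin K) (hra : r ≠ a) (hrm : r ≠ m) (ham : a ≠ m)
    (R x M pm : ℕ) (s : St (Sym ⊕ α) K) (ha : s a = ruler x 0) (hm : s m = ruler M 0) :
    RunLe (Prog.seq (rewind a) (Prog.seq (rewind m) (rewind r)))
      (Function.update (Function.update (Function.update s r (ruler R R)) a (ruler x x))
        m (ruler M pm))
      (Function.update s r (ruler R 0)) (2 * x + 4 + (2 * pm + 4 + (2 * R + 4))) := by
  have h1 := rewind_ruler a x x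
    (Function.update (Function.update (Function.update s r (ruler R R)) a (ruler x x))
      m (ruler M pm))
    (by rw [Function.update_of_ne ham, Function.update_self])
  have h2 := rewind_ruler m M pm
    (Function.update (Function.update (Function.update (Function.update s r (ruler R R)) a
      (ruler x x)) m (ruler M pm)) a (ruler x 0))
    (by rw [Function.update_of_ne (Ne.symm ham), Function.update_self])
  have h3 := rewind_ruler r R R
    (Function.update (Function.update (Function.update (Function.update (Function.update s r
      (ruler R R)) a (ruler x x)) m (ruler M pm)) a (ruler x 0)) m (ruler M 0))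
    (by rw [Function.update_of_ne hrm, Function.update_of_ne hra, Function.update_of_ne hrm,
      Function.update_of_ne hra, Function.update_self])
  refine (h1.seq (h2.seq h3)).cast rfl ?_ le_rfl
  funext j
  simp only [Function.update_apply]
  split_ifs <;> simp_all

theorem regAddMod_run (r a m : Fin K) (hra : r ≠ a) (hrm : r ≠ m) (ham : a ≠ m) (v x M : ℕ)
    (hv : v < M) (hx : x ≤ M) (s : St (Sym ⊕ α) K)
    (hr : s r = ruler v 0) (ha : s a = ruler x 0) (hm : s m = ruler M 0) :
    RunLe (regAddMod r a m) s (Function.update s r (ruler ((v + x) % M) 0)) (20 * M + 60) := by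
  have h1 := walkBoth_run r m hrm v M (v - 0) 0 s rfl (Nat.zero_le _) hr hm
  rcases Nat.lt_or_ge (v + x) M with hlt | hge
  · -- no wrap-around
    have h2 := addLoop_run r a m hra hrm ham x M x 0 v
      (Function.update (Function.update s r (ruler v v)) m (ruler M v))
      (by omega) (by omega) (Or.inl (by omega))
      (by rw [Function.update_of_ne hrm, Function.update_self])
      (by rw [Function.update_of_ne ham, Function.update_of_ne (Ne.symm hra), ha])
      (by rw [Function.update_self])
    have h2' : RunLe (addLoop r a m)
        (Function.update (Function.update s r (ruler v v)) m (ruler M v))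
        (Function.update (Function.update (Function.update s r (ruler (v + x) (v + x)))
          a (ruler x x)) m (ruler M (v + x))) (4 * x + 1) := by
      refine h2.cast rfl ?_ le_rfl
      funext j
      simp only [Function.update_apply, Nat.zero_add]
      split_ifs <;> simp_all
    have hc : isSym m Sym.one (St.heads (Function.update (Function.update (Function.update s r
        (ruler (v + x) (v + x))) a (ruler x x)) m (ruler M (v + x) : Tape (Sym ⊕ α)))) = true := by
      apply isSym_true
      rw [Function.update_self, ruler_read_lt hlt]
    have h3 := Run.mv r Dir.S (Function.update (Function.update (Function.update s r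
        (ruler (v + x) (v + x))) a (ruler x x)) m (ruler M (v + x)))
    have e3 : Function.update (Function.update (Function.update (Function.update s r
        (ruler (v + x) (v + x))) a (ruler x x)) m (ruler M (v + x))) r
        ((Function.update (Function.update (Function.update s r
        (ruler (v + x) (v + x))) a (ruler x x)) m (ruler M (v + x : ℕ)) r).move Dir.S)
        = Function.update (Function.update (Function.update s r
        (ruler (v + x) (v + x))) a (ruler x x)) m (ruler M (v + x)) := by
      rw [Function.update_eq_self_iff]
      rfl
    rw [e3] at h3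
    have h3' := RunLe.ite_true (q := Prog.seq (clearTape r) (appLoop r a)) hc h3.le
    have h4 := regAddMod_tail r a m hra hrm ham (v + x) x M (v + x) s ha hm
    refine (h1.seq (h2'.seq (h3'.seq h4))).cast rfl ?_ (by omega)
    rw [Nat.mod_eq_of_lt hlt]
  · -- wrap-around: `r` reaches `M`, is cleared, and receives the rest of `a`
    have h2 := addLoop_run r a m hra hrm ham x M (M - v) 0 v
      (Function.update (Function.update s r (ruler v v)) m (ruler M v))
      (by omega) (by omega) (Or.inr (by omega))
      (by rw [Function.update_of_ne hrm, Function.update_self])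
      (by rw [Function.update_of_ne ham, Function.update_of_ne (Ne.symm hra), ha])
      (by rw [Function.update_self])
    have e0 : v + (M - v) = M := by omega
    have h2' : RunLe (addLoop r a m)
        (Function.update (Function.update s r (ruler v v)) m (ruler M v))
        (Function.update (Function.update (Function.update s r (ruler M M))
          a (ruler x (M - v))) m (ruler M M)) (4 * (M - v) + 1) := by
      refine h2.cast rfl ?_ le_rfl
      rw [e0]
      funext j
      simp only [Function.update_apply, Nat.zero_add]
      split_ifs <;> simp_all
    have hc : isSym m Sym.one (St.heads (Function.update (Function.update (Function.update s r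
        (ruler M M)) a (ruler x (M - v))) m (ruler M M : Tape (Sym ⊕ α)))) = false := by
      apply isSym_false
      rw [Function.update_self, ruler_read_ge le_rfl]
      simp
    have h3a := clearTape_run r (List.replicate M (Sum.inl Sym.one))
      (blank_not_mem_replicate_one M) (lend_not_mem_replicate_one M) M (by simp)
      (Function.update (Function.update (Function.update s r (ruler M M)) a (ruler x (M - v)))
        m (ruler M M))
      (by rw [Function.update_of_ne hrm, Function.update_of_ne hra, Function.update_self]; rfl)
    rw [List.length_replicate] at h3a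
    have h3b := appLoop_run r a hra x (v + x - M) (M - v) 0
      (Function.update (Function.update (Function.update (Function.update s r (ruler M M)) a
        (ruler x (M - v))) m (ruler M M)) r (WT [] 0))
      (by omega)
      (by rw [Function.update_self]; rfl)
      (by rw [Function.update_of_ne (Ne.symm hra), Function.update_of_ne ham,
        Function.update_self])
    have h3' : RunLe (Prog.ite (isSym m Sym.one) (Prog.mv r Dir.S)
          (Prog.seq (clearTape r) (appLoop r a)))
        (Function.update (Function.update (Function.update s r (ruler M M))
          a (ruler x (M - v))) m (ruler M M))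
        (Function.update (Function.update (Function.update s r (ruler (v + x - M) (v + x - M)))
          a (ruler x x)) m (ruler M M)) (4 * M + 8 + (3 * (v + x - M) + 1) + 1) := by
      refine (RunLe.ite_false hc (h3a.seq h3b)).cast rfl ?_ le_rfl
      funext j
      simp only [Function.update_apply, Nat.zero_add]
      split_ifs <;> simp_all
    have h4 := regAddMod_tail r a m hra hrm ham (v + x - M) x M M s ha hm
    refine (h1.seq (h2'.seq (h3'.seq h4))).cast rfl ?_ (by omega)
    have e : (v + x) % M = v + x - M := by
      rw [Nat.mod_eq_sub_mod hge, Nat.mod_eq_of_lt (by omega)]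
    rw [e]

end Vale.Agent.H91.MT
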