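import Vale.Agent.H91.MT.Pure

/-!
# TASK UTRANS: the universal transducer
-/

namespace Vale.Agent.H91.MT

variable {α : Type} {K : ℕ}

/-- Complement of a bit symbol (`one` becomes `zero`, everything else becomes `one`). -/
def ucmpl : Sym ⊕ α → Sym ⊕ α
  | Sum.inl Sym.one => Sum.inl Sym.zero
  | _ => Sum.inl Sym.one

/-- The move of the source head for a control symbol. -/
def ustepX : Sym ⊕ α → Dir
  | Sum.inl Sym.cC => Dir.R
  | Sum.inl Sym.cS => Dir.R
  | Sum.inl Sym.cN => Dir.R
  | _ => Dir.S

/-- The action on the output tape for a control symbol `hc`, source symbol `hx` and output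
symbol `ho`. -/
def ustepO : Sym ⊕ α → Sym ⊕ α → Sym ⊕ α → (Sym ⊕ α) × Dir
  | Sum.inl Sym.cC, hx, _ => (hx, Dir.R)
  | Sum.inl Sym.cZ, _, _ => (Sum.inl Sym.zero, Dir.R)
  | Sum.inl Sym.cO, _, _ => (Sum.inl Sym.one, Dir.R)
  | Sum.inl Sym.cN, hx, _ => (ucmpl hx, Dir.R)
  | _, _, ho => (ho, Dir.S)

/-- One round of the universal transducer, as a single machine step (a 5-way branch on the
control symbol inside the transition function). -/
def ustep (c x o : Fin K) : (Fin K → Sym ⊕ α) → Fin K → (Sym ⊕ α) × Dir :=
  fun h i =>
    if i = c then (h i, Dir.R)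
    else if i = x then (h i, ustepX (h c))
    else if i = o then ustepO (h c) (h x) (h i)
    else (h i, Dir.S)

/-- The universal transducer: reads the control tape `c` from its head to the first blank; for
each control symbol it copies / skips a cell of `x` or appends a constant to `o`
(`cC`: copy, `cS`: skip, `cZ`: emit zero, `cO`: emit one, `cN`: copy complemented). -/
def utrans (c x o : Fin K) : Prog (Sym ⊕ α) K :=
  Prog.loop (notSym c Sym.blank) (Prog.step (ustep c x o))

theorem ustep_act (c x o : Fin K) (hcx : c ≠ x) (hco : c ≠ o) (hxo : x ≠ o)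
    (s : St (Sym ⊕ α) K) :
    s.act (ustep c x o s.heads) =
      Function.update (Function.update (Function.update s
        c ((s c).move Dir.R))
        x ((s x).move (ustepX (s c).read)))
        o (((s o).write (ustepO (s c).read (s x).read (s o).read).1).move
            (ustepO (s c).read (s x).read (s o).read).2) := by
  funext i
  by_cases hio : i = o
  · subst hio
    simp [St.act, St.heads, ustep, Ne.symm hco, Ne.symm hxo]
  · by_cases hix : i = x
    · subst hix
      simp [St.act, St.heads, ustep, Ne.symm hcx, hio, Tape.write_read]
    · by_cases hic : i = c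
      · subst hic
        simp [St.act, St.heads, ustep, hio, hix, Tape.write_read]
      · simp [St.act, St.heads, ustep, hio, hix, hic, Tape.write_read, Tape.move]

theorem ucmpl_bsym (b : Bool) : ucmpl (bsym b : Sym ⊕ α) = bsym (!b) := by
  cases b <;> rfl

theorem csym_ne_blank (a : Ctl) : (csym a : Sym ⊕ α) ≠ Sum.inl Sym.blank := by
  cases a <;> simp [csym]

theorem ctl_read_mid (pre : List Ctl) (a : Ctl) (rest : List Ctl) :
    (WT ((pre ++ a :: rest).map (csym (α := α))) pre.length).read = csym a := by
  simp [List.getD_eq_getElem?_getD]

theorem ctl_read_end (pre : List Ctl) :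
    (WT (pre.map (csym (α := α))) pre.length).read = Sum.inl Sym.blank := by
  simp [List.getD_eq_getElem?_getD]

theorem bits_read (xs : List Bool) (p : ℕ) (hp : p < xs.length) :
    (WT (xs.map (bsym (α := α))) p).read = bsym xs[p] := by
  simp [List.getD_eq_getElem?_getD, hp]

theorem bits_write_end (out0 : List Bool) (b : Bool) :
    ((WT (out0.map (bsym (α := α))) out0.length).write (bsym b)).move Dir.R =
      WT ((out0 ++ [b]).map bsym) (out0 ++ [b]).length := by
  have h := WT_write_end (out0.map (bsym (α := α))) (bsym b)
  rw [List.length_map] at h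
  rw [h, WT_move_R]
  simp

theorem WT_congr {l l' : List (Sym ⊕ α)} {p p' : ℕ} (hl : l = l') (hp : p = p') :
    WT l p = WT l' p' := by
  subst hl hp
  rfl

/-- Three nested updates on distinct tapes overwrite three earlier ones. -/
theorem update3_update3 {c x o : Fin K} (_hcx : c ≠ x) (_hco : c ≠ o) (_hxo : x ≠ o)
    (s : St (Sym ⊕ α) K) (A B C A' B' C' : Tape (Sym ⊕ α)) :
    Function.update (Function.update (Function.update
      (Function.update (Function.update (Function.update s c A) x B) o C) c A') x B') o C' =
    Function.update (Function.update (Function.update s c A') x B') o C' := by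
  funext j
  simp only [Function.update_apply]
  split_ifs <;> rfl

/-- One round of the loop followed by the rest of the run. -/
theorem utrans_round (c x o : Fin K) (hcx : c ≠ x) (hco : c ≠ o) (hxo : x ≠ o)
    (pre rest : List Ctl) (a : Ctl) (xs out0 out1 : List Bool) (px px1 : ℕ)
    (s : St (Sym ⊕ α) K)
    (hc : s c = WT ((pre ++ a :: rest).map csym) pre.length) (hx : s x = WT (xs.map bsym) px)
    (ho : s o = WT (out0.map bsym) out0.length)
    (hX : (WT (xs.map (bsym (α := α))) px).move (ustepX (csym a : Sym ⊕ α)) =
      WT (xs.map bsym) px1)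
    (hO : ((WT (out0.map (bsym (α := α))) out0.length).write
        (ustepO (csym a) (WT (xs.map (bsym (α := α))) px).read
          (WT (out0.map (bsym (α := α))) out0.length).read).1).move
        (ustepO (csym a : Sym ⊕ α) (WT (xs.map (bsym (α := α))) px).read
          (WT (out0.map (bsym (α := α))) out0.length).read).2 =
      WT (out1.map bsym) out1.length)
    {A' B' C' : Tape (Sym ⊕ α)} {t : ℕ}
    (hrest : ∀ s1 : St (Sym ⊕ α) K,
      s1 c = WT (((pre ++ [a]) ++ rest).map csym) (pre ++ [a]).length →
      s1 x = WT (xs.map bsym) px1 → s1 o = WT (out1.map bsym) out1.length →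
      Run (utrans c x o) s1
        (Function.update (Function.update (Function.update s1 c A') x B') o C') t) :
    Run (utrans c x o) s
      (Function.update (Function.update (Function.update s c A') x B') o C') (1 + t + 1) := by
  have h0 : notSym c Sym.blank s.heads = true := by
    apply notSym_true
    rw [hc, ctl_read_mid]
    exact csym_ne_blank a
  have hstep := Run.step (ustep c x o) s
  rw [ustep_act c x o hcx hco hxo s, hc, ctl_read_mid, WT_move_R, hx, ho, hX, hO] at hstep
  obtain ⟨s1, hs1⟩ : ∃ s1 : St (Sym ⊕ α) K, s1 =
      Function.update (Function.update (Function.update s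
        c (WT ((pre ++ a :: rest).map csym) (pre.length + 1)))
        x (WT (xs.map bsym) px1))
        o (WT (out1.map bsym) out1.length) := ⟨_, rfl⟩
  rw [← hs1] at hstep
  have h2 := hrest s1
    (by
      rw [hs1, Function.update_of_ne hco, Function.update_of_ne hcx, Function.update_self]
      exact WT_congr (by simp) (by simp))
    (by rw [hs1, Function.update_of_ne hxo, Function.update_self])
    (by rw [hs1, Function.update_self])
  have e : Function.update (Function.update (Function.update s1 c A') x B') o C' =
      Function.update (Function.update (Function.update s c A') x B') o C' := by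
    rw [hs1, update3_update3 hcx hco hxo]
  rw [e] at h2
  exact Run.loop_true h0 hstep h2

/-- The loop of the universal transducer, started in the middle of the control list. -/
theorem utrans_aux (c x o : Fin K) (hcx : c ≠ x) (hco : c ≠ o) (hxo : x ≠ o)
    (ctl : List Ctl) : ∀ (pre : List Ctl) (xs out0 : List Bool) (px : ℕ)
    (_ : px + ctlNeed ctl ≤ xs.length) (s : St (Sym ⊕ α) K)
    (_ : s c = WT ((pre ++ ctl).map csym) pre.length) (_ : s x = WT (xs.map bsym) px)
    (_ : s o = WT (out0.map bsym) out0.length),
    Run (utrans c x o) s
      (Function.update (Function.update (Function.update s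
        c (WT ((pre ++ ctl).map csym) (pre.length + ctl.length)))
        x (WT (xs.map bsym) (px + ctlNeed ctl)))
        o (WT ((out0 ++ applyCtl ctl (xs.drop px)).map bsym)
            (out0.length + (applyCtl ctl (xs.drop px)).length)))
      (2 * ctl.length + 1) := by
  induction ctl with
  | nil =>
    intro pre xs out0 px _ s hc hx ho
    rw [List.append_nil] at hc
    have h0 : notSym c Sym.blank s.heads = false := by
      apply notSym_false
      rw [hc, ctl_read_end]
    have h1 : Run (utrans c x o) s s 1 := Run.loop_false h0
    refine h1.cast rfl ?_ rfl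
    funext j
    simp only [Function.update_apply, applyCtl, ctlNeed, List.append_nil, List.length_nil,
      Nat.add_zero]
    split_ifs with h1 h2 h3
    · rw [h1, ho]
    · rw [h2, hx]
    · rw [h3, hc]
    · rfl
  | cons a rest ih =>
    intro pre xs out0 px hneed s hc hx ho
    have eA : WT (((pre ++ [a]) ++ rest).map (csym (α := α)))
        ((pre ++ [a]).length + rest.length) =
        WT ((pre ++ a :: rest).map csym) (pre.length + (a :: rest).length) :=
      WT_congr (by simp) (by simp; omega)
    have et : 1 + (2 * rest.length + 1) + 1 = 2 * (a :: rest).length + 1 := by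
      simp only [List.length_cons]; omega
    cases a with
    | C =>
      have hpx : px < xs.length := by simp only [ctlNeed] at hneed; omega
      have h := utrans_round c x o hcx hco hxo pre rest Ctl.C xs out0 (out0 ++ [xs[px]]) px
        (px + 1) s hc hx ho rfl
        (by rw [bits_read xs px hpx]; exact bits_write_end out0 xs[px])
        (fun s1 h1 h2 h3 => ih (pre ++ [Ctl.C]) xs (out0 ++ [xs[px]]) (px + 1)
          (by simp only [ctlNeed] at hneed; omega) s1 h1 h2 h3)
      refine h.cast rfl ?_ et
      rw [eA]
      congr 1
      · congr 1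
        exact WT_congr rfl (by simp only [ctlNeed]; omega)
      · exact WT_congr (by simp [applyCtl, hpx]) (by simp [applyCtl]; omega)
    | S =>
      have hpx : px < xs.length := by simp only [ctlNeed] at hneed; omega
      have h := utrans_round c x o hcx hco hxo pre rest Ctl.S xs out0 out0 px
        (px + 1) s hc hx ho rfl
        (by
          have e2 : ∀ u v : Sym ⊕ α, ustepO (csym Ctl.S : Sym ⊕ α) u v = (v, Dir.S) :=
            fun _ _ => rfl
          rw [e2, Tape.write_read, WT_move_S])
        (fun s1 h1 h2 h3 => ih (pre ++ [Ctl.S]) xs out0 (px + 1)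
          (by simp only [ctlNeed] at hneed; omega) s1 h1 h2 h3)
      refine h.cast rfl ?_ et
      rw [eA]
      congr 1
      · congr 1
        exact WT_congr rfl (by simp only [ctlNeed]; omega)
      · exact WT_congr (by simp [applyCtl]) (by simp [applyCtl])
    | Z =>
      have h := utrans_round c x o hcx hco hxo pre rest Ctl.Z xs out0 (out0 ++ [false]) px
        px s hc hx ho rfl (bits_write_end out0 false)
        (fun s1 h1 h2 h3 => ih (pre ++ [Ctl.Z]) xs (out0 ++ [false]) px
          (by simp only [ctlNeed] at hneed; omega) s1 h1 h2 h3)
      refine h.cast rfl ?_ et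
      rw [eA]
      congr 1
      exact WT_congr (by simp [applyCtl]) (by simp [applyCtl]; omega)
    | O =>
      have h := utrans_round c x o hcx hco hxo pre rest Ctl.O xs out0 (out0 ++ [true]) px
        px s hc hx ho rfl (bits_write_end out0 true)
        (fun s1 h1 h2 h3 => ih (pre ++ [Ctl.O]) xs (out0 ++ [true]) px
          (by simp only [ctlNeed] at hneed; omega) s1 h1 h2 h3)
      refine h.cast rfl ?_ et
      rw [eA]
      congr 1
      exact WT_congr (by simp [applyCtl]) (by simp [applyCtl]; omega)
    | N =>
      have hpx : px < xs.length := by simp only [ctlNeed] at hneed; omega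
      have h := utrans_round c x o hcx hco hxo pre rest Ctl.N xs out0 (out0 ++ [!xs[px]]) px
        (px + 1) s hc hx ho rfl
        (by
          rw [bits_read xs px hpx]
          have e2 : ∀ u v : Sym ⊕ α, ustepO (csym Ctl.N : Sym ⊕ α) u v = (ucmpl u, Dir.R) :=
            fun _ _ => rfl
          rw [e2, ucmpl_bsym]
          exact bits_write_end out0 (!xs[px]))
        (fun s1 h1 h2 h3 => ih (pre ++ [Ctl.N]) xs (out0 ++ [!xs[px]]) (px + 1)
          (by simp only [ctlNeed] at hneed; omega) s1 h1 h2 h3)
      refine h.cast rfl ?_ et
      rw [eA]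
      congr 1
      · congr 1
        exact WT_congr rfl (by simp only [ctlNeed]; omega)
      · exact WT_congr (by simp [applyCtl, hpx]) (by simp [applyCtl]; omega)

/-- TASK UTRANS.  (Numeric constants in the time bound may be changed.) -/
theorem utrans_run (c x o : Fin K) (hcx : c ≠ x) (hco : c ≠ o) (hxo : x ≠ o)
    (ctl : List Ctl) (xs out0 : List Bool) (px : ℕ) (hneed : px + ctlNeed ctl ≤ xs.length)
    (s : St (Sym ⊕ α) K)
    (hc : s c = WT (ctl.map csym) 0) (hx : s x = WT (xs.map bsym) px)
    (ho : s o = WT (out0.map bsym) out0.length) :
    RunLe (utrans c x o) s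
      (Function.update (Function.update (Function.update s
        c (WT (ctl.map csym) ctl.length))
        x (WT (xs.map bsym) (px + ctlNeed ctl)))
        o (WT ((out0 ++ applyCtl ctl (xs.drop px)).map bsym)
            (out0.length + (applyCtl ctl (xs.drop px)).length)))
      (4 * ctl.length + 4) := by
  have h := utrans_aux c x o hcx hco hxo ctl [] xs out0 px hneed s (by simpa using hc) hx ho
  simp only [List.nil_append, List.length_nil, Nat.zero_add] at h
  exact h.le.mono (by omega)

end Vale.Agent.H91.MT
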