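import Vale.Agent.H91.MT.PadPure
import Vale.Agent.H91.MT.UTrans
import Vale.Agent.H91.MT.RegB
import Vale.Agent.H91.MT.GenCtl1_Lay

/-!
# TASK PADPROG: padding and unpadding programs

Tapes: `d` data, `e` scratch data tape, `ct` control tape, registers `rn` (holds `n`), `rd`
(holds `N - n`), `rN` (holds `N`), scratch registers `t1 t2`.  `padMove` replaces the content
`l` of `d` by `applyCtl (padCtl n N) l`; `unpadMove` replaces it by `applyCtl (unpadCtl n N) l`.
All other tapes are restored.

Implementation: copy `n` to `t1`; a `forRuler` loop over `t1` appends one row `C^n Z^(N-n)`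
(resp. `C^n S^(N-n)`) of the control list to `ct` per round (`padRowsProg`); for padding,
`t2 := (N - n) * N` and `Z^((N-n) * N)` is appended; the scratch registers are cleared; then
`padTail`: rewind `ct`, run `utrans ct d e`, clear `ct` and `d`, rewind `e`, `copyApp e d`,
rewind `d`, clear `e`.
-/

namespace Vale.Agent.H91.MT

open GC1

variable {α : Type} {K : ℕ}

/-! ## Pure facts -/

/-- `m` rows, each `a` copies of `x` followed by `b` copies of `y`. -/
def padRows (x y : Sym) (a b m : ℕ) : List (Sym ⊕ α) :=
  (List.range m).flatMap fun _ =>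
    List.replicate a (Sum.inl x) ++ List.replicate b (Sum.inl y)

theorem padRows_succ (x y : Sym) (a b m : ℕ) :
    (padRows x y a b (m + 1) : List (Sym ⊕ α)) =
      padRows x y a b m ++ (List.replicate a (Sum.inl x) ++ List.replicate b (Sum.inl y)) := by
  simp [padRows, List.range_succ, List.flatMap_append]

theorem padRows_length (x y : Sym) (a b m : ℕ) :
    (padRows x y a b m : List (Sym ⊕ α)).length = m * (a + b) := by
  induction m with
  | zero => simp [padRows]
  | succ m ih =>
    rw [padRows_succ, List.length_append, ih]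
    simp only [List.length_append, List.length_replicate]
    ring

theorem padCtl_map (n N : ℕ) :
    (padCtl n N).map (csym (α := α)) =
      padRows Sym.cC Sym.cZ n (N - n) n ++ List.replicate ((N - n) * N) (Sum.inl Sym.cZ) := by
  simp [padCtl, padRows, List.map_flatMap, csym]

theorem unpadCtl_map (n N : ℕ) :
    (unpadCtl n N).map (csym (α := α)) = padRows Sym.cC Sym.cS n (N - n) n := by
  simp [unpadCtl, padRows, List.map_flatMap, csym]

theorem applyCtl_length_le (ctl : List Ctl) :
    ∀ xs : List Bool, (applyCtl ctl xs).length ≤ ctl.length := by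
  induction ctl with
  | nil => intro xs; simp [applyCtl]
  | cons a rest ih =>
    intro xs
    cases a <;> simp only [applyCtl, List.length_cons]
    · exact Nat.succ_le_succ (ih _)
    · exact (ih _).trans (Nat.le_succ _)
    · exact Nat.succ_le_succ (ih _)
    · exact Nat.succ_le_succ (ih _)
    · exact Nat.succ_le_succ (ih _)

theorem blank_not_mem_csym (ctl : List Ctl) :
    (Sum.inl Sym.blank : Sym ⊕ α) ∉ ctl.map csym := by
  intro h
  obtain ⟨c, _, hc⟩ := List.mem_map.1 h
  cases c <;> cases hc

theorem lend_not_mem_csym (ctl : List Ctl) :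
    (Sum.inl Sym.lend : Sym ⊕ α) ∉ ctl.map csym := by
  intro h
  obtain ⟨c, _, hc⟩ := List.mem_map.1 h
  cases c <;> cases hc

theorem blank_not_mem_bsym (xs : List Bool) :
    (Sum.inl Sym.blank : Sym ⊕ α) ∉ xs.map bsym := by
  intro h
  obtain ⟨b, _, hb⟩ := List.mem_map.1 h
  cases b <;> simp [bsym] at hb

theorem lend_not_mem_bsym (xs : List Bool) :
    (Sum.inl Sym.lend : Sym ⊕ α) ∉ xs.map bsym := by
  intro h
  obtain ⟨b, _, hb⟩ := List.mem_map.1 h
  cases b <;> simp [bsym] at hb

/-! ## The row loop -/

/-- Append `x^a y^b` to the stream on `ct`, once for every cell of the ruler `t`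
(`a`, `b` are the values of the registers `ra`, `rb`). -/
def padRowsProg (ct ra rb t : Fin K) (x y : Sym) : Prog (Sym ⊕ α) K :=
  forRuler t (Prog.seq (emitRep ct ra x) (emitRep ct rb y))

theorem padRowsProg_run (ct ra rb t : Fin K) (h1 : ct ≠ ra) (h2 : ct ≠ rb) (h3 : ct ≠ t)
    (h4 : ra ≠ t) (h5 : rb ≠ t) (x y : Sym) (L0 : List (Sym ⊕ α)) (a b m : ℕ)
    (s : St (Sym ⊕ α) K) (hct : s ct = WT L0 L0.length) (hra : s ra = ruler a 0)
    (hrb : s rb = ruler b 0) (ht : s t = ruler m 0) :
    RunLe (padRowsProg ct ra rb t x y) s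
      (Function.update s ct (WT (L0 ++ padRows x y a b m) (L0 ++ padRows x y a b m).length))
      (m * (5 * a + 5 * b + 12) + 2 * m + 5) := by
  have h3' : t ≠ ct := Ne.symm h3
  have h := forRuler_run t (Prog.seq (emitRep ct ra x) (emitRep ct rb y)) m
    (fun i => Function.update (Function.update s ct
      (WT (L0 ++ padRows x y a b i) (L0 ++ padRows x y a b i).length)) t (ruler m i))
    (fun _ => (5 * a + 5) + (5 * b + 5)) (by intro i _; simp) (by
      intro i _
      have e1 := emitRep_run ct ra h1 x (L0 ++ padRows x y a b i) a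
        (Function.update (Function.update s ct
          (WT (L0 ++ padRows x y a b i) (L0 ++ padRows x y a b i).length)) t (ruler m i))
        (by rw [Function.update_of_ne h3, Function.update_self])
        (by rw [Function.update_of_ne h4, Function.update_of_ne (Ne.symm h1), hra])
      have e2 := emitRep_run ct rb h2 y
        (L0 ++ padRows x y a b i ++ List.replicate a (Sum.inl x)) b
        (Function.update (Function.update (Function.update s ct
          (WT (L0 ++ padRows x y a b i) (L0 ++ padRows x y a b i).length)) t (ruler m i)) ct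
          (WT (L0 ++ padRows x y a b i ++ List.replicate a (Sum.inl x))
            ((L0 ++ padRows x y a b i).length + a)))
        (by
          rw [Function.update_self]
          exact WT_congr rfl (by simp only [List.length_append, List.length_replicate]))
        (by rw [Function.update_of_ne (Ne.symm h2), Function.update_of_ne h5,
          Function.update_of_ne (Ne.symm h2), hrb])
      refine (e1.seq e2).cast rfl ?_ le_rfl
      rw [padRows_succ]
      funext j
      by_cases hj1 : j = t
      · rw [hj1]
        simp only [Function.update_self, Function.update_of_ne h3']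
      · by_cases hj2 : j = ct
        · rw [hj2]
          simp only [Function.update_self, Function.update_of_ne h3]
          exact WT_congr (by simp only [List.append_assoc])
            (by simp only [List.length_append, List.length_replicate]; omega)
        · simp only [Function.update_of_ne hj1, Function.update_of_ne hj2])
  refine h.cast ?_ ?_ ?_
  · funext j
    by_cases hj1 : j = t
    · rw [hj1, Function.update_self, ht]
    · by_cases hj2 : j = ct
      · rw [hj2, Function.update_of_ne h3, Function.update_self, hct]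
        exact WT_congr (by simp [padRows]) (by simp [padRows])
      · simp only [Function.update_of_ne hj1, Function.update_of_ne hj2]
  · funext j
    by_cases hj1 : j = t
    · rw [hj1, Function.update_self, Function.update_of_ne h3', ht]
    · simp only [Function.update_of_ne hj1]
  · simp only [Finset.sum_const, Finset.card_range, smul_eq_mul]
    have : m * (5 * a + 5 + (5 * b + 5) + 2) = m * (5 * a + 5 * b + 12) := by ring
    omega

/-! ## Layout forms -/

theorem padRowsProg_lay {n : ℕ} (T : Fin n → Fin K) (hT : Function.Injective T)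
    (s : St (Sym ⊕ α) K) (c : Fin n → Tape (Sym ⊕ α)) (ict ia ib it : Fin n)
    (h1 : ict ≠ ia) (h2 : ict ≠ ib) (h3 : ict ≠ it) (h4 : ia ≠ it) (h5 : ib ≠ it)
    (x y : Sym) (L0 : List (Sym ⊕ α)) (a b m : ℕ) (hct : c ict = WT L0 L0.length)
    (hra : c ia = ruler a 0) (hrb : c ib = ruler b 0) (ht : c it = ruler m 0) :
    RunLe (padRowsProg (T ict) (T ia) (T ib) (T it) x y) (lay T s c)
      (lay T s (Function.update c ict
        (WT (L0 ++ padRows x y a b m) (L0 ++ padRows x y a b m).length)))
      (m * (5 * a + 5 * b + 12) + 2 * m + 5) := by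
  have h := padRowsProg_run (T ict) (T ia) (T ib) (T it) (hT.ne h1) (hT.ne h2) (hT.ne h3)
    (hT.ne h4) (hT.ne h5) x y L0 a b m (lay T s c) (by rw [lay_apply T hT, hct])
    (by rw [lay_apply T hT, hra]) (by rw [lay_apply T hT, hrb]) (by rw [lay_apply T hT, ht])
  rwa [lay_update T hT] at h

theorem utrans_lay {n : ℕ} (T : Fin n → Fin K) (hT : Function.Injective T)
    (s : St (Sym ⊕ α) K) (c : Fin n → Tape (Sym ⊕ α)) (ic ix io : Fin n)
    (h1 : ic ≠ ix) (h2 : ic ≠ io) (h3 : ix ≠ io) (ctl : List Ctl) (xs : List Bool)
    (hneed : ctlNeed ctl ≤ xs.length) (hc : c ic = WT (ctl.map csym) 0)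
    (hx : c ix = WT (xs.map bsym) 0) (ho : c io = WT [] 0) :
    RunLe (utrans (T ic) (T ix) (T io)) (lay T s c)
      (lay T s (Function.update (Function.update (Function.update c
        ic (WT (ctl.map csym) ctl.length))
        ix (WT (xs.map bsym) (ctlNeed ctl)))
        io (WT ((applyCtl ctl xs).map bsym) (applyCtl ctl xs).length)))
      (4 * ctl.length + 4) := by
  have h := utrans_run (T ic) (T ix) (T io) (hT.ne h1) (hT.ne h2) (hT.ne h3) ctl xs [] 0
    (by rw [Nat.zero_add]; exact hneed) (lay T s c) (by rw [lay_apply T hT, hc])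
    (by rw [lay_apply T hT, hx]) (by rw [lay_apply T hT, ho]; rfl)
  rw [lay_update T hT, lay_update T hT, lay_update T hT] at h
  simp only [List.drop_zero, List.nil_append, List.length_nil, Nat.zero_add] at h
  exact h

/-! ## The common tail: apply the control list and move the result back -/

/-- Apply the control list on `ct` to the data on `d` (scratch data tape `e`), put the result
back on `d`, rewound, and clear `ct`. -/
def padTail (d e ct : Fin K) : Prog (Sym ⊕ α) K :=
  (rewind ct)
    |>.seq (utrans ct d e)
    |>.seq (clearTape ct)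
    |>.seq (clearTape d)
    |>.seq (rewind e)
    |>.seq (copyApp e d)
    |>.seq (rewind d)
    |>.seq (clearTape e)

/-- The valuation of the three tapes of `padTail`. -/
def padTailInit (ctl : List Ctl) (l : List Bool) (pos : ℕ) : Fin 3 → Tape (Sym ⊕ α) :=
  fun i => match i.val with
    | 0 => WT (l.map bsym) 0
    | 1 => WT [] 0
    | _ => WT (ctl.map csym) pos

theorem padTail_lay (T : Fin 3 → Fin K) (hT : Function.Injective T)
    (ctl : List Ctl) (l : List Bool) (hneed : ctlNeed ctl ≤ l.length) (pos : ℕ)
    (s : St (Sym ⊕ α) K) (hd : s (T 0) = WT (l.map bsym) 0) (he : s (T 1) = WT [] 0)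
    (hct : s (T 2) = WT (ctl.map csym) pos) :
    RunLe (padTail (T 0) (T 1) (T 2)) s
      (Function.update (Function.update s (T 2) (WT [] 0)) (T 0)
        (WT ((applyCtl ctl l).map bsym) 0))
      (2 * pos + 21 * ctl.length + 4 * l.length + 48) := by
  have hinit : padTailInit ctl l pos = fun i => s (T i) := by
    funext i
    fin_cases i
    · exact hd.symm
    · exact he.symm
    · exact hct.symm
  have g1 := rewind_lay T hT s (padTailInit ctl l pos) 2 (ctl.map csym)
    (lend_not_mem_csym ctl) pos rfl
  have g2 := g1.seq (utrans_lay T hT s _ 2 0 1 (by decide) (by decide) (by decide) ctl l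
    hneed rfl rfl rfl)
  have g3 := g2.seq (clearTape_lay T hT s _ 2 (ctl.map csym) (blank_not_mem_csym ctl)
    (lend_not_mem_csym ctl) ctl.length (by rw [List.length_map]) rfl)
  have g4 := g3.seq (clearTape_lay T hT s _ 0 (l.map bsym) (blank_not_mem_bsym l)
    (lend_not_mem_bsym l) (ctlNeed ctl) (by rw [List.length_map]; exact hneed) rfl)
  have g5 := g4.seq (rewind_lay T hT s _ 1 ((applyCtl ctl l).map bsym)
    (lend_not_mem_bsym _) (applyCtl ctl l).length rfl)
  have g6 := g5.seq (copyApp_lay T hT s _ 1 0 (by decide) ((applyCtl ctl l).map bsym) []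
    (blank_not_mem_bsym _) (lend_not_mem_bsym _) rfl rfl)
  have g7 := g6.seq (rewind_lay T hT s _ 0 ((applyCtl ctl l).map bsym)
    (lend_not_mem_bsym _) (([] : List (Sym ⊕ α)).length + ((applyCtl ctl l).map bsym).length)
    rfl)
  have g8 := g7.seq (clearTape_lay T hT s _ 1 ((applyCtl ctl l).map bsym)
    (blank_not_mem_bsym _) (lend_not_mem_bsym _) 0 (Nat.zero_le _) rfl)
  refine RunLe.cast g8 ?_ ?_ ?_
  · rw [hinit]
    exact lay_self T hT s
  · refine (congrArg (lay T s) (show _ = Function.update (Function.update
      (padTailInit ctl l pos) 2 (WT [] 0)) 0 (WT ((applyCtl ctl l).map bsym) 0) from ?_)).trans ?_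
    · funext i
      fin_cases i <;> rfl
    · rw [← lay_update T hT, ← lay_update T hT, hinit, lay_self T hT s]
  · have ho := applyCtl_length_le ctl l
    simp only [List.length_map, List.length_nil, Nat.zero_add]
    omega

theorem padTail_run (d e ct : Fin K) (hde : d ≠ e) (hdc : d ≠ ct) (hec : e ≠ ct)
    (ctl : List Ctl) (l : List Bool) (hneed : ctlNeed ctl ≤ l.length) (pos : ℕ)
    (s : St (Sym ⊕ α) K) (hd : s d = WT (l.map bsym) 0) (he : s e = WT [] 0)
    (hct : s ct = WT (ctl.map csym) pos) :
    RunLe (padTail d e ct) s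
      (Function.update (Function.update s ct (WT [] 0)) d (WT ((applyCtl ctl l).map bsym) 0))
      (2 * pos + 21 * ctl.length + 4 * l.length + 48) := by
  have hT : Function.Injective (![d, e, ct] : Fin 3 → Fin K) := by
    intro i j hij
    fin_cases i <;> fin_cases j <;>
      first
      | rfl
      | exact absurd hij hde
      | exact absurd hij hdc
      | exact absurd hij hec
      | exact absurd hij.symm hde
      | exact absurd hij.symm hdc
      | exact absurd hij.symm hec
  exact padTail_lay ![d, e, ct] hT ctl l hneed pos s hd he hct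

/-! ## The two programs -/

/-- Replace the content of `d` by its padding. -/
noncomputable def padMove (d e ct rn rd rN t1 t2 : Fin K) : Prog (Sym ⊕ α) K :=
  (regCopy t1 rn)
    |>.seq (padRowsProg ct rn rd t1 Sym.cC Sym.cZ)
    |>.seq (regMulAdd t2 rd rN)
    |>.seq (emitRep ct t2 Sym.cZ)
    |>.seq (clearTape t2)
    |>.seq (clearTape t1)
    |>.seq (padTail d e ct)

/-- Replace the content of `d` by its unpadding. -/
noncomputable def unpadMove (d e ct rn rd rN t1 t2 : Fin K) : Prog (Sym ⊕ α) K :=
  (regCopy t1 rn)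
    |>.seq (padRowsProg ct rn rd t1 Sym.cC Sym.cS)
    |>.seq (clearTape t1)
    |>.seq (padTail d e ct)

/-- The initial valuation of the eight tapes. -/
def padInit (n N : ℕ) (l : List Bool) : Fin 8 → Tape (Sym ⊕ α) :=
  fun i => match i.val with
    | 0 => WT (l.map bsym) 0
    | 3 => ruler n 0
    | 4 => ruler (N - n) 0
    | 5 => ruler N 0
    | _ => WT [] 0

theorem padInit_eq (T : Fin 8 → Fin K) (n N : ℕ) (l : List Bool) (s : St (Sym ⊕ α) K)
    (hd : s (T 0) = WT (l.map bsym) 0) (he : s (T 1) = WT [] 0) (hct : s (T 2) = WT [] 0)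
    (hrn : s (T 3) = ruler n 0) (hrd : s (T 4) = ruler (N - n) 0) (hrN : s (T 5) = ruler N 0)
    (ht1 : s (T 6) = WT [] 0) (ht2 : s (T 7) = WT [] 0) :
    padInit n N l = fun i => s (T i) := by
  funext i
  fin_cases i
  · exact hd.symm
  · exact he.symm
  · exact hct.symm
  · exact hrn.symm
  · exact hrd.symm
  · exact hrN.symm
  · exact ht1.symm
  · exact ht2.symm

/-- TASK PADPROG (1). -/
theorem padMove_run (T : Fin 8 → Fin K) (hT : Function.Injective T) (n N : ℕ) (hn : 1 ≤ n)
    (hN : n ≤ N) (l : List Bool) (hl : l.length = n * n) (s : St (Sym ⊕ α) K)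
    (hd : s (T 0) = WT (l.map bsym) 0) (he : s (T 1) = WT [] 0) (hct : s (T 2) = WT [] 0)
    (hrn : s (T 3) = ruler n 0) (hrd : s (T 4) = ruler (N - n) 0) (hrN : s (T 5) = ruler N 0)
    (ht1 : s (T 6) = WT [] 0) (ht2 : s (T 7) = WT [] 0) :
    RunLe (padMove (T 0) (T 1) (T 2) (T 3) (T 4) (T 5) (T 6) (T 7)) s
      (Function.update s (T 0) (WT ((applyCtl (padCtl n N) l).map bsym) 0))
      (1000 * (N * N + 1)) := by
  have hinit := padInit_eq T n N l s hd he hct hrn hrd hrN ht1 ht2
  have h1 := regCopy_lay T hT s (padInit n N l) 6 3 (by decide) 0 n rfl rfl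
  have h2 := h1.seq (padRowsProg_lay T hT s _ 2 3 4 6 (by decide) (by decide) (by decide)
    (by decide) (by decide) Sym.cC Sym.cZ [] n (N - n) n rfl rfl rfl rfl)
  have h3 := h2.seq (regMul_lay T hT s _ 7 4 5 (by decide) (by decide) (by decide)
    (N - n) N rfl rfl rfl)
  have h4 := h3.seq (emitRep_lay T hT s _ 2 7 (by decide) Sym.cZ
    ([] ++ padRows Sym.cC Sym.cZ n (N - n) n) ((N - n) * N) rfl rfl)
  have h5 := h4.seq (clearReg_lay T hT s _ 7 ((N - n) * N) rfl)
  have h6 := h5.seq (clearReg_lay T hT s _ 6 n rfl)
  have h7 := h6.seq (padTail_run (T 0) (T 1) (T 2) (hT.ne (by decide)) (hT.ne (by decide))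
    (hT.ne (by decide)) (padCtl n N) l (by rw [ctlNeed_padCtl, hl])
    (([] ++ padRows Sym.cC Sym.cZ n (N - n) n : List (Sym ⊕ α)).length + (N - n) * N) _
    (by rw [lay_apply T hT]; rfl) (by rw [lay_apply T hT]; rfl)
    (by rw [lay_apply T hT, padCtl_map]; rfl))
  refine RunLe.cast h7 ?_ ?_ ?_
  · rw [hinit]
    exact lay_self T hT s
  · rw [lay_update T hT, lay_update T hT]
    refine (congrArg (lay T s) (show _ = Function.update (padInit n N l) 0
      (WT ((applyCtl (padCtl n N) l).map bsym) 0) from ?_)).trans ?_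
    · funext i
      fin_cases i <;> rfl
    · rw [← lay_update T hT, hinit, lay_self T hT s]
  · have hc := padCtl_length n N hN
    have e1 : 5 * n + 5 * (N - n) + 12 = 5 * N + 12 := by omega
    have e2 : n + (N - n) = N := by omega
    have hlen : (padRows Sym.cC Sym.cZ n (N - n) n : List (Sym ⊕ α)).length = n * N := by
      rw [padRows_length, e2]
    have b1 : n * N ≤ N * N := Nat.mul_le_mul_right N hN
    have b2 : (N - n) * N ≤ N * N := Nat.mul_le_mul_right N (Nat.sub_le N n)
    have b3 : n * n ≤ N * N := Nat.mul_le_mul hN hN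
    have b4 : N ≤ N * N := Nat.le_mul_of_pos_left N (by omega)
    have b5 : n * (5 * N + 12) = 5 * (n * N) + 12 * n := by ring
    simp only [List.length_append, List.length_nil, Nat.zero_add, hlen, hc, hl, e1, b5]
    generalize n * N = A at *
    generalize (N - n) * N = B at *
    generalize n * n = C at *
    generalize N * N = D at *
    omega

/-- TASK PADPROG (2). -/
theorem unpadMove_run (T : Fin 8 → Fin K) (hT : Function.Injective T) (n N : ℕ) (hn : 1 ≤ n)
    (hN : n ≤ N) (l : List Bool) (hl : l.length = N * N) (s : St (Sym ⊕ α) K)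
    (hd : s (T 0) = WT (l.map bsym) 0) (he : s (T 1) = WT [] 0) (hct : s (T 2) = WT [] 0)
    (hrn : s (T 3) = ruler n 0) (hrd : s (T 4) = ruler (N - n) 0) (hrN : s (T 5) = ruler N 0)
    (ht1 : s (T 6) = WT [] 0) (ht2 : s (T 7) = WT [] 0) :
    RunLe (unpadMove (T 0) (T 1) (T 2) (T 3) (T 4) (T 5) (T 6) (T 7)) s
      (Function.update s (T 0) (WT ((applyCtl (unpadCtl n N) l).map bsym) 0))
      (1000 * (N * N + 1)) := by
  have hinit := padInit_eq T n N l s hd he hct hrn hrd hrN ht1 ht2
  have b1 : n * N ≤ N * N := Nat.mul_le_mul_right N hN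
  have h1 := regCopy_lay T hT s (padInit n N l) 6 3 (by decide) 0 n rfl rfl
  have h2 := h1.seq (padRowsProg_lay T hT s _ 2 3 4 6 (by decide) (by decide) (by decide)
    (by decide) (by decide) Sym.cC Sym.cS [] n (N - n) n rfl rfl rfl rfl)
  have h3 := h2.seq (clearReg_lay T hT s _ 6 n rfl)
  have h4 := h3.seq (padTail_run (T 0) (T 1) (T 2) (hT.ne (by decide)) (hT.ne (by decide))
    (hT.ne (by decide)) (unpadCtl n N) l (by rw [ctlNeed_unpadCtl n N hN, hl]; exact b1)
    (([] ++ padRows Sym.cC Sym.cS n (N - n) n : List (Sym ⊕ α)).length) _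
    (by rw [lay_apply T hT]; rfl) (by rw [lay_apply T hT]; rfl)
    (by rw [lay_apply T hT, unpadCtl_map]; rfl))
  refine RunLe.cast h4 ?_ ?_ ?_
  · rw [hinit]
    exact lay_self T hT s
  · rw [lay_update T hT, lay_update T hT]
    refine (congrArg (lay T s) (show _ = Function.update (padInit n N l) 0
      (WT ((applyCtl (unpadCtl n N) l).map bsym) 0) from ?_)).trans ?_
    · funext i
      fin_cases i <;> rfl
    · rw [← lay_update T hT, hinit, lay_self T hT s]
  · have hc := unpadCtl_length n N hN
    have e1 : 5 * n + 5 * (N - n) + 12 = 5 * N + 12 := by omega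
    have e2 : n + (N - n) = N := by omega
    have hlen : (padRows Sym.cC Sym.cS n (N - n) n : List (Sym ⊕ α)).length = n * N := by
      rw [padRows_length, e2]
    have b4 : N ≤ N * N := Nat.le_mul_of_pos_left N (by omega)
    have b5 : n * (5 * N + 12) = 5 * (n * N) + 12 * n := by ring
    simp only [List.length_append, List.length_nil, Nat.zero_add, hlen, hc, hl, e1, b5]
    generalize n * N = A at *
    generalize N * N = D at *
    omega

end Vale.Agent.H91.MT
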