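import Vale.Agent.H91.MT.Pure
import Vale.Agent.H91.MT.Defs

/-!
# TASK PADPURE: padding a square matrix to a larger square matrix by control lists (pure)

The list padCtl n N turns the row-major listing of an n x n matrix into the row-major listing of
the N x N matrix extending it by zeros (n at most N); unpadCtl n N extracts the top-left n x n
block again.  Both are control lists for applyCtl.
-/

namespace Vale.Agent.H91.MT

/-- Control list padding an `n × n` row-major matrix to `N × N`: each row is `C^n Z^(N-n)`,
followed by (N-n) * N zeros. -/
def padCtl (n N : ℕ) : List Ctl :=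
  ((List.range n).flatMap fun _ => List.replicate n Ctl.C ++ List.replicate (N - n) Ctl.Z) ++
    List.replicate ((N - n) * N) Ctl.Z

/-- Control list extracting the top-left `n × n` block of an `N × N` row-major matrix: each of
the first `n` rows is `C^n S^(N-n)`. -/
def unpadCtl (n N : ℕ) : List Ctl :=
  (List.range n).flatMap fun _ => List.replicate n Ctl.C ++ List.replicate (N - n) Ctl.S

/-- The `N × N` matrix extending `M` by `false`. -/
def padMat (n N : ℕ) (M : Fin n → Fin n → Bool) : Fin N → Fin N → Bool :=
  fun r c => if h : r.val < n ∧ c.val < n then M ⟨r.val, h.1⟩ ⟨c.val, h.2⟩ else false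

/-! ### Generic lemmas about control lists (all names prefixed `pp_`) -/

theorem pp_ctlNeed_append (c1 c2 : List Ctl) : ctlNeed (c1 ++ c2) = ctlNeed c1 + ctlNeed c2 := by
  induction c1 with
  | nil => simp [ctlNeed]
  | cons a c ih =>
    cases a <;> simp only [List.cons_append, ctlNeed, ih] <;> omega

theorem pp_applyCtl_append (c1 c2 : List Ctl) (xs : List Bool) :
    applyCtl (c1 ++ c2) xs = applyCtl c1 xs ++ applyCtl c2 (xs.drop (ctlNeed c1)) := by
  induction c1 generalizing xs with
  | nil => simp [applyCtl, ctlNeed]
  | cons a c ih =>
    cases a <;> simp only [List.cons_append, applyCtl, ctlNeed, ih, List.drop_tail]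

theorem pp_applyCtl_of_le (c : List Ctl) (xs ys : List Bool) (h : ctlNeed c ≤ xs.length) :
    applyCtl c (xs ++ ys) = applyCtl c xs := by
  induction c generalizing xs with
  | nil => simp [applyCtl]
  | cons a c ih =>
    cases a with
    | C =>
      cases xs with
      | nil => simp [ctlNeed] at h
      | cons x xs' =>
        simp only [ctlNeed, List.length_cons] at h
        simp only [applyCtl, List.cons_append, List.headD_cons, List.tail_cons]
        rw [ih xs' (by omega)]
    | S =>
      cases xs with
      | nil => simp [ctlNeed] at h
      | cons x xs' =>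
        simp only [ctlNeed, List.length_cons] at h
        simp only [applyCtl, List.cons_append, List.tail_cons]
        rw [ih xs' (by omega)]
    | N =>
      cases xs with
      | nil => simp [ctlNeed] at h
      | cons x xs' =>
        simp only [ctlNeed, List.length_cons] at h
        simp only [applyCtl, List.cons_append, List.headD_cons, List.tail_cons]
        rw [ih xs' (by omega)]
    | Z =>
      simp only [ctlNeed] at h
      simp only [applyCtl]
      rw [ih xs h]
    | O =>
      simp only [ctlNeed] at h
      simp only [applyCtl]
      rw [ih xs h]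

theorem pp_applyCtl_replicate_C (k : ℕ) (xs : List Bool) (h : k ≤ xs.length) :
    applyCtl (List.replicate k Ctl.C) xs = xs.take k := by
  induction k generalizing xs with
  | zero => simp [applyCtl]
  | succ k ih =>
    cases xs with
    | nil => simp at h
    | cons x xs' =>
      simp only [List.replicate_succ, applyCtl, List.headD_cons, List.tail_cons,
        List.take_succ_cons]
      rw [ih xs' (by simpa using h)]

theorem pp_applyCtl_replicate_Z (k : ℕ) (xs : List Bool) :
    applyCtl (List.replicate k Ctl.Z) xs = List.replicate k false := by
  induction k with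
  | zero => simp [applyCtl]
  | succ k ih => simp only [List.replicate_succ, applyCtl, ih]

theorem pp_applyCtl_replicate_S (k : ℕ) (xs : List Bool) :
    applyCtl (List.replicate k Ctl.S) xs = [] := by
  induction k generalizing xs with
  | zero => simp [applyCtl]
  | succ k ih => simp only [List.replicate_succ, applyCtl, ih]

theorem pp_ctlNeed_replicate_C (k : ℕ) : ctlNeed (List.replicate k Ctl.C) = k := by
  induction k with
  | zero => simp [ctlNeed]
  | succ k ih => simp only [List.replicate_succ, ctlNeed, ih]

theorem pp_ctlNeed_replicate_Z (k : ℕ) : ctlNeed (List.replicate k Ctl.Z) = 0 := by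
  induction k with
  | zero => simp [ctlNeed]
  | succ k ih => simp only [List.replicate_succ, ctlNeed, ih]

theorem pp_ctlNeed_replicate_S (k : ℕ) : ctlNeed (List.replicate k Ctl.S) = k := by
  induction k with
  | zero => simp [ctlNeed]
  | succ k ih => simp only [List.replicate_succ, ctlNeed, ih]

theorem pp_ctlNeed_rows {ι : Type} (is : List ι) (row : List Ctl) :
    ctlNeed (is.flatMap fun _ => row) = is.length * ctlNeed row := by
  induction is with
  | nil => simp [ctlNeed]
  | cons i is ih =>
    simp only [List.flatMap_cons, pp_ctlNeed_append, ih, List.length_cons]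
    ring

theorem pp_length_rows {ι : Type} (is : List ι) (row : List Ctl) :
    (is.flatMap fun _ => row).length = is.length * row.length := by
  induction is with
  | nil => simp
  | cons i is ih =>
    simp only [List.flatMap_cons, List.length_append, ih, List.length_cons]
    ring

theorem pp_applyCtl_rows {ι : Type} (is : List ι) (row : List Ctl) (src : ι → List Bool)
    (hlen : ∀ i, (src i).length = ctlNeed row) (rest : List Bool) :
    applyCtl (is.flatMap fun _ => row) (is.flatMap src ++ rest) =
      is.flatMap fun i => applyCtl row (src i) := by
  induction is with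
  | nil => simp [applyCtl]
  | cons i is ih =>
    simp only [List.flatMap_cons, List.append_assoc]
    rw [pp_applyCtl_append, pp_applyCtl_of_le row (src i) _ (by rw [hlen])]
    have hd : (src i ++ (is.flatMap src ++ rest)).drop (ctlNeed row) = is.flatMap src ++ rest := by
      rw [← hlen i]
      simp
    rw [hd, ih]

theorem pp_flatMap_const {ι κ : Type} (is : List ι) (js : List κ) (h : is.length = js.length)
    (row : List Ctl) : (is.flatMap fun _ => row) = js.flatMap fun _ => row := by
  induction is generalizing js with
  | nil =>
    cases js with
    | nil => rfl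
    | cons j js => simp at h
  | cons i is ih =>
    cases js with
    | nil => simp at h
    | cons j js =>
      simp only [List.flatMap_cons]
      rw [ih js (by simpa using h)]

/-- The row-major listing of a padded matrix. -/
theorem pp_matList_pad (n k : ℕ) (M : Fin n → Fin n → Bool) :
    matList (n + k) (padMat n (n + k) M) =
      ((List.finRange n).flatMap fun r =>
        ((List.finRange n).map fun c => M r c) ++ List.replicate k false) ++
        List.replicate (k * (n + k)) false := by
  have hrow1 : ∀ r : Fin n, (List.ofFn fun c : Fin (n + k) =>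
      padMat n (n + k) M (Fin.castLE (Nat.le_add_right n k) r) c)
      = (List.ofFn fun c => M r c) ++ List.replicate k false := by
    intro r
    rw [List.ofFn_add]
    congr 1
    · congr 1
      funext c
      simp [padMat]
    · rw [← List.ofFn_const]
      congr 1
      funext c
      simp [padMat]
  have hrow2 : ∀ r : Fin k, (List.ofFn fun c : Fin (n + k) => padMat n (n + k) M (Fin.natAdd n r) c)
      = List.replicate (n + k) false := by
    intro r
    rw [← List.ofFn_const]
    congr 1
    funext c
    simp [padMat]
  unfold matList
  rw [List.flatMap_def, List.flatMap_def]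
  simp only [← List.ofFn_eq_map]
  rw [List.ofFn_add, List.flatten_append]
  simp only [hrow1, hrow2]
  rw [List.ofFn_const, List.flatten_replicate_replicate]

theorem padMat_transpose (n N : ℕ) (M : Fin n → Fin n → Bool) :
    (fun r c => padMat n N M c r) = padMat n N (fun r c => M c r) := by
  funext r c
  unfold padMat
  by_cases h : r.val < n ∧ c.val < n
  · have h' : c.val < n ∧ r.val < n := ⟨h.2, h.1⟩
    rw [dif_pos h, dif_pos h']
  · have h' : ¬ (c.val < n ∧ r.val < n) := fun hh => h ⟨hh.2, hh.1⟩
    rw [dif_neg h, dif_neg h']

theorem padCtl_length (n N : ℕ) (h : n ≤ N) : (padCtl n N).length = N * N := by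
  obtain ⟨k, rfl⟩ := Nat.exists_eq_add_of_le h
  unfold padCtl
  rw [List.length_append, pp_length_rows, List.length_range, List.length_append,
    List.length_replicate, List.length_replicate, List.length_replicate, Nat.add_sub_cancel_left]
  ring

theorem ctlNeed_padCtl (n N : ℕ) : ctlNeed (padCtl n N) = n * n := by
  unfold padCtl
  rw [pp_ctlNeed_append, pp_ctlNeed_rows, List.length_range, pp_ctlNeed_append,
    pp_ctlNeed_replicate_C, pp_ctlNeed_replicate_Z, pp_ctlNeed_replicate_Z]
  ring

theorem unpadCtl_length (n N : ℕ) (h : n ≤ N) : (unpadCtl n N).length = n * N := by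
  obtain ⟨k, rfl⟩ := Nat.exists_eq_add_of_le h
  unfold unpadCtl
  rw [pp_length_rows, List.length_range, List.length_append,
    List.length_replicate, List.length_replicate, Nat.add_sub_cancel_left]

theorem ctlNeed_unpadCtl (n N : ℕ) (h : n ≤ N) : ctlNeed (unpadCtl n N) = n * N := by
  obtain ⟨k, rfl⟩ := Nat.exists_eq_add_of_le h
  unfold unpadCtl
  rw [pp_ctlNeed_rows, List.length_range, pp_ctlNeed_append,
    pp_ctlNeed_replicate_C, pp_ctlNeed_replicate_S, Nat.add_sub_cancel_left]

/-- TASK PADPURE (1). -/
theorem applyCtl_padCtl (n N : ℕ) (h : n ≤ N) (M : Fin n → Fin n → Bool) :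
    applyCtl (padCtl n N) (matList n M) = matList N (padMat n N M) := by
  obtain ⟨k, rfl⟩ := Nat.exists_eq_add_of_le h
  rw [pp_matList_pad]
  unfold padCtl
  rw [Nat.add_sub_cancel_left, pp_applyCtl_append, pp_applyCtl_replicate_Z]
  congr 1
  rw [pp_flatMap_const (List.range n) (List.finRange n) (by simp)]
  have hsrc : matList n M = (List.finRange n).flatMap (fun r => (List.finRange n).map fun c => M r c)
      ++ [] := by
    unfold matList
    simp
  rw [hsrc, pp_applyCtl_rows]
  · apply List.flatMap_congr
    intro r _
    rw [pp_applyCtl_append, pp_applyCtl_replicate_Z, pp_applyCtl_replicate_C _ _ (by simp)]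
    simp
  · intro r
    rw [pp_ctlNeed_append, pp_ctlNeed_replicate_C, pp_ctlNeed_replicate_Z]
    simp

/-- TASK PADPURE (2). -/
theorem applyCtl_unpadCtl (n N : ℕ) (h : n ≤ N) (M : Fin n → Fin n → Bool) :
    applyCtl (unpadCtl n N) (matList N (padMat n N M)) = matList n M := by
  obtain ⟨k, rfl⟩ := Nat.exists_eq_add_of_le h
  rw [pp_matList_pad]
  unfold unpadCtl
  rw [Nat.add_sub_cancel_left, pp_flatMap_const (List.range n) (List.finRange n) (by simp),
    pp_applyCtl_rows]
  · unfold matList
    apply List.flatMap_congr
    intro r _
    rw [pp_applyCtl_append, pp_applyCtl_replicate_S,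
      pp_applyCtl_replicate_C _ _ (by simp)]
    simp
  · intro r
    rw [pp_ctlNeed_append, pp_ctlNeed_replicate_C, pp_ctlNeed_replicate_S]
    simp

end Vale.Agent.H91.MT
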