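import Vale.Agent.H91.MT.PipeCorrect_Defs

/-!
# TASK PIPE-ALG, part one: powers of two in `Z/(2^m+1)` with exponents mod `M`, orthogonality
-/

namespace Vale.Agent.H91.MT

open Finset

/-- `C(u,2) * 2 = u * (u - 1)` in any commutative ring. -/
theorem alg_choose_two_cast {R : Type*} [CommRing R] (u : ℕ) :
    ((u.choose 2 : ℕ) : R) * 2 = (u : R) * ((u : R) - 1) := by
  induction u with
  | zero => simp
  | succ n ih =>
    rw [Nat.choose_succ_succ', Nat.choose_one_right]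
    push_cast
    linear_combination ih

/-- Doubling step of a geometric sum. -/
theorem alg_geom_double {R : Type*} [CommRing R] (z : R) (n : ℕ) :
    ∑ k ∈ range (2 ^ (n + 1)), z ^ k = (1 + z ^ 2 ^ n) * ∑ k ∈ range (2 ^ n), z ^ k := by
  have e : 2 ^ (n + 1) = 2 ^ n + 2 ^ n := by rw [pow_succ]; omega
  rw [e, Finset.sum_range_add, add_mul, one_mul, Finset.mul_sum]
  congr 1
  refine Finset.sum_congr rfl fun k _ => ?_
  rw [pow_add]

/-- A geometric sum of length `2^a` vanishes as soon as `z^(2^i) = -1` for some `i < a`. -/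
theorem alg_geom_zero {R : Type*} [CommRing R] (z : R) (i a : ℕ) (hi : i < a)
    (hz : z ^ 2 ^ i = -1) : ∑ k ∈ range (2 ^ a), z ^ k = 0 := by
  have base : ∑ k ∈ range (2 ^ (i + 1)), z ^ k = 0 := by
    rw [alg_geom_double, hz]; simp
  have step : ∀ n, i + 1 ≤ n → ∑ k ∈ range (2 ^ n), z ^ k = 0 := by
    intro n hn
    induction n, hn using Nat.le_induction with
    | base => exact base
    | succ n _ ih => rw [alg_geom_double, ih, mul_zero]
  exact step a hi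

/-- Swap the order of a fourfold sum and factor the two inner sums. -/
theorem alg_sum_swap4 {R : Type*} [CommSemiring R] (s t u w : Finset ℕ) (c : R) (v : ℕ → ℕ → R)
    (A B : ℕ → ℕ → R) :
    ∑ k1 ∈ s, ∑ k2 ∈ t, ∑ j1 ∈ u, ∑ j2 ∈ w, v j1 j2 * (c * (A k1 j2 * B k2 j1)) =
      ∑ j1 ∈ u, ∑ j2 ∈ w, v j1 j2 * (c * ((∑ k1 ∈ s, A k1 j2) * ∑ k2 ∈ t, B k2 j1)) := by
  have e : ∀ j1 j2, v j1 j2 * (c * ((∑ k1 ∈ s, A k1 j2) * ∑ k2 ∈ t, B k2 j1)) =
      ∑ k1 ∈ s, ∑ k2 ∈ t, v j1 j2 * (c * (A k1 j2 * B k2 j1)) := by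
    intro j1 j2
    rw [Finset.sum_mul_sum, Finset.mul_sum, Finset.mul_sum]
    refine Finset.sum_congr rfl fun k1 _ => ?_
    rw [Finset.mul_sum, Finset.mul_sum]
  simp only [e]
  calc ∑ k1 ∈ s, ∑ k2 ∈ t, ∑ j1 ∈ u, ∑ j2 ∈ w, v j1 j2 * (c * (A k1 j2 * B k2 j1))
      = ∑ k1 ∈ s, ∑ j1 ∈ u, ∑ k2 ∈ t, ∑ j2 ∈ w, v j1 j2 * (c * (A k1 j2 * B k2 j1)) :=
        Finset.sum_congr rfl fun k1 _ => Finset.sum_comm
    _ = ∑ j1 ∈ u, ∑ k1 ∈ s, ∑ k2 ∈ t, ∑ j2 ∈ w, v j1 j2 * (c * (A k1 j2 * B k2 j1)) :=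
        Finset.sum_comm
    _ = ∑ j1 ∈ u, ∑ k1 ∈ s, ∑ j2 ∈ w, ∑ k2 ∈ t, v j1 j2 * (c * (A k1 j2 * B k2 j1)) :=
        Finset.sum_congr rfl fun j1 _ => Finset.sum_congr rfl fun k1 _ => Finset.sum_comm
    _ = ∑ j1 ∈ u, ∑ j2 ∈ w, ∑ k1 ∈ s, ∑ k2 ∈ t, v j1 j2 * (c * (A k1 j2 * B k2 j1)) :=
        Finset.sum_congr rfl fun j1 _ => Finset.sum_comm

namespace SwapParams

variable (p : SwapParams)

/-- `2^x` in `Z/(2^m+1)` for an exponent `x` modulo `M`. -/
def algPw (x : ZMod p.M) : ZMod (2 ^ p.m + 1) := 2 ^ x.val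

theorem alg_M_ne_zero (hp : p.Ok) : NeZero p.M :=
  ⟨by have := hp.hE; unfold SwapParams.M SwapParams.m; omega⟩

theorem alg_two_pow_m : (2 : ZMod (2 ^ p.m + 1)) ^ p.m = -1 := by
  have h := ZMod.natCast_self (2 ^ p.m + 1)
  push_cast at h
  exact eq_neg_of_add_eq_zero_left h

theorem alg_two_pow_M : (2 : ZMod (2 ^ p.m + 1)) ^ p.M = 1 := by
  unfold SwapParams.M
  rw [mul_comm, pow_mul, alg_two_pow_m]
  norm_num

theorem alg_two_pow_mod (k : ℕ) : (2 : ZMod (2 ^ p.m + 1)) ^ (k % p.M) = 2 ^ k := by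
  conv_rhs => rw [← Nat.div_add_mod k p.M, pow_add, pow_mul, alg_two_pow_M, one_pow, one_mul]

theorem algPw_natCast_mod (n : ℕ) : p.algPw (n : ZMod p.M) = 2 ^ (n % p.M) := by
  unfold algPw
  rw [ZMod.val_natCast]

theorem algPw_natCast (n : ℕ) : p.algPw (n : ZMod p.M) = 2 ^ n := by
  rw [algPw_natCast_mod, alg_two_pow_mod]

theorem algPw_zero : p.algPw 0 = 1 := by
  unfold algPw
  rw [ZMod.val_zero, pow_zero]

theorem algPw_add (hp : p.Ok) (x y : ZMod p.M) : p.algPw (x + y) = p.algPw x * p.algPw y := by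
  have := p.alg_M_ne_zero hp
  unfold algPw
  rw [ZMod.val_add, alg_two_pow_mod, pow_add]

theorem algPw_nat_mul (hp : p.Ok) (k : ℕ) (x : ZMod p.M) : p.algPw (k * x) = p.algPw x ^ k := by
  induction k with
  | zero => simp [algPw_zero]
  | succ n ih =>
    have e : ((n + 1 : ℕ) : ZMod p.M) * x = (n : ZMod p.M) * x + x := by push_cast; ring
    rw [e, algPw_add p hp, ih, pow_succ]

theorem algPw_m : p.algPw (p.m : ZMod p.M) = -1 := by
  rw [algPw_natCast, alg_two_pow_m]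

theorem alg_castM : ((p.M : ℕ) : ZMod p.M) = 0 := ZMod.natCast_self p.M

theorem alg_h_mul_P (hp : p.Ok) : p.h * p.P = p.m := by
  unfold SwapParams.h
  exact Nat.div_mul_cancel (Dvd.dvd.mul_left hp.hPE 4)

/-- `2hP = M = 0`. -/
theorem alg_F1 (hp : p.Ok) : 2 * (p.h : ZMod p.M) * (p.P : ZMod p.M) = 0 := by
  have e : 2 * p.h * p.P = p.M := by
    rw [mul_assoc, p.alg_h_mul_P hp]; rfl
  have h := congrArg (Nat.cast : ℕ → ZMod p.M) e
  push_cast at h
  rw [h, alg_castM]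

/-- `hP = m`. -/
theorem alg_castm (hp : p.Ok) : (p.h : ZMod p.M) * (p.P : ZMod p.M) = (p.m : ZMod p.M) := by
  have h := congrArg (Nat.cast : ℕ → ZMod p.M) (p.alg_h_mul_P hp)
  push_cast at h
  exact h

/-- `2m = M = 0`. -/
theorem alg_two_m : 2 * (p.m : ZMod p.M) = 0 := by
  have e : 2 * p.m = p.M := rfl
  have h := congrArg (Nat.cast : ℕ → ZMod p.M) e
  push_cast at h
  rw [h, alg_castM]

/-- `hP^2 = mP = 0` since `P` is even. -/
theorem alg_F2 (hp : p.Ok) : (p.h : ZMod p.M) * (p.P : ZMod p.M) * (p.P : ZMod p.M) = 0 := by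
  obtain ⟨b, hb⟩ : ∃ b, p.a = b + 1 := ⟨p.a - 1, by have := hp.ha; omega⟩
  have e : p.P = 2 * 2 ^ b := by unfold SwapParams.P; rw [hb, pow_succ]; ring
  have h := congrArg (Nat.cast : ℕ → ZMod p.M) e
  push_cast at h
  rw [alg_castm p hp]
  rw [h]
  linear_combination (2 : ZMod p.M) ^ b * p.alg_two_m

/-- If `x = n` or `x = -n` with `0 < n < P`, the `P` powers `algPw (2hkx)` add up to zero. -/
theorem alg_orth_aux (hp : p.Ok) (n : ℕ) (hn0 : 0 < n) (hn : n < p.P) (x : ZMod p.M)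
    (hx : x = n ∨ x = -n) :
    ∑ k ∈ range p.P, p.algPw (2 * (p.h : ZMod p.M) * (k : ZMod p.M) * x) = 0 := by
  obtain ⟨s, n', hodd, hnn⟩ := Nat.exists_eq_two_pow_mul_odd hn0.ne'
  have hs : s < p.a := by
    have h1 : 2 ^ s ≤ n := by
      rw [hnn]; exact Nat.le_mul_of_pos_right _ hodd.pos
    have h2 : 2 ^ s < 2 ^ p.a := lt_of_le_of_lt h1 hn
    exact (Nat.pow_lt_pow_iff_right (by norm_num)).mp h2
  have hterm : ∀ k : ℕ, p.algPw (2 * (p.h : ZMod p.M) * (k : ZMod p.M) * x) =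
      p.algPw (2 * (p.h : ZMod p.M) * x) ^ k := by
    intro k
    rw [← algPw_nat_mul p hp]
    congr 1; ring
  simp only [hterm]
  refine alg_geom_zero _ (p.a - 1 - s) p.a (by omega) ?_
  rw [← algPw_nat_mul p hp]
  have hP : p.P = 2 ^ (p.a - 1 - s) * 2 * 2 ^ s := by
    unfold SwapParams.P
    rw [← pow_succ, ← pow_add]; congr 1; omega
  have hPc := congrArg (Nat.cast : ℕ → ZMod p.M) hP
  have hnc := congrArg (Nat.cast : ℕ → ZMod p.M) hnn
  push_cast at hPc hnc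
  have hpos : ((2 ^ (p.a - 1 - s) : ℕ) : ZMod p.M) * (2 * (p.h : ZMod p.M) * (n : ZMod p.M)) =
      (n' : ZMod p.M) * (p.m : ZMod p.M) := by
    rw [hnc, ← alg_castm p hp, hPc]; push_cast; ring
  have hexp : ((2 ^ (p.a - 1 - s) : ℕ) : ZMod p.M) * (2 * (p.h : ZMod p.M) * x) =
      (n' : ZMod p.M) * (p.m : ZMod p.M) := by
    rcases hx with hx | hx
    · rw [hx]; exact hpos
    · rw [hx]; linear_combination (-1 : ZMod p.M) * hpos - (n' : ZMod p.M) * p.alg_two_m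
  rw [hexp, algPw_nat_mul p hp, algPw_m, hodd.neg_one_pow]

/-- Orthogonality of the `P`-th roots of unity `algPw (2hk)` in `Z/(2^m+1)`. -/
theorem alg_orth (hp : p.Ok) (j l : ℕ) (hj : j < p.P) (hl : l < p.P) :
    ∑ k ∈ range p.P,
        p.algPw (2 * (p.h : ZMod p.M) * (k : ZMod p.M) * ((j : ZMod p.M) - (l : ZMod p.M))) =
      if j = l then (p.P : ZMod (2 ^ p.m + 1)) else 0 := by
  by_cases hjl : j = l
  · subst hjl
    simp [algPw_zero]
  · rw [if_neg hjl]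
    rcases lt_or_gt_of_ne hjl with h | h
    · refine alg_orth_aux p hp (l - j) (by omega) (by omega) _ (Or.inr ?_)
      rw [Nat.cast_sub h.le]; ring
    · refine alg_orth_aux p hp (j - l) (by omega) (by omega) _ (Or.inl ?_)
      rw [Nat.cast_sub h.le]

end SwapParams

end Vale.Agent.H91.MT
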