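import Vale.Agent.H91.MT.PipeCorrect_Defs
import Vale.Agent.H91.MT.PipeCorrect_Kron

/-!
# TASK PIPE-CONV: a slot of the product of two packed arrays is a convolution sum
-/

namespace Vale.Agent.H91.MT

open Finset

/-- A packed sum of `n` values below `2^B` is below `2^(B n)`. -/
theorem conv_packed_lt (B n : ℕ) (y : ℕ → ℕ) (hy : ∀ i, i < n → y i < 2 ^ B) :
    ∑ i ∈ range n, 2 ^ (B * i) * y i < 2 ^ (B * n) := by
  induction n with
  | zero => simp
  | succ n ih =>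
    rw [Finset.sum_range_succ]
    have h1 := ih (fun i hi => hy i (Nat.lt_succ_of_lt hi))
    have h2 : y n + 1 ≤ 2 ^ B := hy n (Nat.lt_succ_self n)
    calc ∑ i ∈ range n, 2 ^ (B * i) * y i + 2 ^ (B * n) * y n
        < 2 ^ (B * n) + 2 ^ (B * n) * y n := by omega
      _ = 2 ^ (B * n) * (y n + 1) := by ring
      _ ≤ 2 ^ (B * n) * 2 ^ B := Nat.mul_le_mul_left _ h2
      _ = 2 ^ (B * (n + 1)) := by rw [← pow_add, Nat.mul_succ]

/-- TASK PIPE-CONV (1).  A packed array with entries below `2^W` and at most `Q` columns is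
below `2^(W Q r)`. -/
theorem pk2d_lt (W Q r c : ℕ) (x : ℕ → ℕ → ℕ) (hc : c ≤ Q)
    (hx : ∀ j1 j2, j1 < r → j2 < c → x j1 j2 < 2 ^ W) :
    pk2d W Q r c x < 2 ^ (W * (Q * r)) := by
  have h1 : pk2d W Q r c x =
      ∑ j1 ∈ range r, 2 ^ ((W * Q) * j1) * (∑ j2 ∈ range c, 2 ^ (W * j2) * x j1 j2) := by
    unfold pk2d
    refine Finset.sum_congr rfl fun j1 _ => ?_
    rw [Finset.mul_sum]
    refine Finset.sum_congr rfl fun j2 _ => ?_
    rw [← mul_assoc, ← pow_add]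
    congr 2
    ring
  rw [h1, ← mul_assoc]
  apply conv_packed_lt
  intro j1 hj1
  calc ∑ j2 ∈ range c, 2 ^ (W * j2) * x j1 j2 < 2 ^ (W * c) :=
        conv_packed_lt W c (x j1) (fun j2 hj2 => hx j1 j2 hj1 hj2)
    _ ≤ 2 ^ (W * Q) := Nat.pow_le_pow_right (by norm_num) (Nat.mul_le_mul_left W hc)

/-- TASK PIPE-CONV (2).  Slot `2P (k1 + P - 1) + (k2 + P - 1)` of the product of a packed
r by c array (r, c at most P, row stride 2P) and a packed square kernel of side 2P - 1 is the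
convolution sum, when there is no carry between slots. -/
theorem conv_slot (W P r c B : ℕ) (x κ : ℕ → ℕ → ℕ) (hP : 1 ≤ P) (hr : r ≤ P) (hc : c ≤ P)
    (hB : ∀ j1 j2 u1 u2, j1 < r → j2 < c → u1 < 2 * P - 1 → u2 < 2 * P - 1 →
      x j1 j2 * κ u1 u2 < 2 ^ B)
    (hW : 4 * P ^ 4 * 2 ^ B ≤ 2 ^ W) (k1 k2 : ℕ) (hk1 : k1 < P) (hk2 : k2 < P) :
    (pk2d W (2 * P) r c x * pk2d W (2 * P) (2 * P - 1) (2 * P - 1) κ) /
        2 ^ (W * (2 * P * (k1 + P - 1) + (k2 + P - 1))) % 2 ^ W =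
      ∑ j1 ∈ range r, ∑ j2 ∈ range c, x j1 j2 * κ (k1 + P - 1 - j1) (k2 + P - 1 - j2) := by
  classical
  obtain ⟨Q', hQ1⟩ : ∃ Q', Q' + 1 = 2 * P := ⟨2 * P - 1, by omega⟩
  have hQ' : 2 * P - 1 = Q' := by omega
  rw [hQ'] at hB ⊢
  have hA : pk2d W (2 * P) r c x =
      ∑ a ∈ range r ×ˢ range c, 2 ^ (W * (2 * P * a.1 + a.2)) * x a.1 a.2 :=
    (Finset.sum_product (range r) (range c)
      (fun a => 2 ^ (W * (2 * P * a.1 + a.2)) * x a.1 a.2)).symm
  have hK : pk2d W (2 * P) Q' Q' κ =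
      ∑ b ∈ range Q' ×ˢ range Q', 2 ^ (W * (2 * P * b.1 + b.2)) * κ b.1 b.2 :=
    (Finset.sum_product (range Q') (range Q')
      (fun b => 2 ^ (W * (2 * P * b.1 + b.2)) * κ b.1 b.2)).symm
  have hprod : pk2d W (2 * P) r c x * pk2d W (2 * P) Q' Q' κ =
      ∑ t ∈ (range r ×ˢ range c) ×ˢ (range Q' ×ˢ range Q'),
        2 ^ (W * (2 * P * (t.1.1 + t.2.1) + (t.1.2 + t.2.2))) *
          (x t.1.1 t.1.2 * κ t.2.1 t.2.2) := by
    rw [hA, hK, Finset.sum_mul_sum,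
      Finset.sum_product (range r ×ˢ range c) (range Q' ×ˢ range Q')]
    refine Finset.sum_congr rfl fun a _ => Finset.sum_congr rfl fun b _ => ?_
    have e1 : W * (2 * P * (a.1 + b.1) + (a.2 + b.2)) =
        W * (2 * P * a.1 + a.2) + W * (2 * P * b.1 + b.2) := by ring
    rw [e1, pow_add]
    ring
  have hcard : r * c * (Q' * Q') < 4 * P ^ 4 := by
    have h1 : r * c ≤ P * P := Nat.mul_le_mul hr hc
    have h2 : Q' * Q' < 2 * P * (2 * P) := Nat.mul_lt_mul'' (by omega) (by omega)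
    have h3 : 0 < P * P := Nat.mul_pos hP hP
    calc r * c * (Q' * Q') ≤ P * P * (Q' * Q') := Nat.mul_le_mul_right _ h1
      _ < P * P * (2 * P * (2 * P)) := Nat.mul_lt_mul_of_pos_left h2 h3
      _ = 4 * P ^ 4 := by ring
  have hb : ∀ s', (∑ t ∈ (range r ×ˢ range c) ×ˢ (range Q' ×ˢ range Q') with
      2 * P * (t.1.1 + t.2.1) + (t.1.2 + t.2.2) = s', x t.1.1 t.1.2 * κ t.2.1 t.2.2) < 2 ^ W := by
    intro s'
    have h1 : (∑ t ∈ (range r ×ˢ range c) ×ˢ (range Q' ×ˢ range Q') with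
        2 * P * (t.1.1 + t.2.1) + (t.1.2 + t.2.2) = s', x t.1.1 t.1.2 * κ t.2.1 t.2.2) ≤
        ∑ t ∈ (range r ×ˢ range c) ×ˢ (range Q' ×ˢ range Q'), x t.1.1 t.1.2 * κ t.2.1 t.2.2 :=
      Finset.sum_le_sum_of_subset (Finset.filter_subset _ _)
    have h2 : ∑ t ∈ (range r ×ˢ range c) ×ˢ (range Q' ×ˢ range Q'),
        x t.1.1 t.1.2 * κ t.2.1 t.2.2 ≤
        ∑ _t ∈ (range r ×ˢ range c) ×ˢ (range Q' ×ˢ range Q'), 2 ^ B := by
      refine Finset.sum_le_sum fun t ht => ?_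
      simp only [Finset.mem_product, Finset.mem_range] at ht
      exact (hB _ _ _ _ ht.1.1 ht.1.2 ht.2.1 ht.2.2).le
    have h3 : ∑ _t ∈ (range r ×ˢ range c) ×ˢ (range Q' ×ˢ range Q'), 2 ^ B =
        r * c * (Q' * Q') * 2 ^ B := by
      simp [Finset.sum_const, Finset.card_product]
    have h4 : r * c * (Q' * Q') * 2 ^ B < 4 * P ^ 4 * 2 ^ B :=
      Nat.mul_lt_mul_of_pos_right hcard (Nat.two_pow_pos B)
    omega
  rw [hprod, slot_of_sum ((range r ×ˢ range c) ×ˢ (range Q' ×ˢ range Q'))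
    (fun t : (ℕ × ℕ) × (ℕ × ℕ) => 2 * P * (t.1.1 + t.2.1) + (t.1.2 + t.2.2))
    (fun t : (ℕ × ℕ) × (ℕ × ℕ) => x t.1.1 t.1.2 * κ t.2.1 t.2.2) W _ hb]
  rw [Finset.sum_filter, Finset.sum_product (range r ×ˢ range c) (range Q' ×ˢ range Q'),
    Finset.sum_product (range r) (range c)]
  refine Finset.sum_congr rfl fun j1 hj1 => Finset.sum_congr rfl fun j2 hj2 => ?_
  have hj1' : j1 < r := Finset.mem_range.mp hj1
  have hj2' : j2 < c := Finset.mem_range.mp hj2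
  rw [Finset.sum_eq_single_of_mem (k1 + P - 1 - j1, k2 + P - 1 - j2)
    (by simp only [Finset.mem_product, Finset.mem_range]; omega)]
  · have e1 : j1 + (k1 + P - 1 - j1) = k1 + P - 1 := by omega
    have e2 : j2 + (k2 + P - 1 - j2) = k2 + P - 1 := by omega
    simp only [e1, e2, if_true]
  · intro b hb' hne
    simp only [Finset.mem_product, Finset.mem_range] at hb'
    rw [if_neg]
    intro heq
    apply hne
    dsimp only at heq
    rcases Nat.lt_trichotomy (j1 + b.1) (k1 + P - 1) with h | h | h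
    · exfalso
      have h5 : 2 * P * (j1 + b.1) + 2 * P ≤ 2 * P * (k1 + P - 1) := by
        calc 2 * P * (j1 + b.1) + 2 * P = 2 * P * (j1 + b.1 + 1) := by ring
          _ ≤ 2 * P * (k1 + P - 1) := Nat.mul_le_mul_left _ h
      omega
    · have h5 : 2 * P * (j1 + b.1) = 2 * P * (k1 + P - 1) := by rw [h]
      apply Prod.ext
      · show b.1 = k1 + P - 1 - j1
        omega
      · show b.2 = k2 + P - 1 - j2
        omega
    · exfalso
      have h5 : 2 * P * (k1 + P - 1) + 2 * P ≤ 2 * P * (j1 + b.1) := by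
        calc 2 * P * (k1 + P - 1) + 2 * P = 2 * P * (k1 + P - 1 + 1) := by ring
          _ ≤ 2 * P * (j1 + b.1) := Nat.mul_le_mul_left _ h
      omega

end Vale.Agent.H91.MT
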