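import Vale.Agent.H91.MT.PipeCorrect_Stages
import Vale.Agent.H91.MT.PipeCorrect_Conv

/-!
# TASK PIPE, the per-array chain: kernels, convolution slots, bounds (helper96)
-/

namespace Vale.Agent.H91.MT

open Finset

/-- A double sum of `r c ≤ P P` terms below `2^B` is below `P P 2^B`. -/
theorem dsum_lt (r c P B : ℕ) (F : ℕ → ℕ → ℕ) (hr : r ≤ P) (hc : c ≤ P) (hP : 1 ≤ P)
    (hF : ∀ j1 j2, j1 < r → j2 < c → F j1 j2 < 2 ^ B) :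
    (∑ j1 ∈ range r, ∑ j2 ∈ range c, F j1 j2) < P * P * 2 ^ B := by
  have h1 : (∑ j1 ∈ range r, ∑ j2 ∈ range c, F j1 j2) ≤
      ∑ _j1 ∈ range r, ∑ _j2 ∈ range c, (2 ^ B - 1) := by
    refine Finset.sum_le_sum fun j1 h1 => Finset.sum_le_sum fun j2 h2 => ?_
    have := hF j1 j2 (Finset.mem_range.mp h1) (Finset.mem_range.mp h2)
    omega
  have h2 : (∑ _j1 ∈ range r, ∑ _j2 ∈ range c, (2 ^ B - 1)) = r * (c * (2 ^ B - 1)) := by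
    simp
  have h3 : r * (c * (2 ^ B - 1)) ≤ P * (P * (2 ^ B - 1)) :=
    Nat.mul_le_mul hr (Nat.mul_le_mul_right _ hc)
  have h4 : P * (P * (2 ^ B - 1)) < P * P * 2 ^ B := by
    have hB : 0 < 2 ^ B := by positivity
    have hPP : 0 < P * P := by positivity
    have : P * (P * (2 ^ B - 1)) = P * P * (2 ^ B - 1) := by ring
    rw [this]
    exact Nat.mul_lt_mul_of_pos_left (by omega) hPP
  omega

/-- Running one array control on each slot of a packed sum of array values. -/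
theorem ctlOut_arrays (arr : List Ctl) (R L B k : ℕ) (y : ℕ → ℕ) (hneed : ctlNeed arr = B)
    (holen : olen arr = L) (hy : ∀ I, I < R → y I < 2 ^ B) (hk : R * B ≤ 2 * k) :
    ctlOut ((List.range R).flatMap fun _ => arr) ((∑ I ∈ range R, 2 ^ (B * I) * y I) % 2 ^ (2 * k))
      = ∑ I ∈ range R, 2 ^ (L * I) * ctlOut arr (y I) := by
  rw [ctlOut_mod _ _ _ (by rw [ctlNeed_flatMap_range _ R B (fun _ _ => hneed)]; exact hk),
    ctlOut_flatMap_range _ R L B _ (fun _ _ => holen) (fun _ _ => hneed)]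
  refine Finset.sum_congr rfl fun I hI => ?_
  rw [← ctlOut_mod arr _ B (le_of_eq hneed), slot_of_range R B I y hy,
    if_pos (Finset.mem_range.mp hI)]

namespace SwapParams

variable (p : SwapParams)

theorem valLE_ker1 (hp : p.Ok) :
    valLE p.ker1 = pk2d p.W (2 * p.P) (2 * p.P - 1) (2 * p.P - 1) (fun u1 u2 =>
      2 ^ p.pk1 u1 u2) := by
  have hE := hp.hE
  have hM := p.M_eq
  have hW := p.W_eq
  unfold SwapParams.ker1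
  rw [valLE_kerGrid _ _ _ _ _ _ _ _ _ _ _ hp.M_pos, pk2d_eq_nested]
  have h1 : p.M + (p.W - p.M) = p.W := by omega
  have h2 : (2 * p.P - 1) * p.W + p.W = 2 * p.P * p.W := by
    have := hp.two_le_P
    obtain ⟨q, hq⟩ : ∃ q, 2 * p.P = q + 1 := ⟨2 * p.P - 1, by omega⟩
    rw [hq, Nat.add_sub_cancel]; ring
  rw [h1, h2]
  rfl

theorem valLE_ker2 (hp : p.Ok) :
    valLE p.ker2 = pk2d p.W (2 * p.P) (2 * p.P - 1) (2 * p.P - 1) (fun u1 u2 =>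
      2 ^ p.pk2 u1 u2) := by
  have hE := hp.hE
  have hM := p.M_eq
  have hW := p.W_eq
  unfold SwapParams.ker2
  rw [valLE_kerGrid _ _ _ _ _ _ _ _ _ _ _ hp.M_pos, pk2d_eq_nested]
  have h1 : p.M + (p.W - p.M) = p.W := by omega
  have h2 : (2 * p.P - 1) * p.W + p.W = 2 * p.P * p.W := by
    have := hp.two_le_P
    obtain ⟨q, hq⟩ : ∃ q, 2 * p.P = q + 1 := ⟨2 * p.P - 1, by omega⟩
    rw [hq, Nat.add_sub_cancel]; ring
  rw [h1, h2]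
  rfl

theorem ker_len_aux (hp : p.Ok) :
    (2 * p.P - 1) * ((2 * p.P - 1) * (p.M + (p.W - p.M)) + p.W) =
      (2 * p.P - 1) * (2 * p.P * p.W) := by
  have hE := hp.hE
  have hM := p.M_eq
  have hW := p.W_eq
  have h1 : p.M + (p.W - p.M) = p.W := by omega
  have h2 : (2 * p.P - 1) * p.W + p.W = 2 * p.P * p.W := by
    have := hp.two_le_P
    obtain ⟨q, hq⟩ : ∃ q, 2 * p.P = q + 1 := ⟨2 * p.P - 1, by omega⟩
    rw [hq, Nat.add_sub_cancel]; ring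
  rw [h1, h2]

theorem valLE_ker1_lt (hp : p.Ok) : valLE p.ker1 < 2 ^ ((2 * p.P - 1) * (2 * p.P * p.W)) := by
  have h := valLE_lt p.ker1
  have hl : p.ker1.length = (2 * p.P - 1) * (2 * p.P * p.W) := by
    unfold SwapParams.ker1
    rw [length_kerGrid _ _ _ _ _ _ _ _ _ _ _ hp.M_pos, p.ker_len_aux hp]
  rwa [hl] at h

theorem valLE_ker2_lt (hp : p.Ok) : valLE p.ker2 < 2 ^ ((2 * p.P - 1) * (2 * p.P * p.W)) := by
  have h := valLE_lt p.ker2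
  have hl : p.ker2.length = (2 * p.P - 1) * (2 * p.P * p.W) := by
    unfold SwapParams.ker2
    rw [length_kerGrid _ _ _ _ _ _ _ _ _ _ _ hp.M_pos, p.ker_len_aux hp]
  rwa [hl] at h

/-- The product of a packed array and a kernel stays inside one array region. -/
theorem arr_prod_lt (_hp : p.Ok) (A K r : ℕ) (hr : r ≤ p.P)
    (hA : A < 2 ^ (p.W * (2 * p.P * r)))
    (hK : K < 2 ^ ((2 * p.P - 1) * (2 * p.P * p.W))) : A * K < 2 ^ (p.SA * p.W) := by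
  have h1 : A * K < 2 ^ (p.W * (2 * p.P * r)) * 2 ^ ((2 * p.P - 1) * (2 * p.P * p.W)) :=
    Nat.mul_lt_mul'' hA hK
  rw [← pow_add] at h1
  refine lt_of_lt_of_le h1 (Nat.pow_le_pow_right (by norm_num) ?_)
  rw [p.SA_eq]
  have e1 : p.W * (2 * p.P * r) ≤ p.W * (2 * p.P * p.P) :=
    Nat.mul_le_mul_left _ (Nat.mul_le_mul_left _ hr)
  have e2 : (2 * p.P - 1) * (2 * p.P * p.W) ≤ (2 * p.P) * (2 * p.P * p.W) :=
    Nat.mul_le_mul_right _ (by omega)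
  have e3 : p.W * (2 * p.P * p.P) + (2 * p.P) * (2 * p.P * p.W) ≤ 8 * p.P * p.P * p.W := by
    have : p.W * (2 * p.P * p.P) + (2 * p.P) * (2 * p.P * p.W) = 6 * (p.P * p.P * p.W) := by ring
    have : 8 * p.P * p.P * p.W = 8 * (p.P * p.P * p.W) := by ring
    omega
  omega

theorem pe1_lt (hp : p.Ok) (j1 j2 : ℕ) : p.pe1 j1 j2 < p.M := gridExp_lt _ _ _ _ _ _ _ _ _ hp.M_pos
theorem pk1_lt (hp : p.Ok) (j1 j2 : ℕ) : p.pk1 j1 j2 < p.M := gridExp_lt _ _ _ _ _ _ _ _ _ hp.M_pos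
theorem pe2_lt (hp : p.Ok) (j1 j2 : ℕ) : p.pe2 j1 j2 < p.M := gridExp_lt _ _ _ _ _ _ _ _ _ hp.M_pos
theorem pk2_lt (hp : p.Ok) (j1 j2 : ℕ) : p.pk2 j1 j2 < p.M := gridExp_lt _ _ _ _ _ _ _ _ _ hp.M_pos
theorem pe3_lt (hp : p.Ok) (j1 j2 : ℕ) : p.pe3 j1 j2 < p.M := gridExp_lt _ _ _ _ _ _ _ _ _ hp.M_pos

theorem two_pow_lt_M (_hp : p.Ok) (e : ℕ) (he : e < p.M) : 2 ^ e < 2 ^ (8 * p.E) := by
  rw [← p.M_eq]
  exact Nat.pow_lt_pow_right (by norm_num) he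

theorem PP_eq : p.P * p.P = 2 ^ (2 * p.a) := by
  unfold SwapParams.P
  rw [← pow_add]; congr 1; omega

/-- Bound on the terms of the first convolution. -/
theorem term1_lt (hp : p.Ok) (v : ℕ → ℕ → ℕ)
    (hv : ∀ j1 j2, j1 < p.r0 → j2 < p.c0 → v j1 j2 < 2 ^ (p.E + 8)) (j1 j2 u1 u2 : ℕ)
    (h1 : j1 < p.r0) (h2 : j2 < p.c0) :
    2 ^ p.pe1 j1 j2 * v j1 j2 * 2 ^ p.pk1 u1 u2 < 2 ^ (17 * p.E + 8) := by
  have a1 := p.two_pow_lt_M hp _ (p.pe1_lt hp j1 j2)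
  have a2 := p.two_pow_lt_M hp _ (p.pk1_lt hp u1 u2)
  have a3 := hv j1 j2 h1 h2
  have : 2 ^ p.pe1 j1 j2 * v j1 j2 * 2 ^ p.pk1 u1 u2 <
      2 ^ (8 * p.E) * 2 ^ (p.E + 8) * 2 ^ (8 * p.E) :=
    Nat.mul_lt_mul'' (Nat.mul_lt_mul'' a1 a3) a2
  rw [← pow_add, ← pow_add] at this
  have e : 8 * p.E + (p.E + 8) + 8 * p.E = 17 * p.E + 8 := by omega
  rwa [e] at this

theorem py1_lt (hp : p.Ok) (v : ℕ → ℕ → ℕ)
    (hv : ∀ j1 j2, j1 < p.r0 → j2 < p.c0 → v j1 j2 < 2 ^ (p.E + 8)) (k1 k2 : ℕ) :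
    p.py1 v k1 k2 < 2 ^ (2 * p.a + (17 * p.E + 8)) := by
  have h := dsum_lt p.r0 p.c0 p.P (17 * p.E + 8)
    (fun j1 j2 => 2 ^ p.pe1 j1 j2 * v j1 j2 *
      2 ^ p.pk1 (k1 + p.P - 1 - j1) (k2 + p.P - 1 - j2)) hp.hr hp.hc
    (by have := hp.two_le_P; omega)
    (fun j1 j2 h1 h2 => p.term1_lt hp v hv j1 j2 _ _ h1 h2)
  rw [p.PP_eq, ← pow_add] at h
  exact h

/-- Bound on the terms of the second convolution. -/
theorem term2_lt (hp : p.Ok) (v : ℕ → ℕ → ℕ)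
    (hv : ∀ j1 j2, j1 < p.r0 → j2 < p.c0 → v j1 j2 < 2 ^ (p.E + 8)) (k1 k2 u1 u2 : ℕ) :
    2 ^ p.pe2 k1 k2 * p.py1 v k1 k2 * 2 ^ p.pk2 u1 u2 < 2 ^ (2 * p.a + (33 * p.E + 8)) := by
  have a1 := p.two_pow_lt_M hp _ (p.pe2_lt hp k1 k2)
  have a2 := p.two_pow_lt_M hp _ (p.pk2_lt hp u1 u2)
  have a3 := p.py1_lt hp v hv k1 k2
  have : 2 ^ p.pe2 k1 k2 * p.py1 v k1 k2 * 2 ^ p.pk2 u1 u2 <
      2 ^ (8 * p.E) * 2 ^ (2 * p.a + (17 * p.E + 8)) * 2 ^ (8 * p.E) :=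
    Nat.mul_lt_mul'' (Nat.mul_lt_mul'' a1 a3) a2
  rw [← pow_add, ← pow_add] at this
  have e : 8 * p.E + (2 * p.a + (17 * p.E + 8)) + 8 * p.E = 2 * p.a + (33 * p.E + 8) := by omega
  rwa [e] at this

theorem py2_lt (hp : p.Ok) (v : ℕ → ℕ → ℕ)
    (hv : ∀ j1 j2, j1 < p.r0 → j2 < p.c0 → v j1 j2 < 2 ^ (p.E + 8)) (l1 l2 : ℕ) :
    p.py2 v l1 l2 < 2 ^ (2 * p.a + (2 * p.a + (33 * p.E + 8))) := by
  have h := dsum_lt p.P p.P p.P (2 * p.a + (33 * p.E + 8))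
    (fun k1 k2 => 2 ^ p.pe2 k1 k2 * p.py1 v k1 k2 *
      2 ^ p.pk2 (l1 + p.P - 1 - k1) (l2 + p.P - 1 - k2)) le_rfl le_rfl
    (by have := hp.two_le_P; omega)
    (fun k1 k2 _ _ => p.term2_lt hp v hv k1 k2 _ _)
  rw [p.PP_eq, ← pow_add] at h
  exact h

/-- The carry-free condition of `conv_slot`, for a bound exponent `B` with room. -/
theorem conv_room (_hp : p.Ok) (B : ℕ) (hB : 2 + 4 * p.a + B ≤ 64 * p.E) :
    4 * p.P ^ 4 * 2 ^ B ≤ 2 ^ p.W := by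
  have h4 : p.P ^ 4 = 2 ^ (4 * p.a) := by
    unfold SwapParams.P
    rw [← pow_mul]; congr 1; omega
  have h2 : (4 : ℕ) = 2 ^ 2 := by norm_num
  rw [h4, h2, ← pow_add, ← pow_add, p.W_eq]
  exact Nat.pow_le_pow_right (by norm_num) hB

/-- Stage 2 on one array: the slots read are the first convolution. -/
theorem chain2 (hp : p.Ok) (v : ℕ → ℕ → ℕ)
    (hv : ∀ j1 j2, j1 < p.r0 → j2 < p.c0 → v j1 j2 < 2 ^ (p.E + 8)) :
    ctlOut p.arr2 (pk2d p.W (2 * p.P) p.r0 p.c0 (fun j1 j2 => 2 ^ p.pe1 j1 j2 * v j1 j2) *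
        valLE p.ker1) =
      pk2d p.W (2 * p.P) p.P p.P (fun k1 k2 => 2 ^ p.pe2 k1 k2 * p.py1 v k1 k2) := by
  have hE := hp.hE
  have ha := hp.a_lt_E
  have hP1 : 1 ≤ p.P := by have := hp.two_le_P; omega
  rw [p.ctlOut_arr2 hp, p.valLE_ker1 hp]
  refine pk2d_congr _ _ _ _ _ _ fun k1 k2 hk1 hk2 => ?_
  congr 1
  have hc := conv_slot p.W p.P p.r0 p.c0 (17 * p.E + 8)
    (fun j1 j2 => 2 ^ p.pe1 j1 j2 * v j1 j2) (fun u1 u2 => 2 ^ p.pk1 u1 u2) hP1 hp.hr hp.hc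
    (fun j1 j2 u1 u2 h1 h2 _ _ => p.term1_lt hp v hv j1 j2 u1 u2 h1 h2)
    (p.conv_room hp _ (by omega)) k1 k2 hk1 hk2
  have hpy : (∑ j1 ∈ range p.r0, ∑ j2 ∈ range p.c0,
      (fun j1 j2 => 2 ^ p.pe1 j1 j2 * v j1 j2) j1 j2 *
        (fun u1 u2 => 2 ^ p.pk1 u1 u2) (k1 + p.P - 1 - j1) (k2 + p.P - 1 - j2)) =
      p.py1 v k1 k2 := rfl
  have hVW : p.V ≤ p.W := by rw [p.V_eq, p.W_eq]; omega
  have hlt : p.py1 v k1 k2 < 2 ^ p.V := by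
    refine lt_of_lt_of_le (p.py1_lt hp v hv k1 k2) (Nat.pow_le_pow_right (by norm_num) ?_)
    rw [p.V_eq]; omega
  rw [← Nat.mod_mod_of_dvd _ (pow_dvd_pow 2 hVW), hc, hpy, Nat.mod_eq_of_lt hlt]

/-- Stage 3 on one array: the slots read are the second convolution. -/
theorem chain3 (hp : p.Ok) (v : ℕ → ℕ → ℕ)
    (hv : ∀ j1 j2, j1 < p.r0 → j2 < p.c0 → v j1 j2 < 2 ^ (p.E + 8)) :
    ctlOut p.arr3 (pk2d p.W (2 * p.P) p.P p.P (fun k1 k2 => 2 ^ p.pe2 k1 k2 * p.py1 v k1 k2) *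
        valLE p.ker2) =
      pk2d p.W p.r0 p.c0 p.r0 (fun l1 l2 => 2 ^ p.pe3 l1 l2 * p.py2 v l1 l2) := by
  have hE := hp.hE
  have ha := hp.a_lt_E
  have hP1 : 1 ≤ p.P := by have := hp.two_le_P; omega
  rw [p.ctlOut_arr3 hp, p.valLE_ker2 hp]
  refine pk2d_congr _ _ _ _ _ _ fun l1 l2 hl1 hl2 => ?_
  congr 1
  have hc := conv_slot p.W p.P p.P p.P (2 * p.a + (33 * p.E + 8))
    (fun k1 k2 => 2 ^ p.pe2 k1 k2 * p.py1 v k1 k2) (fun u1 u2 => 2 ^ p.pk2 u1 u2) hP1 le_rfl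
    le_rfl (fun k1 k2 u1 u2 _ _ _ _ => p.term2_lt hp v hv k1 k2 u1 u2)
    (p.conv_room hp _ (by omega)) l1 l2 (lt_of_lt_of_le hl1 hp.hc) (lt_of_lt_of_le hl2 hp.hr)
  have hpy : (∑ k1 ∈ range p.P, ∑ k2 ∈ range p.P,
      (fun k1 k2 => 2 ^ p.pe2 k1 k2 * p.py1 v k1 k2) k1 k2 *
        (fun u1 u2 => 2 ^ p.pk2 u1 u2) (l1 + p.P - 1 - k1) (l2 + p.P - 1 - k2)) =
      p.py2 v l1 l2 := rfl
  have hVW : p.V ≤ p.W := by rw [p.V_eq, p.W_eq]; omega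
  have hlt : p.py2 v l1 l2 < 2 ^ p.V := by
    refine lt_of_lt_of_le (p.py2_lt hp v hv l1 l2) (Nat.pow_le_pow_right (by norm_num) ?_)
    rw [p.V_eq]; omega
  rw [← Nat.mod_mod_of_dvd _ (pow_dvd_pow 2 hVW), hc, hpy, Nat.mod_eq_of_lt hlt]

/-- The first product stays inside its array region. -/
theorem prod1_lt (hp : p.Ok) (v : ℕ → ℕ → ℕ)
    (hv : ∀ j1 j2, j1 < p.r0 → j2 < p.c0 → v j1 j2 < 2 ^ (p.E + 8)) :
    pk2d p.W (2 * p.P) p.r0 p.c0 (fun j1 j2 => 2 ^ p.pe1 j1 j2 * v j1 j2) * valLE p.ker1 <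
      2 ^ (p.SA * p.W) := by
  have hE := hp.hE
  refine p.arr_prod_lt hp _ _ p.r0 hp.hr (pk2d_lt _ _ _ _ _ (by have := hp.hc; omega) ?_)
    (p.valLE_ker1_lt hp)
  intro j1 j2 h1 h2
  have a1 := p.two_pow_lt_M hp _ (p.pe1_lt hp j1 j2)
  have a3 := hv j1 j2 h1 h2
  have : 2 ^ p.pe1 j1 j2 * v j1 j2 < 2 ^ (8 * p.E) * 2 ^ (p.E + 8) := Nat.mul_lt_mul'' a1 a3
  rw [← pow_add] at this
  refine lt_of_lt_of_le this (Nat.pow_le_pow_right (by norm_num) ?_)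
  rw [p.W_eq]; omega

/-- The second product stays inside its array region. -/
theorem prod2_lt (hp : p.Ok) (v : ℕ → ℕ → ℕ)
    (hv : ∀ j1 j2, j1 < p.r0 → j2 < p.c0 → v j1 j2 < 2 ^ (p.E + 8)) :
    pk2d p.W (2 * p.P) p.P p.P (fun k1 k2 => 2 ^ p.pe2 k1 k2 * p.py1 v k1 k2) * valLE p.ker2 <
      2 ^ (p.SA * p.W) := by
  have hE := hp.hE
  have ha := hp.a_lt_E
  refine p.arr_prod_lt hp _ _ p.P le_rfl (pk2d_lt _ _ _ _ _ (by omega) ?_)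
    (p.valLE_ker2_lt hp)
  intro k1 k2 _ _
  have a1 := p.two_pow_lt_M hp _ (p.pe2_lt hp k1 k2)
  have a3 := p.py1_lt hp v hv k1 k2
  have : 2 ^ p.pe2 k1 k2 * p.py1 v k1 k2 < 2 ^ (8 * p.E) * 2 ^ (2 * p.a + (17 * p.E + 8)) :=
    Nat.mul_lt_mul'' a1 a3
  rw [← pow_add] at this
  refine lt_of_lt_of_le this (Nat.pow_le_pow_right (by norm_num) ?_)
  rw [p.W_eq]; omega

/-- The values after stage 3 fit in a slot. -/
theorem val3_lt (hp : p.Ok) (v : ℕ → ℕ → ℕ)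
    (hv : ∀ j1 j2, j1 < p.r0 → j2 < p.c0 → v j1 j2 < 2 ^ (p.E + 8)) (l1 l2 : ℕ) :
    2 ^ p.pe3 l1 l2 * p.py2 v l1 l2 < 2 ^ (16 * p.m) := by
  have hE := hp.hE
  have ha := hp.a_lt_E
  have a1 := p.two_pow_lt_M hp _ (p.pe3_lt hp l1 l2)
  have a3 := p.py2_lt hp v hv l1 l2
  have : 2 ^ p.pe3 l1 l2 * p.py2 v l1 l2 <
      2 ^ (8 * p.E) * 2 ^ (2 * p.a + (2 * p.a + (33 * p.E + 8))) := Nat.mul_lt_mul'' a1 a3
  rw [← pow_add] at this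
  refine lt_of_lt_of_le this (Nat.pow_le_pow_right (by norm_num) ?_)
  rw [p.m_eq]; omega

end SwapParams

end Vale.Agent.H91.MT
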