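import Vale.Agent.H91.MT.PipeCorrect_Num

/-!
# TASK PIPE, values of grids (helper96)

The output value of a control grid and the value of a kernel grid, as packed double sums.
-/

namespace Vale.Agent.H91.MT

open Finset

/-- One row of a grid. -/
def gridRow {β : Type} (cols M i0 i1 i2 c0 c1 c2 : ℕ) (z : β)
    (rowPre body tail rowPost : List β) (u1 : ℕ) : List β :=
  rowPre ++ ((List.range cols).flatMap fun u2 =>
    List.replicate (gridExp M i0 i1 i2 c0 c1 c2 u1 u2) z ++ body ++
      List.replicate (M - 1 - gridExp M i0 i1 i2 c0 c1 c2 u1 u2) z ++ tail) ++ rowPost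

/-- One array of a grid. -/
def gridArr {β : Type} (rows cols M i0 i1 i2 c0 c1 c2 : ℕ) (z : β)
    (arrPre rowPre body tail rowPost arrPost : List β) : List β :=
  arrPre ++ ((List.range rows).flatMap fun u1 =>
    gridRow cols M i0 i1 i2 c0 c1 c2 z rowPre body tail rowPost u1) ++ arrPost

theorem gridList_eq {β : Type} (reps rows cols M i0 i1 i2 c0 c1 c2 : ℕ) (z : β)
    (arrPre rowPre body tail rowPost arrPost : List β) :
    gridList reps rows cols M i0 i1 i2 c0 c1 c2 z arrPre rowPre body tail rowPost arrPost =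
      (List.range reps).flatMap fun _ =>
        gridArr rows cols M i0 i1 i2 c0 c1 c2 z arrPre rowPre body tail rowPost arrPost :=
  rfl

theorem gridExp_lt (M i0 i1 i2 c0 c1 c2 u1 u2 : ℕ) (hM : 0 < M) :
    gridExp M i0 i1 i2 c0 c1 c2 u1 u2 < M := Nat.mod_lt _ hM

section ctl

variable (rows cols M i0 i1 i2 c0 c1 c2 : ℕ) (arrPre rowPre body tail rowPost arrPost : List Ctl)

theorem olen_slot (e : ℕ) (he : e < M) :
    olen (List.replicate e Ctl.Z ++ body ++ List.replicate (M - 1 - e) Ctl.Z ++ tail) =
      M - 1 + olen body + olen tail := by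
  simp only [olen_append, olen_replicate_Z]; omega

theorem ctlNeed_slot (e : ℕ) :
    ctlNeed (List.replicate e Ctl.Z ++ body ++ List.replicate (M - 1 - e) Ctl.Z ++ tail) =
      ctlNeed body + ctlNeed tail := by
  simp only [ctlNeed_append, ctlNeed_replicate_Z]; omega

theorem ctlOut_slot (e N : ℕ) (htail : ∀ N, ctlOut tail N = 0) :
    ctlOut (List.replicate e Ctl.Z ++ body ++ List.replicate (M - 1 - e) Ctl.Z ++ tail) N =
      2 ^ e * ctlOut body N := by
  simp only [ctlOut_append, ctlOut_replicate_Z, olen_replicate_Z, ctlNeed_replicate_Z, htail,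
    Nat.mul_zero, Nat.add_zero, Nat.zero_add, pow_zero, Nat.div_one]

theorem olen_gridRow (hM : 0 < M) (h3 : olen rowPre = 0) (u1 : ℕ) :
    olen (gridRow cols M i0 i1 i2 c0 c1 c2 Ctl.Z rowPre body tail rowPost u1) =
      cols * (M - 1 + olen body + olen tail) + olen rowPost := by
  unfold gridRow
  rw [olen_append, olen_append, h3,
    olen_flatMap_range _ cols (M - 1 + olen body + olen tail)
      (fun u2 _ => olen_slot M body tail _ (gridExp_lt M i0 i1 i2 c0 c1 c2 u1 u2 hM))]
  omega

theorem ctlNeed_gridRow (u1 : ℕ) :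
    ctlNeed (gridRow cols M i0 i1 i2 c0 c1 c2 Ctl.Z rowPre body tail rowPost u1) =
      ctlNeed rowPre + cols * (ctlNeed body + ctlNeed tail) + ctlNeed rowPost := by
  unfold gridRow
  rw [ctlNeed_append, ctlNeed_append,
    ctlNeed_flatMap_range _ cols (ctlNeed body + ctlNeed tail)
      (fun u2 _ => ctlNeed_slot M body tail _)]

theorem ctlOut_gridRow (hM : 0 < M) (h3 : olen rowPre = 0) (h4 : ∀ N, ctlOut rowPre N = 0)
    (h5 : ∀ N, ctlOut tail N = 0) (h6 : ∀ N, ctlOut rowPost N = 0) (u1 N : ℕ) :
    ctlOut (gridRow cols M i0 i1 i2 c0 c1 c2 Ctl.Z rowPre body tail rowPost u1) N =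
      ∑ u2 ∈ range cols, 2 ^ ((M - 1 + olen body + olen tail) * u2) *
        (2 ^ gridExp M i0 i1 i2 c0 c1 c2 u1 u2 *
          ctlOut body (N / 2 ^ (ctlNeed rowPre + (ctlNeed body + ctlNeed tail) * u2))) := by
  unfold gridRow
  rw [ctlOut_append, ctlOut_append, h4, h6, h3,
    ctlOut_flatMap_range _ cols (M - 1 + olen body + olen tail) (ctlNeed body + ctlNeed tail) _
      (fun u2 _ => olen_slot M body tail _ (gridExp_lt M i0 i1 i2 c0 c1 c2 u1 u2 hM))
      (fun u2 _ => ctlNeed_slot M body tail _)]
  simp only [Nat.mul_zero, Nat.add_zero, Nat.zero_add, pow_zero, Nat.one_mul]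
  refine Finset.sum_congr rfl fun u2 _ => ?_
  rw [ctlOut_slot M body tail _ _ h5, Nat.div_div_eq_div_mul, ← pow_add]

theorem olen_gridArr (hM : 0 < M) (h1 : olen arrPre = 0) (h3 : olen rowPre = 0) :
    olen (gridArr rows cols M i0 i1 i2 c0 c1 c2 Ctl.Z arrPre rowPre body tail rowPost arrPost) =
      rows * (cols * (M - 1 + olen body + olen tail) + olen rowPost) + olen arrPost := by
  unfold gridArr
  rw [olen_append, olen_append, h1,
    olen_flatMap_range _ rows _
      (fun u1 _ => olen_gridRow cols M i0 i1 i2 c0 c1 c2 rowPre body tail rowPost hM h3 u1)]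
  omega

theorem ctlNeed_gridArr :
    ctlNeed (gridArr rows cols M i0 i1 i2 c0 c1 c2 Ctl.Z arrPre rowPre body tail rowPost
      arrPost) =
      ctlNeed arrPre +
        rows * (ctlNeed rowPre + cols * (ctlNeed body + ctlNeed tail) + ctlNeed rowPost) +
        ctlNeed arrPost := by
  unfold gridArr
  rw [ctlNeed_append, ctlNeed_append,
    ctlNeed_flatMap_range _ rows _
      (fun u1 _ => ctlNeed_gridRow cols M i0 i1 i2 c0 c1 c2 rowPre body tail rowPost u1)]

theorem ctlOut_gridArr (hM : 0 < M) (h1 : olen arrPre = 0) (h2 : ∀ N, ctlOut arrPre N = 0)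
    (h3 : olen rowPre = 0) (h4 : ∀ N, ctlOut rowPre N = 0)
    (h5 : ∀ N, ctlOut tail N = 0) (h6 : ∀ N, ctlOut rowPost N = 0)
    (h7 : ∀ N, ctlOut arrPost N = 0) (N : ℕ) :
    ctlOut (gridArr rows cols M i0 i1 i2 c0 c1 c2 Ctl.Z arrPre rowPre body tail rowPost
      arrPost) N =
      ∑ u1 ∈ range rows,
        2 ^ ((cols * (M - 1 + olen body + olen tail) + olen rowPost) * u1) *
          ∑ u2 ∈ range cols, 2 ^ ((M - 1 + olen body + olen tail) * u2) *
            (2 ^ gridExp M i0 i1 i2 c0 c1 c2 u1 u2 *
              ctlOut body (N / 2 ^ (ctlNeed arrPre +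
                (ctlNeed rowPre + cols * (ctlNeed body + ctlNeed tail) + ctlNeed rowPost) * u1 +
                ctlNeed rowPre + (ctlNeed body + ctlNeed tail) * u2))) := by
  unfold gridArr
  rw [ctlOut_append, ctlOut_append, h2, h7, h1,
    ctlOut_flatMap_range _ rows _ _ _
      (fun u1 _ => olen_gridRow cols M i0 i1 i2 c0 c1 c2 rowPre body tail rowPost hM h3 u1)
      (fun u1 _ => ctlNeed_gridRow cols M i0 i1 i2 c0 c1 c2 rowPre body tail rowPost u1)]
  simp only [Nat.mul_zero, Nat.add_zero, Nat.zero_add, pow_zero, Nat.one_mul]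
  refine Finset.sum_congr rfl fun u1 _ => ?_
  rw [ctlOut_gridRow cols M i0 i1 i2 c0 c1 c2 rowPre body tail rowPost hM h3 h4 h5 h6]
  congr 1
  refine Finset.sum_congr rfl fun u2 _ => ?_
  rw [Nat.div_div_eq_div_mul, Nat.div_div_eq_div_mul, ← pow_add, ← pow_add]
  congr 4
  ring

end ctl

section ker

variable (rows cols M i0 i1 i2 c0 c1 c2 t rp : ℕ)

theorem length_kerRow (hM : 0 < M) (u1 : ℕ) :
    (gridRow cols M i0 i1 i2 c0 c1 c2 false [] [true] (List.replicate t false)
      (List.replicate rp false) u1).length = cols * (M + t) + rp := by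
  unfold gridRow
  have hlen : ∀ n : ℕ, ((List.range n).flatMap fun u2 =>
      List.replicate (gridExp M i0 i1 i2 c0 c1 c2 u1 u2) false ++ [true] ++
        List.replicate (M - 1 - gridExp M i0 i1 i2 c0 c1 c2 u1 u2) false ++
        List.replicate t false).length = n * (M + t) := by
    intro n
    induction n with
    | zero => simp
    | succ n ih =>
      rw [List.range_succ, List.flatMap_append, List.length_append, ih]
      have := gridExp_lt M i0 i1 i2 c0 c1 c2 u1 n hM
      simp only [List.flatMap_cons, List.flatMap_nil, List.append_nil, List.length_append,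
        List.length_replicate, List.length_cons, List.length_nil]
      have e1 : (n + 1) * (M + t) = n * (M + t) + (M + t) := by ring
      omega
  rw [List.length_append, List.length_append, hlen]
  simp

theorem valLE_kerRow (hM : 0 < M) (u1 : ℕ) :
    valLE (gridRow cols M i0 i1 i2 c0 c1 c2 false [] [true] (List.replicate t false)
      (List.replicate rp false) u1) =
      ∑ u2 ∈ range cols, 2 ^ ((M + t) * u2) * 2 ^ gridExp M i0 i1 i2 c0 c1 c2 u1 u2 := by
  unfold gridRow
  rw [valLE_append, valLE_replicate_false, Nat.mul_zero, Nat.add_zero, List.nil_append,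
    valLE_flatMap_range _ cols (M + t)]
  · refine Finset.sum_congr rfl fun u2 _ => ?_
    simp only [valLE_append, valLE_replicate_false, List.length_replicate, valLE,
      Nat.mul_zero, Nat.add_zero, Nat.zero_add, Bool.toNat_true, Nat.mul_one,
      List.length_append, List.length_cons, List.length_nil]
  · intro u2 _
    have := gridExp_lt M i0 i1 i2 c0 c1 c2 u1 u2 hM
    simp only [List.length_append, List.length_replicate, List.length_cons, List.length_nil]
    omega

theorem valLE_kerGrid (hM : 0 < M) :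
    valLE (gridList 1 rows cols M i0 i1 i2 c0 c1 c2 false [] [] [true] (List.replicate t false)
      (List.replicate rp false) []) =
      ∑ u1 ∈ range rows, 2 ^ ((cols * (M + t) + rp) * u1) *
        ∑ u2 ∈ range cols, 2 ^ ((M + t) * u2) * 2 ^ gridExp M i0 i1 i2 c0 c1 c2 u1 u2 := by
  rw [gridList_eq]
  simp only [List.range_one, List.flatMap_cons, List.flatMap_nil, List.append_nil]
  unfold gridArr
  rw [List.nil_append, List.append_nil, valLE_flatMap_range _ rows (cols * (M + t) + rp)
    (fun u1 _ => length_kerRow cols M i0 i1 i2 c0 c1 c2 t rp hM u1)]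
  refine Finset.sum_congr rfl fun u1 _ => ?_
  rw [valLE_kerRow cols M i0 i1 i2 c0 c1 c2 t rp hM]

theorem length_kerGrid (hM : 0 < M) :
    (gridList 1 rows cols M i0 i1 i2 c0 c1 c2 false [] [] [true] (List.replicate t false)
      (List.replicate rp false) []).length = rows * (cols * (M + t) + rp) := by
  rw [gridList_eq]
  simp only [List.range_one, List.flatMap_cons, List.flatMap_nil, List.append_nil]
  unfold gridArr
  rw [List.nil_append, List.append_nil]
  induction rows with
  | zero => simp
  | succ n ih =>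
    rw [List.range_succ, List.flatMap_append, List.length_append, ih]
    simp only [List.flatMap_cons, List.flatMap_nil, List.append_nil]
    rw [length_kerRow cols M i0 i1 i2 c0 c1 c2 t rp hM]
    ring

end ker

end Vale.Agent.H91.MT
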