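import Vale.Agent.H91.MT.Pure

/-!
# TASK PIPE, number-level semantics of transducer runs (helper96)

A bit list is identified with its value `valLE`.  A run of a control list becomes a function
`ctlOut c : ℕ → ℕ`, and grids become packed sums.
-/

namespace Vale.Agent.H91.MT

open Finset

/-- Value of the output of a control list run on (the bits of) the number `n`. -/
def ctlOut : List Ctl → ℕ → ℕ
  | [], _ => 0
  | Ctl.C :: c, n => n % 2 + 2 * ctlOut c (n / 2)
  | Ctl.S :: c, n => ctlOut c (n / 2)
  | Ctl.Z :: c, n => 2 * ctlOut c n
  | Ctl.O :: c, n => 1 + 2 * ctlOut c n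
  | Ctl.N :: c, n => (1 - n % 2) + 2 * ctlOut c (n / 2)

/-- Output length of a control list. -/
def olen : List Ctl → ℕ
  | [] => 0
  | Ctl.C :: c => olen c + 1
  | Ctl.S :: c => olen c
  | Ctl.Z :: c => olen c + 1
  | Ctl.O :: c => olen c + 1
  | Ctl.N :: c => olen c + 1

theorem valLE_tail (xs : List Bool) : valLE xs.tail = valLE xs / 2 := by
  cases xs with
  | nil => simp [valLE]
  | cons b l => (cases b <;> simp [valLE]); omega

theorem valLE_headD (xs : List Bool) : (xs.headD false).toNat = valLE xs % 2 := by
  cases xs with
  | nil => simp [valLE]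
  | cons b l => cases b <;> simp [valLE]

theorem valLE_headD_not (xs : List Bool) : (!xs.headD false).toNat = 1 - valLE xs % 2 := by
  cases xs with
  | nil => simp [valLE]
  | cons b l => cases b <;> simp [valLE]

theorem valLE_applyCtl (c : List Ctl) (xs : List Bool) :
    valLE (applyCtl c xs) = ctlOut c (valLE xs) := by
  induction c generalizing xs with
  | nil => simp [applyCtl, ctlOut, valLE]
  | cons x c ih =>
    cases x
    · simp only [applyCtl, ctlOut, valLE, ih, valLE_tail, valLE_headD]
    · simp only [applyCtl, ctlOut, ih, valLE_tail]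
    · simp only [applyCtl, ctlOut, valLE, ih]; simp
    · simp only [applyCtl, ctlOut, valLE, ih]; simp
    · simp only [applyCtl, ctlOut, valLE, ih, valLE_tail, valLE_headD_not]

theorem length_applyCtl (c : List Ctl) (xs : List Bool) :
    (applyCtl c xs).length = olen c := by
  induction c generalizing xs with
  | nil => simp [applyCtl, olen]
  | cons x c ih => cases x <;> simp [applyCtl, olen, ih]

theorem olen_append (c1 c2 : List Ctl) : olen (c1 ++ c2) = olen c1 + olen c2 := by
  induction c1 with
  | nil => simp [olen]
  | cons x c ih => cases x <;> simp [olen, ih] <;> omega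

theorem ctlNeed_append (c1 c2 : List Ctl) : ctlNeed (c1 ++ c2) = ctlNeed c1 + ctlNeed c2 := by
  induction c1 with
  | nil => simp [ctlNeed]
  | cons x c ih => cases x <;> simp [ctlNeed, ih] <;> omega

theorem ctlOut_append (c1 c2 : List Ctl) (n : ℕ) :
    ctlOut (c1 ++ c2) n = ctlOut c1 n + 2 ^ olen c1 * ctlOut c2 (n / 2 ^ ctlNeed c1) := by
  induction c1 generalizing n with
  | nil => simp [ctlOut, olen, ctlNeed]
  | cons x c ih =>
    cases x
    · simp only [List.cons_append, ctlOut, olen, ctlNeed, ih, pow_succ, Nat.div_div_eq_div_mul]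
      rw [Nat.mul_comm 2 (2 ^ ctlNeed c)]; ring
    · simp only [List.cons_append, ctlOut, olen, ctlNeed, ih, pow_succ, Nat.div_div_eq_div_mul]
      rw [Nat.mul_comm 2 (2 ^ ctlNeed c)]
    · simp only [List.cons_append, ctlOut, olen, ctlNeed, ih, pow_succ]; ring
    · simp only [List.cons_append, ctlOut, olen, ctlNeed, ih, pow_succ]; ring
    · simp only [List.cons_append, ctlOut, olen, ctlNeed, ih, pow_succ, Nat.div_div_eq_div_mul]
      rw [Nat.mul_comm 2 (2 ^ ctlNeed c)]; ring

theorem ctlOut_lt (c : List Ctl) (n : ℕ) : ctlOut c n < 2 ^ olen c := by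
  induction c generalizing n with
  | nil => simp [ctlOut, olen]
  | cons x c ih =>
    cases x
    · have := ih (n / 2); simp only [ctlOut, olen, pow_succ]; omega
    · have := ih (n / 2); simpa only [ctlOut, olen] using this
    · have := ih n; simp only [ctlOut, olen, pow_succ]; omega
    · have := ih n; simp only [ctlOut, olen, pow_succ]; omega
    · have := ih (n / 2); simp only [ctlOut, olen, pow_succ]; omega

theorem ctlOut_mod (c : List Ctl) (n j : ℕ) (hj : ctlNeed c ≤ j) :
    ctlOut c (n % 2 ^ j) = ctlOut c n := by
  induction c generalizing n j with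
  | nil => simp [ctlOut]
  | cons x c ih =>
    have key : ∀ j', j = j' + 1 → n % 2 ^ j / 2 = n / 2 % 2 ^ j' ∧ n % 2 ^ j % 2 = n % 2 := by
      intro j' hj'
      subst hj'
      constructor
      · rw [pow_succ, Nat.mul_comm, Nat.mod_mul_right_div_self]
      · rw [pow_succ, Nat.mul_comm, Nat.mod_mul_right_mod]
    cases x
    · simp only [ctlNeed] at hj
      obtain ⟨j', rfl⟩ : ∃ j', j = j' + 1 := ⟨j - 1, by omega⟩
      obtain ⟨h1, h2⟩ := key j' rfl
      simp only [ctlOut, h1, h2, ih (n / 2) j' (by omega)]
    · simp only [ctlNeed] at hj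
      obtain ⟨j', rfl⟩ : ∃ j', j = j' + 1 := ⟨j - 1, by omega⟩
      obtain ⟨h1, h2⟩ := key j' rfl
      simp only [ctlOut, h1, ih (n / 2) j' (by omega)]
    · simp only [ctlNeed] at hj
      simp only [ctlOut, ih n j hj]
    · simp only [ctlNeed] at hj
      simp only [ctlOut, ih n j hj]
    · simp only [ctlNeed] at hj
      obtain ⟨j', rfl⟩ : ∃ j', j = j' + 1 := ⟨j - 1, by omega⟩
      obtain ⟨h1, h2⟩ := key j' rfl
      simp only [ctlOut, h1, h2, ih (n / 2) j' (by omega)]

/-! ### Replicated control symbols -/

theorem olen_replicate_Z (k : ℕ) : olen (List.replicate k Ctl.Z) = k := by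
  induction k with
  | zero => simp [olen]
  | succ k ih => simp [List.replicate_succ, olen, ih]

theorem ctlNeed_replicate_Z (k : ℕ) : ctlNeed (List.replicate k Ctl.Z) = 0 := by
  induction k with
  | zero => simp [ctlNeed]
  | succ k ih => simp [List.replicate_succ, ctlNeed, ih]

theorem ctlOut_replicate_Z (k n : ℕ) : ctlOut (List.replicate k Ctl.Z) n = 0 := by
  induction k with
  | zero => simp [ctlOut]
  | succ k ih => simp [List.replicate_succ, ctlOut, ih]

theorem olen_replicate_S (k : ℕ) : olen (List.replicate k Ctl.S) = 0 := by
  induction k with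
  | zero => simp [olen]
  | succ k ih => simp [List.replicate_succ, olen, ih]

theorem ctlNeed_replicate_S (k : ℕ) : ctlNeed (List.replicate k Ctl.S) = k := by
  induction k with
  | zero => simp [ctlNeed]
  | succ k ih => simp [List.replicate_succ, ctlNeed, ih]

theorem ctlOut_replicate_S (k n : ℕ) : ctlOut (List.replicate k Ctl.S) n = 0 := by
  induction k generalizing n with
  | zero => simp [ctlOut]
  | succ k ih => simp [List.replicate_succ, ctlOut, ih]

theorem olen_replicate_C (k : ℕ) : olen (List.replicate k Ctl.C) = k := by
  induction k with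
  | zero => simp [olen]
  | succ k ih => simp [List.replicate_succ, olen, ih]

theorem ctlNeed_replicate_C (k : ℕ) : ctlNeed (List.replicate k Ctl.C) = k := by
  induction k with
  | zero => simp [ctlNeed]
  | succ k ih => simp [List.replicate_succ, ctlNeed, ih]

theorem ctlOut_replicate_C (k n : ℕ) : ctlOut (List.replicate k Ctl.C) n = n % 2 ^ k := by
  induction k generalizing n with
  | zero => simp [ctlOut, Nat.mod_one]
  | succ k ih =>
    simp only [List.replicate_succ, ctlOut, ih]
    rw [pow_succ, Nat.mul_comm (2 ^ k) 2, Nat.mod_mul]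

theorem olen_replicate_N (k : ℕ) : olen (List.replicate k Ctl.N) = k := by
  induction k with
  | zero => simp [olen]
  | succ k ih => simp [List.replicate_succ, olen, ih]

theorem ctlNeed_replicate_N (k : ℕ) : ctlNeed (List.replicate k Ctl.N) = k := by
  induction k with
  | zero => simp [ctlNeed]
  | succ k ih => simp [List.replicate_succ, ctlNeed, ih]

theorem ctlOut_replicate_N (k n : ℕ) :
    ctlOut (List.replicate k Ctl.N) n = 2 ^ k - 1 - n % 2 ^ k := by
  induction k generalizing n with
  | zero => simp [ctlOut, Nat.mod_one]
  | succ k ih =>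
    simp only [List.replicate_succ, ctlOut, ih]
    rw [pow_succ, Nat.mul_comm (2 ^ k) 2, Nat.mod_mul]
    have h1 : n / 2 % 2 ^ k < 2 ^ k := Nat.mod_lt _ (by positivity)
    have h2 : n % 2 < 2 := Nat.mod_lt _ (by norm_num)
    omega

/-! ### Concatenation over a range -/

theorem olen_flatMap_range (F : ℕ → List Ctl) (n L : ℕ) (h : ∀ i, i < n → olen (F i) = L) :
    olen ((List.range n).flatMap F) = n * L := by
  induction n with
  | zero => simp [olen]
  | succ n ih =>
    rw [List.range_succ, List.flatMap_append, olen_append, ih (fun i hi => h i (by omega))]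
    simp only [List.flatMap_cons, List.flatMap_nil, List.append_nil]
    rw [h n (by omega)]; ring

theorem ctlNeed_flatMap_range (F : ℕ → List Ctl) (n c : ℕ)
    (h : ∀ i, i < n → ctlNeed (F i) = c) : ctlNeed ((List.range n).flatMap F) = n * c := by
  induction n with
  | zero => simp [ctlNeed]
  | succ n ih =>
    rw [List.range_succ, List.flatMap_append, ctlNeed_append, ih (fun i hi => h i (by omega))]
    simp only [List.flatMap_cons, List.flatMap_nil, List.append_nil]
    rw [h n (by omega)]; ring

theorem ctlOut_flatMap_range (F : ℕ → List Ctl) (n L c N : ℕ)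
    (h1 : ∀ i, i < n → olen (F i) = L) (h2 : ∀ i, i < n → ctlNeed (F i) = c) :
    ctlOut ((List.range n).flatMap F) N =
      ∑ i ∈ range n, 2 ^ (L * i) * ctlOut (F i) (N / 2 ^ (c * i)) := by
  induction n with
  | zero => simp [ctlOut]
  | succ n ih =>
    rw [List.range_succ, List.flatMap_append, ctlOut_append,
      ih (fun i hi => h1 i (by omega)) (fun i hi => h2 i (by omega)),
      olen_flatMap_range F n L (fun i hi => h1 i (by omega)),
      ctlNeed_flatMap_range F n c (fun i hi => h2 i (by omega)), Finset.sum_range_succ]
    simp only [List.flatMap_cons, List.flatMap_nil, List.append_nil]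
    rw [Nat.mul_comm n L, Nat.mul_comm n c]

/-! ### Values of bit lists -/

theorem valLE_append (l1 l2 : List Bool) :
    valLE (l1 ++ l2) = valLE l1 + 2 ^ l1.length * valLE l2 := by
  induction l1 with
  | nil => simp [valLE]
  | cons b l ih => simp only [List.cons_append, valLE, ih, List.length_cons, pow_succ]; ring

theorem valLE_replicate_false (k : ℕ) : valLE (List.replicate k false) = 0 := by
  induction k with
  | zero => simp [valLE]
  | succ k ih => simp [List.replicate_succ, valLE, ih]

theorem valLE_lt (l : List Bool) : valLE l < 2 ^ l.length := by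
  induction l with
  | nil => simp [valLE]
  | cons b l ih =>
    simp only [valLE, List.length_cons, pow_succ]
    cases b <;> simp <;> omega

theorem valLE_padTo (k : ℕ) (l : List Bool) : valLE (padTo k false l) = valLE l := by
  simp [padTo, valLE_append, valLE_replicate_false]

theorem valLE_flatMap_range (G : ℕ → List Bool) (n L : ℕ)
    (h : ∀ i, i < n → (G i).length = L) :
    valLE ((List.range n).flatMap G) = ∑ i ∈ range n, 2 ^ (L * i) * valLE (G i) := by
  induction n with
  | zero => simp [valLE]
  | succ n ih =>
    have hlen : ((List.range n).flatMap G).length = L * n := by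
      clear ih
      induction n with
      | zero => simp
      | succ n ih2 =>
        rw [List.range_succ, List.flatMap_append, List.length_append,
          ih2 (fun i hi => h i (by omega))]
        simp only [List.flatMap_cons, List.flatMap_nil, List.append_nil]
        rw [h n (by omega)]; ring
    rw [List.range_succ, List.flatMap_append, valLE_append, ih (fun i hi => h i (by omega)),
      hlen, Finset.sum_range_succ]
    simp only [List.flatMap_cons, List.flatMap_nil, List.append_nil]

theorem valLE_map_testBit (N n : ℕ) :
    valLE ((List.range n).map fun i => N.testBit i) = N % 2 ^ n := by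
  induction n with
  | zero => simp [valLE, Nat.mod_one]
  | succ n ih =>
    rw [List.range_succ, List.map_append, valLE_append, ih, Nat.mod_pow_succ]
    simp [valLE, Nat.toNat_testBit]

theorem valLE_prodBits (k : ℕ) (xs ys : List Bool) :
    valLE (prodBits k xs ys) = (valLE xs * valLE ys) % 2 ^ (2 * k) :=
  valLE_map_testBit _ _

theorem valLE_inj (l1 l2 : List Bool) (hl : l1.length = l2.length)
    (hv : valLE l1 = valLE l2) : l1 = l2 := by
  induction l1 generalizing l2 with
  | nil =>
    cases l2 with
    | nil => rfl
    | cons b l => simp at hl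
  | cons b l ih =>
    cases l2 with
    | nil => simp at hl
    | cons b2 l2 =>
      simp only [valLE] at hv
      simp only [List.length_cons, Nat.add_right_cancel_iff] at hl
      have hb : b = b2 := by
        cases b <;> cases b2 <;> simp at hv ⊢ <;> omega
      subst hb
      have : valLE l = valLE l2 := by omega
      rw [ih l2 hl this]

/-- `rep` as a concatenation over a range. -/
theorem rep_eq_flatMap {β : Type} (n : ℕ) (l : List β) :
    rep n l = (List.range n).flatMap fun _ => l := by
  induction n with
  | zero => simp [rep]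
  | succ n ih =>
    rw [List.range_succ, List.flatMap_append, ← ih]
    simp [rep, List.replicate_succ']

end Vale.Agent.H91.MT
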