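import Vale.Agent.H91.MT.PipeCorrect_Grid
import Vale.Agent.H91.MT.PipeCorrect_Defs

/-!
# TASK PIPE, parameter facts and the three array controls (helper96)
-/

namespace Vale.Agent.H91.MT

open Finset

theorem pk2d_congr (W Q r c : ℕ) (x x' : ℕ → ℕ → ℕ)
    (h : ∀ j1 j2, j1 < r → j2 < c → x j1 j2 = x' j1 j2) :
    pk2d W Q r c x = pk2d W Q r c x' := by
  unfold pk2d
  refine Finset.sum_congr rfl fun j1 h1 => Finset.sum_congr rfl fun j2 h2 => ?_
  rw [h j1 j2 (Finset.mem_range.mp h1) (Finset.mem_range.mp h2)]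

theorem pk2d_eq_nested (W Q r c : ℕ) (x : ℕ → ℕ → ℕ) :
    pk2d W Q r c x =
      ∑ j1 ∈ range r, 2 ^ (Q * W * j1) * ∑ j2 ∈ range c, 2 ^ (W * j2) * x j1 j2 := by
  unfold pk2d
  refine Finset.sum_congr rfl fun j1 _ => ?_
  rw [Finset.mul_sum]
  refine Finset.sum_congr rfl fun j2 _ => ?_
  rw [← Nat.mul_assoc, ← pow_add]
  congr 2
  ring

/-- The value of a control array as a packed array. -/
theorem ctlOut_gridArr_pk (rows cols M i0 i1 i2 c0 c1 c2 : ℕ)
    (arrPre rowPre body tail rowPost arrPost : List Ctl) (Ws Q : ℕ) (hM : 0 < M)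
    (h1 : olen arrPre = 0) (h2 : ∀ N, ctlOut arrPre N = 0)
    (h3 : olen rowPre = 0) (h4 : ∀ N, ctlOut rowPre N = 0)
    (h5 : ∀ N, ctlOut tail N = 0) (h6 : ∀ N, ctlOut rowPost N = 0)
    (h7 : ∀ N, ctlOut arrPost N = 0)
    (hLs : M - 1 + olen body + olen tail = Ws) (hLr : cols * Ws + olen rowPost = Q * Ws)
    (N : ℕ) :
    ctlOut (gridArr rows cols M i0 i1 i2 c0 c1 c2 Ctl.Z arrPre rowPre body tail rowPost
      arrPost) N =
      pk2d Ws Q rows cols (fun u1 u2 => 2 ^ gridExp M i0 i1 i2 c0 c1 c2 u1 u2 *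
        ctlOut body (N / 2 ^ (ctlNeed arrPre +
          (ctlNeed rowPre + cols * (ctlNeed body + ctlNeed tail) + ctlNeed rowPost) * u1 +
          ctlNeed rowPre + (ctlNeed body + ctlNeed tail) * u2))) := by
  rw [ctlOut_gridArr rows cols M i0 i1 i2 c0 c1 c2 arrPre rowPre body tail rowPost arrPost
    hM h1 h2 h3 h4 h5 h6 h7, pk2d_eq_nested, hLs, hLr]

namespace SwapParams

variable (p : SwapParams)

theorem g_eq : p.g = 8 := rfl
theorem m_eq : p.m = 4 * p.E := rfl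
theorem M_eq : p.M = 8 * p.E := by unfold SwapParams.M SwapParams.m; omega
theorem W_eq : p.W = 64 * p.E := by unfold SwapParams.W SwapParams.m; omega
theorem V_eq : p.V = 56 * p.E := by unfold SwapParams.V SwapParams.m; omega
theorem SA_eq : p.SA = 8 * p.P * p.P := rfl

theorem Ok.two_le_P {p : SwapParams} (hp : p.Ok) : 2 ≤ p.P := by
  unfold SwapParams.P
  calc 2 = 2 ^ 1 := by norm_num
    _ ≤ 2 ^ p.a := Nat.pow_le_pow_right (by norm_num) hp.ha

theorem Ok.P_le_E {p : SwapParams} (hp : p.Ok) : p.P ≤ p.E :=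
  Nat.le_of_dvd (by have := hp.hE; omega) hp.hPE

theorem Ok.a_lt_E {p : SwapParams} (hp : p.Ok) : p.a < p.E :=
  lt_of_lt_of_le (Nat.lt_two_pow_self) hp.P_le_E

theorem Ok.h_mul_P {p : SwapParams} (hp : p.Ok) : p.h * p.P = p.m := by
  unfold SwapParams.h
  exact Nat.div_mul_cancel (Dvd.dvd.mul_left hp.hPE 4)

theorem Ok.M_pos {p : SwapParams} (hp : p.Ok) : 0 < p.M := by
  have := hp.hE; have := p.M_eq; omega

/-- The control of one array in stage 1. -/
def arr1 : List Ctl :=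
  gridArr p.r0 p.c0 p.M 0 0 0 0 ((2 * p.h) % p.M) 0 Ctl.Z [] []
    (List.replicate (p.g - 1) Ctl.Z ++ [Ctl.O] ++ List.replicate p.E Ctl.C)
    (List.replicate (p.W - (p.M - 1) - p.g - p.E) Ctl.Z)
    (List.replicate ((2 * p.P - p.c0) * p.W) Ctl.Z)
    (List.replicate ((p.SA - 2 * p.P * p.r0) * p.W) Ctl.Z)

theorem ctl1_eq : p.ctl1 = (List.range p.R).flatMap fun _ => p.arr1 := rfl

/-- The control of one array in stage 2. -/
def arr2 : List Ctl :=
  gridArr p.P p.P p.M 0 p.eta p.eta ((2 * p.eta) % p.M) ((2 * p.h) % p.M)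
    ((2 * p.eta) % p.M) Ctl.Z
    (List.replicate ((p.P - 1) * 2 * p.P * p.W) Ctl.S)
    (List.replicate ((p.P - 1) * p.W) Ctl.S)
    (List.replicate p.V Ctl.C) p.slot2
    (List.replicate p.W Ctl.S ++ List.replicate (p.P * p.W) Ctl.Z)
    (List.replicate ((p.SA - (2 * p.P - 1) * 2 * p.P) * p.W) Ctl.S ++
      List.replicate ((p.SA - 2 * p.P * p.P) * p.W) Ctl.Z)

theorem ctl2_eq : p.ctl2 = (List.range p.R).flatMap fun _ => p.arr2 := rfl

/-- The control of one array in stage 3. -/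
def arr3 : List Ctl :=
  gridArr p.c0 p.r0 p.M ((p.M - 2 * p.a) % p.M) p.eta p.eta ((2 * p.eta) % p.M) 0
    ((2 * p.eta) % p.M) Ctl.Z
    (List.replicate ((p.P - 1) * 2 * p.P * p.W) Ctl.S)
    (List.replicate ((p.P - 1) * p.W) Ctl.S)
    (List.replicate p.V Ctl.C) p.slot2
    (List.replicate ((2 * p.P - (p.P - 1) - p.r0) * p.W) Ctl.S)
    (List.replicate ((p.SA - (p.P - 1 + p.c0) * 2 * p.P) * p.W) Ctl.S)

theorem ctl3_eq : p.ctl3 = (List.range p.R).flatMap fun _ => p.arr3 := rfl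

theorem olen_slot2 : olen p.slot2 = p.W - (p.M - 1) - p.V := by
  unfold SwapParams.slot2
  rw [olen_append, olen_replicate_S, olen_replicate_Z]; omega

theorem ctlNeed_slot2 : ctlNeed p.slot2 = p.W - p.V := by
  unfold SwapParams.slot2
  rw [ctlNeed_append, ctlNeed_replicate_S, ctlNeed_replicate_Z]; omega

theorem ctlOut_slot2 (N : ℕ) : ctlOut p.slot2 N = 0 := by
  unfold SwapParams.slot2
  rw [ctlOut_append, ctlOut_replicate_S, ctlOut_replicate_Z, Nat.mul_zero]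

end SwapParams

end Vale.Agent.H91.MT
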