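import Vale.Agent.H91.MT.PipeCorrect_Params

/-!
# TASK PIPE, the three array controls as packed arrays (helper96)
-/

namespace Vale.Agent.H91.MT

open Finset

namespace SwapParams

variable (p : SwapParams)

theorem ctlOut_body1 (N : ℕ) :
    ctlOut (List.replicate (p.g - 1) Ctl.Z ++ [Ctl.O] ++ List.replicate p.E Ctl.C) N =
      2 ^ 7 + 2 ^ 8 * (N % 2 ^ p.E) := by
  rw [ctlOut_append, ctlOut_append, ctlOut_replicate_Z, ctlOut_replicate_C, olen_append,
    olen_replicate_Z, ctlNeed_append, ctlNeed_replicate_Z]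
  simp [ctlOut, olen, ctlNeed, SwapParams.g]

theorem olen_body1 :
    olen (List.replicate (p.g - 1) Ctl.Z ++ [Ctl.O] ++ List.replicate p.E Ctl.C) = p.E + 8 := by
  rw [olen_append, olen_append, olen_replicate_Z, olen_replicate_C]
  simp [olen, SwapParams.g]; omega

theorem ctlNeed_body1 :
    ctlNeed (List.replicate (p.g - 1) Ctl.Z ++ [Ctl.O] ++ List.replicate p.E Ctl.C) = p.E := by
  rw [ctlNeed_append, ctlNeed_append, ctlNeed_replicate_Z, ctlNeed_replicate_C]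
  simp [ctlNeed]

theorem ctlOut_arr1 (hp : p.Ok) (N : ℕ) :
    ctlOut p.arr1 N = pk2d p.W (2 * p.P) p.r0 p.c0 (fun j1 j2 =>
      2 ^ p.pe1 j1 j2 * (2 ^ 7 + 2 ^ 8 * (N / 2 ^ (p.E * (p.c0 * j1 + j2)) % 2 ^ p.E))) := by
  have hE := hp.hE
  have hM := p.M_eq
  have hW := p.W_eq
  have hg := p.g_eq
  have hc := hp.hc
  have hLs : p.M - 1 +
      olen (List.replicate (p.g - 1) Ctl.Z ++ [Ctl.O] ++ List.replicate p.E Ctl.C) +
      olen (List.replicate (p.W - (p.M - 1) - p.g - p.E) Ctl.Z) = p.W := by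
    rw [olen_body1, olen_replicate_Z]; omega
  have hLr : p.c0 * p.W + olen (List.replicate ((2 * p.P - p.c0) * p.W) Ctl.Z) =
      2 * p.P * p.W := by
    rw [olen_replicate_Z, ← Nat.add_mul]
    congr 1; omega
  unfold SwapParams.arr1
  rw [ctlOut_gridArr_pk p.r0 p.c0 p.M 0 0 0 0 ((2 * p.h) % p.M) 0 [] [] _ _ _ _ p.W (2 * p.P)
    hp.M_pos rfl (fun _ => rfl) rfl (fun _ => rfl) (fun N => ctlOut_replicate_Z _ N)
    (fun N => ctlOut_replicate_Z _ N) (fun N => ctlOut_replicate_Z _ N) hLs hLr]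
  refine pk2d_congr _ _ _ _ _ _ fun j1 j2 _ _ => ?_
  rw [ctlOut_body1, ctlNeed_body1, ctlNeed_replicate_Z, ctlNeed_replicate_Z]
  have e : ctlNeed ([] : List Ctl) + (ctlNeed ([] : List Ctl) + p.c0 * (p.E + 0) + 0) * j1 +
      ctlNeed ([] : List Ctl) + (p.E + 0) * j2 = p.E * (p.c0 * j1 + j2) := by
    simp only [ctlNeed]; ring
  rw [e]
  rfl

theorem olen_arr1 (hp : p.Ok) : olen p.arr1 = p.SA * p.W := by
  have hE := hp.hE
  have hM := p.M_eq
  have hW := p.W_eq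
  have hg := p.g_eq
  have hc := hp.hc
  have hr := hp.hr
  unfold SwapParams.arr1
  rw [olen_gridArr _ _ _ _ _ _ _ _ _ _ _ _ _ _ _ hp.M_pos rfl rfl, olen_body1,
    olen_replicate_Z, olen_replicate_Z, olen_replicate_Z]
  have h1 : p.M - 1 + (p.E + 8) + (p.W - (p.M - 1) - p.g - p.E) = p.W := by omega
  rw [h1, ← Nat.add_mul]
  have h2 : p.c0 + (2 * p.P - p.c0) = 2 * p.P := by omega
  rw [h2]
  have h3 : 2 * p.P * p.r0 ≤ p.SA := by
    rw [p.SA_eq]; nlinarith [hp.two_le_P]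
  obtain ⟨d, hd⟩ := Nat.exists_eq_add_of_le h3
  rw [hd, Nat.add_sub_cancel_left]
  ring

theorem ctlNeed_arr1 : ctlNeed p.arr1 = p.r0 * (p.c0 * p.E) := by
  unfold SwapParams.arr1
  rw [ctlNeed_gridArr, ctlNeed_body1, ctlNeed_replicate_Z, ctlNeed_replicate_Z,
    ctlNeed_replicate_Z]
  simp [ctlNeed]

/-! ### Stage 2 -/

theorem ctlOut_arr2 (hp : p.Ok) (N : ℕ) :
    ctlOut p.arr2 N = pk2d p.W (2 * p.P) p.P p.P (fun k1 k2 =>
      2 ^ p.pe2 k1 k2 *
        (N / 2 ^ (p.W * (2 * p.P * (k1 + p.P - 1) + (k2 + p.P - 1))) % 2 ^ p.V)) := by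
  have hE := hp.hE
  have hM := p.M_eq
  have hW := p.W_eq
  have hV := p.V_eq
  have hLs : p.M - 1 + olen (List.replicate p.V Ctl.C) + olen p.slot2 = p.W := by
    rw [olen_replicate_C, olen_slot2]; omega
  have hLr : p.P * p.W +
      olen (List.replicate p.W Ctl.S ++ List.replicate (p.P * p.W) Ctl.Z) = 2 * p.P * p.W := by
    rw [olen_append, olen_replicate_S, olen_replicate_Z]; ring
  have h6 : ∀ N, ctlOut (List.replicate p.W Ctl.S ++ List.replicate (p.P * p.W) Ctl.Z) N = 0 := by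
    intro N
    rw [ctlOut_append, ctlOut_replicate_S, ctlOut_replicate_Z, Nat.mul_zero]
  have h7 : ∀ N, ctlOut (List.replicate ((p.SA - (2 * p.P - 1) * 2 * p.P) * p.W) Ctl.S ++
      List.replicate ((p.SA - 2 * p.P * p.P) * p.W) Ctl.Z) N = 0 := by
    intro N
    rw [ctlOut_append, ctlOut_replicate_S, ctlOut_replicate_Z, Nat.mul_zero]
  unfold SwapParams.arr2
  rw [ctlOut_gridArr_pk p.P p.P p.M 0 p.eta p.eta ((2 * p.eta) % p.M) ((2 * p.h) % p.M)
    ((2 * p.eta) % p.M) _ _ _ _ _ _ p.W (2 * p.P)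
    hp.M_pos (olen_replicate_S _) (fun N => ctlOut_replicate_S _ N) (olen_replicate_S _)
    (fun N => ctlOut_replicate_S _ N) (fun N => p.ctlOut_slot2 N) h6 h7 hLs hLr]
  refine pk2d_congr _ _ _ _ _ _ fun k1 k2 _ _ => ?_
  rw [ctlOut_replicate_C, ctlNeed_replicate_C, ctlNeed_slot2, ctlNeed_replicate_S,
    ctlNeed_replicate_S, ctlNeed_append, ctlNeed_replicate_S, ctlNeed_replicate_Z]
  have hVW : p.V + (p.W - p.V) = p.W := by omega
  rw [hVW]
  obtain ⟨P', hP'⟩ : ∃ P', p.P = P' + 1 := ⟨p.P - 1, by have := hp.two_le_P; omega⟩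
  have e : (p.P - 1) * 2 * p.P * p.W + ((p.P - 1) * p.W + p.P * p.W + (p.W + 0)) * k1 +
      (p.P - 1) * p.W + p.W * k2 = p.W * (2 * p.P * (k1 + p.P - 1) + (k2 + p.P - 1)) := by
    rw [hP']
    have e1 : k1 + (P' + 1) - 1 = k1 + P' := by omega
    have e2 : k2 + (P' + 1) - 1 = k2 + P' := by omega
    rw [e1, e2, Nat.add_sub_cancel]
    ring
  rw [e]
  rfl

theorem olen_arr2 (hp : p.Ok) : olen p.arr2 = p.SA * p.W := by
  have hE := hp.hE
  have hM := p.M_eq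
  have hW := p.W_eq
  have hV := p.V_eq
  unfold SwapParams.arr2
  rw [olen_gridArr _ _ _ _ _ _ _ _ _ _ _ _ _ _ _ hp.M_pos (olen_replicate_S _)
    (olen_replicate_S _), olen_replicate_C, olen_slot2, olen_append, olen_append,
    olen_replicate_S, olen_replicate_S, olen_replicate_Z, olen_replicate_Z]
  have h1 : p.M - 1 + p.V + (p.W - (p.M - 1) - p.V) = p.W := by omega
  rw [h1, p.SA_eq]
  have h3 : 8 * p.P * p.P - 2 * p.P * p.P = 6 * p.P * p.P := by
    have : 8 * p.P * p.P = 2 * p.P * p.P + 6 * p.P * p.P := by ring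
    omega
  rw [h3]
  ring

theorem ctlNeed_arr2 (hp : p.Ok) : ctlNeed p.arr2 = p.SA * p.W := by
  have hE := hp.hE
  have hM := p.M_eq
  have hW := p.W_eq
  have hV := p.V_eq
  unfold SwapParams.arr2
  rw [ctlNeed_gridArr, ctlNeed_replicate_C, ctlNeed_slot2, ctlNeed_append, ctlNeed_append,
    ctlNeed_replicate_S, ctlNeed_replicate_S, ctlNeed_replicate_S, ctlNeed_replicate_S,
    ctlNeed_replicate_Z, ctlNeed_replicate_Z]
  have hVW : p.V + (p.W - p.V) = p.W := by omega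
  rw [hVW, p.SA_eq]
  obtain ⟨P', hP'⟩ : ∃ P', p.P = P' + 1 := ⟨p.P - 1, by have := hp.two_le_P; omega⟩
  rw [hP', Nat.add_sub_cancel]
  have h3 : 8 * (P' + 1) * (P' + 1) - (2 * (P' + 1) - 1) * 2 * (P' + 1) =
      4 * (P' + 1) * (P' + 1) + 2 * (P' + 1) := by
    have e1 : 2 * (P' + 1) - 1 = 2 * P' + 1 := by omega
    rw [e1]
    have : 8 * (P' + 1) * (P' + 1) =
        (2 * P' + 1) * 2 * (P' + 1) + (4 * (P' + 1) * (P' + 1) + 2 * (P' + 1)) := by ring
    omega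
  rw [h3]
  ring

/-! ### Stage 3 -/

theorem ctlOut_arr3 (hp : p.Ok) (N : ℕ) :
    ctlOut p.arr3 N = pk2d p.W p.r0 p.c0 p.r0 (fun l1 l2 =>
      2 ^ p.pe3 l1 l2 *
        (N / 2 ^ (p.W * (2 * p.P * (l1 + p.P - 1) + (l2 + p.P - 1))) % 2 ^ p.V)) := by
  have hE := hp.hE
  have hM := p.M_eq
  have hW := p.W_eq
  have hV := p.V_eq
  have hr := hp.hr
  have hLs : p.M - 1 + olen (List.replicate p.V Ctl.C) + olen p.slot2 = p.W := by
    rw [olen_replicate_C, olen_slot2]; omega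
  have hLr : p.r0 * p.W +
      olen (List.replicate ((2 * p.P - (p.P - 1) - p.r0) * p.W) Ctl.S) = p.r0 * p.W := by
    rw [olen_replicate_S]; rfl
  unfold SwapParams.arr3
  rw [ctlOut_gridArr_pk p.c0 p.r0 p.M ((p.M - 2 * p.a) % p.M) p.eta p.eta ((2 * p.eta) % p.M) 0
    ((2 * p.eta) % p.M) _ _ _ _ _ _ p.W p.r0
    hp.M_pos (olen_replicate_S _) (fun N => ctlOut_replicate_S _ N) (olen_replicate_S _)
    (fun N => ctlOut_replicate_S _ N) (fun N => p.ctlOut_slot2 N)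
    (fun N => ctlOut_replicate_S _ N) (fun N => ctlOut_replicate_S _ N) hLs hLr]
  refine pk2d_congr _ _ _ _ _ _ fun l1 l2 _ _ => ?_
  rw [ctlOut_replicate_C, ctlNeed_replicate_C, ctlNeed_slot2, ctlNeed_replicate_S,
    ctlNeed_replicate_S, ctlNeed_replicate_S]
  have hVW : p.V + (p.W - p.V) = p.W := by omega
  rw [hVW]
  obtain ⟨P', hP'⟩ : ∃ P', p.P = P' + 1 := ⟨p.P - 1, by have := hp.two_le_P; omega⟩
  have e0 : (p.P - 1) * p.W + p.r0 * p.W + (2 * p.P - (p.P - 1) - p.r0) * p.W =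
      2 * p.P * p.W := by
    rw [← Nat.add_mul, ← Nat.add_mul]
    congr 1; omega
  have e : (p.P - 1) * 2 * p.P * p.W +
      ((p.P - 1) * p.W + p.r0 * p.W + (2 * p.P - (p.P - 1) - p.r0) * p.W) * l1 +
      (p.P - 1) * p.W + p.W * l2 = p.W * (2 * p.P * (l1 + p.P - 1) + (l2 + p.P - 1)) := by
    rw [e0, hP']
    have e1 : l1 + (P' + 1) - 1 = l1 + P' := by omega
    have e2 : l2 + (P' + 1) - 1 = l2 + P' := by omega
    rw [e1, e2, Nat.add_sub_cancel]
    ring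
  rw [e]
  rfl

theorem olen_arr3 (hp : p.Ok) : olen p.arr3 = p.c0 * p.r0 * p.W := by
  have hE := hp.hE
  have hM := p.M_eq
  have hW := p.W_eq
  have hV := p.V_eq
  unfold SwapParams.arr3
  rw [olen_gridArr _ _ _ _ _ _ _ _ _ _ _ _ _ _ _ hp.M_pos (olen_replicate_S _)
    (olen_replicate_S _), olen_replicate_C, olen_slot2, olen_replicate_S, olen_replicate_S]
  have h1 : p.M - 1 + p.V + (p.W - (p.M - 1) - p.V) = p.W := by omega
  rw [h1]
  ring

theorem ctlNeed_arr3 (hp : p.Ok) : ctlNeed p.arr3 = p.SA * p.W := by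
  have hE := hp.hE
  have hM := p.M_eq
  have hW := p.W_eq
  have hV := p.V_eq
  have hr := hp.hr
  have hc := hp.hc
  unfold SwapParams.arr3
  rw [ctlNeed_gridArr, ctlNeed_replicate_C, ctlNeed_slot2, ctlNeed_replicate_S,
    ctlNeed_replicate_S, ctlNeed_replicate_S, ctlNeed_replicate_S]
  have hVW : p.V + (p.W - p.V) = p.W := by omega
  rw [hVW]
  have e0 : (p.P - 1) * p.W + p.r0 * p.W + (2 * p.P - (p.P - 1) - p.r0) * p.W =
      2 * p.P * p.W := by
    have := hp.two_le_P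
    rw [← Nat.add_mul, ← Nat.add_mul]
    congr 1; omega
  rw [e0]
  have h3 : (p.P - 1 + p.c0) * 2 * p.P ≤ p.SA := by
    rw [p.SA_eq]
    have h4 : p.P - 1 + p.c0 ≤ 2 * p.P := by omega
    calc (p.P - 1 + p.c0) * 2 * p.P ≤ (2 * p.P) * 2 * p.P :=
          Nat.mul_le_mul_right _ (Nat.mul_le_mul_right _ h4)
      _ ≤ 8 * p.P * p.P := by nlinarith
  obtain ⟨d, hd⟩ := Nat.exists_eq_add_of_le h3
  rw [hd, Nat.add_sub_cancel_left]
  ring

end SwapParams

end Vale.Agent.H91.MT
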