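import Vale.Agent.H91.MT.Pre_Sqrt

/-!
# TASK PRE, binary logarithm of a register

Doubling: the scratch register `t1` runs through `1, 2, 4, ...` while the head of `r` sits on
cell `2 ^ j`; the loop stops at the first power of two that is `≥ n`, and `n` is a power of two
exactly when the cell to the left of the head of `r` is still inside the register.
-/

namespace Vale.Agent.H91.MT.Pre

variable {α : Type} {K : ℕ}

theorem ruler_append (i : ℕ) :
    ((ruler i i : Tape (Sym ⊕ α)).write (Sum.inl Sym.one)).move Dir.R = ruler (i + 1) (i + 1) := by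
  rw [ruler_write_end]
  rfl

theorem eraseT_read_lt_ne {v i : ℕ} (h : i < v) :
    (eraseT v i : Tape (Sym ⊕ α)).read ≠ Sum.inl Sym.lend := by
  rw [eraseT_read_lt h]
  simp

/-- One round of the doubling loop: `t1 := 2 * t1`, the head of `r` advances by the old value
of `t1`, and `lg` (head at its end) grows by one cell. -/
def dblBody (r lg t1 t2 : Fin K) : Prog (Sym ⊕ α) K :=
  Prog.seq (Prog.loop (isSym t1 Sym.one)
      (Prog.seq (Prog.cp t1 t2 (fun _ => Sum.inl Sym.one)) (Prog.mv r Dir.R)))
    (Prog.seq (Prog.mv t2 Dir.L)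
      (Prog.seq (Prog.loop (notSym t2 Sym.lend)
          (Prog.seq (Prog.wm t2 (fun _ => Sum.inl Sym.blank) Dir.L)
            (Prog.wm t1 (fun _ => Sum.inl Sym.one) Dir.R)))
        (Prog.seq (Prog.mv t2 Dir.R)
          (Prog.seq (rewind t1) (Prog.wm lg (fun _ => Sum.inl Sym.one) Dir.R)))))

theorem dblBody_run {T : Fin 5 → Fin K} (hT : Function.Injective T) (s : St (Sym ⊕ α) K)
    (n q j v : ℕ) (F : Tape (Sym ⊕ α)) :
    RunLe (dblBody (T 0) (T 1) (T 3) (T 4))
      (stN s T ![ruler n q, ruler j j, F, ruler v 0, ruler 0 0])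
      (stN s T ![ruler n (q + v), ruler (j + 1) (j + 1), F, ruler (2 * v) 0, ruler 0 0])
      (10 * v + 9) := by
  -- copy `t1` to `t2`, advancing the head of `r`
  have hA := loop_count (isSym (T 3) Sym.one)
    (Prog.seq (Prog.cp (T 3) (T 4) (fun _ => Sum.inl Sym.one)) (Prog.mv (T 0) Dir.R)) v
    (fun i => stN s T ![ruler n (q + i), ruler j j, F, ruler v i, ruler i i]) 2
    (by
      intro i hi
      exact stN_isSym_true hT s _ 3 Sym.one (ruler_read_lt hi))
    (by
      intro i hi
      exact (Run.seq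
        (stN_cp hT s _ ![ruler n (q + i), ruler j j, F, ruler v (i + 1), ruler (i + 1) (i + 1)]
          3 4 (by decide) (Sum.inl Sym.one)
          (by
            rw [← ruler_append i]
            funext k
            fin_cases k <;> rfl))
        (stN_mv hT s _ _ 0 Dir.R (by funext k; fin_cases k <;> rfl))).le)
    (stN_isSym_false hT s _ 3 Sym.one (ruler_read_ge_ne_one le_rfl))
  have hL := stN_mv hT s ![ruler n (q + v), ruler j j, F, ruler v v, ruler v v]
    ![ruler n (q + v), ruler j j, F, ruler v v, eraseT v 0] 4 Dir.L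
    (by funext k; fin_cases k <;> rfl)
  -- append `t2` to `t1`, erasing `t2`
  have hB := loop_count (notSym (T 4) Sym.lend)
    (Prog.seq (Prog.wm (T 4) (fun _ => Sum.inl Sym.blank) Dir.L)
      (Prog.wm (T 3) (fun _ => Sum.inl Sym.one) Dir.R)) v
    (fun i => stN s T ![ruler n (q + v), ruler j j, F, ruler (v + i) (v + i), eraseT v i]) 2
    (by
      intro i hi
      exact stN_notSym_true hT s _ 4 Sym.lend (eraseT_read_lt_ne hi))
    (by
      intro i hi
      exact (Run.seq
        (stN_wm hT s _
          ![ruler n (q + v), ruler j j, F, ruler (v + i) (v + i), eraseT v (i + 1)]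
          4 (Sum.inl Sym.blank) Dir.L
          (by
            rw [← eraseT_step hi]
            funext k
            fin_cases k <;> rfl))
        (stN_wm hT s _
          ![ruler n (q + v), ruler j j, F, ruler (v + i + 1) (v + i + 1), eraseT v (i + 1)]
          3 (Sum.inl Sym.one) Dir.R
          (by
            rw [← ruler_append (v + i)]
            funext k
            fin_cases k <;> rfl))).le)
    (stN_notSym_false hT s _ 4 Sym.lend (eraseT_read_self v))
  have hR := stN_mv hT s ![ruler n (q + v), ruler j j, F, ruler (v + v) (v + v), eraseT v v]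
    ![ruler n (q + v), ruler j j, F, ruler (v + v) (v + v), ruler 0 0] 4 Dir.R
    (by
      rw [← eraseT_self_move v]
      funext k
      fin_cases k <;> rfl)
  have hW := stN_rewind hT s
    ![ruler n (q + v), ruler j j, F, ruler (v + v) (v + v), ruler 0 0]
    ![ruler n (q + v), ruler j j, F, ruler (2 * v) 0, ruler 0 0] 3
    (List.replicate (v + v) (Sum.inl Sym.one)) (lend_not_mem_replicate_one _) (v + v) rfl
    (by
      have e : 2 * v = v + v := by omega
      rw [e]
      funext k
      fin_cases k <;> rfl)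
  have hG := stN_wm hT s ![ruler n (q + v), ruler j j, F, ruler (2 * v) 0, ruler 0 0]
    ![ruler n (q + v), ruler (j + 1) (j + 1), F, ruler (2 * v) 0, ruler 0 0] 1
    (Sum.inl Sym.one) Dir.R
    (by
      rw [← ruler_append j]
      funext k
      fin_cases k <;> rfl)
  have h := RunLe.seq hA (RunLe.seq hL.le (RunLe.seq hB (RunLe.seq hR.le
    (RunLe.seq hW.le hG.le))))
  refine h.cast rfl rfl ?_
  omega

/-- Erase a register (head at home before and after). -/
def clearReg (a : Fin K) : Prog (Sym ⊕ α) K :=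
  Prog.seq (Prog.loop (isSym a Sym.one) (Prog.mv a Dir.R))
    (Prog.seq (Prog.mv a Dir.L)
      (Prog.seq (Prog.loop (notSym a Sym.lend) (Prog.wm a (fun _ => Sum.inl Sym.blank) Dir.L))
        (Prog.mv a Dir.R)))

theorem clearReg_run {m : ℕ} {T : Fin m → Fin K} (hT : Function.Injective T)
    (s : St (Sym ⊕ α) K) (v : Fin m → Tape (Sym ⊕ α)) (k : Fin m) (V : ℕ)
    (hk : v k = ruler V 0) :
    RunLe (clearReg (T k)) (stN s T v) (stN s T (Function.update v k (ruler 0 0)))
      (4 * V + 4) := by
  have hA := loop_count (isSym (T k) Sym.one) (Prog.mv (T k) Dir.R) V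
    (fun i => stN s T (Function.update v k (ruler V i))) 1
    (by
      intro i hi
      exact stN_isSym_true hT s _ k Sym.one (by rw [Function.update_self]; exact ruler_read_lt hi))
    (by
      intro i hi
      exact (stN_mv hT s _ _ k Dir.R
        (by rw [Function.update_self, Function.update_idem]; rfl)).le)
    (stN_isSym_false hT s _ k Sym.one
      (by rw [Function.update_self]; exact ruler_read_ge_ne_one le_rfl))
  have hL := stN_mv hT s (Function.update v k (ruler V V))
    (Function.update v k (eraseT V 0)) k Dir.L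
    (by rw [Function.update_self, Function.update_idem]; rfl)
  have hB := loop_count (notSym (T k) Sym.lend)
    (Prog.wm (T k) (fun _ => Sum.inl Sym.blank) Dir.L) V
    (fun i => stN s T (Function.update v k (eraseT V i))) 1
    (by
      intro i hi
      exact stN_notSym_true hT s _ k Sym.lend
        (by rw [Function.update_self]; exact eraseT_read_lt_ne hi))
    (by
      intro i hi
      exact (stN_wm hT s _ _ k (Sum.inl Sym.blank) Dir.L
        (by rw [Function.update_self, Function.update_idem, eraseT_step hi])).le)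
    (stN_notSym_false hT s _ k Sym.lend
      (by rw [Function.update_self]; exact eraseT_read_self V))
  have hR := stN_mv hT s (Function.update v k (eraseT V V))
    (Function.update v k (ruler 0 0)) k Dir.R
    (by rw [Function.update_self, Function.update_idem, eraseT_self_move])
  have h := RunLe.seq hA (RunLe.seq hL.le (RunLe.seq hB hR.le))
  have e0 : stN s T (Function.update v k (ruler V 0)) = stN s T v := by
    rw [← hk, Function.update_eq_self]
  refine h.cast e0 rfl ?_
  omega

/-- Binary logarithm of the register `r`, with a power-of-two flag on `fl`. -/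
def log2RulerP (r lg fl t1 t2 : Fin K) : Prog (Sym ⊕ α) K :=
  Prog.seq (Prog.wm t1 (fun _ => Sum.inl Sym.one) Dir.S)
    (Prog.seq (Prog.mv r Dir.R)
      (Prog.seq (Prog.loop (isSym r Sym.one) (dblBody r lg t1 t2))
        (Prog.seq (Prog.mv r Dir.L)
          (Prog.seq (Prog.ite (isSym r Sym.one)
              (Prog.wm fl (fun _ => Sum.inl Sym.one) Dir.S)
              (Prog.wm fl (fun _ => Sum.inl Sym.zero) Dir.S))
            (Prog.seq (rewind r) (Prog.seq (rewind lg) (clearReg t1)))))))

theorem sum_log_cost (J : ℕ) :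
    ∑ j ∈ Finset.range J, (10 * 2 ^ j + 9 + 1) + 10 = 10 * 2 ^ J + 10 * J := by
  induction J with
  | zero => simp
  | succ J ih =>
    rw [Finset.sum_range_succ, pow_succ]
    omega

theorem WT_nil_write (x : Sym ⊕ α) :
    ((WT [] 0 : Tape (Sym ⊕ α)).write x).move Dir.S = WT [x] 0 :=
  WT_write_end [] x

theorem log2RulerP_run (T : Fin 5 → Fin K) (hT : Function.Injective T) (n : ℕ) (hn : 1 ≤ n)
    (s : St (Sym ⊕ α) K)
    (hr : s (T 0) = ruler n 0) (hlg : s (T 1) = ruler 0 0) (hfl : s (T 2) = WT [] 0)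
    (ht1 : s (T 3) = ruler 0 0) (ht2 : s (T 4) = ruler 0 0) :
    ∃ s', RunLe (log2RulerP (T 0) (T 1) (T 2) (T 3) (T 4)) s s' (100 * (n + 1)) ∧
      ((∃ ν, n = 2 ^ ν ∧ s' = Function.update (Function.update s (T 1) (ruler ν 0))
          (T 2) (WT [Sum.inl Sym.one] 0)) ∨
       ((∀ ν, n ≠ 2 ^ ν) ∧ ∃ v, s' = Function.update (Function.update s (T 1) (ruler v 0))
          (T 2) (WT [Sum.inl Sym.zero] 0))) := by
  -- the number of rounds
  obtain ⟨J, hJ⟩ : ∃ J, J = Nat.clog 2 n := ⟨_, rfl⟩
  have hJ1 : ∀ j, j < J → 2 ^ j < n := by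
    intro j hj
    rw [hJ] at hj
    exact Nat.pow_lt_of_lt_clog hj
  have hJ2 : n ≤ 2 ^ J := by
    rw [hJ]
    exact Nat.le_pow_clog (by norm_num) n
  have hJ3 : 2 ^ J < 2 * n ∧ J ≤ n := by
    rcases Nat.eq_zero_or_pos J with h0 | hpos
    · rw [h0]
      constructor
      · simp; omega
      · omega
    · obtain ⟨J', rfl⟩ : ∃ J', J = J' + 1 := ⟨J - 1, by omega⟩
      have h1 := hJ1 J' (by omega)
      have h2 : J' < 2 ^ J' := Nat.lt_two_pow_self
      rw [pow_succ]
      constructor <;> omega
  obtain ⟨V', hV'⟩ : ∃ V', 2 ^ J = V' + 1 := ⟨2 ^ J - 1, by have := Nat.one_le_two_pow (n := J); omega⟩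
  -- the start
  have estart : (fun k => s (T k)) = ![ruler n 0, ruler 0 0, WT [] 0, ruler 0 0, ruler 0 0] := by
    funext k
    fin_cases k
    · exact hr
    · exact hlg
    · exact hfl
    · exact ht1
    · exact ht2
  have e0 : stN s T ![ruler n 0, ruler 0 0, WT [] 0, ruler 0 0, ruler 0 0] = s := by
    rw [← estart, stN_self hT]
  have hI1 := stN_wm hT s ![ruler n 0, ruler 0 0, WT [] 0, ruler 0 0, ruler 0 0]
    ![ruler n 0, ruler 0 0, WT [] 0, ruler 1 0, ruler 0 0] 3 (Sum.inl Sym.one) Dir.S
    (by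
      have e : ((ruler 0 0 : Tape (Sym ⊕ α)).write (Sum.inl Sym.one)).move Dir.S = ruler 1 0 := by
        rw [ruler_write_end]
        rfl
      rw [← e]
      funext k
      fin_cases k <;> rfl)
  have hI2 := stN_mv hT s ![ruler n 0, ruler 0 0, WT [] 0, ruler 1 0, ruler 0 0]
    ![ruler n (2 ^ 0), ruler 0 0, WT [] 0, ruler (2 ^ 0) 0, ruler 0 0] 0 Dir.R
    (by funext k; fin_cases k <;> rfl)
  -- the doubling loop
  have hloop := loop_sum (isSym (T 0) Sym.one) (dblBody (T 0) (T 1) (T 3) (T 4)) J
    (fun j => stN s T ![ruler n (2 ^ j), ruler j j, WT [] 0, ruler (2 ^ j) 0, ruler 0 0])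
    (fun j => 10 * 2 ^ j + 9)
    (by
      intro j hj
      exact stN_isSym_true hT s _ 0 Sym.one (ruler_read_lt (hJ1 j hj)))
    (by
      intro j hj
      have h := dblBody_run hT s n (2 ^ j) j (2 ^ j) (WT [] 0)
      have e1 : 2 ^ j + 2 ^ j = 2 ^ (j + 1) := by rw [pow_succ]; omega
      have e2 : 2 * 2 ^ j = 2 ^ (j + 1) := by rw [pow_succ]; omega
      rw [e1, e2] at h
      exact h)
    (stN_isSym_false hT s _ 0 Sym.one (ruler_read_ge_ne_one hJ2))
  simp only [hV'] at hloop
  have hF1 := stN_mv hT s ![ruler n (V' + 1), ruler J J, WT [] 0, ruler (V' + 1) 0, ruler 0 0]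
    ![ruler n V', ruler J J, WT [] 0, ruler (V' + 1) 0, ruler 0 0] 0 Dir.L
    (by funext k; fin_cases k <;> rfl)
  -- the flag
  obtain ⟨b, hb⟩ : ∃ b : Sym, b = if V' < n then Sym.one else Sym.zero := ⟨_, rfl⟩
  have hF2 : RunLe (Prog.ite (isSym (T 0) Sym.one)
      (Prog.wm (T 2) (fun _ => (Sum.inl Sym.one : Sym ⊕ α)) Dir.S)
      (Prog.wm (T 2) (fun _ => (Sum.inl Sym.zero : Sym ⊕ α)) Dir.S))
      (stN s T ![ruler n V', ruler J J, WT [] 0, ruler (V' + 1) 0, ruler 0 0])
      (stN s T ![ruler n V', ruler J J, WT [Sum.inl b] 0, ruler (V' + 1) 0, ruler 0 0]) 2 := by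
    by_cases hpow : V' < n
    · rw [if_pos hpow] at hb
      rw [hb]
      exact RunLe.ite_true (stN_isSym_true hT s _ 0 Sym.one (ruler_read_lt hpow))
        (stN_wm hT s _ _ 2 (Sum.inl Sym.one) Dir.S
          (by
            rw [← WT_nil_write (Sum.inl Sym.one)]
            funext k
            fin_cases k <;> rfl)).le
    · rw [if_neg hpow] at hb
      rw [hb]
      exact RunLe.ite_false
        (stN_isSym_false hT s _ 0 Sym.one (ruler_read_ge_ne_one (not_lt.mp hpow)))
        (stN_wm hT s _ _ 2 (Sum.inl Sym.zero) Dir.S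
          (by
            rw [← WT_nil_write (Sum.inl Sym.zero)]
            funext k
            fin_cases k <;> rfl)).le
  have hF3 := stN_rewind hT s
    ![ruler n V', ruler J J, WT [Sum.inl b] 0, ruler (V' + 1) 0, ruler 0 0]
    ![ruler n 0, ruler J J, WT [Sum.inl b] 0, ruler (V' + 1) 0, ruler 0 0] 0
    (List.replicate n (Sum.inl Sym.one)) (lend_not_mem_replicate_one _) V' rfl
    (by funext k; fin_cases k <;> rfl)
  have hF4 := stN_rewind hT s
    ![ruler n 0, ruler J J, WT [Sum.inl b] 0, ruler (V' + 1) 0, ruler 0 0]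
    ![ruler n 0, ruler J 0, WT [Sum.inl b] 0, ruler (V' + 1) 0, ruler 0 0] 1
    (List.replicate J (Sum.inl Sym.one)) (lend_not_mem_replicate_one _) J rfl
    (by funext k; fin_cases k <;> rfl)
  have hF5 := clearReg_run hT s
    ![ruler n 0, ruler J 0, WT [Sum.inl b] 0, ruler (V' + 1) 0, ruler 0 0] 3 (V' + 1) rfl
  have e5 : Function.update
      (![ruler n 0, ruler J 0, WT [Sum.inl b] 0, ruler (V' + 1) 0, ruler 0 0] :
        Fin 5 → Tape (Sym ⊕ α)) 3 (ruler 0 0)
      = ![ruler n 0, ruler J 0, WT [Sum.inl b] 0, ruler 0 0, ruler 0 0] := by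
    funext k
    fin_cases k <;> rfl
  rw [e5] at hF5
  -- the final state
  have efin : stN s T ![ruler n 0, ruler J 0, WT [Sum.inl b] 0, ruler 0 0, ruler 0 0]
      = Function.update (Function.update s (T 1) (ruler J 0)) (T 2) (WT [Sum.inl b] 0) := by
    have h1 := stN_upd hT s (fun k => s (T k)) 1 (ruler J 0)
    have h2 := stN_upd hT s (Function.update (fun k => s (T k)) 1 (ruler J 0)) 2
      (WT [Sum.inl b] 0)
    rw [stN_self hT] at h1
    rw [← h1] at h2
    rw [h2, estart]
    congr 1
    funext k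
    fin_cases k <;> rfl
  have hall := RunLe.seq hI1.le (RunLe.seq hI2.le (RunLe.seq hloop (RunLe.seq hF1.le
    (RunLe.seq hF2 (RunLe.seq hF3.le (RunLe.seq hF4.le hF5))))))
  have hcost := sum_log_cost J
  rw [hV'] at hcost
  refine ⟨_, hall.cast e0 efin (by omega), ?_⟩
  by_cases hpow : V' < n
  · left
    rw [if_pos hpow] at hb
    refine ⟨J, by omega, ?_⟩
    rw [hb]
  · right
    rw [if_neg hpow] at hb
    refine ⟨?_, J, by rw [hb]⟩
    intro ν hν
    have h1 : 2 ^ ν < 2 ^ J := by omega
    have h2 : ν < J := (Nat.pow_lt_pow_iff_right (by norm_num : 1 < 2)).mp h1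
    have h3 := hJ1 ν h2
    omega

end Vale.Agent.H91.MT.Pre
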