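import Vale.Agent.H91.MT.RegB
import Vale.Agent.H91.MT.Pure
import Vale.Agent.H91.MT.Pre_IO
import Vale.Agent.H91.MT.Pre_Log

/-!
# TASK PRE: input, output and size detection

The programs and their proofs live in `Pre_Base`, `Pre_IO`, `Pre_Sqrt` and `Pre_Log`
(namespace `Vale.Agent.H91.MT.Pre`); this file states the results under the agreed names.
-/

namespace Vale.Agent.H91.MT

variable {α : Type} {K : ℕ}

/-- Copy the raw input tape `i` (no left-end marker, word starting on cell 0, head on cell 0)
to the empty work tape `d`; `d` is rewound. -/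
def copyIn (i d : Fin K) : Prog (Sym ⊕ α) K := Pre.copyInP i d

theorem copyIn_run (i d : Fin K) (hid : i ≠ d) (w : List Bool) (s : St (Sym ⊕ α) K)
    (hi : s i = Tape.ofList (Sum.inl Sym.blank) (w.map bsym)) (hd : s d = WT [] 0) :
    RunLe (copyIn i d) s
      (Function.update (Function.update s i
        ⟨w.length, (Tape.ofList (Sum.inl Sym.blank) (w.map bsym)).cells⟩)
        d (WT (w.map bsym) 0)) (6 * w.length + 10) :=
  Pre.copyInP_run i d hid w s hi hd

/-- Write the content of the work tape `d` (read from home) on the raw blank tape `o`, starting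
on cell 0. -/
def writeOut (d o : Fin K) : Prog (Sym ⊕ α) K := Pre.writeOutP d o

theorem writeOut_run (d o : Fin K) (hdo : d ≠ o) (w : List Bool) (s : St (Sym ⊕ α) K)
    (hd : s d = WT (w.map bsym) 0) (ho : s o = Tape.ofList (Sum.inl Sym.blank) []) :
    RunLe (writeOut d o) s
      (Function.update (Function.update s d (WT (w.map bsym) w.length))
        o ⟨w.length, (Tape.ofList (Sum.inl Sym.blank) (w.map bsym)).cells⟩)
      (3 * w.length + 3) :=
  Pre.writeOutP_run d o hdo w s hd ho

/-- Turn a completely blank raw tape into an empty work tape. -/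
def initWork (a : Fin K) : Prog (Sym ⊕ α) K :=
  Prog.wm a (fun _ => Sum.inl Sym.lend) Dir.R

theorem initWork_run (a : Fin K) (s : St (Sym ⊕ α) K)
    (ha : s a = Tape.ofList (Sum.inl Sym.blank) []) :
    Run (initWork a) s (Function.update s a (WT [] 0)) 1 :=
  Pre.initWorkP_run a s ha

/-- Integer square root of the length of a stream: if tape `x` holds `n * n` cells, the
register `r` (empty before) becomes `n`.  `t` is an empty scratch register. -/
def sqrtRuler (x r t : Fin K) : Prog (Sym ⊕ α) K := Pre.sqrtRulerP x r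

theorem sqrtRuler_run (x r t : Fin K) (hxr : x ≠ r) (hxt : x ≠ t) (hrt : r ≠ t) (n : ℕ)
    (l : List Bool) (hl : l.length = n * n) (s : St (Sym ⊕ α) K)
    (hx : s x = WT (l.map bsym) 0) (hr : s r = ruler 0 0) (ht : s t = ruler 0 0) :
    RunLe (sqrtRuler x r t) s (Function.update s r (ruler n 0)) (40 * (n * n + 1)) :=
  Pre.sqrtRulerP_run x r t hxr hxt hrt n l hl s hx hr

/-- Binary logarithm of a register: if `r` holds `n ≥ 1`, then on exit the flag tape `fl` holds
`[one]` and `lg` holds `ν` when `n = 2^ν`, and `fl` holds `[zero]` (and `lg` some value) when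
`n` is not a power of two.  `t1 t2` are empty scratch registers; `lg` is empty before. -/
def log2Ruler (r lg fl t1 t2 : Fin K) : Prog (Sym ⊕ α) K := Pre.log2RulerP r lg fl t1 t2

theorem log2Ruler_run (T : Fin 5 → Fin K) (hT : Function.Injective T) (n : ℕ) (hn : 1 ≤ n)
    (s : St (Sym ⊕ α) K)
    (hr : s (T 0) = ruler n 0) (hlg : s (T 1) = ruler 0 0) (hfl : s (T 2) = WT [] 0)
    (ht1 : s (T 3) = ruler 0 0) (ht2 : s (T 4) = ruler 0 0) :
    ∃ s', RunLe (log2Ruler (T 0) (T 1) (T 2) (T 3) (T 4)) s s' (100 * (n + 1)) ∧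
      ((∃ ν, n = 2 ^ ν ∧ s' = Function.update (Function.update s (T 1) (ruler ν 0))
          (T 2) (WT [Sum.inl Sym.one] 0)) ∨
       ((∀ ν, n ≠ 2 ^ ν) ∧ ∃ v, s' = Function.update (Function.update s (T 1) (ruler v 0))
          (T 2) (WT [Sum.inl Sym.zero] 0))) :=
  Pre.log2RulerP_run T hT n hn s hr hlg hfl ht1 ht2

end Vale.Agent.H91.MT
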