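import Vale.Agent.H91.MT.Tapes
import Vale.Agent.H91.MT.Pure

/-!
# TASK PRE, base layer

States described by the values of finitely many distinguished tapes (`stN`), one-step rules in
that form, and loop rules with a counter.
-/

namespace Vale.Agent.H91.MT.Pre

section Generic

variable {Γ : Type} {K m : ℕ}

/-- The state that agrees with `s` except that tape `T k` holds `v k`. -/
noncomputable def stN (s : St Γ K) (T : Fin m → Fin K) (v : Fin m → Tape Γ) : St Γ K :=
  Function.extend T v s

theorem stN_get {T : Fin m → Fin K} (hT : Function.Injective T) (s : St Γ K)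
    (v : Fin m → Tape Γ) (k : Fin m) : stN s T v (T k) = v k :=
  hT.extend_apply v s k

theorem stN_upd {T : Fin m → Fin K} (hT : Function.Injective T) (s : St Γ K)
    (v : Fin m → Tape Γ) (k : Fin m) (x : Tape Γ) :
    Function.update (stN s T v) (T k) x = stN s T (Function.update v k x) := by
  funext i
  by_cases hi : ∃ j, T j = i
  · obtain ⟨j, rfl⟩ := hi
    rw [stN_get hT]
    by_cases hjk : j = k
    · subst hjk
      simp
    · rw [Function.update_of_ne (hT.ne hjk), stN_get hT, Function.update_of_ne hjk]
  · have hik : i ≠ T k := fun h => hi ⟨k, h.symm⟩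
    rw [Function.update_of_ne hik]
    unfold stN
    rw [Function.extend_apply' _ _ _ hi, Function.extend_apply' _ _ _ hi]

theorem stN_self {T : Fin m → Fin K} (hT : Function.Injective T) (s : St Γ K) :
    stN s T (fun k => s (T k)) = s := by
  funext i
  by_cases hi : ∃ j, T j = i
  · obtain ⟨j, rfl⟩ := hi
    rw [stN_get hT]
  · unfold stN
    rw [Function.extend_apply' _ _ _ hi]

theorem stN_heads {T : Fin m → Fin K} (hT : Function.Injective T) (s : St Γ K)
    (v : Fin m → Tape Γ) (k : Fin m) : (stN s T v).heads (T k) = (v k).read := by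
  unfold St.heads
  rw [stN_get hT]

/-- Move one head. -/
theorem stN_mv {T : Fin m → Fin K} (hT : Function.Injective T) (s : St Γ K)
    (v v' : Fin m → Tape Γ) (k : Fin m) (d : Dir)
    (hv : v' = Function.update v k ((v k).move d)) :
    Run (Prog.mv (T k) d) (stN s T v) (stN s T v') 1 := by
  have h := Run.mv (T k) d (stN s T v)
  rw [stN_get hT, stN_upd hT, ← hv] at h
  exact h

/-- Write a constant and move. -/
theorem stN_wm {T : Fin m → Fin K} (hT : Function.Injective T) (s : St Γ K)
    (v v' : Fin m → Tape Γ) (k : Fin m) (x : Γ) (d : Dir)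
    (hv : v' = Function.update v k (((v k).write x).move d)) :
    Run (Prog.wm (T k) (fun _ => x) d) (stN s T v) (stN s T v') 1 := by
  have h := Run.wm (T k) (fun _ => x) d (stN s T v)
  rw [stN_get hT, stN_upd hT, ← hv] at h
  exact h

/-- Write a constant on tape `b`, move heads `a` and `b` right. -/
theorem stN_cp {T : Fin m → Fin K} (hT : Function.Injective T) (s : St Γ K)
    (v v' : Fin m → Tape Γ) (a b : Fin m) (hab : a ≠ b) (x : Γ)
    (hv : v' = Function.update (Function.update v a ((v a).move Dir.R)) b
      (((v b).write x).move Dir.R)) :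
    Run (Prog.cp (T a) (T b) (fun _ => x)) (stN s T v) (stN s T v') 1 := by
  have h := Run.cp (T a) (T b) (hT.ne hab) (fun _ => x) (stN s T v)
  rw [stN_get hT, stN_get hT, stN_upd hT, stN_upd hT, ← hv] at h
  exact h

/-- Copy the symbol under head `a` to tape `b`, move both heads right. -/
theorem stN_cpy {T : Fin m → Fin K} (hT : Function.Injective T) (s : St Γ K)
    (v v' : Fin m → Tape Γ) (a b : Fin m) (hab : a ≠ b)
    (hv : v' = Function.update (Function.update v a ((v a).move Dir.R)) b
      (((v b).write (v a).read).move Dir.R)) :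
    Run (Prog.cp (T a) (T b) (fun h => h (T a))) (stN s T v) (stN s T v') 1 := by
  have h := Run.cp (T a) (T b) (hT.ne hab) (fun h => h (T a)) (stN s T v)
  rw [stN_get hT, stN_get hT, stN_upd hT, stN_upd hT] at h
  rw [stN_heads hT, ← hv] at h
  exact h

/-- Loop rule with a counter: `S j` is the state at the start of round `j`. -/
theorem loop_sum (c : (Fin K → Γ) → Bool) (body : Prog Γ K) (n : ℕ) (S : ℕ → St Γ K)
    (b : ℕ → ℕ) (hc : ∀ j, j < n → c (S j).heads = true)
    (hbody : ∀ j, j < n → RunLe body (S j) (S (j + 1)) (b j))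
    (hend : c (S n).heads = false) :
    RunLe (Prog.loop c body) (S 0) (S n) ((∑ j ∈ Finset.range n, (b j + 1)) + 1) := by
  have key : ∀ j, j ≤ n → RunLe (Prog.loop c body) (S (n - j)) (S n)
      ((∑ i ∈ Finset.Ico (n - j) n, (b i + 1)) + 1) := by
    intro j
    induction j with
    | zero =>
      intro _
      simpa using RunLe.loop_false hend
    | succ j ih =>
      intro hj
      have hlt : n - (j + 1) < n := by omega
      have h1 := hc _ hlt
      have h2 := hbody _ hlt
      have e : n - (j + 1) + 1 = n - j := by omega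
      rw [e] at h2
      have h4 := RunLe.loop_true h1 h2 (ih (by omega))
      refine h4.mono ?_
      have e3 : Finset.Ico (n - (j + 1)) n = insert (n - (j + 1)) (Finset.Ico (n - j) n) := by
        ext x
        simp only [Finset.mem_Ico, Finset.mem_insert]
        omega
      rw [e3, Finset.sum_insert (by simp; omega)]
      omega
  have h1 := key n le_rfl
  simp only [Nat.sub_self] at h1
  rw [← Finset.range_eq_Ico] at h1
  exact h1

/-- Loop rule with a counter and a uniform bound for the body. -/
theorem loop_count (c : (Fin K → Γ) → Bool) (body : Prog Γ K) (n : ℕ) (S : ℕ → St Γ K)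
    (b : ℕ) (hc : ∀ j, j < n → c (S j).heads = true)
    (hbody : ∀ j, j < n → RunLe body (S j) (S (j + 1)) b)
    (hend : c (S n).heads = false) :
    RunLe (Prog.loop c body) (S 0) (S n) (n * (b + 1) + 1) := by
  have h := loop_sum c body n S (fun _ => b) hc hbody hend
  refine h.mono ?_
  simp [Finset.sum_const]

end Generic

section Work

variable {α : Type} {K m : ℕ}

theorem stN_isSym_true {T : Fin m → Fin K} (hT : Function.Injective T) (s : St (Sym ⊕ α) K)
    (v : Fin m → Tape (Sym ⊕ α)) (k : Fin m) (x : Sym) (h : (v k).read = Sum.inl x) :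
    isSym (T k) x (stN s T v).heads = true := by
  apply isSym_true
  rw [stN_get hT]
  exact h

theorem stN_isSym_false {T : Fin m → Fin K} (hT : Function.Injective T) (s : St (Sym ⊕ α) K)
    (v : Fin m → Tape (Sym ⊕ α)) (k : Fin m) (x : Sym) (h : (v k).read ≠ Sum.inl x) :
    isSym (T k) x (stN s T v).heads = false := by
  apply isSym_false
  rw [stN_get hT]
  exact h

theorem stN_notSym_true {T : Fin m → Fin K} (hT : Function.Injective T) (s : St (Sym ⊕ α) K)
    (v : Fin m → Tape (Sym ⊕ α)) (k : Fin m) (x : Sym) (h : (v k).read ≠ Sum.inl x) :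
    notSym (T k) x (stN s T v).heads = true := by
  apply notSym_true
  rw [stN_get hT]
  exact h

theorem stN_notSym_false {T : Fin m → Fin K} (hT : Function.Injective T) (s : St (Sym ⊕ α) K)
    (v : Fin m → Tape (Sym ⊕ α)) (k : Fin m) (x : Sym) (h : (v k).read = Sum.inl x) :
    notSym (T k) x (stN s T v).heads = false := by
  apply notSym_false
  rw [stN_get hT]
  exact h

/-- Rewind a work tape. -/
theorem stN_rewind {T : Fin m → Fin K} (hT : Function.Injective T) (s : St (Sym ⊕ α) K)
    (v v' : Fin m → Tape (Sym ⊕ α)) (k : Fin m) (l : List (Sym ⊕ α))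
    (hl : Sum.inl Sym.lend ∉ l) (p : ℕ) (hk : v k = WT l p)
    (hv : v' = Function.update v k (WT l 0)) :
    Run (rewind (T k)) (stN s T v) (stN s T v') (2 * p + 4) := by
  have h := rewind_run (T k) l hl p (stN s T v) (by rw [stN_get hT, hk])
  rw [stN_upd hT, ← hv] at h
  exact h

/-! ## Tape lemmas -/

theorem bsym_ne_blank (b : Bool) : (bsym b : Sym ⊕ α) ≠ Sum.inl Sym.blank := by
  cases b <;> simp [bsym]

theorem bsym_ne_lend (b : Bool) : (bsym b : Sym ⊕ α) ≠ Sum.inl Sym.lend := by
  cases b <;> simp [bsym]

theorem lend_not_mem_map_bsym (w : List Bool) :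
    (Sum.inl Sym.lend : Sym ⊕ α) ∉ w.map bsym := by
  intro h
  obtain ⟨b, -, hb⟩ := List.mem_map.mp h
  exact bsym_ne_lend b hb

theorem getD_map_bsym_lt (w : List Bool) {j : ℕ} (hj : j < w.length) :
    ((w.map bsym).getD j (Sum.inl Sym.blank) : Sym ⊕ α) ≠ Sum.inl Sym.blank := by
  rw [List.getD_eq_getElem _ _ (by simpa using hj), List.getElem_map]
  exact bsym_ne_blank _

theorem getD_map_bsym_ge (w : List Bool) {j : ℕ} (hj : w.length ≤ j) :
    ((w.map bsym).getD j (Sum.inl Sym.blank) : Sym ⊕ α) = Sum.inl Sym.blank := by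
  rw [List.getD_eq_default _ _ (by simpa using hj)]

/-- Appending one `one` to a ruler whose head is just after the data. -/
theorem ruler_write_end (k : ℕ) :
    ((ruler k k : Tape (Sym ⊕ α)).write (Sum.inl Sym.one)) = ruler (k + 1) k := by
  unfold ruler
  have h := WT_write_end (List.replicate k (Sum.inl Sym.one : Sym ⊕ α)) (Sum.inl Sym.one)
  rw [List.length_replicate] at h
  rw [h, ← List.replicate_succ']

/-- Erasing the last cell of a ruler. -/
theorem wcells_erase_last (k : ℕ) :
    Function.update (wcells (List.replicate (k + 1) (Sum.inl Sym.one : Sym ⊕ α))) (k + 1)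
      (Sum.inl Sym.blank) = wcells (List.replicate k (Sum.inl Sym.one)) := by
  funext c
  rcases c with _ | j
  · simp [wcells]
  · by_cases hj : j = k
    · subst hj
      simp [wcells, List.getD_eq_getElem?_getD]
    · have hne : j + 1 ≠ k + 1 := by omega
      rw [Function.update_of_ne hne]
      simp only [wcells, List.getD_eq_getElem?_getD, List.getElem?_replicate]
      split_ifs <;> first | rfl | omega

/-- The tapes met while erasing a ruler of length `v` from its right end; in round `i` the head
is on the last remaining cell (on the left-end marker when `i = v`). -/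
def eraseT (v i : ℕ) : Tape (Sym ⊕ α) :=
  ⟨v - i, wcells (List.replicate (v - i) (Sum.inl Sym.one))⟩

theorem eraseT_zero (v : ℕ) : (eraseT v 0 : Tape (Sym ⊕ α)) = (ruler v v).move Dir.L := rfl

theorem eraseT_read_lt {v i : ℕ} (h : i < v) :
    (eraseT v i : Tape (Sym ⊕ α)).read = Sum.inl Sym.one := by
  obtain ⟨k, hk⟩ : ∃ k, v - i = k + 1 := ⟨v - i - 1, by omega⟩
  simp only [eraseT, Tape.read, hk, wcells, List.getD_eq_getElem?_getD, List.getElem?_replicate]
  simp

theorem eraseT_read_self (v : ℕ) : (eraseT v v : Tape (Sym ⊕ α)).read = Sum.inl Sym.lend := by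
  simp [eraseT, Tape.read, wcells]

theorem eraseT_step {v i : ℕ} (h : i < v) :
    ((eraseT v i : Tape (Sym ⊕ α)).write (Sum.inl Sym.blank)).move Dir.L = eraseT v (i + 1) := by
  obtain ⟨k, hk⟩ : ∃ k, v - i = k + 1 := ⟨v - i - 1, by omega⟩
  have hk' : v - (i + 1) = k := by omega
  simp only [eraseT, Tape.write, Tape.move, hk, hk', wcells_erase_last]
  rfl

theorem eraseT_self_move (v : ℕ) : (eraseT v v : Tape (Sym ⊕ α)).move Dir.R = ruler 0 0 := by
  simp [eraseT, Tape.move, ruler, WT]

end Work

end Vale.Agent.H91.MT.Pre
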