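import Vale.Agent.H91.MT.Pre_Base

/-!
# TASK PRE, square root of the length of a stream

The register `r` counts rounds; in round `k` the head of the stream advances by `2 * k + 1`
cells (`k` while the head of `r` walks to its end, `k + 1` while it walks back), and `r` grows
by one cell.
-/

namespace Vale.Agent.H91.MT.Pre

variable {α : Type} {K : ℕ}

theorem inj_triple {a b c : Fin K} (hab : a ≠ b) (hac : a ≠ c) (hbc : b ≠ c) :
    Function.Injective ![a, b, c] := by
  intro i j h
  fin_cases i <;> fin_cases j <;> simp_all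

theorem ruler_read_ge_ne_one {n p : ℕ} (h : n ≤ p) :
    (ruler n p : Tape (Sym ⊕ α)).read ≠ Sum.inl Sym.one := by
  rw [ruler_read_ge h]
  simp

theorem wcells_replicate_pos (n c : ℕ) (h1 : 1 ≤ c) (h2 : c ≤ n) :
    wcells (List.replicate n (Sum.inl Sym.one : Sym ⊕ α)) c = Sum.inl Sym.one := by
  obtain ⟨j, rfl⟩ : ∃ j, c = j + 1 := ⟨c - 1, by omega⟩
  simp only [wcells, List.getD_eq_getElem?_getD, List.getElem?_replicate]
  have : j < n := by omega
  simp [this]

theorem walkL_move {Γ : Type} (q i : ℕ) (cells : ℕ → Γ) :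
    (⟨q - i, cells⟩ : Tape Γ).move Dir.L = ⟨q - (i + 1), cells⟩ := by
  simp [Tape.move, Nat.sub_sub]

/-- One round of the square-root loop: with the register `r` holding `k`, advance the head of
`x` by `2 * k + 1` cells and increase `r` by one. -/
def sqrtBody (x r : Fin K) : Prog (Sym ⊕ α) K :=
  Prog.seq (Prog.loop (isSym r Sym.one) (Prog.seq (Prog.mv x Dir.R) (Prog.mv r Dir.R)))
    (Prog.seq (Prog.wm r (fun _ => Sum.inl Sym.one) Dir.S)
      (Prog.seq (Prog.loop (notSym r Sym.lend) (Prog.seq (Prog.mv x Dir.R) (Prog.mv r Dir.L)))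
        (Prog.mv r Dir.R)))

theorem sqrtBody_run {T : Fin 3 → Fin K} (hT : Function.Injective T) (s : St (Sym ⊕ α) K)
    (lx : List (Sym ⊕ α)) (p k : ℕ) (C : Tape (Sym ⊕ α)) :
    RunLe (sqrtBody (T 0) (T 1)) (stN s T ![WT lx p, ruler k 0, C])
      (stN s T ![WT lx (p + (2 * k + 1)), ruler (k + 1) 0, C]) (6 * k + 7) := by
  -- walk to the end of the register
  have hA := loop_count (isSym (T 1) Sym.one)
    (Prog.seq (Prog.mv (T 0) Dir.R) (Prog.mv (T 1) Dir.R)) k
    (fun i => stN s T ![WT lx (p + i), ruler k i, C]) 2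
    (by
      intro i hi
      exact stN_isSym_true hT s _ 1 Sym.one (ruler_read_lt hi))
    (by
      intro i hi
      exact (Run.seq
        (stN_mv hT s _ ![WT lx (p + i + 1), ruler k i, C] 0 Dir.R
          (by funext j; fin_cases j <;> rfl))
        (stN_mv hT s _ _ 1 Dir.R (by funext j; fin_cases j <;> rfl))).le)
    (stN_isSym_false hT s _ 1 Sym.one (ruler_read_ge_ne_one le_rfl))
  -- append a cell
  have hW := stN_wm hT s ![WT lx (p + k), ruler k k, C] ![WT lx (p + k), ruler (k + 1) k, C] 1
    (Sum.inl Sym.one) Dir.S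
    (by
      rw [← ruler_write_end k]
      funext j
      fin_cases j <;> rfl)
  -- walk back
  have hB := loop_count (notSym (T 1) Sym.lend)
    (Prog.seq (Prog.mv (T 0) Dir.R) (Prog.mv (T 1) Dir.L)) (k + 1)
    (fun i => stN s T ![WT lx (p + k + i),
      ⟨k + 1 - i, wcells (List.replicate (k + 1) (Sum.inl Sym.one))⟩, C]) 2
    (by
      intro i hi
      apply stN_notSym_true hT s _ 1 Sym.lend
      show wcells (List.replicate (k + 1) (Sum.inl Sym.one : Sym ⊕ α)) (k + 1 - i) ≠ _
      rw [wcells_replicate_pos _ _ (by omega) (by omega)]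
      simp)
    (by
      intro i hi
      exact (Run.seq
        (stN_mv hT s _ ![WT lx (p + k + i + 1),
          ⟨k + 1 - i, wcells (List.replicate (k + 1) (Sum.inl Sym.one))⟩, C] 0 Dir.R
          (by funext j; fin_cases j <;> rfl))
        (stN_mv hT s _ _ 1 Dir.L
          (by
            rw [← walkL_move (k + 1) i]
            funext j
            fin_cases j <;> rfl))).le)
    (by
      apply stN_notSym_false hT s _ 1 Sym.lend
      show wcells (List.replicate (k + 1) (Sum.inl Sym.one : Sym ⊕ α)) (k + 1 - (k + 1)) = _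
      rw [Nat.sub_self]
      rfl)
  -- back to the home cell
  have hM := stN_mv hT s
    ![WT lx (p + k + (k + 1)),
      ⟨k + 1 - (k + 1), wcells (List.replicate (k + 1) (Sum.inl Sym.one))⟩, C]
    ![WT lx (p + (2 * k + 1)), ruler (k + 1) 0, C] 1 Dir.R
    (by
      have e1 : p + (2 * k + 1) = p + k + (k + 1) := by omega
      have e2 : ((⟨k + 1 - (k + 1), wcells (List.replicate (k + 1) (Sum.inl Sym.one))⟩ :
          Tape (Sym ⊕ α)).move Dir.R) = ruler (k + 1) 0 := by
        simp [Tape.move, ruler, WT]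
      rw [e1, ← e2]
      funext j
      fin_cases j <;> rfl)
  have h := RunLe.seq hA (RunLe.seq hW.le (RunLe.seq hB hM.le))
  refine h.cast rfl rfl ?_
  omega

/-- Integer square root of the length of a stream. -/
def sqrtRulerP (x r : Fin K) : Prog (Sym ⊕ α) K :=
  Prog.seq (Prog.loop (notSym x Sym.blank) (sqrtBody x r)) (rewind x)

theorem sum_sqrt_cost (n : ℕ) : ∑ k ∈ Finset.range n, (6 * k + 7 + 1) = 3 * (n * n) + 5 * n := by
  induction n with
  | zero => simp
  | succ n ih =>
    rw [Finset.sum_range_succ, ih]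
    ring

theorem sqrtRulerP_run' {T : Fin 3 → Fin K} (hT : Function.Injective T) (n : ℕ)
    (l : List Bool) (hl : l.length = n * n) (s : St (Sym ⊕ α) K)
    (hx : s (T 0) = WT (l.map bsym) 0) (hr : s (T 1) = ruler 0 0) :
    RunLe (sqrtRulerP (T 0) (T 1)) s (Function.update s (T 1) (ruler n 0))
      (40 * (n * n + 1)) := by
  have hloop := loop_sum (notSym (T 0) Sym.blank) (sqrtBody (T 0) (T 1)) n
    (fun k => stN s T ![WT (l.map bsym) (k * k), ruler k 0, s (T 2)]) (fun k => 6 * k + 7)
    (by
      intro k hk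
      apply stN_notSym_true hT s _ 0 Sym.blank
      exact getD_map_bsym_lt l (by rw [hl]; exact Nat.mul_self_lt_mul_self hk))
    (by
      intro k hk
      have h := sqrtBody_run hT s (l.map bsym) (k * k) k (s (T 2))
      have e : k * k + (2 * k + 1) = (k + 1) * (k + 1) := by ring
      rw [e] at h
      exact h)
    (by
      apply stN_notSym_false hT s _ 0 Sym.blank
      exact getD_map_bsym_ge l (by rw [hl]))
  have hrew := stN_rewind hT s ![WT (l.map bsym) (n * n), ruler n 0, s (T 2)]
    ![WT (l.map bsym) 0, ruler n 0, s (T 2)] 0 (l.map bsym) (lend_not_mem_map_bsym l) (n * n)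
    rfl (by funext j; fin_cases j <;> rfl)
  have e0 : stN s T ![WT (l.map bsym) (0 * 0), ruler 0 0, s (T 2)] = s := by
    have e : (![WT (l.map bsym) (0 * 0), ruler 0 0, s (T 2)] : Fin 3 → Tape (Sym ⊕ α))
        = fun k => s (T k) := by
      funext j
      fin_cases j
      · exact hx.symm
      · exact hr.symm
      · rfl
    rw [e, stN_self hT]
  have e1 : stN s T ![WT (l.map bsym) 0, ruler n 0, s (T 2)]
      = Function.update s (T 1) (ruler n 0) := by
    have h1 := stN_upd hT s (fun k => s (T k)) 1 (ruler n 0)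
    rw [stN_self hT] at h1
    rw [h1]
    congr 1
    funext j
    fin_cases j
    · exact hx.symm
    · rfl
    · rfl
  have h := RunLe.seq hloop hrew.le
  refine h.cast e0 e1 ?_
  rw [sum_sqrt_cost]
  have h2 : n ≤ n * n := Nat.le_mul_self n
  omega

theorem sqrtRulerP_run (x r t : Fin K) (hxr : x ≠ r) (hxt : x ≠ t) (hrt : r ≠ t) (n : ℕ)
    (l : List Bool) (hl : l.length = n * n) (s : St (Sym ⊕ α) K)
    (hx : s x = WT (l.map bsym) 0) (hr : s r = ruler 0 0) :
    RunLe (sqrtRulerP x r) s (Function.update s r (ruler n 0)) (40 * (n * n + 1)) :=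
  sqrtRulerP_run' (T := ![x, r, t]) (inj_triple hxr hxt hrt) n l hl s hx hr

end Vale.Agent.H91.MT.Pre
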