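import Vale.Agent.H91.MT.Defs

/-!
# Structured programs over `K` tapes, with exact step counts

`Prog Γ K` is a tiny structured language (single machine steps, sequencing, branching, loops);
`Run p s s' t` says that `p` takes the tapes `s` to `s'` in exactly `t` machine steps.
`Compile.lean` turns a program into a `Machine` with the same running time.
-/

namespace Vale.Agent.H91.MT

variable {Γ : Type} {K : ℕ}

/-- The state of `K` tapes. -/
abbrev St (Γ : Type) (K : ℕ) := Fin K → Tape Γ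

/-- The symbols under the heads. -/
def St.heads (s : St Γ K) : Fin K → Γ := fun i => (s i).read

/-- Apply a write-and-move action on every tape. -/
def St.act (s : St Γ K) (a : Fin K → Γ × Dir) : St Γ K :=
  fun i => ((s i).write (a i).1).move (a i).2

/-- Structured programs. -/
inductive Prog (Γ : Type) (K : ℕ) : Type
  | step (f : (Fin K → Γ) → Fin K → Γ × Dir) : Prog Γ K
  | seq (p q : Prog Γ K) : Prog Γ K
  | ite (c : (Fin K → Γ) → Bool) (p q : Prog Γ K) : Prog Γ K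
  | loop (c : (Fin K → Γ) → Bool) (p : Prog Γ K) : Prog Γ K

/-- Big-step semantics with exact step counts: a `step` costs 1, each test costs 1. -/
inductive Run : Prog Γ K → St Γ K → St Γ K → ℕ → Prop
  | step (f : (Fin K → Γ) → Fin K → Γ × Dir) (s : St Γ K) :
      Run (Prog.step f) s (s.act (f s.heads)) 1
  | seq {p q : Prog Γ K} {s s' s'' : St Γ K} {t t' : ℕ} :
      Run p s s' t → Run q s' s'' t' → Run (Prog.seq p q) s s'' (t + t')
  | ite_true {c : (Fin K → Γ) → Bool} {p q : Prog Γ K} {s s' : St Γ K} {t : ℕ} :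
      c s.heads = true → Run p s s' t → Run (Prog.ite c p q) s s' (t + 1)
  | ite_false {c : (Fin K → Γ) → Bool} {p q : Prog Γ K} {s s' : St Γ K} {t : ℕ} :
      c s.heads = false → Run q s s' t → Run (Prog.ite c p q) s s' (t + 1)
  | loop_true {c : (Fin K → Γ) → Bool} {p : Prog Γ K} {s s' s'' : St Γ K} {t t' : ℕ} :
      c s.heads = true → Run p s s' t → Run (Prog.loop c p) s' s'' t' →
      Run (Prog.loop c p) s s'' (t + t' + 1)
  | loop_false {c : (Fin K → Γ) → Bool} {p : Prog Γ K} {s : St Γ K} :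
      c s.heads = false → Run (Prog.loop c p) s s 1

/-- `p` takes `s` to `s'` in at most `b` steps. -/
def RunLe (p : Prog Γ K) (s s' : St Γ K) (b : ℕ) : Prop := ∃ t, t ≤ b ∧ Run p s s' t

theorem Run.le {p : Prog Γ K} {s s' : St Γ K} {t : ℕ} (h : Run p s s' t) : RunLe p s s' t :=
  ⟨t, le_rfl, h⟩

theorem RunLe.mono {p : Prog Γ K} {s s' : St Γ K} {b b' : ℕ} (h : RunLe p s s' b) (hb : b ≤ b') :
    RunLe p s s' b' := by
  obtain ⟨t, ht, hr⟩ := h
  exact ⟨t, ht.trans hb, hr⟩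

/-- Transport a run along equalities of the end states and a weaker bound. -/
theorem RunLe.cast {p : Prog Γ K} {s₁ s₁' s s' : St Γ K} {b b' : ℕ} (h : RunLe p s₁ s₁' b)
    (hs : s₁ = s) (hs' : s₁' = s') (hb : b ≤ b') : RunLe p s s' b' := by
  subst hs hs'
  exact h.mono hb

theorem Run.cast {p : Prog Γ K} {s₁ s₁' s s' : St Γ K} {t t' : ℕ} (h : Run p s₁ s₁' t)
    (hs : s₁ = s) (hs' : s₁' = s') (ht : t = t') : Run p s s' t' := by
  subst hs hs' ht
  exact h

theorem RunLe.seq {p q : Prog Γ K} {s s' s'' : St Γ K} {b b' : ℕ}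
    (h : RunLe p s s' b) (h' : RunLe q s' s'' b') : RunLe (Prog.seq p q) s s'' (b + b') := by
  obtain ⟨t, ht, hr⟩ := h
  obtain ⟨t', ht', hr'⟩ := h'
  exact ⟨t + t', Nat.add_le_add ht ht', Run.seq hr hr'⟩

theorem RunLe.ite_true {c : (Fin K → Γ) → Bool} {p q : Prog Γ K} {s s' : St Γ K} {b : ℕ}
    (hc : c s.heads = true) (h : RunLe p s s' b) : RunLe (Prog.ite c p q) s s' (b + 1) := by
  obtain ⟨t, ht, hr⟩ := h
  exact ⟨t + 1, Nat.add_le_add_right ht 1, Run.ite_true hc hr⟩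

theorem RunLe.ite_false {c : (Fin K → Γ) → Bool} {p q : Prog Γ K} {s s' : St Γ K} {b : ℕ}
    (hc : c s.heads = false) (h : RunLe q s s' b) : RunLe (Prog.ite c p q) s s' (b + 1) := by
  obtain ⟨t, ht, hr⟩ := h
  exact ⟨t + 1, Nat.add_le_add_right ht 1, Run.ite_false hc hr⟩

theorem RunLe.loop_true {c : (Fin K → Γ) → Bool} {p : Prog Γ K} {s s' s'' : St Γ K} {b b' : ℕ}
    (hc : c s.heads = true) (h : RunLe p s s' b) (h' : RunLe (Prog.loop c p) s' s'' b') :
    RunLe (Prog.loop c p) s s'' (b + b' + 1) := by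
  obtain ⟨t, ht, hr⟩ := h
  obtain ⟨t', ht', hr'⟩ := h'
  exact ⟨t + t' + 1, by omega, Run.loop_true hc hr hr'⟩

theorem RunLe.loop_false {c : (Fin K → Γ) → Bool} {p : Prog Γ K} {s : St Γ K}
    (hc : c s.heads = false) : RunLe (Prog.loop c p) s s 1 :=
  ⟨1, le_rfl, Run.loop_false hc⟩

/-- Programs are deterministic. -/
theorem Run.det {p : Prog Γ K} {s s₁ s₂ : St Γ K} {t₁ t₂ : ℕ}
    (h₁ : Run p s s₁ t₁) (h₂ : Run p s s₂ t₂) : s₁ = s₂ ∧ t₁ = t₂ := by
  induction h₁ generalizing s₂ t₂ with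
  | step f s => cases h₂; exact ⟨rfl, rfl⟩
  | seq _ _ ih ih' =>
    cases h₂ with
    | seq h h' =>
      obtain ⟨rfl, rfl⟩ := ih h
      obtain ⟨rfl, rfl⟩ := ih' h'
      exact ⟨rfl, rfl⟩
  | ite_true hc _ ih =>
    cases h₂ with
    | ite_true _ h => obtain ⟨rfl, rfl⟩ := ih h; exact ⟨rfl, rfl⟩
    | ite_false hc' _ => rw [hc] at hc'; cases hc'
  | ite_false hc _ ih =>
    cases h₂ with
    | ite_true hc' _ => rw [hc] at hc'; cases hc'
    | ite_false _ h => obtain ⟨rfl, rfl⟩ := ih h; exact ⟨rfl, rfl⟩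
  | loop_true hc _ _ ih ih' =>
    cases h₂ with
    | loop_true _ h h' =>
      obtain ⟨rfl, rfl⟩ := ih h
      obtain ⟨rfl, rfl⟩ := ih' h'
      exact ⟨rfl, rfl⟩
    | loop_false hc' => rw [hc] at hc'; cases hc'
  | loop_false hc =>
    cases h₂ with
    | loop_true hc' _ _ => rw [hc] at hc'; cases hc'
    | loop_false _ => exact ⟨rfl, rfl⟩

end Vale.Agent.H91.MT
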