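import Vale.Agent.H91.MT.Tapes

/-!
# TASK REGA: basic stream and register programs

Conventions: a *register* holding `v` is the tape `ruler v 0` (unary, head at home);
a *stream* being written is `WT l l.length` (head just after the data).
Numeric constants in the time bounds may be changed (keep them absolute constants).
-/

namespace Vale.Agent.H91.MT

variable {α : Type} {K : ℕ}

/-- Move the head of tape `a` right to the first blank. -/
def toEnd (a : Fin K) : Prog (Sym ⊕ α) K :=
  Prog.loop (notSym a Sym.blank) (Prog.mv a Dir.R)

theorem toEnd_loop (a : Fin K) (l : List (Sym ⊕ α)) (hl : Sum.inl Sym.blank ∉ l) (n : ℕ) :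
    ∀ p : ℕ, p + n = l.length → ∀ s : St (Sym ⊕ α) K, s a = WT l p →
      Run (toEnd a) s (Function.update s a (WT l l.length)) (2 * n + 1) := by
  induction n with
  | zero =>
    intro p hp s hs
    have hp' : p = l.length := by omega
    subst hp'
    have h0 : notSym a Sym.blank s.heads = false := by
      apply notSym_false
      rw [hs, WT_read, List.getD_eq_default _ _ le_rfl]
    have h1 := Run.loop_false (p := Prog.mv a Dir.R) h0
    rw [← hs, Function.update_eq_self]
    exact h1
  | succ n ih =>
    intro p hp s hs
    have hlt : p < l.length := by omega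
    have h1 : notSym a Sym.blank s.heads = true := by
      apply notSym_true
      rw [hs, WT_read, List.getD_eq_getElem _ _ hlt]
      intro h
      exact hl (h ▸ List.getElem_mem hlt)
    have h2 := Run.mv a Dir.R s
    rw [hs, WT_move_R] at h2
    have h3 := ih (p + 1) (by omega) (Function.update s a (WT l (p + 1))) (by simp)
    rw [Function.update_idem] at h3
    have h4 := Run.loop_true h1 h2 h3
    exact h4.cast rfl rfl (by ring)

theorem toEnd_run (a : Fin K) (l : List (Sym ⊕ α)) (hl : Sum.inl Sym.blank ∉ l) (p : ℕ)
    (hp : p ≤ l.length) (s : St (Sym ⊕ α) K) (hs : s a = WT l p) :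
    RunLe (toEnd a) s (Function.update s a (WT l l.length)) (2 * (l.length - p) + 2) :=
  ⟨2 * (l.length - p) + 1, by omega, toEnd_loop a l hl (l.length - p) p (by omega) s hs⟩

theorem wcells_take_erase (l : List (Sym ⊕ α)) (j : ℕ) :
    Function.update (wcells (l.take (j + 1))) (j + 1) (Sum.inl Sym.blank) = wcells (l.take j) := by
  funext i
  rcases i with _ | i
  · simp [wcells]
  · by_cases hi : i = j
    · subst hi
      simp [wcells, List.getD_eq_getElem?_getD]
    · have h1 : i + 1 ≠ j + 1 := by omega
      simp only [wcells, Function.update_of_ne h1, List.getD_eq_getElem?_getD, List.getElem?_take]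
      split_ifs <;> first | rfl | omega

/-- Erase tape `a` and bring its head home. -/
def clearTape (a : Fin K) : Prog (Sym ⊕ α) K :=
  Prog.seq (toEnd a)
    (Prog.seq (Prog.loop (notSym a Sym.lend) (Prog.wm a (fun _ => Sum.inl Sym.blank) Dir.L))
      (Prog.mv a Dir.R))

theorem erase_loop (a : Fin K) (l : List (Sym ⊕ α)) (hl : Sum.inl Sym.lend ∉ l) (q : ℕ) :
    ∀ s : St (Sym ⊕ α) K, s a = ⟨q, wcells (l.take q)⟩ →
      Run (Prog.loop (notSym a Sym.lend) (Prog.wm a (fun _ => Sum.inl Sym.blank) Dir.L)) s
        (Function.update s a (WT0 [])) (2 * q + 1) := by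
  induction q with
  | zero =>
    intro s hs
    have h0 : notSym a Sym.lend s.heads = false := by
      apply notSym_false
      rw [hs]
      rfl
    have h1 := Run.loop_false (p := Prog.wm a (fun _ => (Sum.inl Sym.blank : Sym ⊕ α)) Dir.L) h0
    have e : (WT0 [] : Tape (Sym ⊕ α)) = s a := by
      rw [hs]
      rfl
    rw [e, Function.update_eq_self]
    exact h1
  | succ j ih =>
    intro s hs
    have h1 : notSym a Sym.lend s.heads = true := by
      apply notSym_true
      rw [hs]
      show (l.take (j + 1)).getD j (Sum.inl Sym.blank) ≠ Sum.inl Sym.lend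
      intro h
      rcases Nat.lt_or_ge j (l.take (j + 1)).length with h0 | h0
      · rw [List.getD_eq_getElem _ _ h0] at h
        exact hl (List.mem_of_mem_take (h ▸ List.getElem_mem h0))
      · rw [List.getD_eq_default _ _ h0] at h
        cases h
    have h2 := Run.wm a (fun _ => (Sum.inl Sym.blank : Sym ⊕ α)) Dir.L s
    have e : ((s a).write (Sum.inl Sym.blank)).move Dir.L = ⟨j, wcells (l.take j)⟩ := by
      rw [hs]
      simp only [Tape.write, Tape.move, wcells_take_erase]
      rfl
    rw [e] at h2
    have h3 := ih (Function.update s a ⟨j, wcells (l.take j)⟩) (by simp)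
    rw [Function.update_idem] at h3
    exact (Run.loop_true h1 h2 h3).cast rfl rfl (by ring)

theorem clearTape_run (a : Fin K) (l : List (Sym ⊕ α)) (hb : Sum.inl Sym.blank ∉ l)
    (hl : Sum.inl Sym.lend ∉ l) (p : ℕ) (hp : p ≤ l.length) (s : St (Sym ⊕ α) K)
    (hs : s a = WT l p) :
    RunLe (clearTape a) s (Function.update s a (WT [] 0)) (4 * l.length + 8) := by
  have h1 := toEnd_loop a l hb (l.length - p) p (by omega) s hs
  have h2 := erase_loop a l hl (l.length + 1) (Function.update s a (WT l l.length)) (by
    rw [Function.update_self, List.take_of_length_le (by omega)]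
    rfl)
  rw [Function.update_idem] at h2
  have h3 := Run.mv a Dir.R (Function.update s a (WT0 []))
  simp only [Function.update_self, WT0_move_R, Function.update_idem] at h3
  refine ⟨_, ?_, Run.seq h1 (Run.seq h2 h3)⟩
  omega

/-- Append the whole content of tape `a` (read from its home position) to tape `b`; `a` is
rewound afterwards. -/
def copyApp (a b : Fin K) : Prog (Sym ⊕ α) K :=
  Prog.seq (Prog.loop (notSym a Sym.blank) (Prog.cp a b (fun h => h a))) (rewind a)

theorem copyApp_loop (a b : Fin K) (hab : a ≠ b) (l l' : List (Sym ⊕ α))
    (hb : Sum.inl Sym.blank ∉ l) (s : St (Sym ⊕ α) K) (n : ℕ) :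
    ∀ i : ℕ, i + n = l.length →
      Run (Prog.loop (notSym a Sym.blank) (Prog.cp a b (fun h => h a)))
        (Function.update (Function.update s a (WT l i)) b
          (WT (l' ++ l.take i) (l'.length + i)))
        (Function.update (Function.update s a (WT l l.length)) b
          (WT (l' ++ l) (l'.length + l.length)))
        (2 * n + 1) := by
  induction n with
  | zero =>
    intro i hi
    have hil : i = l.length := by omega
    subst hil
    have h0 : notSym a Sym.blank (St.heads (Function.update (Function.update s a
        (WT l l.length)) b (WT (l' ++ l.take l.length) (l'.length + l.length)))) = false := by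
      apply notSym_false
      rw [Function.update_of_ne hab, Function.update_self, WT_read,
        List.getD_eq_default _ _ le_rfl]
    rw [List.take_length] at h0 ⊢
    exact Run.loop_false h0
  | succ n ih =>
    intro i hi
    have hlt : i < l.length := by omega
    have h1 : notSym a Sym.blank (St.heads (Function.update (Function.update s a
        (WT l i)) b (WT (l' ++ l.take i) (l'.length + i)))) = true := by
      apply notSym_true
      rw [Function.update_of_ne hab, Function.update_self, WT_read,
        List.getD_eq_getElem _ _ hlt]
      intro h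
      exact hb (h ▸ List.getElem_mem hlt)
    have h2 := Run.cp a b hab (fun h => h a) (Function.update (Function.update s a
        (WT l i)) b (WT (l' ++ l.take i) (l'.length + i)))
    have e2 : l'.length + i = (l' ++ l.take i).length := by
      simp
      omega
    have e3 : Function.update (Function.update (Function.update (Function.update s a
        (WT l i)) b (WT (l' ++ l.take i) (l'.length + i))) a
        ((Function.update (Function.update s a (WT l i)) b
          (WT (l' ++ l.take i) (l'.length + i)) a).move Dir.R)) b
        (((Function.update (Function.update s a (WT l i)) b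
          (WT (l' ++ l.take i) (l'.length + i)) b).write
          ((fun h => h a) (St.heads (Function.update (Function.update s a (WT l i)) b
          (WT (l' ++ l.take i) (l'.length + i)))))).move Dir.R)
        = Function.update (Function.update s a (WT l (i + 1))) b
          (WT (l' ++ l.take (i + 1)) (l'.length + (i + 1))) := by
      have r1 : (St.heads (Function.update (Function.update s a (WT l i)) b
          (WT (l' ++ l.take i) (l'.length + i)))) a = l[i] := by
        show (Function.update (Function.update s a (WT l i)) b
          (WT (l' ++ l.take i) (l'.length + i)) a).read = _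
        rw [Function.update_of_ne hab, Function.update_self, WT_read,
          List.getD_eq_getElem _ _ hlt]
      simp only [r1, Function.update_of_ne hab, Function.update_self, WT_move_R]
      rw [e2, WT_write_end, WT_move_R, ← e2, List.append_assoc, List.take_append_getElem]
      funext j
      simp only [Function.update_apply]
      split_ifs <;> rfl
    rw [e3] at h2
    exact (Run.loop_true h1 h2 (ih (i + 1) (by omega))).cast rfl rfl (by ring)

theorem copyApp_run (a b : Fin K) (hab : a ≠ b) (l l' : List (Sym ⊕ α))
    (hb : Sum.inl Sym.blank ∉ l) (hl : Sum.inl Sym.lend ∉ l) (s : St (Sym ⊕ α) K)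
    (ha : s a = WT l 0) (hb' : s b = WT l' l'.length) :
    RunLe (copyApp a b) s (Function.update s b (WT (l' ++ l) (l'.length + l.length)))
      (5 * l.length + 8) := by
  have h1 := copyApp_loop a b hab l l' hb s l.length 0 (by omega)
  have h2 := rewind_run a l hl l.length (Function.update (Function.update s a (WT l l.length)) b
    (WT (l' ++ l) (l'.length + l.length))) (by
      rw [Function.update_of_ne hab, Function.update_self])
  refine ⟨_, ?_, (Run.seq h1 h2).cast ?_ ?_ rfl⟩
  · omega
  · funext j
    simp only [Function.update_apply]
    split_ifs <;> simp_all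
  · funext j
    simp only [Function.update_apply]
    split_ifs <;> simp_all

/-- Append the work symbol `x` to tape `a`, once for every cell of the ruler `r`. -/
def emitRep (a r : Fin K) (x : Sym) : Prog (Sym ⊕ α) K :=
  forRuler r (Prog.wm a (fun _ => Sum.inl x) Dir.R)

theorem emitRep_run (a r : Fin K) (har : a ≠ r) (x : Sym) (l : List (Sym ⊕ α)) (n : ℕ)
    (s : St (Sym ⊕ α) K) (ha : s a = WT l l.length) (hr : s r = ruler n 0) :
    RunLe (emitRep a r x) s
      (Function.update s a (WT (l ++ List.replicate n (Sum.inl x)) (l.length + n)))
      (5 * n + 5) := by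
  have h := forRuler_run r (Prog.wm a (fun _ => Sum.inl x) Dir.R) n
    (fun i => Function.update (Function.update s a
      (WT (l ++ List.replicate i (Sum.inl x)) (l.length + i))) r (ruler n i))
    (fun _ => 1) (by intro i _; simp) (by
      intro i _
      have h1 := Run.wm a (fun _ => (Sum.inl x : Sym ⊕ α)) Dir.R
        (Function.update (Function.update s a
          (WT (l ++ List.replicate i (Sum.inl x)) (l.length + i))) r (ruler n i))
      have e : l.length + i = (l ++ List.replicate i (Sum.inl x : Sym ⊕ α)).length := by simp
      simp only [Function.update_of_ne har, Function.update_self] at h1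
      rw [e, WT_write_end, WT_move_R, ← e, List.append_assoc, ← List.replicate_succ'] at h1
      exact h1.le.cast rfl (by grind) le_rfl)
  refine h.cast ?_ ?_ ?_
  · funext j
    simp only [Function.update_apply]
    split_ifs <;> simp_all
  · grind
  · simp [Finset.sum_const]; omega

theorem blank_not_mem_replicate_one (n : ℕ) :
    (Sum.inl Sym.blank : Sym ⊕ α) ∉ List.replicate n (Sum.inl Sym.one) := by
  intro h
  have := List.eq_of_mem_replicate h
  cases this

/-- `r := a` for registers. -/
def regCopy (r a : Fin K) : Prog (Sym ⊕ α) K :=
  Prog.seq (clearTape r) (Prog.seq (copyApp a r) (rewind r))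

theorem regCopy_run (r a : Fin K) (hra : r ≠ a) (v w : ℕ) (s : St (Sym ⊕ α) K)
    (hr : s r = ruler v 0) (ha : s a = ruler w 0) :
    RunLe (regCopy r a) s (Function.update s r (ruler w 0)) (10 * (v + w) + 30) := by
  have h1 := clearTape_run r (List.replicate v (Sum.inl Sym.one))
    (blank_not_mem_replicate_one v) (lend_not_mem_replicate_one v) 0 (Nat.zero_le _) s hr
  have h2 := copyApp_run a r (Ne.symm hra) (List.replicate w (Sum.inl Sym.one)) []
    (blank_not_mem_replicate_one w) (lend_not_mem_replicate_one w)
    (Function.update s r (WT [] 0)) (by rw [Function.update_of_ne (Ne.symm hra), ha]; rfl)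
    (by rw [Function.update_self]; rfl)
  rw [Function.update_idem] at h2
  have h3 := (rewind_run r (List.replicate w (Sum.inl Sym.one))
    (lend_not_mem_replicate_one w) w
    (Function.update s r (WT ([] ++ List.replicate w (Sum.inl Sym.one))
      (([] : List (Sym ⊕ α)).length + (List.replicate w (Sum.inl Sym.one : Sym ⊕ α)).length)))
    (by rw [Function.update_self]; simp)).le
  rw [Function.update_idem] at h3
  refine (h1.seq (h2.seq h3)).cast rfl rfl ?_
  simp only [List.length_replicate]
  omega

/-- `r := r + a` for registers. -/
def regAdd (r a : Fin K) : Prog (Sym ⊕ α) K :=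
  Prog.seq (toEnd r) (Prog.seq (copyApp a r) (rewind r))

theorem regAdd_run (r a : Fin K) (hra : r ≠ a) (v w : ℕ) (s : St (Sym ⊕ α) K)
    (hr : s r = ruler v 0) (ha : s a = ruler w 0) :
    RunLe (regAdd r a) s (Function.update s r (ruler (v + w) 0)) (10 * (v + w) + 30) := by
  have h1 := toEnd_run r (List.replicate v (Sum.inl Sym.one))
    (blank_not_mem_replicate_one v) 0 (Nat.zero_le _) s hr
  have h2 := copyApp_run a r (Ne.symm hra) (List.replicate w (Sum.inl Sym.one))
    (List.replicate v (Sum.inl Sym.one))
    (blank_not_mem_replicate_one w) (lend_not_mem_replicate_one w)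
    (Function.update s r (WT (List.replicate v (Sum.inl Sym.one))
      (List.replicate v (Sum.inl Sym.one : Sym ⊕ α)).length))
    (by rw [Function.update_of_ne (Ne.symm hra), ha]; rfl)
    (by rw [Function.update_self])
  rw [Function.update_idem] at h2
  have h3 := (rewind_run r (List.replicate (v + w) (Sum.inl Sym.one))
    (lend_not_mem_replicate_one (v + w)) (v + w)
    (Function.update s r (WT (List.replicate v (Sum.inl Sym.one) ++
      List.replicate w (Sum.inl Sym.one))
      ((List.replicate v (Sum.inl Sym.one : Sym ⊕ α)).length +
        (List.replicate w (Sum.inl Sym.one : Sym ⊕ α)).length)))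
    (by rw [Function.update_self]; simp)).le
  rw [Function.update_idem] at h3
  refine (h1.seq (h2.seq h3)).cast rfl rfl ?_
  simp only [List.length_replicate]
  omega

/-- `r := r + 1`. -/
def regInc (r : Fin K) : Prog (Sym ⊕ α) K :=
  Prog.seq (toEnd r) (Prog.seq (Prog.wm r (fun _ => Sum.inl Sym.one) Dir.S) (rewind r))

theorem regInc_run (r : Fin K) (v : ℕ) (s : St (Sym ⊕ α) K) (hr : s r = ruler v 0) :
    RunLe (regInc r) s (Function.update s r (ruler (v + 1) 0)) (6 * v + 20) := by
  have h1 := toEnd_run r (List.replicate v (Sum.inl Sym.one))
    (blank_not_mem_replicate_one v) 0 (Nat.zero_le _) s hr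
  have h2 := (Run.wm r (fun _ => (Sum.inl Sym.one : Sym ⊕ α)) Dir.S
    (Function.update s r (WT (List.replicate v (Sum.inl Sym.one))
      (List.replicate v (Sum.inl Sym.one : Sym ⊕ α)).length))).le
  rw [Function.update_self, WT_write_end, WT_move_S, Function.update_idem,
    ← List.replicate_succ'] at h2
  have h3 := (rewind_run r (List.replicate (v + 1) (Sum.inl Sym.one))
    (lend_not_mem_replicate_one (v + 1)) v
    (Function.update s r (WT (List.replicate (v + 1) (Sum.inl Sym.one))
      (List.replicate v (Sum.inl Sym.one : Sym ⊕ α)).length))
    (by rw [Function.update_self]; simp)).le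
  rw [Function.update_idem] at h3
  refine (h1.seq (h2.seq h3)).cast rfl rfl ?_
  simp only [List.length_replicate]
  omega

end Vale.Agent.H91.MT
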