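import Vale.Agent.H91.MT.RegA
import Vale.Agent.H91.MT.Pure
import Vale.Agent.H91.MT.Slow_Aux

/-!
# TASK SLOW: a simple cubic-time transposition for arbitrary `n`

Program: copy the ruler `rn` to the scratch registers `r1`, `r2`; then for each column
`c = 0 .. n-1` (loop over `rn`, the head of `src` starts on cell `c`): for each row (loop over
`r1`) copy the cell under the head of `src` to `dst` and move `src` right `n` cells (loop over
`r2`); then move `src` back `n * n` cells and one cell right.  Finally rewind `src` and `dst` and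
erase `r1`, `r2`.  The register `r3` is not used.
-/

namespace Vale.Agent.H91.MT

variable {α : Type} {K : ℕ}

/-- One row: copy the cell under the head of `src` to `dst`, then move `src` right by `r2`. -/
def slowRowB (src dst r2 : Fin K) : Prog (Sym ⊕ α) K :=
  Prog.seq (Prog.wm dst (fun h => h src) Dir.R) (slowFwd src r2)

theorem slowRowB_run (src dst r2 : Fin K) (hsd : src ≠ dst) (hs2 : src ≠ r2) (hd2 : dst ≠ r2)
    (l L : List (Sym ⊕ α)) (p v : ℕ) (s : St (Sym ⊕ α) K) (h1 : s src = WT l p)
    (h2 : s dst = WT L L.length) (h3 : s r2 = ruler v 0) :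
    RunLe (slowRowB src dst r2) s
      (Function.update (Function.update s dst
        (WT (L ++ [l.getD p (Sum.inl Sym.blank)]) (L.length + 1))) src (WT l (p + v)))
      (5 * v + 6) := by
  have a1 := Run.wm dst (fun h => h src) Dir.R s
  simp only [St.heads, h1, h2, WT_read] at a1
  rw [WT_write_end, WT_move_R] at a1
  have a2 := slowFwd_run src r2 hs2 l p v
    (Function.update s dst (WT (L ++ [l.getD p (Sum.inl Sym.blank)]) (L.length + 1)))
    (by rw [Function.update_of_ne hsd]; exact h1)
    (by rw [Function.update_of_ne hd2.symm]; exact h3)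
  exact (RunLe.seq a1.le a2).cast rfl rfl (by omega)

/-- One column, forward part: `w` rows. -/
def slowRows (src dst r1 r2 : Fin K) : Prog (Sym ⊕ α) K := forRuler r1 (slowRowB src dst r2)

theorem slowRows_run (src dst r1 r2 : Fin K) (hsd : src ≠ dst) (hs1 : src ≠ r1) (hs2 : src ≠ r2)
    (hd1 : dst ≠ r1) (hd2 : dst ≠ r2) (h12 : r1 ≠ r2) (l L : List (Sym ⊕ α)) (p v w : ℕ)
    (s : St (Sym ⊕ α) K) (h1 : s src = WT l p) (h2 : s dst = WT L L.length)
    (h3 : s r1 = ruler w 0) (h4 : s r2 = ruler v 0) :
    RunLe (slowRows src dst r1 r2) s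
      (Function.update (Function.update s dst (WT (L ++ slowCol l p v w) (L.length + w)))
        src (WT l (p + w * v)))
      (w * (5 * v + 10) + 5) := by
  have h := slow_for_run r1 (slowRowB src dst r2) w
    (fun i => Function.update (Function.update (Function.update s dst
      (WT (L ++ slowCol l p v i) (L.length + i))) src (WT l (p + i * v))) r1 (ruler w i))
    (5 * v + 6) (by intro i _; simp) (by
      intro i hi
      have e : L.length + i = (L ++ slowCol l p v i).length := by simp [slowCol]
      have h5 := slowRowB_run src dst r2 hsd hs2 hd2 l (L ++ slowCol l p v i) (p + i * v) v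
        (Function.update (Function.update (Function.update s dst
          (WT (L ++ slowCol l p v i) (L.length + i))) src (WT l (p + i * v))) r1 (ruler w i))
        (by rw [Function.update_of_ne hs1, Function.update_self])
        (by rw [Function.update_of_ne hd1, Function.update_of_ne hsd.symm, Function.update_self, e])
        (by rw [Function.update_of_ne h12.symm, Function.update_of_ne hs2.symm,
          Function.update_of_ne hd2.symm]; exact h4)
      have e1 : L ++ slowCol l p v (i + 1) =
          (L ++ slowCol l p v i) ++ [l.getD (p + i * v) (Sum.inl Sym.blank)] := by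
        simp [slowCol, List.range_succ]
      have e2 : p + (i + 1) * v = p + i * v + v := by rw [Nat.succ_mul, Nat.add_assoc]
      have e3 : L.length + (i + 1) = (L ++ slowCol l p v i).length + 1 := by rw [← e, Nat.add_assoc]
      refine h5.cast rfl ?_ le_rfl
      rw [e1, e2, e3]
      grind)
  refine h.cast ?_ ?_ ?_
  · simp only [slowCol, List.range_zero, List.map_nil, List.append_nil, Nat.add_zero, Nat.zero_mul]
    funext j
    simp only [Function.update_apply]
    split_ifs <;> simp_all
  · grind
  · exact le_of_eq (by ring)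

/-- One column: `w` rows forward, then back to the start and one cell right. -/
def slowColB (src dst r1 r2 : Fin K) : Prog (Sym ⊕ α) K :=
  Prog.seq (slowRows src dst r1 r2) (Prog.seq (slowBack2 src r1 r2) (Prog.mv src Dir.R))

theorem slowColB_run (src dst r1 r2 : Fin K) (hsd : src ≠ dst) (hs1 : src ≠ r1) (hs2 : src ≠ r2)
    (hd1 : dst ≠ r1) (hd2 : dst ≠ r2) (h12 : r1 ≠ r2) (l L : List (Sym ⊕ α)) (p v w : ℕ)
    (s : St (Sym ⊕ α) K) (h1 : s src = WT l p) (h2 : s dst = WT L L.length)
    (h3 : s r1 = ruler w 0) (h4 : s r2 = ruler v 0) :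
    RunLe (slowColB src dst r1 r2) s
      (Function.update (Function.update s dst (WT (L ++ slowCol l p v w) (L.length + w)))
        src (WT l (p + 1)))
      (w * (10 * v + 19) + 11) := by
  have a1 := slowRows_run src dst r1 r2 hsd hs1 hs2 hd1 hd2 h12 l L p v w s h1 h2 h3 h4
  have a2 := slowBack2_run src r1 r2 hs1 hs2 h12 l p v w
    (Function.update (Function.update s dst (WT (L ++ slowCol l p v w) (L.length + w)))
      src (WT l (p + w * v)))
    (by rw [Function.update_self])
    (by rw [Function.update_of_ne hs1.symm, Function.update_of_ne hd1.symm]; exact h3)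
    (by rw [Function.update_of_ne hs2.symm, Function.update_of_ne hd2.symm]; exact h4)
  have a3 := (Run.mv src Dir.R (Function.update (Function.update (Function.update s dst
    (WT (L ++ slowCol l p v w) (L.length + w))) src (WT l (p + w * v))) src (WT l p))).le
  simp only [Function.update_self, Function.update_idem, WT_move_R] at a2 a3
  exact (RunLe.seq a1 (RunLe.seq a2 a3)).cast rfl rfl (le_of_eq (by ring))

/-- All columns. -/
def slowCols (src dst rn r1 r2 : Fin K) : Prog (Sym ⊕ α) K :=
  forRuler rn (slowColB src dst r1 r2)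

theorem slowCols_run (src dst rn r1 r2 : Fin K) (hsd : src ≠ dst) (hsn : src ≠ rn)
    (hs1 : src ≠ r1) (hs2 : src ≠ r2) (hdn : dst ≠ rn) (hd1 : dst ≠ r1) (hd2 : dst ≠ r2)
    (hn1 : rn ≠ r1) (hn2 : rn ≠ r2) (h12 : r1 ≠ r2) (l : List (Sym ⊕ α)) (n : ℕ)
    (s : St (Sym ⊕ α) K) (h1 : s src = WT l 0) (h2 : s dst = WT [] 0) (h3 : s rn = ruler n 0)
    (h4 : s r1 = ruler n 0) (h5 : s r2 = ruler n 0) :
    RunLe (slowCols src dst rn r1 r2) s
      (Function.update (Function.update s dst (WT (slowOut l n n) (n * n))) src (WT l n))
      (n * (n * (10 * n + 19) + 15) + 5) := by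
  have h := slow_for_run rn (slowColB src dst r1 r2) n
    (fun c => Function.update (Function.update (Function.update s dst
      (WT (slowOut l n c) (c * n))) src (WT l c)) rn (ruler n c))
    (n * (10 * n + 19) + 11) (by intro i _; simp) (by
      intro c hc
      have h6 := slowColB_run src dst r1 r2 hsd hs1 hs2 hd1 hd2 h12 l (slowOut l n c) c n n
        (Function.update (Function.update (Function.update s dst
          (WT (slowOut l n c) (c * n))) src (WT l c)) rn (ruler n c))
        (by rw [Function.update_of_ne hsn, Function.update_self])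
        (by rw [Function.update_of_ne hdn, Function.update_of_ne hsd.symm, Function.update_self,
          slowOut_length])
        (by rw [Function.update_of_ne hn1.symm, Function.update_of_ne hs1.symm,
          Function.update_of_ne hd1.symm]; exact h4)
        (by rw [Function.update_of_ne hn2.symm, Function.update_of_ne hs2.symm,
          Function.update_of_ne hd2.symm]; exact h5)
      refine h6.cast rfl ?_ le_rfl
      rw [slowOut_succ, slowOut_length, Nat.succ_mul]
      grind)
  refine h.cast ?_ ?_ ?_
  · simp only [slowOut, List.range_zero, List.flatMap_nil, Nat.zero_mul]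
    funext j
    simp only [Function.update_apply]
    split_ifs <;> simp_all
  · grind
  · exact le_of_eq (by ring)

theorem slow_lend_not_mem (l : List Bool) :
    (Sum.inl Sym.lend : Sym ⊕ α) ∉ l.map bsym := by
  intro h
  obtain ⟨b, _, hb⟩ := List.mem_map.1 h
  cases b <;> simp [bsym] at hb

/-- Cubic-time transposition: `src` holds the matrix, `rn` is a ruler of length `n`,
`r1 r2 r3` are empty scratch registers, the result is written to `dst`. -/
def slowTrans (src dst rn r1 r2 _r3 : Fin K) : Prog (Sym ⊕ α) K :=
  Prog.seq (slowFill r1 rn) (Prog.seq (slowFill r2 rn) (Prog.seq (slowCols src dst rn r1 r2)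
    (Prog.seq (rewind src) (Prog.seq (rewind dst) (Prog.seq (slowClear r1) (slowClear r2))))))

theorem slowTrans_aux (src dst rn r1 r2 r3 : Fin K) (hsd : src ≠ dst) (hsn : src ≠ rn)
    (hs1 : src ≠ r1) (hs2 : src ≠ r2) (hdn : dst ≠ rn) (hd1 : dst ≠ r1) (hd2 : dst ≠ r2)
    (hn1 : rn ≠ r1) (hn2 : rn ≠ r2) (h12 : r1 ≠ r2) (n : ℕ) (M : Fin n → Fin n → Bool)
    (s : St (Sym ⊕ α) K) (hsrc : s src = WT ((matList n M).map bsym) 0)
    (hdst : s dst = WT [] 0) (hrn : s rn = ruler n 0) (hr1 : s r1 = ruler 0 0)
    (hr2 : s r2 = ruler 0 0) :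
    RunLe (slowTrans src dst rn r1 r2 r3) s
      (Function.update s dst (WT ((matList n (fun r c => M c r)).map bsym) 0))
      (100 * (n + 1) ^ 3) := by
  have b1 := slowFill_run r1 rn hn1.symm n s hr1 hrn
  have b2 := slowFill_run r2 rn hn2.symm n (Function.update s r1 (ruler n 0))
    (by rw [Function.update_of_ne h12.symm]; exact hr2)
    (by rw [Function.update_of_ne hn1]; exact hrn)
  have b3 := slowCols_run src dst rn r1 r2 hsd hsn hs1 hs2 hdn hd1 hd2 hn1 hn2 h12
    ((matList n M).map bsym) n
    (Function.update (Function.update s r1 (ruler n 0)) r2 (ruler n 0))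
    (by rw [Function.update_of_ne hs2, Function.update_of_ne hs1]; exact hsrc)
    (by rw [Function.update_of_ne hd2, Function.update_of_ne hd1]; exact hdst)
    (by rw [Function.update_of_ne hn2, Function.update_of_ne hn1]; exact hrn)
    (by rw [Function.update_of_ne h12, Function.update_self])
    (by rw [Function.update_self])
  rw [slowOut_matList] at b3
  refine (RunLe.seq b1 (RunLe.seq b2 (RunLe.seq b3 (RunLe.seq
    (rewind_run src _ (slow_lend_not_mem _) n _ (Function.update_self _ _ _)).le
    (RunLe.seq (rewind_run dst ((matList n (fun r c => M c r)).map bsym) (slow_lend_not_mem _)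
        (n * n) _ ?_).le
      (RunLe.seq (slowClear_run r1 n _ ?_) (slowClear_run r2 n _ ?_))))))).cast rfl ?_ ?_
  · rw [Function.update_of_ne hsd.symm, Function.update_of_ne hsd.symm, Function.update_self]
  · rw [Function.update_of_ne hd1.symm, Function.update_of_ne hs1.symm,
      Function.update_of_ne hs1.symm, Function.update_of_ne hd1.symm,
      Function.update_of_ne h12, Function.update_self]
  · rw [Function.update_of_ne h12.symm, Function.update_of_ne hd2.symm,
      Function.update_of_ne hs2.symm, Function.update_of_ne hs2.symm,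
      Function.update_of_ne hd2.symm, Function.update_self]
  · funext j
    simp only [Function.update_apply]
    split_ifs <;> simp_all
  · nlinarith [Nat.zero_le (n * n * n), Nat.zero_le (n * n), Nat.zero_le n]

theorem slowTrans_run (T : Fin 6 → Fin K) (hT : Function.Injective T) (n : ℕ) (hn : 1 ≤ n)
    (M : Fin n → Fin n → Bool) (s : St (Sym ⊕ α) K)
    (hsrc : s (T 0) = WT ((matList n M).map bsym) 0) (hdst : s (T 1) = WT [] 0)
    (hrn : s (T 2) = ruler n 0) (hr1 : s (T 3) = ruler 0 0) (hr2 : s (T 4) = ruler 0 0)
    (hr3 : s (T 5) = ruler 0 0) :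
    RunLe (slowTrans (T 0) (T 1) (T 2) (T 3) (T 4) (T 5)) s
      (Function.update s (T 1) (WT ((matList n (fun r c => M c r)).map bsym) 0))
      (100 * (n + 1) ^ 3) := by
  have _h1 := hn
  have _h2 := hr3
  exact slowTrans_aux (T 0) (T 1) (T 2) (T 3) (T 4) (T 5) (hT.ne (by decide))
    (hT.ne (by decide)) (hT.ne (by decide)) (hT.ne (by decide)) (hT.ne (by decide))
    (hT.ne (by decide)) (hT.ne (by decide)) (hT.ne (by decide)) (hT.ne (by decide))
    (hT.ne (by decide)) n M s hsrc hdst hrn hr1 hr2

end Vale.Agent.H91.MT
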