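import Vale.Agent.H91.MT.Swap_Steps

/-!
# TASK SWAP, part 3: sizes, and the phases of a swap between two calls

`prepA`, `prepB`, `prepC` build the first operand of the three multiplications on XA, `finE`
reads the result off the third product; `clearXY` empties the operand tapes.
-/

namespace Vale.Agent.H91.MT

open Function

namespace SwapParams

variable (p : SwapParams)

theorem n0_le {a b X : ℕ} (ha : a ≤ p.P) (hb : b ≤ p.P) (hX : X ≤ 8 * p.W) :
    p.R * a * b * X ≤ p.R * p.SA * p.W := by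
  calc p.R * a * b * X ≤ p.R * p.P * p.P * (8 * p.W) :=
        Nat.mul_le_mul (Nat.mul_le_mul (Nat.mul_le_mul_left _ ha) hb) hX
    _ = p.R * p.SA * p.W := by unfold SA; ring

theorem P_pos : 1 ≤ p.P := Nat.one_le_two_pow

theorem sz_D (hp : p.Ok) : p.R * p.r0 * p.c0 * p.E ≤ p.k :=
  (p.n0_le hp.hr hp.hc (by unfold W m; omega)).trans hp.hk

theorem sz_out (hp : p.Ok) : p.R * p.c0 * p.r0 * p.E ≤ p.k :=
  (p.n0_le hp.hc hp.hr (by unfold W m; omega)).trans hp.hk

theorem sz_T3 (hp : p.Ok) : p.R * p.c0 * p.r0 * p.W ≤ p.k :=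
  (p.n0_le hp.hc hp.hr (by omega)).trans hp.hk

theorem sz_X3 (hp : p.Ok) : p.R * p.c0 * p.r0 * (32 * p.m) ≤ p.k :=
  (p.n0_le hp.hc hp.hr (by unfold W; omega)).trans hp.hk

theorem sz_ker12 (hp : p.Ok) (hR : 1 ≤ p.R) : (2 * p.P - 1) * (2 * p.P) * p.W ≤ p.k := by
  refine le_trans ?_ hp.hk
  have h1 : (2 * p.P - 1) * (2 * p.P) ≤ p.R * p.SA := by
    have e1 : (2 * p.P) * (2 * p.P) = 4 * (p.P * p.P) := by ring
    have e2 : 1 * p.SA = 8 * (p.P * p.P) := by unfold SA; ring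
    calc (2 * p.P - 1) * (2 * p.P) ≤ (2 * p.P) * (2 * p.P) :=
          Nat.mul_le_mul_right _ (Nat.sub_le _ _)
      _ ≤ 1 * p.SA := by rw [e1, e2]; omega
      _ ≤ p.R * p.SA := Nat.mul_le_mul_right _ hR
  exact Nat.mul_le_mul_right _ h1

theorem sz_ker3 (hp : p.Ok) (hR : 1 ≤ p.R) : 32 * p.m ≤ p.k := by
  refine le_trans ?_ hp.hk
  have hP := p.P_pos
  have hPP : 1 * 1 ≤ p.P * p.P := Nat.mul_le_mul hP hP
  have hSA : 8 ≤ p.SA := by
    have e : p.SA = 8 * (p.P * p.P) := by unfold SA; ring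
    rw [e]; omega
  have h1 : 2 ≤ p.R * p.SA := by
    have : 1 * 8 ≤ p.R * p.SA := Nat.mul_le_mul hR hSA
    omega
  calc 32 * p.m = 2 * p.W := by unfold W; ring
    _ ≤ p.R * p.SA * p.W := Nat.mul_le_mul_right _ h1

theorem one_le_k (hp : p.Ok) (hR : 1 ≤ p.R) : 1 ≤ p.k := by
  have h := p.sz_ker3 hp hR
  have := hp.hE
  unfold m at h
  omega

theorem sz_ker1 (hp : p.Ok) (hR : 1 ≤ p.R) : p.ker1.length ≤ p.k := by
  rw [p.len_ker1 hp]; exact p.sz_ker12 hp hR

theorem sz_ker2 (hp : p.Ok) (hR : 1 ≤ p.R) : p.ker2.length ≤ p.k := by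
  rw [p.len_ker2 hp]; exact p.sz_ker12 hp hR

theorem sz_ker3' (hp : p.Ok) (hR : 1 ≤ p.R) : p.ker3.length ≤ p.k := by
  rw [p.len_ker3 hp]; exact p.sz_ker3 hp hR

theorem sz_x1 (hp : p.Ok) (xs : List Bool) : (applyCtl p.ctl1 xs).length ≤ p.k := by
  rw [p.len_ctl1 hp]; exact hp.hk

theorem sz_x2 (hp : p.Ok) (xs : List Bool) : (applyCtl p.ctl2 xs).length ≤ p.k := by
  rw [p.len_ctl2 hp]; exact hp.hk

theorem sz_t3 (hp : p.Ok) (xs : List Bool) : (applyCtl p.ctl3 xs).length ≤ p.k := by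
  rw [p.len_ctl3 hp]; exact p.sz_T3 hp

theorem sz_x3 (hp : p.Ok) (xs : List Bool) : (applyCtl p.ctl3b xs).length ≤ p.k := by
  rw [p.len_ctl3b]; exact p.sz_X3 hp

theorem sz_o (hp : p.Ok) (xs : List Bool) : (applyCtl p.ctl4 xs).length ≤ p.k := by
  rw [p.len_ctl4 hp]; exact p.sz_out hp

theorem sz_ctl1 (hp : p.Ok) : p.ctl1.length ≤ 2 * p.k := by
  have h := ctl_length_le p.ctl1 []
  rw [p.ctlNeed_ctl1 hp] at h
  have := p.sz_D hp
  have := p.sz_x1 hp []
  omega

theorem sz_ctl2 (hp : p.Ok) : p.ctl2.length ≤ 2 * p.k := by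
  have h := ctl_length_le p.ctl2 []
  rw [p.ctlNeed_ctl2 hp] at h
  have := hp.hk
  have := p.sz_x2 hp []
  omega

theorem sz_ctl3 (hp : p.Ok) : p.ctl3.length ≤ 2 * p.k := by
  have h := ctl_length_le p.ctl3 []
  rw [p.ctlNeed_ctl3 hp] at h
  have := hp.hk
  have := p.sz_t3 hp []
  omega

theorem sz_ctl3b (hp : p.Ok) : p.ctl3b.length ≤ 2 * p.k := by
  have h := ctl_length_le p.ctl3b []
  rw [p.ctlNeed_ctl3b] at h
  have := p.sz_T3 hp
  have := p.sz_x3 hp []
  omega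

theorem sz_ctl4 (hp : p.Ok) : p.ctl4.length ≤ 2 * p.k := by
  have h := ctl_length_le p.ctl4 []
  rw [p.ctlNeed_ctl4 hp] at h
  have := p.sz_X3 hp
  have := p.sz_o hp []
  omega

/-- The pipeline after the third operand `X` has been built. -/
def pipe3 (X : List Bool) : List Bool :=
  applyCtl p.ctl4 (prodBits p.k (padTo p.k false X) (padTo p.k false p.ker3))

/-- The pipeline after the second operand `X` has been built. -/
def pipe2 (X : List Bool) : List Bool :=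
  p.pipe3 (applyCtl p.ctl3b (applyCtl p.ctl3
    (prodBits p.k (padTo p.k false X) (padTo p.k false p.ker2))))

/-- The pipeline after the first operand `X` has been built. -/
def pipe1 (X : List Bool) : List Bool :=
  p.pipe2 (applyCtl p.ctl2 (prodBits p.k (padTo p.k false X) (padTo p.k false p.ker1)))

theorem pipe_eq (D : List Bool) : p.pipe D = p.pipe1 (applyCtl p.ctl1 D) := rfl

end SwapParams

variable {α : Type} {K n : ℕ}

/-- Empty the operand tapes XA and YB. -/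
def clearXY (S : Fin 52 → Fin K) : Prog (Sym ⊕ α) K :=
  Prog.seq (clearTape (S 40)) (clearTape (S 41))

/-- Pack the data (tape D) into the first operand on XA. -/
noncomputable def prepA (S : Fin 52 → Fin K) : Prog (Sym ⊕ α) K :=
  Prog.seq (Prog.seq (Prog.seq (genCtl1 (swT S)) (utrans (S 0) (S 48) (S 40))) (rewind (S 48)))
    (clearTape (S 0))

/-- From the first product (on PR) to the second operand on XA. -/
noncomputable def prepB (S : Fin 52 → Fin K) : Prog (Sym ⊕ α) K :=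
  Prog.seq (Prog.seq (Prog.seq (Prog.seq (Prog.seq (clearXY S) (clearTape (S 43)))
    (genCtl2 (swT S))) (utrans (S 0) (S 42) (S 40))) (clearTape (S 0))) (clearTape (S 42))

/-- From the second product (on PR) via the stream TT to the third operand on XA. -/
noncomputable def prepC (S : Fin 52 → Fin K) : Prog (Sym ⊕ α) K :=
  Prog.seq (Prog.seq (Prog.seq (Prog.seq (Prog.seq (Prog.seq (Prog.seq (Prog.seq (Prog.seq
    (Prog.seq (clearXY S) (clearTape (S 43))) (genCtl3 (swT S))) (utrans (S 0) (S 42) (S 50)))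
    (clearTape (S 0))) (clearTape (S 42))) (rewind (S 50))) (genCtl3b (swT S)))
    (utrans (S 0) (S 50) (S 40))) (clearTape (S 0))) (clearTape (S 50))

/-- From the third product (on PR) to the output on OUT. -/
noncomputable def finE (S : Fin 52 → Fin K) : Prog (Sym ⊕ α) K :=
  Prog.seq (Prog.seq (Prog.seq (Prog.seq (Prog.seq (clearXY S) (genCtl4 (swT S)))
    (utrans (S 0) (S 42) (S 49))) (clearTape (S 0))) (clearTape (S 42))) (rewind (S 49))

section
variable {S : Fin 52 → Fin K} {sim : Fin n → Fin K} {p : SwapParams} {q c1 c2 : ℕ}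
  {s : St (Sym ⊕ α) K} {ct xa yb pr fl d out tt : Tape (Sym ⊕ α)}

theorem clearXY_run (hI : SwapInit S sim p q c1 c2 s) {xs ys : List Bool} {px py : ℕ}
    (hpx : px ≤ xs.length) (hpy : py ≤ ys.length) :
    RunLe (clearXY S) (st8 s S ct (WT (xs.map bsym) px) (WT (ys.map bsym) py) pr fl d out tt)
      (st8 s S ct (WT [] 0) (WT [] 0) pr fl d out tt) (4 * xs.length + 4 * ys.length + 16) := by
  have h1 : RunLe _ (st8 s S ct (WT (xs.map bsym) px) (WT (ys.map bsym) py) pr fl d out tt)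
      _ _ := clear_xa hI (bsym_nb xs) (bsym_nl xs) (by rw [List.length_map]; exact hpx)
  have h2 := h1.seq (clear_yb hI (bsym_nb ys) (bsym_nl ys) (by rw [List.length_map]; exact hpy))
  refine h2.mono ?_
  simp only [List.length_map]
  omega

theorem prepA_run {G : ℕ} (hG : Gens α G) (hI : SwapInit S sim p q c1 c2 s) (hp : p.Ok)
    (hq : p.E = q * p.P) (hr0 : 1 ≤ p.r0) (hc0 : 1 ≤ p.c0) (hR : 1 ≤ p.R) {D : List Bool}
    (hD : D.length = p.R * p.r0 * p.c0 * p.E) :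
    RunLe (prepA S) (st8 s S (WT [] 0) (WT [] 0) yb pr fl (WT (D.map bsym) 0) out tt)
      (st8 s S (WT [] 0)
        (WT ((applyCtl p.ctl1 D).map bsym) (applyCtl p.ctl1 D).length) yb pr fl
        (WT (D.map bsym) 0) out tt)
      (G * (p.k + 1) + 18 * (p.k + 1)) := by
  have h1 : RunLe _ (st8 s S (WT [] 0) (WT [] 0) yb pr fl (WT (D.map bsym) 0) out tt) _ _ :=
    gen_ct hG.ctl1 hI hp hq hr0 hc0 hR
  have h2 := h1.seq (utr_d_xa hI (by rw [p.ctlNeed_ctl1 hp, hD]))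
  have h3 := h2.seq (rewind_d hI (bsym_nl D))
  have h4 := h3.seq (clear_ct hI (csym_nb _) (csym_nl _) (by rw [List.length_map]))
  refine h4.mono ?_
  have a1 := p.sz_ctl1 hp
  have a2 := p.sz_D hp
  rw [List.length_map, p.ctlNeed_ctl1 hp]
  omega

theorem prepB_run {G : ℕ} (hG : Gens α G) (hI : SwapInit S sim p q c1 c2 s) (hp : p.Ok)
    (hq : p.E = q * p.P) (hr0 : 1 ≤ p.r0) (hc0 : 1 ≤ p.c0) (hR : 1 ≤ p.R)
    {xs ys Y : List Bool} (hx : xs.length = p.k) (hy : ys.length = p.k)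
    (hY : Y.length = 2 * p.k) :
    RunLe (prepB S)
      (st8 s S (WT [] 0) (WT (xs.map bsym) 0) (WT (ys.map bsym) 0) (WT (Y.map bsym) 0)
        (WT [Sum.inl Sym.one] 0) d out tt)
      (st8 s S (WT [] 0)
        (WT ((applyCtl p.ctl2 Y).map bsym) (applyCtl p.ctl2 Y).length) (WT [] 0) (WT [] 0)
        (WT [] 0) d out tt)
      (G * (p.k + 1) + 48 * (p.k + 1)) := by
  have hk := hp.hk
  have h1 : RunLe _ (st8 s S (WT [] 0) (WT (xs.map bsym) 0) (WT (ys.map bsym) 0)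
      (WT (Y.map bsym) 0) (WT [Sum.inl Sym.one] 0) d out tt) _ _ :=
    clearXY_run hI (Nat.zero_le _) (Nat.zero_le _)
  have h2 := h1.seq (clear_fl hI one_nb one_nl (Nat.zero_le _))
  have h3 := h2.seq (gen_ct hG.ctl2 hI hp hq hr0 hc0 hR)
  have h4 := h3.seq (utr_pr_xa hI (by rw [p.ctlNeed_ctl2 hp, hY]; omega))
  have h5 := h4.seq (clear_ct hI (csym_nb _) (csym_nl _) (by rw [List.length_map]))
  have h6 := h5.seq (clear_pr hI (bsym_nb _) (bsym_nl _)
    (by rw [List.length_map, p.ctlNeed_ctl2 hp, hY]; omega))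
  refine h6.mono ?_
  have a1 := p.sz_ctl2 hp
  simp only [List.length_map, List.length_singleton, hx, hy, hY]
  omega

theorem prepC_run {G : ℕ} (hG : Gens α G) (hI : SwapInit S sim p q c1 c2 s) (hp : p.Ok)
    (hq : p.E = q * p.P) (hr0 : 1 ≤ p.r0) (hc0 : 1 ≤ p.c0) (hR : 1 ≤ p.R)
    {xs ys Y : List Bool} (hx : xs.length = p.k) (hy : ys.length = p.k)
    (hY : Y.length = 2 * p.k) :
    RunLe (prepC S)
      (st8 s S (WT [] 0) (WT (xs.map bsym) 0) (WT (ys.map bsym) 0) (WT (Y.map bsym) 0)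
        (WT [Sum.inl Sym.one] 0) d out (WT [] 0))
      (st8 s S (WT [] 0)
        (WT ((applyCtl p.ctl3b (applyCtl p.ctl3 Y)).map bsym)
          (applyCtl p.ctl3b (applyCtl p.ctl3 Y)).length) (WT [] 0) (WT [] 0)
        (WT [] 0) d out (WT [] 0))
      (2 * (G * (p.k + 1)) + 72 * (p.k + 1)) := by
  have hk := hp.hk
  have h1 : RunLe _ (st8 s S (WT [] 0) (WT (xs.map bsym) 0) (WT (ys.map bsym) 0)
      (WT (Y.map bsym) 0) (WT [Sum.inl Sym.one] 0) d out (WT [] 0)) _ _ :=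
    clearXY_run hI (Nat.zero_le _) (Nat.zero_le _)
  have h2 := h1.seq (clear_fl hI one_nb one_nl (Nat.zero_le _))
  have h3 := h2.seq (gen_ct hG.ctl3 hI hp hq hr0 hc0 hR)
  have h4 := h3.seq (utr_pr_tt hI (by rw [p.ctlNeed_ctl3 hp, hY]; omega))
  have h5 := h4.seq (clear_ct hI (csym_nb _) (csym_nl _) (by rw [List.length_map]))
  have h6 := h5.seq (clear_pr hI (bsym_nb _) (bsym_nl _)
    (by rw [List.length_map, p.ctlNeed_ctl3 hp, hY]; omega))
  have h7 := h6.seq (rewind_tt hI (bsym_nl _))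
  have h8 := h7.seq (gen_ct hG.ctl3b hI hp hq hr0 hc0 hR)
  have h9 := h8.seq (utr_tt_xa hI (by rw [p.ctlNeed_ctl3b, p.len_ctl3 hp]))
  have h10 := h9.seq (clear_ct hI (csym_nb _) (csym_nl _) (by rw [List.length_map]))
  have h11 := h10.seq (clear_tt hI (bsym_nb _) (bsym_nl _)
    (by rw [List.length_map, p.ctlNeed_ctl3b, p.len_ctl3 hp]))
  refine h11.mono ?_
  have a1 := p.sz_ctl3 hp
  have a2 := p.sz_ctl3b hp
  have a3 := p.sz_T3 hp
  simp only [List.length_map, List.length_singleton, hx, hy, hY, p.len_ctl3 hp]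
  omega

theorem finE_run {G : ℕ} (hG : Gens α G) (hI : SwapInit S sim p q c1 c2 s) (hp : p.Ok)
    (hq : p.E = q * p.P) (hr0 : 1 ≤ p.r0) (hc0 : 1 ≤ p.c0) (hR : 1 ≤ p.R)
    {xs ys Y : List Bool} (hx : xs.length = p.k) (hy : ys.length = p.k)
    (hY : Y.length = 2 * p.k) :
    RunLe (finE S)
      (st8 s S (WT [] 0) (WT (xs.map bsym) 0) (WT (ys.map bsym) 0) (WT (Y.map bsym) 0)
        fl d (WT [] 0) tt)
      (st8 s S (WT [] 0) (WT [] 0) (WT [] 0) (WT [] 0) fl d
        (WT ((applyCtl p.ctl4 Y).map bsym) 0) tt)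
      (G * (p.k + 1) + 40 * (p.k + 1)) := by
  have hk := hp.hk
  have hX3 := p.sz_X3 hp
  have h1 : RunLe _ (st8 s S (WT [] 0) (WT (xs.map bsym) 0) (WT (ys.map bsym) 0)
      (WT (Y.map bsym) 0) fl d (WT [] 0) tt) _ _ :=
    clearXY_run hI (Nat.zero_le _) (Nat.zero_le _)
  have h2 := h1.seq (gen_ct hG.ctl4 hI hp hq hr0 hc0 hR)
  have h3 := h2.seq (utr_pr_out hI (by rw [p.ctlNeed_ctl4 hp, hY]; omega))
  have h4 := h3.seq (clear_ct hI (csym_nb _) (csym_nl _) (by rw [List.length_map]))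
  have h5 := h4.seq (clear_pr hI (bsym_nb _) (bsym_nl _)
    (by rw [List.length_map, p.ctlNeed_ctl4 hp, hY]; omega))
  have h6 := h5.seq (rewind_out hI (bsym_nl _))
  refine h6.mono ?_
  have a1 := p.sz_ctl4 hp
  have a2 := p.sz_out hp
  simp only [List.length_map, hx, hy, hY, p.len_ctl4 hp]
  omega

end

end Vale.Agent.H91.MT
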