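import Vale.Agent.H91.MT.Swap_Phases

/-!
# TASK SWAP, part 4: the three clocked calls and the branching after each of them

A stage pads the operand on XA, generates and pads a kernel on YB, calls the multiplier and then
either continues (flag `one`) or empties the operand tapes and stops (flag `zero`).
-/

namespace Vale.Agent.H91.MT

open Function

variable {A : Machine} {K : ℕ}

/-- Pad XA, generate (`gk`) and pad the kernel on YB, call the multiplier. -/
noncomputable def loadCall (S : Fin 52 → Fin K) (T : CallTapes A K) (gk : Prog (ΓB A) K) :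
    Prog (ΓB A) K :=
  Prog.seq (Prog.seq (Prog.seq (padStream (S 40) (S 31) Sym.zero) gk)
    (padStream (S 41) (S 31) Sym.zero)) (mulCall A T)

/-- Third multiplication, then the output (or stop). -/
noncomputable def stage3 (S : Fin 52 → Fin K) (T : CallTapes A K) : Prog (ΓB A) K :=
  Prog.seq (loadCall S T (genKer3 (swT' S)))
    (Prog.ite (isSym (S 43) Sym.one) (finE S) (clearXY S))

/-- Second multiplication, then the third stage (or stop). -/
noncomputable def stage2 (S : Fin 52 → Fin K) (T : CallTapes A K) : Prog (ΓB A) K :=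
  Prog.seq (loadCall S T (genKer2 (swT' S)))
    (Prog.ite (isSym (S 43) Sym.one) (Prog.seq (prepC S) (stage3 S T)) (clearXY S))

/-- First multiplication, then the second stage (or stop). -/
noncomputable def stage1 (S : Fin 52 → Fin K) (T : CallTapes A K) : Prog (ΓB A) K :=
  Prog.seq (loadCall S T (genKer1 (swT' S)))
    (Prog.ite (isSym (S 43) Sym.one) (Prog.seq (prepB S) (stage2 S T)) (clearXY S))

section
variable {C G : ℕ} {S : Fin 52 → Fin K} {sim : Fin (A.k + 1) → Fin K} {T : CallTapes A K}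
  {p : SwapParams} {q c1 c2 : ℕ} {s : St (ΓB A) K}

theorem loadCall_run (hC : CallSpec A C) (hT : CallLayout A T S sim)
    (hI : SwapInit S sim p q c1 c2 s) (hp : p.Ok) (hq : p.E = q * p.P) (hr0 : 1 ≤ p.r0)
    (hc0 : 1 ≤ p.c0) (hR : 1 ≤ p.R) (hc1 : 1 ≤ c1)
    {gk : ∀ {K : ℕ}, (Fin 40 → Fin K) → Prog (ΓB A) K} {ker : SwapParams → List Bool}
    (hgk : GenSpec gk (fun p => (ker p).map bsym) G) (hker : (ker p).length ≤ p.k)
    {X : List Bool} {px : ℕ} (hpx : px ≤ X.length) (hX : X.length ≤ p.k)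
    (d out tt : Tape (ΓB A)) :
    ∃ s', RunLe (loadCall S T (gk (swT' S)))
        (st8 s S (WT [] 0) (WT (X.map bsym) px) (WT [] 0) (WT [] 0) (WT [] 0) d out tt) s'
        (G * (p.k + 1) + 60 * (p.k + 1) +
          C * (min (mulTime A p.k) (c1 * c2) + c1 + p.k + 1)) ∧
      (s' = st8 s S (WT [] 0) (WT ((padTo p.k false X).map bsym) 0)
          (WT ((padTo p.k false (ker p)).map bsym) 0)
          (WT ((prodBits p.k (padTo p.k false X) (padTo p.k false (ker p))).map bsym) 0)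
          (WT [Sum.inl Sym.one] 0) d out tt ∨
       (c1 * c2 < mulTime A p.k ∧
         s' = st8 s S (WT [] 0) (WT ((padTo p.k false X).map bsym) 0)
          (WT ((padTo p.k false (ker p)).map bsym) 0) (WT [] 0)
          (WT [Sum.inl Sym.zero] 0) d out tt)) := by
  have h1 : RunLe _ (st8 s S (WT [] 0) (WT (X.map bsym) px) (WT [] 0) (WT [] 0) (WT [] 0)
      d out tt) _ _ := pad_xa hI hpx
  have h2 := h1.seq (gen_yb hgk hI hp hq hr0 hc0 hR)
  have h3 := h2.seq (pad_yb hI (Nat.zero_le _))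
  obtain ⟨s', hr, hs'⟩ := call_step hC hT hI (p.one_le_k hp hR) hc1
    (padTo_length p.k false X hX) (padTo_length p.k false (ker p) hker) (WT [] 0) d out tt
  refine ⟨s', (h3.seq hr).mono ?_, hs'⟩
  omega

/-- A stage: the call, then `cont` on success or `clearXY` on failure. -/
theorem stage_run (hC : CallSpec A C) (hT : CallLayout A T S sim)
    (hI : SwapInit S sim p q c1 c2 s) (hp : p.Ok) (hq : p.E = q * p.P) (hr0 : 1 ≤ p.r0)
    (hc0 : 1 ≤ p.c0) (hR : 1 ≤ p.R) (hc1 : 1 ≤ c1)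
    {gk : ∀ {K : ℕ}, (Fin 40 → Fin K) → Prog (ΓB A) K} {ker : SwapParams → List Bool}
    (hgk : GenSpec gk (fun p => (ker p).map bsym) G) (hker : (ker p).length ≤ p.k)
    {X : List Bool} {px : ℕ} (hpx : px ≤ X.length) (hX : X.length ≤ p.k)
    (d out tt : Tape (ΓB A)) (cont : Prog (ΓB A) K) (b : ℕ) (Φ : St (ΓB A) K → Prop)
    (hsucc : ∃ s', RunLe cont
        (st8 s S (WT [] 0) (WT ((padTo p.k false X).map bsym) 0)
          (WT ((padTo p.k false (ker p)).map bsym) 0)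
          (WT ((prodBits p.k (padTo p.k false X) (padTo p.k false (ker p))).map bsym) 0)
          (WT [Sum.inl Sym.one] 0) d out tt) s' b ∧ Φ s')
    (hfail : c1 * c2 < mulTime A p.k →
      Φ (st8 s S (WT [] 0) (WT [] 0) (WT [] 0) (WT [] 0) (WT [Sum.inl Sym.zero] 0) d out tt)) :
    ∃ s', RunLe (Prog.seq (loadCall S T (gk (swT' S)))
          (Prog.ite (isSym (S 43) Sym.one) cont (clearXY S)))
        (st8 s S (WT [] 0) (WT (X.map bsym) px) (WT [] 0) (WT [] 0) (WT [] 0) d out tt) s'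
        (G * (p.k + 1) + 60 * (p.k + 1) +
          C * (min (mulTime A p.k) (c1 * c2) + c1 + p.k + 1) + (b + 16 * (p.k + 1) + 1)) ∧
      Φ s' := by
  obtain ⟨s1, hr1, hs1 | ⟨hlt, hs1⟩⟩ :=
    loadCall_run hC hT hI hp hq hr0 hc0 hR hc1 hgk hker hpx hX d out tt
  · subst hs1
    obtain ⟨s', hr', hΦ⟩ := hsucc
    refine ⟨s', (hr1.seq (RunLe.ite_true (isSym_true _ _ _
      (by rw [st8_fl hI.hS]; rfl)) hr')).mono (by omega), hΦ⟩
  · subst hs1
    have hx := padTo_length p.k false X hX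
    have hy := padTo_length p.k false (ker p) hker
    have h2 : RunLe (clearXY S) (st8 s S (WT [] 0) (WT ((padTo p.k false X).map bsym) 0)
        (WT ((padTo p.k false (ker p)).map bsym) 0) (WT [] 0)
        (WT [Sum.inl Sym.zero] 0) d out tt) _ _ :=
      clearXY_run hI (Nat.zero_le _) (Nat.zero_le _)
    refine ⟨_, (hr1.seq (RunLe.ite_false (isSym_false _ _ _
      (by rw [st8_fl hI.hS]; intro h; cases h)) h2)).mono (by rw [hx, hy]; omega), hfail hlt⟩

/-- The two possible outcomes of a swap (or of its last stages): the result `res` on OUT with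
flag `one`, or (clock too short) flag `zero` and all other working tapes empty. -/
def SwapRes (A : Machine) {K : ℕ} (S : Fin 52 → Fin K) (s : St (ΓB A) K) (p : SwapParams)
    (c1 c2 : ℕ) (d : Tape (ΓB A)) (res : List Bool) (s' : St (ΓB A) K) : Prop :=
  s' = st8 s S (WT [] 0) (WT [] 0) (WT [] 0) (WT [] 0) (WT [Sum.inl Sym.one] 0) d
      (WT (res.map bsym) 0) (WT [] 0) ∨
    (c1 * c2 < mulTime A p.k ∧
      s' = st8 s S (WT [] 0) (WT [] 0) (WT [] 0) (WT [] 0) (WT [Sum.inl Sym.zero] 0) d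
        (WT [] 0) (WT [] 0))

theorem stage3_run (hC : CallSpec A C) (hT : CallLayout A T S sim)
    (hG : Gens ((A.Γ × Bool) ⊕ A.Q) G)
    (hI : SwapInit S sim p q c1 c2 s) (hp : p.Ok) (hq : p.E = q * p.P) (hr0 : 1 ≤ p.r0)
    (hc0 : 1 ≤ p.c0) (hR : 1 ≤ p.R) (hc1 : 1 ≤ c1)
    {X : List Bool} {px : ℕ} (hpx : px ≤ X.length) (hX : X.length ≤ p.k) (d : Tape (ΓB A)) :
    ∃ s', RunLe (stage3 S T)
        (st8 s S (WT [] 0) (WT (X.map bsym) px) (WT [] 0) (WT [] 0) (WT [] 0) d (WT [] 0)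
          (WT [] 0)) s'
        (2 * (G * (p.k + 1)) + 116 * (p.k + 1) + 1 +
          C * (min (mulTime A p.k) (c1 * c2) + c1 + p.k + 1)) ∧
      SwapRes A S s p c1 c2 d (p.pipe3 X) s' := by
  obtain ⟨s', hr, hs'⟩ := stage_run hC hT hI hp hq hr0 hc0 hR hc1 (ker := fun p => p.ker3)
    hG.ker3 (p.sz_ker3' hp hR) hpx hX d (WT [] 0) (WT [] 0) (finE S)
    (G * (p.k + 1) + 40 * (p.k + 1)) (SwapRes A S s p c1 c2 d (p.pipe3 X))
    ⟨_, finE_run hG hI hp hq hr0 hc0 hR (padTo_length p.k false X hX)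
      (padTo_length p.k false p.ker3 (p.sz_ker3' hp hR)) (prodBits_length _ _ _), Or.inl rfl⟩
    (fun hlt => Or.inr ⟨hlt, rfl⟩)
  exact ⟨s', hr.mono (by omega), hs'⟩

theorem stage2_run (hC : CallSpec A C) (hT : CallLayout A T S sim)
    (hG : Gens ((A.Γ × Bool) ⊕ A.Q) G)
    (hI : SwapInit S sim p q c1 c2 s) (hp : p.Ok) (hq : p.E = q * p.P) (hr0 : 1 ≤ p.r0)
    (hc0 : 1 ≤ p.c0) (hR : 1 ≤ p.R) (hc1 : 1 ≤ c1)
    {X : List Bool} {px : ℕ} (hpx : px ≤ X.length) (hX : X.length ≤ p.k) (d : Tape (ΓB A)) :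
    ∃ s', RunLe (stage2 S T)
        (st8 s S (WT [] 0) (WT (X.map bsym) px) (WT [] 0) (WT [] 0) (WT [] 0) d (WT [] 0)
          (WT [] 0)) s'
        (5 * (G * (p.k + 1)) + 264 * (p.k + 1) + 2 +
          2 * (C * (min (mulTime A p.k) (c1 * c2) + c1 + p.k + 1))) ∧
      SwapRes A S s p c1 c2 d (p.pipe2 X) s' := by
  obtain ⟨s3, hr3, hs3⟩ := stage3_run hC hT hG hI hp hq hr0 hc0 hR hc1 (le_refl _)
    (p.sz_x3 hp (applyCtl p.ctl3
      (prodBits p.k (padTo p.k false X) (padTo p.k false p.ker2)))) d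
  obtain ⟨s', hr, hs'⟩ := stage_run hC hT hI hp hq hr0 hc0 hR hc1 (ker := fun p => p.ker2)
    hG.ker2 (p.sz_ker2 hp hR) hpx hX d (WT [] 0) (WT [] 0)
    (Prog.seq (prepC S) (stage3 S T)) _ (SwapRes A S s p c1 c2 d (p.pipe2 X))
    ⟨s3, (prepC_run hG hI hp hq hr0 hc0 hR (padTo_length p.k false X hX)
      (padTo_length p.k false p.ker2 (p.sz_ker2 hp hR)) (prodBits_length _ _ _)).seq hr3, hs3⟩
    (fun hlt => Or.inr ⟨hlt, rfl⟩)
  exact ⟨s', hr.mono (by omega), hs'⟩

theorem stage1_run (hC : CallSpec A C) (hT : CallLayout A T S sim)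
    (hG : Gens ((A.Γ × Bool) ⊕ A.Q) G)
    (hI : SwapInit S sim p q c1 c2 s) (hp : p.Ok) (hq : p.E = q * p.P) (hr0 : 1 ≤ p.r0)
    (hc0 : 1 ≤ p.c0) (hR : 1 ≤ p.R) (hc1 : 1 ≤ c1)
    {X : List Bool} {px : ℕ} (hpx : px ≤ X.length) (hX : X.length ≤ p.k) (d : Tape (ΓB A)) :
    ∃ s', RunLe (stage1 S T)
        (st8 s S (WT [] 0) (WT (X.map bsym) px) (WT [] 0) (WT [] 0) (WT [] 0) d (WT [] 0)
          (WT [] 0)) s'
        (7 * (G * (p.k + 1)) + 388 * (p.k + 1) + 3 +
          3 * (C * (min (mulTime A p.k) (c1 * c2) + c1 + p.k + 1))) ∧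
      SwapRes A S s p c1 c2 d (p.pipe1 X) s' := by
  obtain ⟨s2, hr2, hs2⟩ := stage2_run hC hT hG hI hp hq hr0 hc0 hR hc1 (le_refl _)
    (p.sz_x2 hp (prodBits p.k (padTo p.k false X) (padTo p.k false p.ker1))) d
  obtain ⟨s', hr, hs'⟩ := stage_run hC hT hI hp hq hr0 hc0 hR hc1 (ker := fun p => p.ker1)
    hG.ker1 (p.sz_ker1 hp hR) hpx hX d (WT [] 0) (WT [] 0)
    (Prog.seq (prepB S) (stage2 S T)) _ (SwapRes A S s p c1 c2 d (p.pipe1 X))
    ⟨s2, (prepB_run hG hI hp hq hr0 hc0 hR (padTo_length p.k false X hX)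
      (padTo_length p.k false p.ker1 (p.sz_ker1 hp hR)) (prodBits_length _ _ _)).seq hr2, hs2⟩
    (fun hlt => Or.inr ⟨hlt, rfl⟩)
  exact ⟨s', hr.mono (by omega), hs'⟩

end

end Vale.Agent.H91.MT
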