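import Vale.Agent.H91.MT.RegC

/-!
# TASK SWAP, part 1: the eight working tapes of a swap as an explicit record

`st8 s S ct xa yb pr fl d out tt` is the state `s` with the tapes `S 0` (CT), `S 40` (XA),
`S 41` (YB), `S 42` (PR), `S 43` (FL), `S 48` (D), `S 49` (OUT), `S 50` (TT) replaced by the
given tapes.  Getter, setter and frame lemmas let every step of the swap be stated as a change
of one or two of the eight components.
-/

namespace Vale.Agent.H91.MT

open Function

variable {Γ : Type} {K : ℕ}

/-- The state `s` with the eight working tapes of a swap replaced. -/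
def st8 (s : St Γ K) (S : Fin 52 → Fin K) (ct xa yb pr fl d out tt : Tape Γ) : St Γ K :=
  update (update (update (update (update (update (update (update s (S 0) ct) (S 40) xa)
    (S 41) yb) (S 42) pr) (S 43) fl) (S 48) d) (S 49) out) (S 50) tt

section
variable {s : St Γ K} {S : Fin 52 → Fin K} {ct xa yb pr fl d out tt : Tape Γ}

theorem st8_ct (hS : Injective S) : st8 s S ct xa yb pr fl d out tt (S 0) = ct := by
  unfold st8
  rw [update_of_ne, update_of_ne, update_of_ne, update_of_ne, update_of_ne, update_of_ne, update_of_ne, update_self]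
  all_goals exact hS.ne (by decide)

theorem st8_xa (hS : Injective S) : st8 s S ct xa yb pr fl d out tt (S 40) = xa := by
  unfold st8
  rw [update_of_ne, update_of_ne, update_of_ne, update_of_ne, update_of_ne, update_of_ne, update_self]
  all_goals exact hS.ne (by decide)

theorem st8_yb (hS : Injective S) : st8 s S ct xa yb pr fl d out tt (S 41) = yb := by
  unfold st8
  rw [update_of_ne, update_of_ne, update_of_ne, update_of_ne, update_of_ne, update_self]
  all_goals exact hS.ne (by decide)

theorem st8_pr (hS : Injective S) : st8 s S ct xa yb pr fl d out tt (S 42) = pr := by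
  unfold st8
  rw [update_of_ne, update_of_ne, update_of_ne, update_of_ne, update_self]
  all_goals exact hS.ne (by decide)

theorem st8_fl (hS : Injective S) : st8 s S ct xa yb pr fl d out tt (S 43) = fl := by
  unfold st8
  rw [update_of_ne, update_of_ne, update_of_ne, update_self]
  all_goals exact hS.ne (by decide)

theorem st8_d (hS : Injective S) : st8 s S ct xa yb pr fl d out tt (S 48) = d := by
  unfold st8
  rw [update_of_ne, update_of_ne, update_self]
  all_goals exact hS.ne (by decide)

theorem st8_out (hS : Injective S) : st8 s S ct xa yb pr fl d out tt (S 49) = out := by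
  unfold st8
  rw [update_of_ne, update_self]
  all_goals exact hS.ne (by decide)

theorem st8_tt (_hS : Injective S) : st8 s S ct xa yb pr fl d out tt (S 50) = tt := by
  unfold st8
  rw [update_self]

theorem st8_set_ct (hS : Injective S) (v : Tape Γ) :
    update (st8 s S ct xa yb pr fl d out tt) (S 0) v = st8 s S v xa yb pr fl d out tt := by
  unfold st8
  rw [update_comm (hS.ne (by decide : (50 : Fin 52) ≠ 0)),
    update_comm (hS.ne (by decide : (49 : Fin 52) ≠ 0)),
    update_comm (hS.ne (by decide : (48 : Fin 52) ≠ 0)),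
    update_comm (hS.ne (by decide : (43 : Fin 52) ≠ 0)),
    update_comm (hS.ne (by decide : (42 : Fin 52) ≠ 0)),
    update_comm (hS.ne (by decide : (41 : Fin 52) ≠ 0)),
    update_comm (hS.ne (by decide : (40 : Fin 52) ≠ 0)),
    update_idem]

theorem st8_set_xa (hS : Injective S) (v : Tape Γ) :
    update (st8 s S ct xa yb pr fl d out tt) (S 40) v = st8 s S ct v yb pr fl d out tt := by
  unfold st8
  rw [update_comm (hS.ne (by decide : (50 : Fin 52) ≠ 40)),
    update_comm (hS.ne (by decide : (49 : Fin 52) ≠ 40)),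
    update_comm (hS.ne (by decide : (48 : Fin 52) ≠ 40)),
    update_comm (hS.ne (by decide : (43 : Fin 52) ≠ 40)),
    update_comm (hS.ne (by decide : (42 : Fin 52) ≠ 40)),
    update_comm (hS.ne (by decide : (41 : Fin 52) ≠ 40)),
    update_idem]

theorem st8_set_yb (hS : Injective S) (v : Tape Γ) :
    update (st8 s S ct xa yb pr fl d out tt) (S 41) v = st8 s S ct xa v pr fl d out tt := by
  unfold st8
  rw [update_comm (hS.ne (by decide : (50 : Fin 52) ≠ 41)),
    update_comm (hS.ne (by decide : (49 : Fin 52) ≠ 41)),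
    update_comm (hS.ne (by decide : (48 : Fin 52) ≠ 41)),
    update_comm (hS.ne (by decide : (43 : Fin 52) ≠ 41)),
    update_comm (hS.ne (by decide : (42 : Fin 52) ≠ 41)),
    update_idem]

theorem st8_set_pr (hS : Injective S) (v : Tape Γ) :
    update (st8 s S ct xa yb pr fl d out tt) (S 42) v = st8 s S ct xa yb v fl d out tt := by
  unfold st8
  rw [update_comm (hS.ne (by decide : (50 : Fin 52) ≠ 42)),
    update_comm (hS.ne (by decide : (49 : Fin 52) ≠ 42)),
    update_comm (hS.ne (by decide : (48 : Fin 52) ≠ 42)),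
    update_comm (hS.ne (by decide : (43 : Fin 52) ≠ 42)),
    update_idem]

theorem st8_set_fl (hS : Injective S) (v : Tape Γ) :
    update (st8 s S ct xa yb pr fl d out tt) (S 43) v = st8 s S ct xa yb pr v d out tt := by
  unfold st8
  rw [update_comm (hS.ne (by decide : (50 : Fin 52) ≠ 43)),
    update_comm (hS.ne (by decide : (49 : Fin 52) ≠ 43)),
    update_comm (hS.ne (by decide : (48 : Fin 52) ≠ 43)),
    update_idem]

theorem st8_set_d (hS : Injective S) (v : Tape Γ) :
    update (st8 s S ct xa yb pr fl d out tt) (S 48) v = st8 s S ct xa yb pr fl v out tt := by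
  unfold st8
  rw [update_comm (hS.ne (by decide : (50 : Fin 52) ≠ 48)),
    update_comm (hS.ne (by decide : (49 : Fin 52) ≠ 48)),
    update_idem]

theorem st8_set_out (hS : Injective S) (v : Tape Γ) :
    update (st8 s S ct xa yb pr fl d out tt) (S 49) v = st8 s S ct xa yb pr fl d v tt := by
  unfold st8
  rw [update_comm (hS.ne (by decide : (50 : Fin 52) ≠ 49)),
    update_idem]

theorem st8_set_tt (_hS : Injective S) (v : Tape Γ) :
    update (st8 s S ct xa yb pr fl d out tt) (S 50) v = st8 s S ct xa yb pr fl d out v := by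
  unfold st8
  rw [update_idem]

/-- Tapes other than the eight are untouched. -/
theorem st8_of_ne (j : Fin K) (h0 : j ≠ S 0) (h40 : j ≠ S 40) (h41 : j ≠ S 41) (h42 : j ≠ S 42) (h43 : j ≠ S 43) (h48 : j ≠ S 48) (h49 : j ≠ S 49) (h50 : j ≠ S 50) :
    st8 s S ct xa yb pr fl d out tt j = s j := by
  unfold st8
  rw [update_of_ne h50, update_of_ne h49, update_of_ne h48, update_of_ne h43, update_of_ne h42, update_of_ne h41, update_of_ne h40, update_of_ne h0]

theorem st8_frame (hS : Injective S) (i : Fin 52)
    (hi : i.val ≠ 0 ∧ i.val ≠ 40 ∧ i.val ≠ 41 ∧ i.val ≠ 42 ∧ i.val ≠ 43 ∧ i.val ≠ 48 ∧ i.val ≠ 49 ∧ i.val ≠ 50) :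
    st8 s S ct xa yb pr fl d out tt (S i) = s (S i) :=
  st8_of_ne _ (hS.ne fun h => hi.1 (congrArg Fin.val h))
    (hS.ne fun h => hi.2.1 (congrArg Fin.val h))
    (hS.ne fun h => hi.2.2.1 (congrArg Fin.val h))
    (hS.ne fun h => hi.2.2.2.1 (congrArg Fin.val h))
    (hS.ne fun h => hi.2.2.2.2.1 (congrArg Fin.val h))
    (hS.ne fun h => hi.2.2.2.2.2.1 (congrArg Fin.val h))
    (hS.ne fun h => hi.2.2.2.2.2.2.1 (congrArg Fin.val h))
    (hS.ne fun h => hi.2.2.2.2.2.2.2 (congrArg Fin.val h))

/-- Replacing the eight tapes by themselves changes nothing. -/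
theorem st8_self (s : St Γ K) (S : Fin 52 → Fin K) :
    st8 s S (s (S 0)) (s (S 40)) (s (S 41)) (s (S 42)) (s (S 43)) (s (S 48)) (s (S 49))
      (s (S 50)) = s := by
  unfold st8
  rw [update_eq_self, update_eq_self, update_eq_self, update_eq_self, update_eq_self,
    update_eq_self, update_eq_self, update_eq_self]

end

/-! ## The layouts of the generators and the invariant of the untouched tapes -/

variable {α : Type} {n : ℕ}

/-- Generator layout for control lists: the first forty tapes (`S 0` is the output). -/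
def swT (S : Fin 52 → Fin K) : Fin 40 → Fin K := fun i => S (Fin.castLE (by omega) i)

/-- Generator layout for kernels: as `swT`, but the output tape is `S 41` (YB). -/
def swT' (S : Fin 52 → Fin K) : Fin 40 → Fin K :=
  fun i => S (if i.val = 0 then 41 else Fin.castLE (by omega) i)

theorem swT_inj {S : Fin 52 → Fin K} (hS : Injective S) : Injective (swT S) := by
  intro i j hij
  have h := hS hij
  exact Fin.castLE_injective _ h

theorem swT'_inj {S : Fin 52 → Fin K} (hS : Injective S) : Injective (swT' S) := by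
  intro i j hij
  have h := congrArg Fin.val (hS hij)
  apply Fin.ext
  by_cases hi : i.val = 0 <;> by_cases hj : j.val = 0 <;>
    simp only [hi, hj, if_true, if_false, Fin.val_castLE] at h
  · omega
  · have : j.val = 41 := h.symm
    omega
  · have : i.val = 41 := h
    omega
  · exact h

/-- What a swap assumes about the tapes it never changes (`s` is the state at its start). -/
structure SwapInit (S : Fin 52 → Fin K) (sim : Fin n → Fin K) (p : SwapParams) (q c1 c2 : ℕ)
    (s : St (Sym ⊕ α) K) : Prop where
  inj : Injective (Sum.elim sim S)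
  base : BaseRegs (swT S) p q s
  rk : s (S 31) = ruler p.k 0
  clk : s (S 44) = ruler c1 0
  clk2 : s (S 51) = ruler c2 0
  empty : ∀ i : Fin 52, (i.val < 24 ∨ (32 ≤ i.val ∧ i.val ≠ 44 ∧ i.val ≠ 47 ∧ i.val ≠ 48 ∧
    i.val ≠ 51)) → s (S i) = WT [] 0
  stb : s (S 47) = Tape.ofList (Sum.inl Sym.blank) []
  simb : ∀ j, s (sim j) = Tape.ofList (Sum.inl Sym.blank) []

section
variable {S : Fin 52 → Fin K} {sim : Fin n → Fin K} {p : SwapParams} {q c1 c2 : ℕ}
  {s : St (Sym ⊕ α) K} {ct xa yb pr fl d out tt : Tape (Sym ⊕ α)}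

theorem SwapInit.hS (hI : SwapInit S sim p q c1 c2 s) : Injective S := by
  intro a b hab
  exact Sum.inr.inj (hI.inj (a₁ := Sum.inr a) (a₂ := Sum.inr b) hab)

theorem SwapInit.sim_ne (hI : SwapInit S sim p q c1 c2 s) (j : Fin n) (i : Fin 52) :
    sim j ≠ S i := by
  intro h
  exact Sum.inl_ne_inr (hI.inj (a₁ := Sum.inl j) (a₂ := Sum.inr i) h)

theorem st8_sim (hI : SwapInit S sim p q c1 c2 s) (j : Fin n) :
    st8 s S ct xa yb pr fl d out tt (sim j) = Tape.ofList (Sum.inl Sym.blank) [] :=
  (st8_of_ne _ (hI.sim_ne j 0) (hI.sim_ne j 40) (hI.sim_ne j 41) (hI.sim_ne j 42)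
    (hI.sim_ne j 43) (hI.sim_ne j 48) (hI.sim_ne j 49) (hI.sim_ne j 50)).trans (hI.simb j)

theorem st8_base (hI : SwapInit S sim p q c1 c2 s) :
    BaseRegs (swT S) p q (st8 s S ct xa yb pr fl d out tt) := by
  obtain ⟨h1, h2, h3, h4, h5, h6, h7⟩ := hI.base
  exact ⟨(st8_frame hI.hS _ (by decide)).trans h1, (st8_frame hI.hS _ (by decide)).trans h2,
    (st8_frame hI.hS _ (by decide)).trans h3, (st8_frame hI.hS _ (by decide)).trans h4,
    (st8_frame hI.hS _ (by decide)).trans h5, (st8_frame hI.hS _ (by decide)).trans h6,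
    (st8_frame hI.hS _ (by decide)).trans h7⟩

theorem st8_base' (hI : SwapInit S sim p q c1 c2 s) :
    BaseRegs (swT' S) p q (st8 s S ct xa yb pr fl d out tt) := by
  obtain ⟨h1, h2, h3, h4, h5, h6, h7⟩ := hI.base
  exact ⟨(st8_frame hI.hS _ (by decide)).trans h1, (st8_frame hI.hS _ (by decide)).trans h2,
    (st8_frame hI.hS _ (by decide)).trans h3, (st8_frame hI.hS _ (by decide)).trans h4,
    (st8_frame hI.hS _ (by decide)).trans h5, (st8_frame hI.hS _ (by decide)).trans h6,
    (st8_frame hI.hS _ (by decide)).trans h7⟩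

/-- The generator tapes are empty whenever CT is. -/
theorem st8_empty (hI : SwapInit S sim p q c1 c2 s) (i : Fin 40)
    (hi : i.val < 24 ∨ 32 ≤ i.val) :
    st8 s S (WT [] 0) xa yb pr fl d out tt (swT S i) = WT [] 0 := by
  by_cases h0 : i.val = 0
  · have e : swT S i = S 0 := by
      unfold swT
      congr 1
      exact Fin.ext h0
    rw [e, st8_ct hI.hS]
  · have hv : (Fin.castLE (by omega : 40 ≤ 52) i).val = i.val := rfl
    have hlt := i.isLt
    exact (st8_frame hI.hS _ (by rw [hv]; omega)).trans (hI.empty _ (by rw [hv]; omega))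

/-- The kernel generator tapes are empty whenever YB is. -/
theorem st8_empty' (hI : SwapInit S sim p q c1 c2 s) (i : Fin 40)
    (hi : i.val < 24 ∨ 32 ≤ i.val) :
    st8 s S ct xa (WT [] 0) pr fl d out tt (swT' S i) = WT [] 0 := by
  by_cases h0 : i.val = 0
  · have e : swT' S i = S 41 := by
      unfold swT'
      rw [if_pos h0]
    rw [e, st8_yb hI.hS]
  · have e : swT' S i = S (Fin.castLE (by omega : 40 ≤ 52) i) := by
      unfold swT'
      rw [if_neg h0]
    have hv : (Fin.castLE (by omega : 40 ≤ 52) i).val = i.val := rfl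
    have hlt := i.isLt
    rw [e]
    exact (st8_frame hI.hS _ (by rw [hv]; omega)).trans (hI.empty _ (by rw [hv]; omega))

/-- The start state of a swap in record form. -/
theorem SwapInit.start (hI : SwapInit S sim p q c1 c2 s) :
    s = st8 s S (WT [] 0) (WT [] 0) (WT [] 0) (WT [] 0) (WT [] 0) (s (S 48)) (WT [] 0)
      (WT [] 0) := by
  have h := st8_self s S
  rw [hI.empty 0 (by decide), hI.empty 40 (by decide), hI.empty 41 (by decide),
    hI.empty 42 (by decide), hI.empty 43 (by decide), hI.empty 49 (by decide),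
    hI.empty 50 (by decide)] at h
  exact h.symm

/-- The successful end state of a swap, seen from its start state. -/
theorem SwapInit.final_ok (hI : SwapInit S sim p q c1 c2 s) (X Y : Tape (Sym ⊕ α)) :
    update (update s (S 49) X) (S 43) Y =
      st8 s S (WT [] 0) (WT [] 0) (WT [] 0) (WT [] 0) Y (s (S 48)) X (WT [] 0) := by
  have h := hI.start
  calc update (update s (S 49) X) (S 43) Y
      = update (update (st8 s S (WT [] 0) (WT [] 0) (WT [] 0) (WT [] 0) (WT [] 0) (s (S 48))
          (WT [] 0) (WT [] 0)) (S 49) X) (S 43) Y := by rw [← h]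
    _ = _ := by rw [st8_set_out hI.hS, st8_set_fl hI.hS]

/-- The aborted end state of a swap, seen from its start state. -/
theorem SwapInit.final_fail (hI : SwapInit S sim p q c1 c2 s) (Y : Tape (Sym ⊕ α)) :
    update s (S 43) Y =
      st8 s S (WT [] 0) (WT [] 0) (WT [] 0) (WT [] 0) Y (s (S 48)) (WT [] 0) (WT [] 0) := by
  have h := hI.start
  calc update s (S 43) Y
      = update (st8 s S (WT [] 0) (WT [] 0) (WT [] 0) (WT [] 0) (WT [] 0) (s (S 48))
          (WT [] 0) (WT [] 0)) (S 43) Y := by rw [← h]
    _ = _ := by rw [st8_set_fl hI.hS]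

end

end Vale.Agent.H91.MT
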