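import Vale.Agent.H91.MT.Swap_State
import Vale.Agent.H91.MT.GenCtl1
import Vale.Agent.H91.MT.GenKer1
import Vale.Agent.H91.MT.GenCtl2
import Vale.Agent.H91.MT.GenKer2
import Vale.Agent.H91.MT.GenCtl3
import Vale.Agent.H91.MT.GenRep
import Vale.Agent.H91.MT.UTrans
import Vale.Agent.H91.MT.ACall
import Vale.Agent.H91.MT.PureLen

/-!
# TASK SWAP, part 2: the black boxes as steps on the record `st8`

Every black-box program used by a swap (generators, universal transducer, clearing, rewinding,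
padding, the clocked call) is restated as a change of components of `st8`, so that the phases of
the swap can be verified by chaining with `RunLe.seq`.
-/

namespace Vale.Agent.H91.MT

open Function

variable {α : Type} {K n : ℕ}

/-! ## Lists on tapes -/

theorem bsym_nb (l : List Bool) : (Sum.inl Sym.blank : Sym ⊕ α) ∉ l.map bsym := by
  intro h
  obtain ⟨b, _, hb⟩ := List.mem_map.1 h
  cases b <;> simp [bsym] at hb

theorem bsym_nl (l : List Bool) : (Sum.inl Sym.lend : Sym ⊕ α) ∉ l.map bsym := by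
  intro h
  obtain ⟨b, _, hb⟩ := List.mem_map.1 h
  cases b <;> simp [bsym] at hb

theorem csym_nb (l : List Ctl) : (Sum.inl Sym.blank : Sym ⊕ α) ∉ l.map csym := by
  intro h
  obtain ⟨b, _, hb⟩ := List.mem_map.1 h
  cases b <;> simp [csym] at hb

theorem csym_nl (l : List Ctl) : (Sum.inl Sym.lend : Sym ⊕ α) ∉ l.map csym := by
  intro h
  obtain ⟨b, _, hb⟩ := List.mem_map.1 h
  cases b <;> simp [csym] at hb

theorem one_nb : (Sum.inl Sym.blank : Sym ⊕ α) ∉ [(Sum.inl Sym.one : Sym ⊕ α)] := by simp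

theorem one_nl : (Sum.inl Sym.lend : Sym ⊕ α) ∉ [(Sum.inl Sym.one : Sym ⊕ α)] := by simp

theorem padTo_map_bsym (k : ℕ) (l : List Bool) :
    padTo k (Sum.inl Sym.zero : Sym ⊕ α) (l.map bsym) = (padTo k false l).map bsym := by
  simp [padTo, bsym]

/-! ## The generators, with a common shape of the time bound -/

/-- `g` generates the list `f p` on tape `T 0` of its layout in time `c * (p.k + 1)`. -/
def GenSpec (g : ∀ {K : ℕ}, (Fin 40 → Fin K) → Prog (Sym ⊕ α) K)
    (f : SwapParams → List (Sym ⊕ α)) (c : ℕ) : Prop :=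
  ∀ (K : ℕ) (T : Fin 40 → Fin K), Injective T → ∀ p : SwapParams, p.Ok → ∀ q : ℕ,
    p.E = q * p.P → 1 ≤ p.r0 → 1 ≤ p.c0 → 1 ≤ p.R → ∀ s : St (Sym ⊕ α) K, BaseRegs T p q s →
    (∀ i : Fin 40, (i.val < 24 ∨ 32 ≤ i.val) → s (T i) = WT [] 0) →
    RunLe (g T) s (update s (T 0) (WT (f p) 0)) (c * (p.k + 1))

theorem GenSpec.mono {g : ∀ {K : ℕ}, (Fin 40 → Fin K) → Prog (Sym ⊕ α) K}
    {f : SwapParams → List (Sym ⊕ α)} {c c' : ℕ} (h : GenSpec g f c) (hc : c ≤ c') :
    GenSpec g f c' := by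
  intro K T hT p hp q hq hr0 hc0 hR s hb he
  exact (h K T hT p hp q hq hr0 hc0 hR s hb he).mono (Nat.mul_le_mul_right _ hc)

theorem genCtl1_gs : ∃ c : ℕ, GenSpec (α := α) (fun T => genCtl1 T) (fun p => p.ctl1.map csym) c :=
  ⟨_, fun _ T hT p hp q hq hr0 hc0 hR s hb he =>
    (genCtl1_run T hT p hp q hq hr0 hc0 hR s hb he).mono
      (Nat.mul_le_mul_left _ (Nat.succ_le_succ hp.hk))⟩

theorem genKer1_gs : ∃ c : ℕ, GenSpec (α := α) (fun T => genKer1 T) (fun p => p.ker1.map bsym) c :=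
  ⟨_, fun _ T hT p hp q hq hr0 hc0 hR s hb he =>
    (genKer1_run T hT p hp q hq hr0 hc0 hR s hb he).mono
      (Nat.mul_le_mul_left _ (Nat.succ_le_succ hp.hk))⟩

theorem genCtl2_gs : ∃ c : ℕ, GenSpec (α := α) (fun T => genCtl2 T) (fun p => p.ctl2.map csym) c :=
  ⟨_, fun _ T hT p hp q hq hr0 hc0 hR s hb he =>
    (genCtl2_run T hT p hp q hq hr0 hc0 hR s hb he).mono
      (Nat.mul_le_mul_left _ (Nat.succ_le_succ hp.hk))⟩

theorem genKer2_gs : ∃ c : ℕ, GenSpec (α := α) (fun T => genKer2 T) (fun p => p.ker2.map bsym) c :=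
  ⟨_, fun _ T hT p hp q hq hr0 hc0 hR s hb he =>
    (genKer2_run T hT p hp q hq hr0 hc0 hR s hb he).mono
      (Nat.mul_le_mul_left _ (Nat.succ_le_succ hp.hk))⟩

theorem genCtl3_gs : ∃ c : ℕ, GenSpec (α := α) (fun T => genCtl3 T) (fun p => p.ctl3.map csym) c :=
  ⟨_, fun _ T hT p hp q hq hr0 hc0 hR s hb he =>
    (genCtl3_run T hT p hp q hq hr0 hc0 hR s hb he).mono
      (Nat.mul_le_mul_left _ (Nat.succ_le_succ hp.hk))⟩

theorem genCtl3b_gs : ∃ c : ℕ, GenSpec (α := α) (fun T => genCtl3b T) (fun p => p.ctl3b.map csym) c :=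
  ⟨_, fun _ T hT p hp q hq hr0 hc0 hR s hb he =>
    (genCtl3b_run T hT p hp q hq hr0 hc0 hR s hb he).mono
      (Nat.mul_le_mul_left _ (Nat.succ_le_succ hp.hk))⟩

theorem genKer3_gs : ∃ c : ℕ, GenSpec (α := α) (fun T => genKer3 T) (fun p => p.ker3.map bsym) c :=
  ⟨_, fun _ T hT p hp q hq hr0 hc0 hR s hb he =>
    (genKer3_run T hT p hp q hq hr0 hc0 hR s hb he).mono
      (Nat.mul_le_mul_left _ (Nat.succ_le_succ hp.hk))⟩

theorem genCtl4_gs : ∃ c : ℕ, GenSpec (α := α) (fun T => genCtl4 T) (fun p => p.ctl4.map csym) c :=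
  ⟨_, fun _ T hT p hp q hq hr0 hc0 hR s hb he =>
    (genCtl4_run T hT p hp q hq hr0 hc0 hR s hb he).mono
      (Nat.mul_le_mul_left _ (Nat.succ_le_succ hp.hk))⟩

/-- All eight generators of a swap run in time `G * (p.k + 1)`. -/
structure Gens (α : Type) (G : ℕ) : Prop where
  ctl1 : GenSpec (α := α) (fun T => genCtl1 T) (fun p => p.ctl1.map csym) G
  ker1 : GenSpec (α := α) (fun T => genKer1 T) (fun p => p.ker1.map bsym) G
  ctl2 : GenSpec (α := α) (fun T => genCtl2 T) (fun p => p.ctl2.map csym) G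
  ker2 : GenSpec (α := α) (fun T => genKer2 T) (fun p => p.ker2.map bsym) G
  ctl3 : GenSpec (α := α) (fun T => genCtl3 T) (fun p => p.ctl3.map csym) G
  ctl3b : GenSpec (α := α) (fun T => genCtl3b T) (fun p => p.ctl3b.map csym) G
  ker3 : GenSpec (α := α) (fun T => genKer3 T) (fun p => p.ker3.map bsym) G
  ctl4 : GenSpec (α := α) (fun T => genCtl4 T) (fun p => p.ctl4.map csym) G

theorem gens_exist (α : Type) : ∃ G : ℕ, Gens α G := by
  obtain ⟨a1, h1⟩ := genCtl1_gs (α := α)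
  obtain ⟨a2, h2⟩ := genKer1_gs (α := α)
  obtain ⟨a3, h3⟩ := genCtl2_gs (α := α)
  obtain ⟨a4, h4⟩ := genKer2_gs (α := α)
  obtain ⟨a5, h5⟩ := genCtl3_gs (α := α)
  obtain ⟨a6, h6⟩ := genCtl3b_gs (α := α)
  obtain ⟨a7, h7⟩ := genKer3_gs (α := α)
  obtain ⟨a8, h8⟩ := genCtl4_gs (α := α)
  exact ⟨a1 + a2 + a3 + a4 + a5 + a6 + a7 + a8,
    ⟨h1.mono (by omega), h2.mono (by omega), h3.mono (by omega), h4.mono (by omega),
      h5.mono (by omega), h6.mono (by omega), h7.mono (by omega), h8.mono (by omega)⟩⟩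

/-! ## Steps on the record -/

section
variable {S : Fin 52 → Fin K} {sim : Fin n → Fin K} {p : SwapParams} {q c1 c2 : ℕ}
  {s : St (Sym ⊕ α) K} {ct xa yb pr fl d out tt : Tape (Sym ⊕ α)}

/-- A generator writing onto CT. -/
theorem gen_ct {g : ∀ {K : ℕ}, (Fin 40 → Fin K) → Prog (Sym ⊕ α) K}
    {f : SwapParams → List (Sym ⊕ α)} {c : ℕ} (hg : GenSpec g f c)
    (hI : SwapInit S sim p q c1 c2 s) (hp : p.Ok) (hq : p.E = q * p.P) (hr0 : 1 ≤ p.r0)
    (hc0 : 1 ≤ p.c0) (hR : 1 ≤ p.R) :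
    RunLe (g (swT S)) (st8 s S (WT [] 0) xa yb pr fl d out tt)
      (st8 s S (WT (f p) 0) xa yb pr fl d out tt) (c * (p.k + 1)) := by
  have h := hg K (swT S) (swT_inj hI.hS) p hp q hq hr0 hc0 hR
    (st8 s S (WT [] 0) xa yb pr fl d out tt) (st8_base hI) (fun i hi => st8_empty hI i hi)
  have e : swT S 0 = S 0 := rfl
  rw [e, st8_set_ct hI.hS] at h
  exact h

/-- A generator writing onto YB. -/
theorem gen_yb {g : ∀ {K : ℕ}, (Fin 40 → Fin K) → Prog (Sym ⊕ α) K}
    {f : SwapParams → List (Sym ⊕ α)} {c : ℕ} (hg : GenSpec g f c)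
    (hI : SwapInit S sim p q c1 c2 s) (hp : p.Ok) (hq : p.E = q * p.P) (hr0 : 1 ≤ p.r0)
    (hc0 : 1 ≤ p.c0) (hR : 1 ≤ p.R) :
    RunLe (g (swT' S)) (st8 s S ct xa (WT [] 0) pr fl d out tt)
      (st8 s S ct xa (WT (f p) 0) pr fl d out tt) (c * (p.k + 1)) := by
  have h := hg K (swT' S) (swT'_inj hI.hS) p hp q hq hr0 hc0 hR
    (st8 s S ct xa (WT [] 0) pr fl d out tt) (st8_base' hI) (fun i hi => st8_empty' hI i hi)
  have e : swT' S 0 = S 41 := rfl
  rw [e, st8_set_yb hI.hS] at h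
  exact h

theorem clear_ct (hI : SwapInit S sim p q c1 c2 s) {l : List (Sym ⊕ α)} {pos : ℕ}
    (hb : Sum.inl Sym.blank ∉ l) (hl : Sum.inl Sym.lend ∉ l) (hpos : pos ≤ l.length) :
    RunLe (clearTape (S 0)) (st8 s S (WT l pos) xa yb pr fl d out tt)
      (st8 s S (WT [] 0) xa yb pr fl d out tt) (4 * l.length + 8) := by
  have h := clearTape_run (S 0) l hb hl pos hpos (st8 s S (WT l pos) xa yb pr fl d out tt)
    (st8_ct hI.hS)
  rwa [st8_set_ct hI.hS] at h

theorem clear_xa (hI : SwapInit S sim p q c1 c2 s) {l : List (Sym ⊕ α)} {pos : ℕ}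
    (hb : Sum.inl Sym.blank ∉ l) (hl : Sum.inl Sym.lend ∉ l) (hpos : pos ≤ l.length) :
    RunLe (clearTape (S 40)) (st8 s S ct (WT l pos) yb pr fl d out tt)
      (st8 s S ct (WT [] 0) yb pr fl d out tt) (4 * l.length + 8) := by
  have h := clearTape_run (S 40) l hb hl pos hpos (st8 s S ct (WT l pos) yb pr fl d out tt)
    (st8_xa hI.hS)
  rwa [st8_set_xa hI.hS] at h

theorem clear_yb (hI : SwapInit S sim p q c1 c2 s) {l : List (Sym ⊕ α)} {pos : ℕ}
    (hb : Sum.inl Sym.blank ∉ l) (hl : Sum.inl Sym.lend ∉ l) (hpos : pos ≤ l.length) :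
    RunLe (clearTape (S 41)) (st8 s S ct xa (WT l pos) pr fl d out tt)
      (st8 s S ct xa (WT [] 0) pr fl d out tt) (4 * l.length + 8) := by
  have h := clearTape_run (S 41) l hb hl pos hpos (st8 s S ct xa (WT l pos) pr fl d out tt)
    (st8_yb hI.hS)
  rwa [st8_set_yb hI.hS] at h

theorem clear_pr (hI : SwapInit S sim p q c1 c2 s) {l : List (Sym ⊕ α)} {pos : ℕ}
    (hb : Sum.inl Sym.blank ∉ l) (hl : Sum.inl Sym.lend ∉ l) (hpos : pos ≤ l.length) :
    RunLe (clearTape (S 42)) (st8 s S ct xa yb (WT l pos) fl d out tt)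
      (st8 s S ct xa yb (WT [] 0) fl d out tt) (4 * l.length + 8) := by
  have h := clearTape_run (S 42) l hb hl pos hpos (st8 s S ct xa yb (WT l pos) fl d out tt)
    (st8_pr hI.hS)
  rwa [st8_set_pr hI.hS] at h

theorem clear_fl (hI : SwapInit S sim p q c1 c2 s) {l : List (Sym ⊕ α)} {pos : ℕ}
    (hb : Sum.inl Sym.blank ∉ l) (hl : Sum.inl Sym.lend ∉ l) (hpos : pos ≤ l.length) :
    RunLe (clearTape (S 43)) (st8 s S ct xa yb pr (WT l pos) d out tt)
      (st8 s S ct xa yb pr (WT [] 0) d out tt) (4 * l.length + 8) := by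
  have h := clearTape_run (S 43) l hb hl pos hpos (st8 s S ct xa yb pr (WT l pos) d out tt)
    (st8_fl hI.hS)
  rwa [st8_set_fl hI.hS] at h

theorem clear_tt (hI : SwapInit S sim p q c1 c2 s) {l : List (Sym ⊕ α)} {pos : ℕ}
    (hb : Sum.inl Sym.blank ∉ l) (hl : Sum.inl Sym.lend ∉ l) (hpos : pos ≤ l.length) :
    RunLe (clearTape (S 50)) (st8 s S ct xa yb pr fl d out (WT l pos))
      (st8 s S ct xa yb pr fl d out (WT [] 0)) (4 * l.length + 8) := by
  have h := clearTape_run (S 50) l hb hl pos hpos (st8 s S ct xa yb pr fl d out (WT l pos))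
    (st8_tt hI.hS)
  rwa [st8_set_tt hI.hS] at h

theorem rewind_d (hI : SwapInit S sim p q c1 c2 s) {l : List (Sym ⊕ α)} {pos : ℕ}
    (hl : Sum.inl Sym.lend ∉ l) :
    RunLe (rewind (S 48)) (st8 s S ct xa yb pr fl (WT l pos) out tt)
      (st8 s S ct xa yb pr fl (WT l 0) out tt) (2 * pos + 4) := by
  have h := (rewind_run (S 48) l hl pos (st8 s S ct xa yb pr fl (WT l pos) out tt)
    (st8_d hI.hS)).le
  rwa [st8_set_d hI.hS] at h

theorem rewind_out (hI : SwapInit S sim p q c1 c2 s) {l : List (Sym ⊕ α)} {pos : ℕ}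
    (hl : Sum.inl Sym.lend ∉ l) :
    RunLe (rewind (S 49)) (st8 s S ct xa yb pr fl d (WT l pos) tt)
      (st8 s S ct xa yb pr fl d (WT l 0) tt) (2 * pos + 4) := by
  have h := (rewind_run (S 49) l hl pos (st8 s S ct xa yb pr fl d (WT l pos) tt)
    (st8_out hI.hS)).le
  rwa [st8_set_out hI.hS] at h

theorem rewind_tt (hI : SwapInit S sim p q c1 c2 s) {l : List (Sym ⊕ α)} {pos : ℕ}
    (hl : Sum.inl Sym.lend ∉ l) :
    RunLe (rewind (S 50)) (st8 s S ct xa yb pr fl d out (WT l pos))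
      (st8 s S ct xa yb pr fl d out (WT l 0)) (2 * pos + 4) := by
  have h := (rewind_run (S 50) l hl pos (st8 s S ct xa yb pr fl d out (WT l pos))
    (st8_tt hI.hS)).le
  rwa [st8_set_tt hI.hS] at h

theorem pad_xa (hI : SwapInit S sim p q c1 c2 s) {xs : List Bool} {pos : ℕ}
    (hpos : pos ≤ xs.length) :
    RunLe (padStream (S 40) (S 31) Sym.zero) (st8 s S ct (WT (xs.map bsym) pos) yb pr fl d out tt)
      (st8 s S ct (WT ((padTo p.k false xs).map bsym) 0) yb pr fl d out tt)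
      (10 * (xs.length + p.k) + 30) := by
  have h := padStream_run (S 40) (S 31) (hI.hS.ne (by decide)) Sym.zero (xs.map bsym)
    (bsym_nb xs) (bsym_nl xs) pos p.k (by rw [List.length_map]; exact hpos)
    (st8 s S ct (WT (xs.map bsym) pos) yb pr fl d out tt) (st8_xa hI.hS)
    ((st8_frame hI.hS 31 (by decide)).trans hI.rk)
  rwa [st8_set_xa hI.hS, padTo_map_bsym, List.length_map] at h

theorem pad_yb (hI : SwapInit S sim p q c1 c2 s) {xs : List Bool} {pos : ℕ}
    (hpos : pos ≤ xs.length) :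
    RunLe (padStream (S 41) (S 31) Sym.zero) (st8 s S ct xa (WT (xs.map bsym) pos) pr fl d out tt)
      (st8 s S ct xa (WT ((padTo p.k false xs).map bsym) 0) pr fl d out tt)
      (10 * (xs.length + p.k) + 30) := by
  have h := padStream_run (S 41) (S 31) (hI.hS.ne (by decide)) Sym.zero (xs.map bsym)
    (bsym_nb xs) (bsym_nl xs) pos p.k (by rw [List.length_map]; exact hpos)
    (st8 s S ct xa (WT (xs.map bsym) pos) pr fl d out tt) (st8_yb hI.hS)
    ((st8_frame hI.hS 31 (by decide)).trans hI.rk)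
  rwa [st8_set_yb hI.hS, padTo_map_bsym, List.length_map] at h

/-- The transducer reading tape `d` and writing tape `xa`. -/
theorem utr_d_xa (hI : SwapInit S sim p q c1 c2 s) {ctl : List Ctl} {xs : List Bool}
    (hneed : ctlNeed ctl ≤ xs.length) :
    RunLe (utrans (S 0) (S 48) (S 40))
      (st8 s S (WT (ctl.map csym) 0) (WT [] 0) yb pr fl (WT (xs.map bsym) 0) out tt)
      (st8 s S (WT (ctl.map csym) ctl.length) (WT ((applyCtl ctl xs).map bsym) (applyCtl ctl xs).length) yb pr fl (WT (xs.map bsym) (ctlNeed ctl)) out tt)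
      (4 * ctl.length + 4) := by
  have h := utrans_run (S 0) (S 48) (S 40) (hI.hS.ne (by decide)) (hI.hS.ne (by decide))
    (hI.hS.ne (by decide)) ctl xs [] 0 (by rw [Nat.zero_add]; exact hneed)
    (st8 s S (WT (ctl.map csym) 0) (WT [] 0) yb pr fl (WT (xs.map bsym) 0) out tt)
    (st8_ct hI.hS) (st8_d hI.hS) (st8_xa hI.hS)
  rw [st8_set_ct hI.hS, st8_set_d hI.hS, st8_set_xa hI.hS] at h
  simp only [List.nil_append, List.drop_zero, List.length_nil, Nat.zero_add] at h
  exact h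

/-- The transducer reading tape `pr` and writing tape `xa`. -/
theorem utr_pr_xa (hI : SwapInit S sim p q c1 c2 s) {ctl : List Ctl} {xs : List Bool}
    (hneed : ctlNeed ctl ≤ xs.length) :
    RunLe (utrans (S 0) (S 42) (S 40))
      (st8 s S (WT (ctl.map csym) 0) (WT [] 0) yb (WT (xs.map bsym) 0) fl d out tt)
      (st8 s S (WT (ctl.map csym) ctl.length) (WT ((applyCtl ctl xs).map bsym) (applyCtl ctl xs).length) yb (WT (xs.map bsym) (ctlNeed ctl)) fl d out tt)
      (4 * ctl.length + 4) := by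
  have h := utrans_run (S 0) (S 42) (S 40) (hI.hS.ne (by decide)) (hI.hS.ne (by decide))
    (hI.hS.ne (by decide)) ctl xs [] 0 (by rw [Nat.zero_add]; exact hneed)
    (st8 s S (WT (ctl.map csym) 0) (WT [] 0) yb (WT (xs.map bsym) 0) fl d out tt)
    (st8_ct hI.hS) (st8_pr hI.hS) (st8_xa hI.hS)
  rw [st8_set_ct hI.hS, st8_set_pr hI.hS, st8_set_xa hI.hS] at h
  simp only [List.nil_append, List.drop_zero, List.length_nil, Nat.zero_add] at h
  exact h

/-- The transducer reading tape `pr` and writing tape `tt`. -/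
theorem utr_pr_tt (hI : SwapInit S sim p q c1 c2 s) {ctl : List Ctl} {xs : List Bool}
    (hneed : ctlNeed ctl ≤ xs.length) :
    RunLe (utrans (S 0) (S 42) (S 50))
      (st8 s S (WT (ctl.map csym) 0) xa yb (WT (xs.map bsym) 0) fl d out (WT [] 0))
      (st8 s S (WT (ctl.map csym) ctl.length) xa yb (WT (xs.map bsym) (ctlNeed ctl)) fl d out (WT ((applyCtl ctl xs).map bsym) (applyCtl ctl xs).length))
      (4 * ctl.length + 4) := by
  have h := utrans_run (S 0) (S 42) (S 50) (hI.hS.ne (by decide)) (hI.hS.ne (by decide))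
    (hI.hS.ne (by decide)) ctl xs [] 0 (by rw [Nat.zero_add]; exact hneed)
    (st8 s S (WT (ctl.map csym) 0) xa yb (WT (xs.map bsym) 0) fl d out (WT [] 0))
    (st8_ct hI.hS) (st8_pr hI.hS) (st8_tt hI.hS)
  rw [st8_set_ct hI.hS, st8_set_pr hI.hS, st8_set_tt hI.hS] at h
  simp only [List.nil_append, List.drop_zero, List.length_nil, Nat.zero_add] at h
  exact h

/-- The transducer reading tape `tt` and writing tape `xa`. -/
theorem utr_tt_xa (hI : SwapInit S sim p q c1 c2 s) {ctl : List Ctl} {xs : List Bool}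
    (hneed : ctlNeed ctl ≤ xs.length) :
    RunLe (utrans (S 0) (S 50) (S 40))
      (st8 s S (WT (ctl.map csym) 0) (WT [] 0) yb pr fl d out (WT (xs.map bsym) 0))
      (st8 s S (WT (ctl.map csym) ctl.length) (WT ((applyCtl ctl xs).map bsym) (applyCtl ctl xs).length) yb pr fl d out (WT (xs.map bsym) (ctlNeed ctl)))
      (4 * ctl.length + 4) := by
  have h := utrans_run (S 0) (S 50) (S 40) (hI.hS.ne (by decide)) (hI.hS.ne (by decide))
    (hI.hS.ne (by decide)) ctl xs [] 0 (by rw [Nat.zero_add]; exact hneed)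
    (st8 s S (WT (ctl.map csym) 0) (WT [] 0) yb pr fl d out (WT (xs.map bsym) 0))
    (st8_ct hI.hS) (st8_tt hI.hS) (st8_xa hI.hS)
  rw [st8_set_ct hI.hS, st8_set_tt hI.hS, st8_set_xa hI.hS] at h
  simp only [List.nil_append, List.drop_zero, List.length_nil, Nat.zero_add] at h
  exact h

/-- The transducer reading tape `pr` and writing tape `out`. -/
theorem utr_pr_out (hI : SwapInit S sim p q c1 c2 s) {ctl : List Ctl} {xs : List Bool}
    (hneed : ctlNeed ctl ≤ xs.length) :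
    RunLe (utrans (S 0) (S 42) (S 49))
      (st8 s S (WT (ctl.map csym) 0) xa yb (WT (xs.map bsym) 0) fl d (WT [] 0) tt)
      (st8 s S (WT (ctl.map csym) ctl.length) xa yb (WT (xs.map bsym) (ctlNeed ctl)) fl d (WT ((applyCtl ctl xs).map bsym) (applyCtl ctl xs).length) tt)
      (4 * ctl.length + 4) := by
  have h := utrans_run (S 0) (S 42) (S 49) (hI.hS.ne (by decide)) (hI.hS.ne (by decide))
    (hI.hS.ne (by decide)) ctl xs [] 0 (by rw [Nat.zero_add]; exact hneed)
    (st8 s S (WT (ctl.map csym) 0) xa yb (WT (xs.map bsym) 0) fl d (WT [] 0) tt)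
    (st8_ct hI.hS) (st8_pr hI.hS) (st8_out hI.hS)
  rw [st8_set_ct hI.hS, st8_set_pr hI.hS, st8_set_out hI.hS] at h
  simp only [List.nil_append, List.drop_zero, List.length_nil, Nat.zero_add] at h
  exact h

end

/-! ## The clocked call -/

/-- The statement of `mulCall_spec` for a fixed constant. -/
def CallSpec (A : Machine) (C : ℕ) : Prop :=
  ∀ (K : ℕ) (T : CallTapes A K) (k c1 c2 : ℕ) (xs ys : List Bool),
    1 ≤ k → 1 ≤ c1 → xs.length = k → ys.length = k → ∀ s : St (ΓB A) K,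
    (∀ j, s (T.sim j) = Tape.ofList (Sum.inl Sym.blank) []) →
    s T.st = Tape.ofList (Sum.inl Sym.blank) [] →
    s T.clk = ruler c1 0 → s T.clk2 = ruler c2 0 →
    s T.x = WT (xs.map bsym) 0 → s T.y = WT (ys.map bsym) 0 →
    s T.o = WT [] 0 → s T.fl = WT [] 0 → s T.w1 = WT [] 0 → s T.w2 = WT [] 0 →
    ∃ s', RunLe (mulCall A T) s s' (C * (min (mulTime A k) (c1 * c2) + c1 + k + 1)) ∧
      (s' = Function.update (Function.update s T.o (WT ((prodBits k xs ys).map bsym) 0))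
              T.fl (WT [Sum.inl Sym.one] 0) ∨
       (c1 * c2 < mulTime A k ∧
         s' = Function.update s T.fl (WT [Sum.inl Sym.zero] 0)))

theorem callSpec_exists (A : Machine) (hA : Multiplies A) : ∃ C : ℕ, CallSpec A C :=
  mulCall_spec A hA

/-- The call tapes `T` are those of the swap layout `S`. -/
structure CallLayout (A : Machine) {K : ℕ} (T : CallTapes A K) (S : Fin 52 → Fin K)
    (sim : Fin (A.k + 1) → Fin K) : Prop where
  sim : T.sim = sim
  st : T.st = S 47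
  clk : T.clk = S 44
  clk2 : T.clk2 = S 51
  x : T.x = S 40
  y : T.y = S 41
  o : T.o = S 42
  fl : T.fl = S 43
  w1 : T.w1 = S 45
  w2 : T.w2 = S 46

/-- The clocked call as a step on the record. -/
theorem call_step {A : Machine} {C : ℕ} (hC : CallSpec A C) {K : ℕ} {S : Fin 52 → Fin K}
    {sim : Fin (A.k + 1) → Fin K} {T : CallTapes A K} (hT : CallLayout A T S sim)
    {p : SwapParams} {q c1 c2 : ℕ} {s : St (ΓB A) K} (hI : SwapInit S sim p q c1 c2 s)
    (hk : 1 ≤ p.k) (hc1 : 1 ≤ c1) {xs ys : List Bool} (hx : xs.length = p.k)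
    (hy : ys.length = p.k) (ct d out tt : Tape (ΓB A)) :
    ∃ s', RunLe (mulCall A T)
        (st8 s S ct (WT (xs.map bsym) 0) (WT (ys.map bsym) 0) (WT [] 0) (WT [] 0) d out tt) s'
        (C * (min (mulTime A p.k) (c1 * c2) + c1 + p.k + 1)) ∧
      (s' = st8 s S ct (WT (xs.map bsym) 0) (WT (ys.map bsym) 0) (WT ((prodBits p.k xs ys).map bsym) 0) (WT [Sum.inl Sym.one] 0) d out tt ∨
       (c1 * c2 < mulTime A p.k ∧
         s' = st8 s S ct (WT (xs.map bsym) 0) (WT (ys.map bsym) 0) (WT [] 0) (WT [Sum.inl Sym.zero] 0) d out tt)) := by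
  have hS := hI.hS
  obtain ⟨s', hr, hs'⟩ := hC K T p.k c1 c2 xs ys hk hc1 hx hy
    (st8 s S ct (WT (xs.map bsym) 0) (WT (ys.map bsym) 0) (WT [] 0) (WT [] 0) d out tt)
    (by intro j; rw [hT.sim]; exact st8_sim hI j)
    (by rw [hT.st]; exact (st8_frame hS 47 (by decide)).trans hI.stb)
    (by rw [hT.clk]; exact (st8_frame hS 44 (by decide)).trans hI.clk)
    (by rw [hT.clk2]; exact (st8_frame hS 51 (by decide)).trans hI.clk2)
    (by rw [hT.x]; exact st8_xa hS)
    (by rw [hT.y]; exact st8_yb hS)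
    (by rw [hT.o]; exact st8_pr hS)
    (by rw [hT.fl]; exact st8_fl hS)
    (by rw [hT.w1]; exact (st8_frame hS 45 (by decide)).trans (hI.empty 45 (by decide)))
    (by rw [hT.w2]; exact (st8_frame hS 46 (by decide)).trans (hI.empty 46 (by decide)))
  simp only [hT.o, hT.fl, st8_set_pr hS, st8_set_fl hS] at hs'
  exact ⟨s', hr, hs'⟩

end Vale.Agent.H91.MT
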