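import Vale.Agent.H91.MT.Prog

/-!
# Work tapes and basic programs

The constructed machine uses the alphabet `Sym ⊕ α` (`α` holds foreign symbols, e.g. those of a
simulated machine).  A work tape `WT l p` has a left-end marker on cell 0, the list `l` on cells
`1, 2, ...`, blanks beyond, and its head on data cell `p` (that is, on cell `p + 1`).
-/

namespace Vale.Agent.H91.MT

/-- Work symbols. -/
inductive Sym
  | blank | lend | zero | one | mark | sep | cC | cS | cZ | cO | cN | x1 | x2 | x3
  deriving DecidableEq

instance : Fintype Sym where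
  elems := {Sym.blank, Sym.lend, Sym.zero, Sym.one, Sym.mark, Sym.sep, Sym.cC, Sym.cS, Sym.cZ,
    Sym.cO, Sym.cN, Sym.x1, Sym.x2, Sym.x3}
  complete := by intro x; cases x <;> simp

variable {α : Type} {K : ℕ}

/-- Cells of a work tape holding `l`. -/
def wcells (l : List (Sym ⊕ α)) : ℕ → Sym ⊕ α
  | 0 => Sum.inl Sym.lend
  | j + 1 => l.getD j (Sum.inl Sym.blank)

/-- Work tape holding `l`, head on data cell `p`. -/
def WT (l : List (Sym ⊕ α)) (p : ℕ) : Tape (Sym ⊕ α) := ⟨p + 1, wcells l⟩

/-- Work tape holding `l`, head on the left-end marker. -/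
def WT0 (l : List (Sym ⊕ α)) : Tape (Sym ⊕ α) := ⟨0, wcells l⟩

/-- A unary ruler (register) of length `n`, head on data cell `p`. -/
def ruler (n p : ℕ) : Tape (Sym ⊕ α) := WT (List.replicate n (Sum.inl Sym.one)) p

@[simp] theorem WT_read (l : List (Sym ⊕ α)) (p : ℕ) :
    (WT l p).read = l.getD p (Sum.inl Sym.blank) := rfl

@[simp] theorem WT0_read (l : List (Sym ⊕ α)) : (WT0 l).read = Sum.inl Sym.lend := rfl

@[simp] theorem WT_move_R (l : List (Sym ⊕ α)) (p : ℕ) : (WT l p).move Dir.R = WT l (p + 1) := rfl

@[simp] theorem WT_move_S (l : List (Sym ⊕ α)) (p : ℕ) : (WT l p).move Dir.S = WT l p := rfl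

@[simp] theorem WT_move_L_succ (l : List (Sym ⊕ α)) (p : ℕ) :
    (WT l (p + 1)).move Dir.L = WT l p := rfl

@[simp] theorem WT_move_L_zero (l : List (Sym ⊕ α)) : (WT l 0).move Dir.L = WT0 l := rfl

@[simp] theorem WT0_move_R (l : List (Sym ⊕ α)) : (WT0 l).move Dir.R = WT l 0 := rfl

@[simp] theorem WT0_move_L (l : List (Sym ⊕ α)) : (WT0 l).move Dir.L = WT0 l := rfl

theorem wcells_set (l : List (Sym ⊕ α)) (p : ℕ) (x : Sym ⊕ α) (hp : p < l.length) :
    Function.update (wcells l) (p + 1) x = wcells (l.set p x) := by
  funext i
  rcases i with _ | j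
  · simp [wcells]
  · by_cases hj : j = p
    · subst hj; simp [wcells, hp]
    · have : j + 1 ≠ p + 1 := by omega
      simp [wcells, Function.update_of_ne this, List.getD_eq_getElem?_getD, Ne.symm hj]

theorem wcells_append (l : List (Sym ⊕ α)) (x : Sym ⊕ α) :
    Function.update (wcells l) (l.length + 1) x = wcells (l ++ [x]) := by
  funext i
  rcases i with _ | j
  · simp [wcells]
  · by_cases hj : j = l.length
    · subst hj; simp [wcells]
    · have : j + 1 ≠ l.length + 1 := by omega
      rcases Nat.lt_or_ge j l.length with h | h
      · simp [wcells, Function.update_of_ne this, List.getD_eq_getElem?_getD,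
          List.getElem?_append_left h]
      · have h2 : l.length < j := by omega
        simp [wcells, Function.update_of_ne this, List.getD_eq_getElem?_getD,
          List.getElem?_eq_none (l := l) h, List.getElem?_append_right h]
        rw [List.getElem?_eq_none (by simp; omega)]
        rfl

/-- Overwriting inside the data. -/
theorem WT_write_lt (l : List (Sym ⊕ α)) (p : ℕ) (x : Sym ⊕ α) (hp : p < l.length) :
    (WT l p).write x = WT (l.set p x) p := by
  simp only [WT, Tape.write, wcells_set l p x hp]

/-- Writing just after the data appends. -/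
theorem WT_write_end (l : List (Sym ⊕ α)) (x : Sym ⊕ α) :
    (WT l l.length).write x = WT (l ++ [x]) l.length := by
  simp only [WT, Tape.write, wcells_append l x]

theorem Tape.write_read {Γ : Type} (t : Tape Γ) : t.write t.read = t := by
  cases t
  simp [Tape.write, Tape.read]

/-! ## One-step programs -/

/-- Move head `a` in direction `d`. -/
def Prog.mv {Γ : Type} (a : Fin K) (d : Dir) : Prog Γ K :=
  Prog.step fun h i => if i = a then (h i, d) else (h i, Dir.S)

/-- Write `g heads` on tape `a` and move its head in direction `d`. -/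
def Prog.wm {Γ : Type} (a : Fin K) (g : (Fin K → Γ) → Γ) (d : Dir) : Prog Γ K :=
  Prog.step fun h i => if i = a then (g h, d) else (h i, Dir.S)

/-- Write `g heads` on tape `b` and move heads `a` and `b` right (streaming copy when
`g h = h a`). -/
def Prog.cp {Γ : Type} (a b : Fin K) (g : (Fin K → Γ) → Γ) : Prog Γ K :=
  Prog.step fun h i => if i = b then (g h, Dir.R) else if i = a then (h i, Dir.R) else (h i, Dir.S)

theorem Run.mv {Γ : Type} (a : Fin K) (d : Dir) (s : St Γ K) :
    Run (Prog.mv a d) s (Function.update s a ((s a).move d)) 1 := by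
  have h := Run.step (fun h i => if i = a then (h i, d) else (h i, Dir.S)) s
  have e : s.act ((fun h i => if i = a then (h i, d) else (h i, Dir.S)) s.heads) =
      Function.update s a ((s a).move d) := by
    funext i
    by_cases hi : i = a
    · subst hi; simp [St.act, St.heads, Tape.write_read]
    · simp [St.act, St.heads, hi, Tape.write_read, Tape.move]
  rw [e] at h
  exact h

theorem Run.wm {Γ : Type} (a : Fin K) (g : (Fin K → Γ) → Γ) (d : Dir) (s : St Γ K) :
    Run (Prog.wm a g d) s (Function.update s a (((s a).write (g s.heads)).move d)) 1 := by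
  have h := Run.step (fun h i => if i = a then (g h, d) else (h i, Dir.S)) s
  have e : s.act ((fun h i => if i = a then (g h, d) else (h i, Dir.S)) s.heads) =
      Function.update s a (((s a).write (g s.heads)).move d) := by
    funext i
    by_cases hi : i = a
    · subst hi; simp [St.act]
    · simp [St.act, St.heads, hi, Tape.write_read, Tape.move]
  rw [e] at h
  exact h

theorem Run.cp {Γ : Type} (a b : Fin K) (hab : a ≠ b) (g : (Fin K → Γ) → Γ) (s : St Γ K) :
    Run (Prog.cp a b g) s
      (Function.update (Function.update s a ((s a).move Dir.R)) b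
        (((s b).write (g s.heads)).move Dir.R)) 1 := by
  have h := Run.step
    (fun h i => if i = b then (g h, Dir.R) else if i = a then (h i, Dir.R) else (h i, Dir.S)) s
  have e : s.act ((fun h i => if i = b then (g h, Dir.R) else if i = a then (h i, Dir.R)
      else (h i, Dir.S)) s.heads) =
      Function.update (Function.update s a ((s a).move Dir.R)) b
        (((s b).write (g s.heads)).move Dir.R) := by
    funext i
    by_cases hi : i = b
    · subst hi; simp [St.act]
    · by_cases hi' : i = a
      · subst hi'; simp [St.act, St.heads, hi, Tape.write_read]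
      · simp [St.act, St.heads, hi, hi', Tape.write_read, Tape.move]
  rw [e] at h
  exact h

/-! ## Tests -/

/-- Test: the head of tape `a` reads the work symbol `x`. -/
def isSym (a : Fin K) (x : Sym) : (Fin K → Sym ⊕ α) → Bool :=
  fun h => match h a with
    | Sum.inl y => decide (y = x)
    | Sum.inr _ => false

theorem isSym_true (a : Fin K) (x : Sym) (s : St (Sym ⊕ α) K) (h : (s a).read = Sum.inl x) :
    isSym a x s.heads = true := by
  simp [isSym, St.heads, h]

theorem isSym_false (a : Fin K) (x : Sym) (s : St (Sym ⊕ α) K) (h : (s a).read ≠ Sum.inl x) :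
    isSym a x s.heads = false := by
  unfold isSym St.heads
  cases hr : (s a).read with
  | inl y =>
    have : y ≠ x := fun e => h (by rw [hr, e])
    simp [this]
  | inr _ => rfl

/-- Negated test. -/
def notSym (a : Fin K) (x : Sym) : (Fin K → Sym ⊕ α) → Bool := fun h => !isSym a x h

theorem notSym_true (a : Fin K) (x : Sym) (s : St (Sym ⊕ α) K) (h : (s a).read ≠ Sum.inl x) :
    notSym a x s.heads = true := by
  simp [notSym, isSym_false a x s h]

theorem notSym_false (a : Fin K) (x : Sym) (s : St (Sym ⊕ α) K) (h : (s a).read = Sum.inl x) :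
    notSym a x s.heads = false := by
  simp [notSym, isSym_true a x s h]

/-! ## Rewinding -/

/-- Move head `a` back to data cell 0. -/
def rewind (a : Fin K) : Prog (Sym ⊕ α) K :=
  Prog.seq (Prog.loop (notSym a Sym.lend) (Prog.mv a Dir.L)) (Prog.mv a Dir.R)

theorem rewind_loop (a : Fin K) (l : List (Sym ⊕ α)) (hl : Sum.inl Sym.lend ∉ l) (p : ℕ)
    (s : St (Sym ⊕ α) K) (hs : s a = WT l p) :
    Run (Prog.loop (notSym a Sym.lend) (Prog.mv a Dir.L)) s
      (Function.update s a (WT0 l)) (2 * p + 3) := by
  induction p generalizing s with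
  | zero =>
    have h1 : notSym a Sym.lend s.heads = true := by
      apply notSym_true
      rw [hs, WT_read]
      intro h
      rcases Nat.lt_or_ge 0 l.length with h0 | h0
      · rw [List.getD_eq_getElem _ _ h0] at h
        exact hl (h ▸ List.getElem_mem h0)
      · rw [List.getD_eq_default _ _ h0] at h
        cases h
    have h2 := Run.mv a Dir.L s
    rw [hs, WT_move_L_zero] at h2
    have h3 : notSym a Sym.lend (St.heads (Function.update s a (WT0 l))) = false := by
      apply notSym_false
      simp
    exact Run.loop_true h1 h2 (Run.loop_false h3)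
  | succ p ih =>
    have h1 : notSym a Sym.lend s.heads = true := by
      apply notSym_true
      rw [hs, WT_read]
      intro h
      rcases Nat.lt_or_ge (p + 1) l.length with h0 | h0
      · rw [List.getD_eq_getElem _ _ h0] at h
        exact hl (h ▸ List.getElem_mem h0)
      · rw [List.getD_eq_default _ _ h0] at h
        cases h
    have h2 := Run.mv a Dir.L s
    rw [hs, WT_move_L_succ] at h2
    have h3 := ih (Function.update s a (WT l p)) (by simp)
    rw [Function.update_idem] at h3
    have := Run.loop_true h1 h2 h3
    convert this using 1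
    ring

/-- `rewind` brings the head of a work tape back to data cell 0 in `2p + 4` steps. -/
theorem rewind_run (a : Fin K) (l : List (Sym ⊕ α)) (hl : Sum.inl Sym.lend ∉ l) (p : ℕ)
    (s : St (Sym ⊕ α) K) (hs : s a = WT l p) :
    Run (rewind a) s (Function.update s a (WT l 0)) (2 * p + 4) := by
  have h1 := rewind_loop a l hl p s hs
  have h2 := Run.mv a Dir.R (Function.update s a (WT0 l))
  simp only [Function.update_self, WT0_move_R, Function.update_idem] at h2
  have h3 := Run.seq h1 h2
  have e : 2 * p + 3 + 1 = 2 * p + 4 := by ring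
  rw [e] at h3
  exact h3

/-! ## Loops over a ruler -/

/-- Run `body` once for every cell of the ruler on tape `r` (from its head to its end), then
rewind the ruler. -/
def forRuler (r : Fin K) (body : Prog (Sym ⊕ α) K) : Prog (Sym ⊕ α) K :=
  Prog.seq (Prog.loop (isSym r Sym.one) (Prog.seq body (Prog.mv r Dir.R))) (rewind r)

theorem ruler_read_lt {n p : ℕ} (h : p < n) :
    (ruler n p : Tape (Sym ⊕ α)).read = Sum.inl Sym.one := by
  simp [ruler, List.getD_eq_getElem?_getD, h]

theorem ruler_read_ge {n p : ℕ} (h : n ≤ p) :
    (ruler n p : Tape (Sym ⊕ α)).read = Sum.inl Sym.blank := by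
  simp [ruler, List.getD_eq_getElem?_getD]
  rw [List.getElem?_eq_none (by simpa using h)]
  rfl

theorem lend_not_mem_replicate_one (n : ℕ) :
    (Sum.inl Sym.lend : Sym ⊕ α) ∉ List.replicate n (Sum.inl Sym.one) := by
  intro h
  have := List.eq_of_mem_replicate h
  cases this

/-- Loop rule for `forRuler`.  `S i` is the state at the start of round `i` (with the ruler head
on cell `i`); the body must take `S i` to `S (i+1)` except that it leaves the ruler tape alone. -/
theorem forRuler_run (r : Fin K) (body : Prog (Sym ⊕ α) K) (n : ℕ) (S : ℕ → St (Sym ⊕ α) K)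
    (b : ℕ → ℕ) (hr : ∀ i, i ≤ n → S i r = ruler n i)
    (hbody : ∀ i, i < n → RunLe body (S i) (Function.update (S (i + 1)) r (ruler n i)) (b i)) :
    RunLe (forRuler r body) (S 0) (Function.update (S n) r (ruler n 0))
      ((∑ i ∈ Finset.range n, (b i + 2)) + 2 * n + 5) := by
  have key : ∀ j, j ≤ n →
      RunLe (Prog.loop (isSym r Sym.one) (Prog.seq body (Prog.mv r Dir.R))) (S (n - j)) (S n)
        ((∑ i ∈ Finset.Ico (n - j) n, (b i + 2)) + 1) := by
    intro j
    induction j with
    | zero =>
      intro _
      have h0 : isSym r Sym.one (S n).heads = false := by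
        apply isSym_false
        rw [hr n le_rfl, ruler_read_ge le_rfl]
        simp
      simpa using RunLe.loop_false h0
    | succ j ih =>
      intro hj
      have hlt : n - (j + 1) < n := by omega
      have h1 : isSym r Sym.one (S (n - (j + 1))).heads = true := by
        apply isSym_true
        rw [hr _ (by omega), ruler_read_lt hlt]
      have h2 := hbody _ hlt
      have h3 := (Run.mv r Dir.R (Function.update (S (n - (j + 1) + 1)) r
        (ruler n (n - (j + 1))))).le
      have e : n - (j + 1) + 1 = n - j := by omega
      rw [e] at h2 h3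
      simp only [Function.update_self, Function.update_idem] at h3
      have e2 : ((ruler n (n - (j + 1)) : Tape (Sym ⊕ α)).move Dir.R) = S (n - j) r := by
        rw [hr _ (by omega)]
        simp only [ruler, WT_move_R, e]
      rw [e2, Function.update_eq_self] at h3
      have h4 := RunLe.loop_true h1 (RunLe.seq h2 h3) (ih (by omega))
      refine h4.mono ?_
      have e3 : Finset.Ico (n - (j + 1)) n = insert (n - (j + 1)) (Finset.Ico (n - j) n) := by
        ext x
        simp only [Finset.mem_Ico, Finset.mem_insert]
        omega
      rw [e3, Finset.sum_insert (by simp; omega)]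
      omega
  have h1 := key n le_rfl
  simp only [Nat.sub_self] at h1
  have h2 := (rewind_run r _ (lend_not_mem_replicate_one n) n (S n) (hr n le_rfl)).le
  have h3 := RunLe.seq h1 h2
  refine h3.mono ?_
  rw [← Finset.range_eq_Ico]
  omega

end Vale.Agent.H91.MT
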