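import Vale.Agent.H91.MT.Levels
import Vale.Agent.H91.MT.Pre
import Vale.Agent.H91.MT.Slow

/-!
# The transposing machine built from a multiplier: program and TASK TOP

Tapes of the program (`A.k + 83` of them): tape `0` is the raw input tape, tapes `1 .. 80` are
`topL A i` (`i : Fin 80`, the level layout of `LevelSt`; `topL A 47` is the raw state tape of the
calls, all others are work tapes), tape `81` is the raw output tape, tapes `82 ..` simulate the
tapes of `A`.  Top-level registers: `topL A 72` holds `n`, `topL A 73` is the power-of-two flag,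
`topL A 75 .. topL A 79` are scratch.
-/

namespace Vale.Agent.H91.MT

/-- The level layout inside the machine. -/
def topL (A : Machine) : Fin 80 → Fin (A.k + 82 + 1) := fun i => ⟨i.val + 1, by omega⟩

/-- The tapes simulating `A`. -/
def topSim (A : Machine) : Fin (A.k + 1) → Fin (A.k + 82 + 1) := fun j => ⟨j.val + 82, by omega⟩

/-- The input tape. -/
def topIn (A : Machine) : Fin (A.k + 82 + 1) := ⟨0, by omega⟩

/-- The output tape. -/
def topOut (A : Machine) : Fin (A.k + 82 + 1) := ⟨81, by omega⟩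

theorem top_inj (A : Machine) : Function.Injective (Sum.elim (topSim A) (topL A)) := by
  intro x y hxy
  rcases x with x | x <;> rcases y with y | y <;>
    simp only [Sum.elim_inl, Sum.elim_inr, topSim, topL, Fin.mk.injEq] at hxy
  · congr 1; exact Fin.ext (by omega)
  · have := x.isLt; have := y.isLt; omega
  · have := x.isLt; have := y.isLt; omega
  · congr 1; exact Fin.ext (by omega)

/-- First step: put the left-end marker on every work tape (tapes `1 .. 80` except `48`). -/
def initAll (A : Machine) : Prog (ΓB A) (A.k + 82 + 1) :=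
  Prog.step fun h t =>
    if 1 ≤ t.val ∧ t.val ≤ 80 ∧ t.val ≠ 48 then (Sum.inl Sym.lend, Dir.R) else (h t, Dir.S)

/-- Cubic fallback. -/
noncomputable def slowPath (A : Machine) : Prog (ΓB A) (A.k + 82 + 1) :=
  Prog.seq (slowTrans (topL A 48) (topL A 49) (topL A 72) (topL A 56) (topL A 57) (topL A 58))
    (writeOut (topL A 49) (topOut A))

/-- The fast path for `n = 2^ν`, `ν ≥ 7`: rulers `4^ν` and `1024 * 4^ν`, `u := ν`, flag, the
recursion, output. -/
noncomputable def fastPath (A : Machine) : Prog (ΓB A) (A.k + 82 + 1) :=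
  Prog.seq (regCopy (topL A 77) (topL A 72)) <|
  Prog.seq (regMulAdd (topL A 44) (topL A 72) (topL A 77)) <|
  Prog.seq (regConst (topL A 78) 1024) <|
  Prog.seq (regMulAdd (topL A 31) (topL A 78) (topL A 44)) <|
  Prog.seq (regCopy (topL A 51) (topL A 52)) <|
  Prog.seq (Prog.wm (topL A 54) (fun _ => Sum.inl Sym.one) Dir.S) <|
  Prog.seq (levelsProg A (topL A) (topSim A) (top_inj A)) (writeOut (topL A 48) (topOut A))

/-- The transposing program. -/
noncomputable def progB (A : Machine) : Prog (ΓB A) (A.k + 82 + 1) :=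
  Prog.seq (initAll A) <|
  Prog.seq (copyIn (topIn A) (topL A 48)) <|
  Prog.seq (sqrtRuler (topL A 48) (topL A 72) (topL A 75)) <|
  Prog.seq (log2Ruler (topL A 72) (topL A 52) (topL A 73) (topL A 75) (topL A 76)) <|
  Prog.ite (isSym (topL A 73) Sym.one)
    (Prog.seq (regCopy (topL A 75) (topL A 52)) <|
     Prog.seq (regConst (topL A 76) 6) <|
     Prog.seq (regSub (topL A 75) (topL A 76)) <|
     Prog.ite (isSym (topL A 75) Sym.one) (fastPath A) (slowPath A))
    (slowPath A)

/-- The initial tapes on the input word `w` (bits). -/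
def topInit (A : Machine) (w : List Bool) : St (ΓB A) (A.k + 82 + 1) :=
  fun i => if i = 0 then Tape.ofList (Sum.inl Sym.blank) (w.map bsym)
    else Tape.ofList (Sum.inl Sym.blank) []

/-! ## Bookkeeping for TASK TOP -/

theorem topL_inj (A : Machine) : Function.Injective (topL A) := by
  intro i j h
  simp only [topL, Fin.mk.injEq] at h
  exact Fin.ext (by omega)

theorem topL_ne_out (A : Machine) (i : Fin 80) : topL A i ≠ topOut A := by
  intro h
  simp only [topL, topOut, Fin.mk.injEq] at h
  have := i.isLt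
  omega

theorem topL_ne_in (A : Machine) (i : Fin 80) : topL A i ≠ topIn A := by
  intro h
  simp only [topL, topIn, Fin.mk.injEq] at h
  omega

theorem topL_ne_sim (A : Machine) (i : Fin 80) (j : Fin (A.k + 1)) : topL A i ≠ topSim A j := by
  intro h
  simp only [topL, topSim, Fin.mk.injEq] at h
  have := i.isLt
  omega

theorem topOut_ne_sim (A : Machine) (j : Fin (A.k + 1)) : topOut A ≠ topSim A j := by
  intro h
  simp only [topOut, topSim, Fin.mk.injEq] at h
  omega

theorem topIn_ne_out (A : Machine) : topIn A ≠ topOut A := by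
  intro h
  simp only [topOut, topIn, Fin.mk.injEq] at h
  omega

theorem topIn_ne_sim (A : Machine) (j : Fin (A.k + 1)) : topIn A ≠ topSim A j := by
  intro h
  simp only [topIn, topSim, Fin.mk.injEq] at h
  omega

/-- Bookkeeping: the level tapes are given by `f`; the output tape and the simulation tapes are
raw blank. -/
def TopSt (A : Machine) (s : St (ΓB A) (A.k + 82 + 1)) (f : Fin 80 → Tape (ΓB A)) : Prop :=
  (∀ i, s (topL A i) = f i) ∧ s (topOut A) = Tape.ofList (Sum.inl Sym.blank) [] ∧
  ∀ j, s (topSim A j) = Tape.ofList (Sum.inl Sym.blank) []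

theorem TopSt.upd {A : Machine} {s : St (ΓB A) (A.k + 82 + 1)} {f : Fin 80 → Tape (ΓB A)}
    (h : TopSt A s f) (i : Fin 80) (v : Tape (ΓB A)) :
    TopSt A (Function.update s (topL A i) v) (Function.update f i v) := by
  refine ⟨fun i' => ?_, ?_, fun j => ?_⟩
  · by_cases e : i' = i
    · subst e
      rw [Function.update_self, Function.update_self]
    · rw [Function.update_of_ne e, Function.update_of_ne (fun h' => e (topL_inj A h'))]
      exact h.1 i'
  · rw [Function.update_of_ne (topL_ne_out A i).symm]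
    exact h.2.1
  · rw [Function.update_of_ne (topL_ne_sim A i j).symm]
    exact h.2.2 j

theorem TopSt.test_true {A : Machine} {s : St (ΓB A) (A.k + 82 + 1)}
    {f : Fin 80 → Tape (ΓB A)} (h : TopSt A s f) (i : Fin 80) (x : Sym)
    (hx : (f i).read = Sum.inl x) : isSym (topL A i) x s.heads = true :=
  isSym_true _ _ _ (by rw [h.1 i]; exact hx)

theorem TopSt.test_false {A : Machine} {s : St (ΓB A) (A.k + 82 + 1)}
    {f : Fin 80 → Tape (ΓB A)} (h : TopSt A s f) (i : Fin 80) (x : Sym)
    (hx : (f i).read ≠ Sum.inl x) : isSym (topL A i) x s.heads = false :=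
  isSym_false _ _ _ (by rw [h.1 i]; exact hx)

theorem TopSt.upd_in {A : Machine} {s : St (ΓB A) (A.k + 82 + 1)} {f : Fin 80 → Tape (ΓB A)}
    (h : TopSt A s f) (v : Tape (ΓB A)) : TopSt A (Function.update s (topIn A) v) f := by
  refine ⟨fun i => ?_, ?_, fun j => ?_⟩
  · rw [Function.update_of_ne (topL_ne_in A i)]
    exact h.1 i
  · rw [Function.update_of_ne (topIn_ne_out A).symm]
    exact h.2.1
  · rw [Function.update_of_ne (topIn_ne_sim A j).symm]
    exact h.2.2 j

/-- The level tapes after `initAll`. -/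
def baseF (A : Machine) : Fin 80 → Tape (ΓB A) :=
  Function.update (fun _ => WT [] 0) 47 (Tape.ofList (Sum.inl Sym.blank) [])

theorem baseF_ne (A : Machine) (i : Fin 80) (h : i.val ≠ 47) : baseF A i = WT [] 0 := by
  unfold baseF
  rw [Function.update_of_ne (fun e => h (congrArg Fin.val e))]

theorem raw_mark {α : Type} :
    ((Tape.ofList (Sum.inl Sym.blank) ([] : List (Sym ⊕ α))).write (Sum.inl Sym.lend)).move Dir.R
      = WT [] 0 := by
  simp only [Tape.ofList, Tape.write, Tape.move, WT]
  congr 1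
  funext c
  rcases c with _ | j
  · simp [wcells]
  · simp [wcells]

theorem initAll_run (A : Machine) (w : List Bool) :
    ∃ s1, Run (initAll A) (topInit A w) s1 1 ∧ TopSt A s1 (baseF A) ∧
      s1 (topIn A) = Tape.ofList (Sum.inl Sym.blank) (w.map bsym) := by
  refine ⟨_, Run.step _ _, ⟨fun i => ?_, ?_, fun j => ?_⟩, ?_⟩
  · have hi := i.isLt
    have h0 : topL A i ≠ 0 := by
      intro h
      have := congrArg Fin.val h
      simp [topL] at this
    by_cases h47 : i.val = 47
    · have e : i = 47 := Fin.ext h47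
      subst e
      simp [St.act, St.heads, topL, topInit, baseF, Tape.write_read, Tape.move]
    · rw [baseF_ne A i h47]
      have hc : 1 ≤ (topL A i).val ∧ (topL A i).val ≤ 80 ∧ (topL A i).val ≠ 48 := by
        simp only [topL]
        omega
      simp only [St.act, if_pos hc, topInit, if_neg h0]
      exact raw_mark
  · simp [St.act, St.heads, topOut, topInit, Tape.write_read, Tape.move]
  · have hc : ¬ (1 ≤ (topSim A j).val ∧ (topSim A j).val ≤ 80 ∧ (topSim A j).val ≠ 48) := by
      simp only [topSim]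
      omega
    have h0 : topSim A j ≠ 0 := by
      intro h
      have := congrArg Fin.val h
      simp [topSim] at this
    simp only [St.act, if_neg hc, St.heads, Tape.write_read, Tape.move, topInit, if_neg h0]
  · simp [St.act, St.heads, topIn, topInit, Tape.write_read, Tape.move]

theorem matList_length (n : ℕ) (M : Fin n → Fin n → Bool) : (matList n M).length = n * n := by
  rw [matList_eq_range, nest4_length]
  ring

/-- The cubic fallback, from any state whose six tapes are as required. -/
theorem slowPath_run (A : Machine) (n : ℕ) (hn : 1 ≤ n) (M : Fin n → Fin n → Bool)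
    (s : St (ΓB A) (A.k + 82 + 1)) (f : Fin 80 → Tape (ΓB A)) (hs : TopSt A s f)
    (h48 : f 48 = WT ((matList n M).map bsym) 0) (h49 : f 49 = WT [] 0)
    (h72 : f 72 = ruler n 0) (h56 : f 56 = WT [] 0) (h57 : f 57 = WT [] 0)
    (h58 : f 58 = WT [] 0) :
    ∃ s', RunLe (slowPath A) s s' (100 * (n + 1) ^ 3 + (3 * (n * n) + 3)) ∧
      (s' (topOut A)).cells =
        (Tape.ofList (Sum.inl Sym.blank) ((matList n (fun r c => M c r)).map bsym)).cells := by
  have hT : Function.Injective (fun i : Fin 6 => topL A (![48, 49, 72, 56, 57, 58] i)) :=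
    (topL_inj A).comp (by decide)
  have h1 := slowTrans_run (fun i : Fin 6 => topL A (![48, 49, 72, 56, 57, 58] i)) hT n hn M s
    ((hs.1 48).trans h48) ((hs.1 49).trans h49) ((hs.1 72).trans h72) ((hs.1 56).trans h56)
    ((hs.1 57).trans h57) ((hs.1 58).trans h58)
  have h2 := writeOut_run (topL A 49) (topOut A) (topL_ne_out A 49)
    (matList n (fun r c => M c r))
    (Function.update s (topL A 49) (WT ((matList n (fun r c => M c r)).map bsym) 0))
    (Function.update_self _ _ _)
    (by rw [Function.update_of_ne (topL_ne_out A 49).symm]; exact hs.2.1)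
  refine ⟨_, (RunLe.seq h1 h2).cast rfl rfl ?_, ?_⟩
  · rw [matList_length]
  · rw [Function.update_self]

theorem upd_val_ne {β : Type} (f : Fin 80 → β) (j i : Fin 80) (v : β) (k : ℕ) (hk : j.val = k)
    (h : i.val ≠ k) : Function.update f j v i = f i :=
  Function.update_of_ne (fun e => h (by rw [e, hk])) v f

/-- The fast path, from the state reached after the size tests. -/
theorem fastPath_run (A : Machine) (hA : Multiplies A) :
    ∃ C : ℕ, ∀ (ν : ℕ), 7 ≤ ν → ∀ (M : Fin (2 ^ ν) → Fin (2 ^ ν) → Bool)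
      (s : St (ΓB A) (A.k + 82 + 1)) (f : Fin 80 → Tape (ΓB A)), TopSt A s f →
      f 48 = WT ((matList (2 ^ ν) M).map bsym) 0 → f 72 = ruler (2 ^ ν) 0 → f 52 = ruler ν 0 →
      f 47 = Tape.ofList (Sum.inl Sym.blank) [] →
      (∀ i : Fin 80, i.val ≠ 47 → i.val ≠ 48 → i.val ≠ 52 → i.val ≠ 72 → i.val ≠ 73 →
        i.val ≠ 75 → i.val ≠ 76 → f i = WT [] 0) →
      ∃ s', RunLe (fastPath A) s s'
          (C * 4 ^ ν * (Nat.log 2 ν + 2) +
            C * (∑ j ∈ Finset.range (Nat.log 2 ν + 1),
              min (mulTime A (1024 * 4 ^ ν)) (4 ^ ν * (ν / 2 ^ j + 1))) + 40000 * 4 ^ ν) ∧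
        (s' (topOut A)).cells =
          (Tape.ofList (Sum.inl Sym.blank)
            ((matList (2 ^ ν) (fun r c => M c r)).map bsym)).cells := by
  obtain ⟨C, hC⟩ := levelsProg_spec A hA
  refine ⟨C, ?_⟩
  intro ν hν M s f hs h48 h72 h52 h47 hrest
  have hne : ∀ {i j : Fin 80}, i ≠ j → topL A i ≠ topL A j := fun h => (topL_inj A).ne h
  have h4 : 2 ^ ν * 2 ^ ν = 4 ^ ν := by rw [← Nat.mul_pow]
  have f77 : f 77 = ruler 0 0 := hrest 77 (by decide) (by decide) (by decide) (by decide)
    (by decide) (by decide) (by decide)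
  have f44 : f 44 = ruler 0 0 := hrest 44 (by decide) (by decide) (by decide) (by decide)
    (by decide) (by decide) (by decide)
  have f78 : f 78 = ruler 0 0 := hrest 78 (by decide) (by decide) (by decide) (by decide)
    (by decide) (by decide) (by decide)
  have f31 : f 31 = ruler 0 0 := hrest 31 (by decide) (by decide) (by decide) (by decide)
    (by decide) (by decide) (by decide)
  have f51 : f 51 = ruler 0 0 := hrest 51 (by decide) (by decide) (by decide) (by decide)
    (by decide) (by decide) (by decide)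
  have f53 : f 53 = ruler 0 0 := hrest 53 (by decide) (by decide) (by decide) (by decide)
    (by decide) (by decide) (by decide)
  have f54 : f 54 = WT [] 0 := hrest 54 (by decide) (by decide) (by decide) (by decide)
    (by decide) (by decide) (by decide)
  -- register 77 := n
  have ra := regCopy_run (topL A 77) (topL A 72) (hne (by decide)) 0 (2 ^ ν) s
    ((hs.1 77).trans f77) ((hs.1 72).trans h72)
  have sa := hs.upd 77 (ruler (2 ^ ν) 0)
  -- register 44 := n * n
  have rb := regMulAdd_run (topL A 44) (topL A 72) (topL A 77) (hne (by decide))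
    (hne (by decide)) (hne (by decide)) 0 (2 ^ ν) (2 ^ ν) _
    ((sa.1 44).trans (by simp [f44])) ((sa.1 72).trans (by simp [h72]))
    ((sa.1 77).trans (by simp))
  rw [Nat.zero_add, h4] at rb
  have sb := sa.upd 44 (ruler (4 ^ ν) 0)
  -- register 78 := 1024
  have rc := regConst_run (topL A 78) 1024 0 _ ((sb.1 78).trans (by simp [f78]))
  have sc := sb.upd 78 (ruler 1024 0)
  -- register 31 := 1024 * n * n
  have rd := regMulAdd_run (topL A 31) (topL A 78) (topL A 44) (hne (by decide))
    (hne (by decide)) (hne (by decide)) 0 1024 (4 ^ ν) _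
    ((sc.1 31).trans (by simp [f31])) ((sc.1 78).trans (by simp))
    ((sc.1 44).trans (by simp))
  rw [Nat.zero_add] at rd
  have sd := sc.upd 31 (ruler (1024 * 4 ^ ν) 0)
  -- register 51 := ν
  have re := regCopy_run (topL A 51) (topL A 52) (hne (by decide)) 0 ν _
    ((sd.1 51).trans (by simp [f51])) ((sd.1 52).trans (by simp [h52]))
  have se := sd.upd 51 (ruler ν 0)
  -- the flag
  have rf := Run.wm (topL A 54) (fun _ => (Sum.inl Sym.one : ΓB A)) Dir.S
    (Function.update (Function.update (Function.update (Function.update (Function.update s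
      (topL A 77) (ruler (2 ^ ν) 0)) (topL A 44) (ruler (4 ^ ν) 0)) (topL A 78) (ruler 1024 0))
      (topL A 31) (ruler (1024 * 4 ^ ν) 0)) (topL A 51) (ruler ν 0))
  have e54 : (Function.update (Function.update (Function.update (Function.update
      (Function.update s (topL A 77) (ruler (2 ^ ν) 0)) (topL A 44) (ruler (4 ^ ν) 0)) (topL A 78)
      (ruler 1024 0)) (topL A 31) (ruler (1024 * 4 ^ ν) 0)) (topL A 51) (ruler ν 0)) (topL A 54)
      = WT [] 0 := (se.1 54).trans (by simp [f54])
  rw [e54] at rf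
  have e54' : ((WT ([] : List (ΓB A)) 0).write (Sum.inl Sym.one)).move Dir.S
      = WT [Sum.inl Sym.one] 0 := by
    have := WT_write_end ([] : List (ΓB A)) (Sum.inl Sym.one)
    simp only [List.length_nil, List.nil_append] at this
    rw [this]
    rfl
  rw [e54'] at rf
  have sf := se.upd 54 (WT [Sum.inl Sym.one] 0)
  -- the recursion
  have hX : (matList (2 ^ ν) M).length = 4 ^ ν := by rw [matList_length, h4]
  have hst : LevelSt A (topL A) (topSim A) ν ν 0 Sym.one (matList (2 ^ ν) M)
      (Function.update (Function.update (Function.update (Function.update (Function.update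
      (Function.update s (topL A 77) (ruler (2 ^ ν) 0)) (topL A 44) (ruler (4 ^ ν) 0)) (topL A 78)
      (ruler 1024 0)) (topL A 31) (ruler (1024 * 4 ^ ν) 0)) (topL A 51) (ruler ν 0)) (topL A 54)
      (WT [Sum.inl Sym.one] 0)) := by
    refine ⟨(sf.1 31).trans (by simp), (sf.1 44).trans (by simp), (sf.1 52).trans (by simp [h52]),
      (sf.1 51).trans (by simp), (sf.1 53).trans (by simp [f53]), (sf.1 54).trans (by simp),
      (sf.1 48).trans (by simp [h48]), (sf.1 47).trans (by simp [h47]), sf.2.2, ?_⟩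
    intro i h72' h31 h44 h47' h48' h51 h52' h53 h54
    rw [sf.1 i, upd_val_ne _ 54 i _ 54 rfl h54, upd_val_ne _ 51 i _ 51 rfl h51,
      upd_val_ne _ 31 i _ 31 rfl h31, upd_val_ne _ 78 i _ 78 rfl (by omega),
      upd_val_ne _ 44 i _ 44 rfl h44, upd_val_ne _ 77 i _ 77 rfl (by omega)]
    exact hrest i h47' h48' h52' (by omega) (by omega) (by omega) (by omega)
  obtain ⟨s7, u, rg, hfr, hst7⟩ := hC _ (topL A) (topSim A) (top_inj A) ν (matList (2 ^ ν) M) hν hX
    _ hst
  have h48' : s7 (topL A 48) = WT ((matList (2 ^ ν) (fun r c => M c r)).map bsym) 0 := by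
    rw [hst7.2.2.2.2.2.2.1, swapArr_matList]
  have hout : s7 (topOut A) = Tape.ofList (Sum.inl Sym.blank) [] := by
    rw [hfr (topOut A) (fun i _ => (topL_ne_out A i).symm) (fun j => topOut_ne_sim A j)]
    exact sf.2.1
  have rh := writeOut_run (topL A 48) (topOut A) (topL_ne_out A 48)
    (matList (2 ^ ν) (fun r c => M c r)) s7 h48' hout
  refine ⟨_, (RunLe.seq ra (RunLe.seq rb (RunLe.seq rc (RunLe.seq rd (RunLe.seq re
    (RunLe.seq rf.le (RunLe.seq rg rh))))))).cast rfl rfl ?_, ?_⟩
  · rw [matList_length, h4]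
    have h1 : 1 ≤ 4 ^ ν := Nat.one_le_pow _ _ (by norm_num)
    have h2 : 2 ^ ν ≤ 4 ^ ν := Nat.pow_le_pow_left (by norm_num) ν
    have h3 : ν ≤ 4 ^ ν := (Nat.lt_pow_self (by norm_num : 1 < 4)).le
    generalize (∑ j ∈ Finset.range (Nat.log 2 ν + 1),
      min (mulTime A (1024 * 4 ^ ν)) (4 ^ ν * (ν / 2 ^ j + 1))) = S
    generalize C * 4 ^ ν * (Nat.log 2 ν + 2) = T
    generalize C * S = T2
    generalize 4 ^ ν = N at *
    generalize 2 ^ ν = n at *
    omega
  · rw [Function.update_self]

/-- `log2Ruler_run` for the tapes of the program. -/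
theorem log2_top (A : Machine) (n : ℕ) (hn : 1 ≤ n) (s : St (ΓB A) (A.k + 82 + 1))
    (hr : s (topL A 72) = ruler n 0) (hlg : s (topL A 52) = ruler 0 0)
    (hfl : s (topL A 73) = WT [] 0) (ht1 : s (topL A 75) = ruler 0 0)
    (ht2 : s (topL A 76) = ruler 0 0) :
    ∃ s', RunLe (log2Ruler (topL A 72) (topL A 52) (topL A 73) (topL A 75) (topL A 76)) s s'
        (100 * (n + 1)) ∧
      ((∃ ν, n = 2 ^ ν ∧ s' = Function.update (Function.update s (topL A 52) (ruler ν 0))
          (topL A 73) (WT [Sum.inl Sym.one] 0)) ∨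
       ((∀ ν, n ≠ 2 ^ ν) ∧ ∃ v, s' = Function.update (Function.update s (topL A 52) (ruler v 0))
          (topL A 73) (WT [Sum.inl Sym.zero] 0))) :=
  log2Ruler_run (fun i : Fin 5 => topL A (![72, 52, 73, 75, 76] i))
    ((topL_inj A).comp (by decide)) n hn s hr hlg hfl ht1 ht2

/-- The whole program: a run with a bound, the output, and the bound on the fast path. -/
theorem progB_core (A : Machine) (hA : Multiplies A) :
    ∃ C : ℕ, ∀ (n : ℕ), 1 ≤ n → ∀ (M : Fin n → Fin n → Bool),
      ∃ (s' : St (ΓB A) (A.k + 82 + 1)) (b : ℕ),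
        RunLe (progB A) (topInit A (matList n M)) s' b ∧
        (s' (topOut A)).cells =
          (Tape.ofList (Sum.inl Sym.blank) ((matList n (fun r c => M c r)).map bsym)).cells ∧
        ∀ ν, 7 ≤ ν → n = 2 ^ ν →
          b ≤ C * 4 ^ ν * (Nat.log 2 ν + 2) +
            C * ∑ j ∈ Finset.range (Nat.log 2 ν + 1),
              min (mulTime A (1024 * 4 ^ ν)) (4 ^ ν * (ν / 2 ^ j + 1)) := by
  obtain ⟨C, hfast⟩ := fastPath_run A hA
  refine ⟨C + 50000, ?_⟩
  intro n hn M
  have hne : ∀ {i j : Fin 80}, i ≠ j → topL A i ≠ topL A j := fun h => (topL_inj A).ne h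
  have b49 : baseF A 49 = WT [] 0 := baseF_ne A 49 (by decide)
  have b52 : baseF A 52 = ruler 0 0 := baseF_ne A 52 (by decide)
  have b56 : baseF A 56 = WT [] 0 := baseF_ne A 56 (by decide)
  have b57 : baseF A 57 = WT [] 0 := baseF_ne A 57 (by decide)
  have b58 : baseF A 58 = WT [] 0 := baseF_ne A 58 (by decide)
  have b72 : baseF A 72 = ruler 0 0 := baseF_ne A 72 (by decide)
  have b73 : baseF A 73 = WT [] 0 := baseF_ne A 73 (by decide)
  have b75 : baseF A 75 = ruler 0 0 := baseF_ne A 75 (by decide)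
  have b76 : baseF A 76 = ruler 0 0 := baseF_ne A 76 (by decide)
  obtain ⟨s1, r1, hs1, hin1⟩ := initAll_run A (matList n M)
  -- copy the input
  have r2 := copyIn_run (topIn A) (topL A 48) (topL_ne_in A 48).symm (matList n M) s1 hin1
    ((hs1.1 48).trans (baseF_ne A 48 (by decide)))
  have hs2 := (hs1.upd_in ⟨(matList n M).length,
    (Tape.ofList (Sum.inl Sym.blank) ((matList n M).map bsym)).cells⟩).upd 48
    (WT ((matList n M).map bsym) 0)
  -- the side length
  have r3 := sqrtRuler_run (topL A 48) (topL A 72) (topL A 75) (hne (by decide))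
    (hne (by decide)) (hne (by decide)) n (matList n M) (matList_length n M) _
    ((hs2.1 48).trans (by simp)) ((hs2.1 72).trans (by simp [b72]))
    ((hs2.1 75).trans (by simp [b75]))
  have hs3 := hs2.upd 72 (ruler n 0)
  -- power of two?
  obtain ⟨s4, r4, hcase⟩ := log2_top A n hn _ ((hs3.1 72).trans (by simp))
    ((hs3.1 52).trans (by simp [b52])) ((hs3.1 73).trans (by simp [b73]))
    ((hs3.1 75).trans (by simp [b75])) ((hs3.1 76).trans (by simp [b76]))
  rcases hcase with ⟨ν, hnν, hs4eq⟩ | ⟨hnp, v, hs4eq⟩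
  · -- a power of two
    subst hnν
    subst hs4eq
    have hs4 := (hs3.upd 52 (ruler ν 0)).upd 73 (WT [Sum.inl Sym.one] 0)
    have t1 := hs4.test_true 73 Sym.one (by simp)
    have r5 := regCopy_run (topL A 75) (topL A 52) (hne (by decide)) 0 ν _
      ((hs4.1 75).trans (by simp [b75])) ((hs4.1 52).trans (by simp))
    have hs5 := hs4.upd 75 (ruler ν 0)
    have r6 := regConst_run (topL A 76) 6 0 _ ((hs5.1 76).trans (by simp [b76]))
    have hs6 := hs5.upd 76 (ruler 6 0)
    have r7 := regSub_run (topL A 75) (topL A 76) (hne (by decide)) ν 6 _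
      ((hs6.1 75).trans (by simp)) ((hs6.1 76).trans (by simp))
    have hs7 := hs6.upd 75 (ruler (ν - 6) 0)
    by_cases h7 : 7 ≤ ν
    · -- the fast path
      have t2 := hs7.test_true 75 Sym.one (by
        rw [Function.update_self]
        exact ruler_read_lt (by omega))
      obtain ⟨s', r8, hcells⟩ := hfast ν h7 M _ _ hs7 (by simp) (by simp) (by simp)
        (by simp [baseF]) (by
          intro i a47 a48 a52 a72 a73 a75 a76
          rw [upd_val_ne _ 75 i _ 75 rfl a75, upd_val_ne _ 76 i _ 76 rfl a76,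
            upd_val_ne _ 75 i _ 75 rfl a75, upd_val_ne _ 73 i _ 73 rfl a73,
            upd_val_ne _ 52 i _ 52 rfl a52, upd_val_ne _ 72 i _ 72 rfl a72,
            upd_val_ne _ 48 i _ 48 rfl a48]
          exact baseF_ne A i a47)
      refine ⟨s', _, RunLe.seq r1.le (RunLe.seq r2 (RunLe.seq r3 (RunLe.seq r4
        (RunLe.ite_true t1 (RunLe.seq r5 (RunLe.seq r6 (RunLe.seq r7
          (RunLe.ite_true t2 r8)))))))), hcells, ?_⟩
      intro ν' _ hpow
      have e : ν = ν' := Nat.pow_right_injective (le_refl 2) hpow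
      subst e
      have h4 : 2 ^ ν * 2 ^ ν = 4 ^ ν := by rw [← Nat.mul_pow]
      have h1 : 1 ≤ 4 ^ ν := Nat.one_le_pow _ _ (by norm_num)
      have h2 : 2 ^ ν ≤ 4 ^ ν := Nat.pow_le_pow_left (by norm_num) ν
      have h3 : ν ≤ 4 ^ ν := (Nat.lt_pow_self (by norm_num : 1 < 4)).le
      have eR : (C + 50000) * 4 ^ ν * (Nat.log 2 ν + 2) + (C + 50000) *
          (∑ j ∈ Finset.range (Nat.log 2 ν + 1),
            min (mulTime A (1024 * 4 ^ ν)) (4 ^ ν * (ν / 2 ^ j + 1))) =
          C * 4 ^ ν * (Nat.log 2 ν + 2) + C * (∑ j ∈ Finset.range (Nat.log 2 ν + 1),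
            min (mulTime A (1024 * 4 ^ ν)) (4 ^ ν * (ν / 2 ^ j + 1))) +
          (50000 * (4 ^ ν * Nat.log 2 ν) + 100000 * 4 ^ ν + 50000 *
            (∑ j ∈ Finset.range (Nat.log 2 ν + 1),
              min (mulTime A (1024 * 4 ^ ν)) (4 ^ ν * (ν / 2 ^ j + 1)))) := by ring
      rw [eR, matList_length, h4]
      generalize (∑ j ∈ Finset.range (Nat.log 2 ν + 1),
        min (mulTime A (1024 * 4 ^ ν)) (4 ^ ν * (ν / 2 ^ j + 1))) = S
      generalize C * 4 ^ ν * (Nat.log 2 ν + 2) = T
      generalize C * S = T2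
      generalize 4 ^ ν * Nat.log 2 ν = T3
      generalize 4 ^ ν = N at *
      generalize 2 ^ ν = n at *
      omega
    · -- a small power of two: the cubic fallback
      have t2 := hs7.test_false 75 Sym.one (by
        rw [Function.update_self, ruler_read_ge (by omega)]
        simp)
      obtain ⟨s', r8, hcells⟩ := slowPath_run A (2 ^ ν) hn M _ _ hs7 (by simp)
        (by simp [b49]) (by simp) (by simp [b56]) (by simp [b57]) (by simp [b58])
      refine ⟨s', _, RunLe.seq r1.le (RunLe.seq r2 (RunLe.seq r3 (RunLe.seq r4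
        (RunLe.ite_true t1 (RunLe.seq r5 (RunLe.seq r6 (RunLe.seq r7
          (RunLe.ite_false t2 r8)))))))), hcells, ?_⟩
      intro ν' hν' hpow
      have e : ν = ν' := Nat.pow_right_injective (le_refl 2) hpow
      omega
  · -- not a power of two: the cubic fallback
    subst hs4eq
    have hs4 := (hs3.upd 52 (ruler v 0)).upd 73 (WT [Sum.inl Sym.zero] 0)
    have t1 := hs4.test_false 73 Sym.one (by simp)
    obtain ⟨s', r8, hcells⟩ := slowPath_run A n hn M _ _ hs4 (by simp)
      (by simp [b49]) (by simp) (by simp [b56]) (by simp [b57]) (by simp [b58])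
    refine ⟨s', _, RunLe.seq r1.le (RunLe.seq r2 (RunLe.seq r3 (RunLe.seq r4
      (RunLe.ite_false t1 r8)))), hcells, ?_⟩
    intro ν' _ hpow
    exact absurd hpow (hnp ν')

/-- TASK TOP (1): the program transposes every matrix. -/
theorem progB_correct (A : Machine) (hA : Multiplies A) (n : ℕ) (hn : 1 ≤ n)
    (M : Fin n → Fin n → Bool) :
    ∃ (s' : St (ΓB A) (A.k + 82 + 1)) (t : ℕ),
      Run (progB A) (topInit A (matList n M)) s' t ∧
      (s' (topOut A)).cells =
        (Tape.ofList (Sum.inl Sym.blank) ((matList n (fun r c => M c r)).map bsym)).cells := by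
  obtain ⟨C, h⟩ := progB_core A hA
  obtain ⟨s', b, ⟨t, _, hrun⟩, hcells, _⟩ := h n hn M
  exact ⟨s', t, hrun, hcells⟩

/-- TASK TOP (2): on `2^ν × 2^ν` matrices with `ν ≥ 7` it obeys the recursion time bound. -/
theorem progB_time (A : Machine) (hA : Multiplies A) :
    ∃ C : ℕ, ∀ (ν : ℕ), 7 ≤ ν → ∀ (M : Fin (2 ^ ν) → Fin (2 ^ ν) → Bool)
      (s' : St (ΓB A) (A.k + 82 + 1)) (t : ℕ),
      Run (progB A) (topInit A (matList (2 ^ ν) M)) s' t →
      t ≤ C * 4 ^ ν * (Nat.log 2 ν + 2) +
        C * ∑ j ∈ Finset.range (Nat.log 2 ν + 1),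
          min (mulTime A (1024 * 4 ^ ν)) (4 ^ ν * (ν / 2 ^ j + 1)) := by
  obtain ⟨C, h⟩ := progB_core A hA
  refine ⟨C, ?_⟩
  intro ν hν M s' t hrun
  obtain ⟨s'', b, ⟨t', ht', hrun'⟩, _, hb⟩ := h (2 ^ ν) Nat.one_le_two_pow M
  have e := (Run.det hrun hrun').2
  rw [e]
  exact ht'.trans (hb ν hν rfl)

end Vale.Agent.H91.MT
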