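import Vale.Agent.H91.MT.Top
import Vale.Agent.H91.MT.PadProg
import Vale.Agent.H91.MT.CeilPow

/-!
# TASK TOPALL: the transposing machine for all matrix sizes

Same tapes and layout as `progB` (Top.lean).  For an `n × n` input with
`2^(ν-1) < n ≤ 2^ν`, `ν ≥ 7`, the matrix is padded to `2^ν × 2^ν`, transposed by the level
recursion, and unpadded.  Top-level registers: `topL A 72` holds `n`, `topL A 74` holds
`N = 2^ν`, `topL A 79` holds `N - n`, `topL A 52` holds `ν`, `topL A 73` is the flag of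
`log2Ruler`, `topL A 75 .. topL A 78` are scratch; `topL A 49`, `topL A 50` are the scratch data
and control tapes of the padding programs.
-/

namespace Vale.Agent.H91.MT

/-- The fast path for all `n` with `ν = ⌈log₂ n⌉ ≥ 7`: pad, rulers `4^ν` and `1024 * 4^ν`,
`u := ν`, flag, the recursion, unpad, output. -/
noncomputable def fastAll (A : Machine) : Prog (ΓB A) (A.k + 82 + 1) :=
  Prog.seq (regCopy (topL A 79) (topL A 74)) <|
  Prog.seq (regSub (topL A 79) (topL A 72)) <|
  Prog.seq (padMove (topL A 48) (topL A 49) (topL A 50) (topL A 72) (topL A 79) (topL A 74)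
    (topL A 75) (topL A 76)) <|
  Prog.seq (regCopy (topL A 77) (topL A 74)) <|
  Prog.seq (regMulAdd (topL A 44) (topL A 74) (topL A 77)) <|
  Prog.seq (regConst (topL A 78) 1024) <|
  Prog.seq (regMulAdd (topL A 31) (topL A 78) (topL A 44)) <|
  Prog.seq (regCopy (topL A 51) (topL A 52)) <|
  Prog.seq (Prog.wm (topL A 54) (fun _ => Sum.inl Sym.one) Dir.S) <|
  Prog.seq (levelsProg A (topL A) (topSim A) (top_inj A)) <|
  Prog.seq (unpadMove (topL A 48) (topL A 49) (topL A 50) (topL A 72) (topL A 79) (topL A 74)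
    (topL A 75) (topL A 76)) <|
  writeOut (topL A 48) (topOut A)

/-- The transposing program for all sizes. -/
noncomputable def progAll (A : Machine) : Prog (ΓB A) (A.k + 82 + 1) :=
  Prog.seq (initAll A) <|
  Prog.seq (copyIn (topIn A) (topL A 48)) <|
  Prog.seq (sqrtRuler (topL A 48) (topL A 72) (topL A 75)) <|
  Prog.seq (ceilPow (topL A 72) (topL A 74) (topL A 75) (topL A 76)) <|
  Prog.seq (log2Ruler (topL A 74) (topL A 52) (topL A 73) (topL A 75) (topL A 76)) <|
  Prog.seq (regCopy (topL A 75) (topL A 52)) <|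
  Prog.seq (regConst (topL A 76) 6) <|
  Prog.seq (regSub (topL A 75) (topL A 76)) <|
  Prog.ite (isSym (topL A 75) Sym.one)
    (Prog.seq (clearTape (topL A 75)) <| Prog.seq (clearTape (topL A 76)) <| fastAll A)
    (slowPath A)

/-! ## Bookkeeping for TASK TOPALL -/

/-- `ceilPow_run` for the tapes of the program. -/
theorem ceil_top (A : Machine) (n : ℕ) (hn : 1 ≤ n) (s : St (ΓB A) (A.k + 82 + 1))
    (hr : s (topL A 72) = ruler n 0) (hp : s (topL A 74) = ruler 0 0)
    (ht1 : s (topL A 75) = ruler 0 0) (ht2 : s (topL A 76) = ruler 0 0) :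
    RunLe (ceilPow (topL A 72) (topL A 74) (topL A 75) (topL A 76)) s
      (Function.update s (topL A 74) (ruler (2 ^ Nat.clog 2 n) 0)) (1000 * (n * n + 1)) :=
  ceilPow_run (fun i : Fin 4 => topL A (![72, 74, 75, 76] i))
    ((topL_inj A).comp (by decide)) n hn s hr hp ht1 ht2

/-- `log2Ruler_run` on the register `topL A 74`. -/
theorem log2N_top (A : Machine) (n : ℕ) (hn : 1 ≤ n) (s : St (ΓB A) (A.k + 82 + 1))
    (hr : s (topL A 74) = ruler n 0) (hlg : s (topL A 52) = ruler 0 0)
    (hfl : s (topL A 73) = WT [] 0) (ht1 : s (topL A 75) = ruler 0 0)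
    (ht2 : s (topL A 76) = ruler 0 0) :
    ∃ s', RunLe (log2Ruler (topL A 74) (topL A 52) (topL A 73) (topL A 75) (topL A 76)) s s'
        (100 * (n + 1)) ∧
      ((∃ ν, n = 2 ^ ν ∧ s' = Function.update (Function.update s (topL A 52) (ruler ν 0))
          (topL A 73) (WT [Sum.inl Sym.one] 0)) ∨
       ((∀ ν, n ≠ 2 ^ ν) ∧ ∃ v, s' = Function.update (Function.update s (topL A 52) (ruler v 0))
          (topL A 73) (WT [Sum.inl Sym.zero] 0))) :=
  log2Ruler_run (fun i : Fin 5 => topL A (![74, 52, 73, 75, 76] i))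
    ((topL_inj A).comp (by decide)) n hn s hr hlg hfl ht1 ht2

/-- `padMove_run` for the tapes of the program. -/
theorem pad_top (A : Machine) (n N : ℕ) (hn : 1 ≤ n) (hN : n ≤ N) (l : List Bool)
    (hl : l.length = n * n) (s : St (ΓB A) (A.k + 82 + 1))
    (hd : s (topL A 48) = WT (l.map bsym) 0) (he : s (topL A 49) = WT [] 0)
    (hct : s (topL A 50) = WT [] 0) (hrn : s (topL A 72) = ruler n 0)
    (hrd : s (topL A 79) = ruler (N - n) 0) (hrN : s (topL A 74) = ruler N 0)
    (ht1 : s (topL A 75) = WT [] 0) (ht2 : s (topL A 76) = WT [] 0) :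
    RunLe (padMove (topL A 48) (topL A 49) (topL A 50) (topL A 72) (topL A 79) (topL A 74)
        (topL A 75) (topL A 76)) s
      (Function.update s (topL A 48) (WT ((applyCtl (padCtl n N) l).map bsym) 0))
      (1000 * (N * N + 1)) :=
  padMove_run (fun i : Fin 8 => topL A (![48, 49, 50, 72, 79, 74, 75, 76] i))
    ((topL_inj A).comp (by decide)) n N hn hN l hl s hd he hct hrn hrd hrN ht1 ht2

/-- `unpadMove_run` for the tapes of the program. -/
theorem unpad_top (A : Machine) (n N : ℕ) (hn : 1 ≤ n) (hN : n ≤ N) (l : List Bool)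
    (hl : l.length = N * N) (s : St (ΓB A) (A.k + 82 + 1))
    (hd : s (topL A 48) = WT (l.map bsym) 0) (he : s (topL A 49) = WT [] 0)
    (hct : s (topL A 50) = WT [] 0) (hrn : s (topL A 72) = ruler n 0)
    (hrd : s (topL A 79) = ruler (N - n) 0) (hrN : s (topL A 74) = ruler N 0)
    (ht1 : s (topL A 75) = WT [] 0) (ht2 : s (topL A 76) = WT [] 0) :
    RunLe (unpadMove (topL A 48) (topL A 49) (topL A 50) (topL A 72) (topL A 79) (topL A 74)
        (topL A 75) (topL A 76)) s
      (Function.update s (topL A 48) (WT ((applyCtl (unpadCtl n N) l).map bsym) 0))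
      (1000 * (N * N + 1)) :=
  unpadMove_run (fun i : Fin 8 => topL A (![48, 49, 50, 72, 79, 74, 75, 76] i))
    ((topL_inj A).comp (by decide)) n N hn hN l hl s hd he hct hrn hrd hrN ht1 ht2

/-- Setting the flag on tape `topL A 54`. -/
theorem wm54_run (A : Machine) (s : St (ΓB A) (A.k + 82 + 1))
    (h54 : s (topL A 54) = WT [] 0) :
    RunLe (Prog.wm (topL A 54) (fun _ => (Sum.inl Sym.one : ΓB A)) Dir.S) s
      (Function.update s (topL A 54) (WT [Sum.inl Sym.one] 0)) 1 := by
  have rf := Run.wm (topL A 54) (fun _ => (Sum.inl Sym.one : ΓB A)) Dir.S s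
  rw [h54] at rf
  have e54' : ((WT ([] : List (ΓB A)) 0).write (Sum.inl Sym.one)).move Dir.S
      = WT [Sum.inl Sym.one] 0 := by
    have := WT_write_end ([] : List (ΓB A)) (Sum.inl Sym.one)
    simp only [List.length_nil, List.nil_append] at this
    rw [this]
    rfl
  rw [e54'] at rf
  exact rf.le

/-- The level invariant at the start of the recursion, from the bookkeeping of the tapes. -/
theorem levelSt_of_top (A : Machine) (ν : ℕ) (X : List Bool) (s : St (ΓB A) (A.k + 82 + 1))
    (f : Fin 80 → Tape (ΓB A)) (hs : TopSt A s f)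
    (h31 : f 31 = ruler (1024 * 4 ^ ν) 0) (h44 : f 44 = ruler (4 ^ ν) 0)
    (h52 : f 52 = ruler ν 0) (h51 : f 51 = ruler ν 0) (h53 : f 53 = ruler 0 0)
    (h54 : f 54 = WT [Sum.inl Sym.one] 0) (h48 : f 48 = WT (X.map bsym) 0)
    (h47 : f 47 = Tape.ofList (Sum.inl Sym.blank) [])
    (hrest : ∀ i : Fin 80, i.val < 72 → i.val ≠ 31 → i.val ≠ 44 → i.val ≠ 47 → i.val ≠ 48 →
      i.val ≠ 51 → i.val ≠ 52 → i.val ≠ 53 → i.val ≠ 54 → f i = WT [] 0) :
    LevelSt A (topL A) (topSim A) ν ν 0 Sym.one X s :=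
  ⟨(hs.1 31).trans h31, (hs.1 44).trans h44, (hs.1 52).trans h52, (hs.1 51).trans h51,
    (hs.1 53).trans h53, (hs.1 54).trans h54, (hs.1 48).trans h48, (hs.1 47).trans h47, hs.2.2,
    fun i a b c d e g h k l => (hs.1 i).trans (hrest i a b c d e g h k l)⟩

/-- The fast path for all sizes, from the state reached after the size tests. -/
theorem fastAll_run (A : Machine) (hA : Multiplies A) :
    ∃ C : ℕ, ∀ (ν : ℕ), 7 ≤ ν → ∀ (n : ℕ), 1 ≤ n → n ≤ 2 ^ ν → ∀ (M : Fin n → Fin n → Bool)
      (s : St (ΓB A) (A.k + 82 + 1)) (f : Fin 80 → Tape (ΓB A)), TopSt A s f →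
      f 48 = WT ((matList n M).map bsym) 0 → f 72 = ruler n 0 → f 74 = ruler (2 ^ ν) 0 →
      f 52 = ruler ν 0 → f 47 = Tape.ofList (Sum.inl Sym.blank) [] →
      (∀ i : Fin 80, i.val ≠ 47 → i.val ≠ 48 → i.val ≠ 52 → i.val ≠ 72 → i.val ≠ 73 →
        i.val ≠ 74 → f i = WT [] 0) →
      ∃ s', RunLe (fastAll A) s s'
          (C * 4 ^ ν * (Nat.log 2 ν + 2) +
            C * (∑ j ∈ Finset.range (Nat.log 2 ν + 1),
              min (mulTime A (1024 * 4 ^ ν)) (4 ^ ν * (ν / 2 ^ j + 1))) + 40000 * 4 ^ ν) ∧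
        (s' (topOut A)).cells =
          (Tape.ofList (Sum.inl Sym.blank)
            ((matList n (fun r c => M c r)).map bsym)).cells := by
  obtain ⟨C, hC⟩ := levelsProg_spec A hA
  refine ⟨C, ?_⟩
  intro ν hν n hn hnN M s f hs h48 h72 h74 h52 h47 hrest
  have hne : ∀ {i j : Fin 80}, i ≠ j → topL A i ≠ topL A j := fun h => (topL_inj A).ne h
  have h4 : 2 ^ ν * 2 ^ ν = 4 ^ ν := by rw [← Nat.mul_pow]
  have f79 : f 79 = ruler 0 0 := hrest 79 (by decide) (by decide) (by decide) (by decide)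
    (by decide) (by decide)
  have f77 : f 77 = ruler 0 0 := hrest 77 (by decide) (by decide) (by decide) (by decide)
    (by decide) (by decide)
  have f44 : f 44 = ruler 0 0 := hrest 44 (by decide) (by decide) (by decide) (by decide)
    (by decide) (by decide)
  have f78 : f 78 = ruler 0 0 := hrest 78 (by decide) (by decide) (by decide) (by decide)
    (by decide) (by decide)
  have f31 : f 31 = ruler 0 0 := hrest 31 (by decide) (by decide) (by decide) (by decide)
    (by decide) (by decide)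
  have f51 : f 51 = ruler 0 0 := hrest 51 (by decide) (by decide) (by decide) (by decide)
    (by decide) (by decide)
  have f53 : f 53 = ruler 0 0 := hrest 53 (by decide) (by decide) (by decide) (by decide)
    (by decide) (by decide)
  have f54 : f 54 = WT [] 0 := hrest 54 (by decide) (by decide) (by decide) (by decide)
    (by decide) (by decide)
  have f49 : f 49 = WT [] 0 := hrest 49 (by decide) (by decide) (by decide) (by decide)
    (by decide) (by decide)
  have f50 : f 50 = WT [] 0 := hrest 50 (by decide) (by decide) (by decide) (by decide)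
    (by decide) (by decide)
  have f75 : f 75 = WT [] 0 := hrest 75 (by decide) (by decide) (by decide) (by decide)
    (by decide) (by decide)
  have f76 : f 76 = WT [] 0 := hrest 76 (by decide) (by decide) (by decide) (by decide)
    (by decide) (by decide)
  -- register 79 := N
  have ra := regCopy_run (topL A 79) (topL A 74) (hne (by decide)) 0 (2 ^ ν) s
    ((hs.1 79).trans f79) ((hs.1 74).trans h74)
  have sa := hs.upd 79 (ruler (2 ^ ν) 0)
  -- register 79 := N - n
  have rb := regSub_run (topL A 79) (topL A 72) (hne (by decide)) (2 ^ ν) n _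
    ((sa.1 79).trans (by simp)) ((sa.1 72).trans (by simp [h72]))
  have sb := sa.upd 79 (ruler (2 ^ ν - n) 0)
  -- pad the matrix
  have rc := pad_top A n (2 ^ ν) hn hnN (matList n M) (matList_length n M) _
    ((sb.1 48).trans (by simp [h48])) ((sb.1 49).trans (by simp [f49]))
    ((sb.1 50).trans (by simp [f50])) ((sb.1 72).trans (by simp [h72]))
    ((sb.1 79).trans (by simp)) ((sb.1 74).trans (by simp [h74]))
    ((sb.1 75).trans (by simp [f75])) ((sb.1 76).trans (by simp [f76]))
  rw [applyCtl_padCtl n (2 ^ ν) hnN M] at rc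
  have sc := sb.upd 48 (WT ((matList (2 ^ ν) (padMat n (2 ^ ν) M)).map bsym) 0)
  -- register 77 := N
  have rd := regCopy_run (topL A 77) (topL A 74) (hne (by decide)) 0 (2 ^ ν) _
    ((sc.1 77).trans (by simp [f77])) ((sc.1 74).trans (by simp [h74]))
  have sd := sc.upd 77 (ruler (2 ^ ν) 0)
  -- register 44 := N * N
  have re := regMulAdd_run (topL A 44) (topL A 74) (topL A 77) (hne (by decide))
    (hne (by decide)) (hne (by decide)) 0 (2 ^ ν) (2 ^ ν) _
    ((sd.1 44).trans (by simp [f44])) ((sd.1 74).trans (by simp [h74]))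
    ((sd.1 77).trans (by simp))
  rw [Nat.zero_add, h4] at re
  have se := sd.upd 44 (ruler (4 ^ ν) 0)
  -- register 78 := 1024
  have rf := regConst_run (topL A 78) 1024 0 _ ((se.1 78).trans (by simp [f78]))
  have sf := se.upd 78 (ruler 1024 0)
  -- register 31 := 1024 * N * N
  have rg := regMulAdd_run (topL A 31) (topL A 78) (topL A 44) (hne (by decide))
    (hne (by decide)) (hne (by decide)) 0 1024 (4 ^ ν) _
    ((sf.1 31).trans (by simp [f31])) ((sf.1 78).trans (by simp))
    ((sf.1 44).trans (by simp))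
  rw [Nat.zero_add] at rg
  have sg := sf.upd 31 (ruler (1024 * 4 ^ ν) 0)
  -- register 51 := ν
  have rh := regCopy_run (topL A 51) (topL A 52) (hne (by decide)) 0 ν _
    ((sg.1 51).trans (by simp [f51])) ((sg.1 52).trans (by simp [h52]))
  have sh := sg.upd 51 (ruler ν 0)
  -- the flag
  have ri := wm54_run A _ ((sh.1 54).trans (by simp [f54]))
  have si := sh.upd 54 (WT [Sum.inl Sym.one] 0)
  -- the recursion
  have hX : (matList (2 ^ ν) (padMat n (2 ^ ν) M)).length = 4 ^ ν := by
    rw [matList_length, h4]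
  have hst := levelSt_of_top A ν (matList (2 ^ ν) (padMat n (2 ^ ν) M)) _ _ si
    (by simp) (by simp) (by simp [h52]) (by simp) (by simp [f53]) (by simp) (by simp)
    (by simp [h47])
    (by
      intro i h72' h31 h44 h47' h48' h51 h52' h53 h54
      rw [upd_val_ne _ 54 i _ 54 rfl h54, upd_val_ne _ 51 i _ 51 rfl h51,
        upd_val_ne _ 31 i _ 31 rfl h31, upd_val_ne _ 78 i _ 78 rfl (by omega),
        upd_val_ne _ 44 i _ 44 rfl h44, upd_val_ne _ 77 i _ 77 rfl (by omega),
        upd_val_ne _ 48 i _ 48 rfl h48', upd_val_ne _ 79 i _ 79 rfl (by omega),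
        upd_val_ne _ 79 i _ 79 rfl (by omega)]
      exact hrest i h47' h48' h52' (by omega) (by omega) (by omega))
  obtain ⟨s7, u, rj, hfr, hst7⟩ := hC _ (topL A) (topSim A) (top_inj A) ν
    (matList (2 ^ ν) (padMat n (2 ^ ν) M)) hν hX _ hst
  have keep := fun (i : Fin 80) (hi : 72 ≤ i.val) =>
    hfr (topL A i) (fun i' hi' => hne (fun e => by rw [e] at hi; omega))
      (fun j => topL_ne_sim A i j)
  have k72 : s7 (topL A 72) = ruler n 0 :=
    (keep 72 (by decide)).trans ((si.1 72).trans (by simp [h72]))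
  have k79 : s7 (topL A 79) = ruler (2 ^ ν - n) 0 :=
    (keep 79 (by decide)).trans ((si.1 79).trans (by simp))
  have k74 : s7 (topL A 74) = ruler (2 ^ ν) 0 :=
    (keep 74 (by decide)).trans ((si.1 74).trans (by simp [h74]))
  have k75 : s7 (topL A 75) = WT [] 0 :=
    (keep 75 (by decide)).trans ((si.1 75).trans (by simp [f75]))
  have k76 : s7 (topL A 76) = WT [] 0 :=
    (keep 76 (by decide)).trans ((si.1 76).trans (by simp [f76]))
  have k48 : s7 (topL A 48) =
      WT ((matList (2 ^ ν) (padMat n (2 ^ ν) (fun r c => M c r))).map bsym) 0 := by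
    rw [hst7.2.2.2.2.2.2.1, swapArr_matList, padMat_transpose]
  have k49 : s7 (topL A 49) = WT [] 0 :=
    hst7.2.2.2.2.2.2.2.2.2 49 (by decide) (by decide) (by decide) (by decide) (by decide)
      (by decide) (by decide) (by decide) (by decide)
  have k50 : s7 (topL A 50) = WT [] 0 :=
    hst7.2.2.2.2.2.2.2.2.2 50 (by decide) (by decide) (by decide) (by decide) (by decide)
      (by decide) (by decide) (by decide) (by decide)
  have hout : s7 (topOut A) = Tape.ofList (Sum.inl Sym.blank) [] := by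
    rw [hfr (topOut A) (fun i _ => (topL_ne_out A i).symm) (fun j => topOut_ne_sim A j)]
    exact si.2.1
  -- unpad
  have rk := unpad_top A n (2 ^ ν) hn hnN
    (matList (2 ^ ν) (padMat n (2 ^ ν) (fun r c => M c r))) (matList_length _ _) s7
    k48 k49 k50 k72 k79 k74 k75 k76
  rw [applyCtl_unpadCtl n (2 ^ ν) hnN] at rk
  -- output
  have rl := writeOut_run (topL A 48) (topOut A) (topL_ne_out A 48)
    (matList n (fun r c => M c r))
    (Function.update s7 (topL A 48) (WT ((matList n (fun r c => M c r)).map bsym) 0))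
    (Function.update_self _ _ _)
    (by rw [Function.update_of_ne (topL_ne_out A 48).symm]; exact hout)
  refine ⟨_, (RunLe.seq ra (RunLe.seq rb (RunLe.seq rc (RunLe.seq rd (RunLe.seq re
    (RunLe.seq rf (RunLe.seq rg (RunLe.seq rh (RunLe.seq ri (RunLe.seq rj
      (RunLe.seq rk rl))))))))))).cast rfl rfl ?_, ?_⟩
  · have hnn : n * n ≤ 4 ^ ν := by
      rw [← h4]
      exact Nat.mul_le_mul hnN hnN
    have h1 : 1 ≤ 4 ^ ν := Nat.one_le_pow _ _ (by norm_num)
    have h2 : 2 ^ ν ≤ 4 ^ ν := Nat.pow_le_pow_left (by norm_num) ν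
    have h3 : ν ≤ 4 ^ ν := (Nat.lt_pow_self (by norm_num : 1 < 4)).le
    rw [matList_length]
    clear ra rb rc rd re rf rg rh ri rj rk rl hst hst7 hfr keep k72 k79 k74 k75 k76 k48 k49 k50
      hout sa sb sc sd se sf sg sh si hX hs h48 h72 h74 h52 h47 hrest
    generalize (∑ j ∈ Finset.range (Nat.log 2 ν + 1),
      min (mulTime A (1024 * 4 ^ ν)) (4 ^ ν * (ν / 2 ^ j + 1))) = S
    generalize C * 4 ^ ν * (Nat.log 2 ν + 2) = T
    generalize C * S = T2
    generalize 2 ^ ν * 2 ^ ν = P at *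
    generalize n * n = nn at *
    generalize 4 ^ ν = N at *
    generalize 2 ^ ν = N2 at *
    omega
  · rw [Function.update_self]

/-- TASK TOPALL: `progAll` transposes every square binary matrix, and for
`2^(ν-1) < n ≤ 2^ν`, `ν ≥ 7`, within the recursion time bound.  (The definitions `fastAll`,
`progAll` above may be adjusted if needed, e.g. extra clearing steps; tell helper91.) -/
theorem progAll_core (A : Machine) (hA : Multiplies A) :
    ∃ C : ℕ, ∀ (n : ℕ), 1 ≤ n → ∀ (M : Fin n → Fin n → Bool),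
      ∃ (s' : St (ΓB A) (A.k + 82 + 1)) (b : ℕ),
        RunLe (progAll A) (topInit A (matList n M)) s' b ∧
        (s' (topOut A)).cells =
          (Tape.ofList (Sum.inl Sym.blank) ((matList n (fun r c => M c r)).map bsym)).cells ∧
        ∀ ν, 7 ≤ ν → 2 ^ (ν - 1) < n → n ≤ 2 ^ ν →
          b ≤ C * 4 ^ ν * (Nat.log 2 ν + 2) +
            C * ∑ j ∈ Finset.range (Nat.log 2 ν + 1),
              min (mulTime A (1024 * 4 ^ ν)) (4 ^ ν * (ν / 2 ^ j + 1)) := by
  obtain ⟨C, hfast⟩ := fastAll_run A hA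
  refine ⟨C + 50000, ?_⟩
  intro n hn M
  have hne : ∀ {i j : Fin 80}, i ≠ j → topL A i ≠ topL A j := fun h => (topL_inj A).ne h
  have b49 : baseF A 49 = WT [] 0 := baseF_ne A 49 (by decide)
  have b52 : baseF A 52 = ruler 0 0 := baseF_ne A 52 (by decide)
  have b56 : baseF A 56 = WT [] 0 := baseF_ne A 56 (by decide)
  have b57 : baseF A 57 = WT [] 0 := baseF_ne A 57 (by decide)
  have b58 : baseF A 58 = WT [] 0 := baseF_ne A 58 (by decide)
  have b72 : baseF A 72 = ruler 0 0 := baseF_ne A 72 (by decide)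
  have b73 : baseF A 73 = WT [] 0 := baseF_ne A 73 (by decide)
  have b74 : baseF A 74 = ruler 0 0 := baseF_ne A 74 (by decide)
  have b75 : baseF A 75 = ruler 0 0 := baseF_ne A 75 (by decide)
  have b76 : baseF A 76 = ruler 0 0 := baseF_ne A 76 (by decide)
  -- the exponent ν = ⌈log₂ n⌉
  have hclog : ∀ ν', 1 ≤ ν' → 2 ^ (ν' - 1) < n → n ≤ 2 ^ ν' → Nat.clog 2 n = ν' := by
    intro ν' h1 h2 h3
    have a : Nat.clog 2 n ≤ ν' := (Nat.clog_le_iff_le_pow (by norm_num)).2 h3
    have b : ν' - 1 < Nat.clog 2 n := (Nat.lt_clog_iff_pow_lt (by norm_num)).2 h2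
    omega
  have hnN0 : n ≤ 2 ^ Nat.clog 2 n := Nat.le_pow_clog (by norm_num) n
  obtain ⟨ν, hν⟩ : ∃ ν, Nat.clog 2 n = ν := ⟨_, rfl⟩
  rw [hν] at hnN0
  obtain ⟨s1, r1, hs1, hin1⟩ := initAll_run A (matList n M)
  -- copy the input
  have r2 := copyIn_run (topIn A) (topL A 48) (topL_ne_in A 48).symm (matList n M) s1 hin1
    ((hs1.1 48).trans (baseF_ne A 48 (by decide)))
  have hs2 := (hs1.upd_in ⟨(matList n M).length,
    (Tape.ofList (Sum.inl Sym.blank) ((matList n M).map bsym)).cells⟩).upd 48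
    (WT ((matList n M).map bsym) 0)
  -- the side length
  have r3 := sqrtRuler_run (topL A 48) (topL A 72) (topL A 75) (hne (by decide))
    (hne (by decide)) (hne (by decide)) n (matList n M) (matList_length n M) _
    ((hs2.1 48).trans (by simp)) ((hs2.1 72).trans (by simp [b72]))
    ((hs2.1 75).trans (by simp [b75]))
  have hs3 := hs2.upd 72 (ruler n 0)
  -- the padded side length N = 2^ν
  have r4 := ceil_top A n hn _ ((hs3.1 72).trans (by simp))
    ((hs3.1 74).trans (by simp [b74])) ((hs3.1 75).trans (by simp [b75]))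
    ((hs3.1 76).trans (by simp [b76]))
  rw [hν] at r4
  have hs4 := hs3.upd 74 (ruler (2 ^ ν) 0)
  -- the exponent
  obtain ⟨s5, r5, hcase⟩ := log2N_top A (2 ^ ν) Nat.one_le_two_pow _
    ((hs4.1 74).trans (by simp)) ((hs4.1 52).trans (by simp [b52]))
    ((hs4.1 73).trans (by simp [b73])) ((hs4.1 75).trans (by simp [b75]))
    ((hs4.1 76).trans (by simp [b76]))
  rcases hcase with ⟨ν₁, hpow, hs5eq⟩ | ⟨hnp, v, hs5eq⟩
  swap
  · exact absurd rfl (hnp ν)
  have e1 : ν = ν₁ := Nat.pow_right_injective (le_refl 2) hpow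
  subst e1
  subst hs5eq
  have hs5 := (hs4.upd 52 (ruler ν 0)).upd 73 (WT [Sum.inl Sym.one] 0)
  have r6 := regCopy_run (topL A 75) (topL A 52) (hne (by decide)) 0 ν _
    ((hs5.1 75).trans (by simp [b75])) ((hs5.1 52).trans (by simp))
  have hs6 := hs5.upd 75 (ruler ν 0)
  have r7 := regConst_run (topL A 76) 6 0 _ ((hs6.1 76).trans (by simp [b76]))
  have hs7 := hs6.upd 76 (ruler 6 0)
  have r8 := regSub_run (topL A 75) (topL A 76) (hne (by decide)) ν 6 _
    ((hs7.1 75).trans (by simp)) ((hs7.1 76).trans (by simp))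
  have hs8 := hs7.upd 75 (ruler (ν - 6) 0)
  by_cases h7 : 7 ≤ ν
  · -- the fast path
    have t2 := hs8.test_true 75 Sym.one (by
      rw [Function.update_self]
      exact ruler_read_lt (by omega))
    have r9 := clearTape_run (topL A 75) (List.replicate (ν - 6) (Sum.inl Sym.one))
      (by simp) (by simp) 0 (Nat.zero_le _) _
      ((hs8.1 75).trans (by rw [Function.update_self]; rfl))
    have hs9 := hs8.upd 75 (WT [] 0)
    have r10 := clearTape_run (topL A 76) (List.replicate 6 (Sum.inl Sym.one))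
      (by simp) (by simp) 0 (Nat.zero_le _) _
      ((hs9.1 76).trans (by
        rw [upd_val_ne _ 75 76 _ 75 rfl (by decide), upd_val_ne _ 75 76 _ 75 rfl (by decide),
          Function.update_self]
        rfl))
    have hs10 := hs9.upd 76 (WT [] 0)
    obtain ⟨s', r11, hcells⟩ := hfast ν h7 n hn hnN0 M _ _ hs10 (by simp) (by simp) (by simp)
      (by simp) (by simp [baseF]) (by
        intro i a47 a48 a52 a72 a73 a74
        by_cases a76 : i.val = 76
        · have e : i = 76 := Fin.ext a76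
          subst e
          simp
        by_cases a75 : i.val = 75
        · have e : i = 75 := Fin.ext a75
          subst e
          simp
        rw [upd_val_ne _ 76 i _ 76 rfl a76, upd_val_ne _ 75 i _ 75 rfl a75,
          upd_val_ne _ 75 i _ 75 rfl a75, upd_val_ne _ 76 i _ 76 rfl a76,
          upd_val_ne _ 75 i _ 75 rfl a75, upd_val_ne _ 73 i _ 73 rfl a73,
          upd_val_ne _ 52 i _ 52 rfl a52, upd_val_ne _ 74 i _ 74 rfl a74,
          upd_val_ne _ 72 i _ 72 rfl a72, upd_val_ne _ 48 i _ 48 rfl a48]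
        exact baseF_ne A i a47)
    refine ⟨s', _, RunLe.seq r1.le (RunLe.seq r2 (RunLe.seq r3 (RunLe.seq r4 (RunLe.seq r5
      (RunLe.seq r6 (RunLe.seq r7 (RunLe.seq r8 (RunLe.ite_true t2
        (RunLe.seq r9 (RunLe.seq r10 r11)))))))))), hcells, ?_⟩
    intro ν' hν' hlo hhi
    have e : ν = ν' := by
      rw [← hν]
      exact hclog ν' (by omega) hlo hhi
    subst e
    have h4 : 2 ^ ν * 2 ^ ν = 4 ^ ν := by rw [← Nat.mul_pow]
    have hnn : n * n ≤ 4 ^ ν := by
      rw [← h4]
      exact Nat.mul_le_mul hnN0 hnN0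
    have h1 : 1 ≤ 4 ^ ν := Nat.one_le_pow _ _ (by norm_num)
    have h2 : 2 ^ ν ≤ 4 ^ ν := Nat.pow_le_pow_left (by norm_num) ν
    have h3 : ν ≤ 4 ^ ν := (Nat.lt_pow_self (by norm_num : 1 < 4)).le
    have eR : (C + 50000) * 4 ^ ν * (Nat.log 2 ν + 2) + (C + 50000) *
        (∑ j ∈ Finset.range (Nat.log 2 ν + 1),
          min (mulTime A (1024 * 4 ^ ν)) (4 ^ ν * (ν / 2 ^ j + 1))) =
        C * 4 ^ ν * (Nat.log 2 ν + 2) + C * (∑ j ∈ Finset.range (Nat.log 2 ν + 1),
          min (mulTime A (1024 * 4 ^ ν)) (4 ^ ν * (ν / 2 ^ j + 1))) +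
        (50000 * (4 ^ ν * Nat.log 2 ν) + 100000 * 4 ^ ν + 50000 *
          (∑ j ∈ Finset.range (Nat.log 2 ν + 1),
            min (mulTime A (1024 * 4 ^ ν)) (4 ^ ν * (ν / 2 ^ j + 1)))) := by ring
    rw [eR, matList_length, List.length_replicate, List.length_replicate]
    clear r1 r2 r3 r4 r5 r6 r7 r8 r9 r10 r11 hcells hs1 hs2 hs3 hs4 hs5 hs6 hs7 hs8 hs9 hs10
      hin1 t2 hfast hclog eR
    generalize (∑ j ∈ Finset.range (Nat.log 2 ν + 1),
      min (mulTime A (1024 * 4 ^ ν)) (4 ^ ν * (ν / 2 ^ j + 1))) = S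
    generalize C * 4 ^ ν * (Nat.log 2 ν + 2) = T
    generalize C * S = T2
    generalize 4 ^ ν * Nat.log 2 ν = T3
    generalize n * n = nn at *
    generalize 4 ^ ν = N at *
    generalize 2 ^ ν = N2 at *
    omega
  · -- small sizes: the cubic fallback
    have t2 := hs8.test_false 75 Sym.one (by
      rw [Function.update_self, ruler_read_ge (by omega)]
      simp)
    obtain ⟨s', r9, hcells⟩ := slowPath_run A n hn M _ _ hs8 (by simp)
      (by simp [b49]) (by simp) (by simp [b56]) (by simp [b57]) (by simp [b58])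
    refine ⟨s', _, RunLe.seq r1.le (RunLe.seq r2 (RunLe.seq r3 (RunLe.seq r4 (RunLe.seq r5
      (RunLe.seq r6 (RunLe.seq r7 (RunLe.seq r8 (RunLe.ite_false t2 r9)))))))), hcells, ?_⟩
    intro ν' hν' hlo hhi
    have e : Nat.clog 2 n = ν' := hclog ν' (by omega) hlo hhi
    omega

end Vale.Agent.H91.MT
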